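import Vale.Agent.P237.Petty.Cor.Grid.N13.LowCert

/-!
# P237: a cell in dimension 13, checks
-/

namespace Vale.Agent.P237.Petty.Cor.Grid.N13.Low

def head_ok : cell.headOk = true := by decide +kernel

def pieces0_ok : pieces0.all (pieceOk 12) = true := by decide +kernel

def pieces1_ok : pieces1.all (pieceOk 12) = true := by decide +kernel

def pieces2_ok : pieces2.all (pieceOk 12) = true := by decide +kernel

def pieces3_ok : pieces3.all (pieceOk 12) = true := by decide +kernel

def pieces4_ok : pieces4.all (pieceOk 12) = true := by decide +kernel

def pieces5_ok : pieces5.all (pieceOk 12) = true := by decide +kernel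

def pieces6_ok : pieces6.all (pieceOk 12) = true := by decide +kernel

def pieces7_ok : pieces7.all (pieceOk 12) = true := by decide +kernel

def pieces8_ok : pieces8.all (pieceOk 12) = true := by decide +kernel

def pieces9_ok : pieces9.all (pieceOk 12) = true := by decide +kernel

def pieces10_ok : pieces10.all (pieceOk 12) = true := by decide +kernel

def pieces11_ok : pieces11.all (pieceOk 12) = true := by decide +kernel

def pieces12_ok : pieces12.all (pieceOk 12) = true := by decide +kernel

def pieces13_ok : pieces13.all (pieceOk 12) = true := by decide +kernel

def pieces14_ok : pieces14.all (pieceOk 12) = true := by decide +kernel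

def pieces15_ok : pieces15.all (pieceOk 12) = true := by decide +kernel

def pieces16_ok : pieces16.all (pieceOk 12) = true := by decide +kernel

def pieces17_ok : pieces17.all (pieceOk 12) = true := by decide +kernel

def pieces18_ok : pieces18.all (pieceOk 12) = true := by decide +kernel

def pieces19_ok : pieces19.all (pieceOk 12) = true := by decide +kernel

def pieces20_ok : pieces20.all (pieceOk 12) = true := by decide +kernel

def pieces21_ok : pieces21.all (pieceOk 12) = true := by decide +kernel

theorem allApp {a b : List (Piece × Bool)} {f : Piece × Bool → Bool} (ha : a.all f = true)
    (hb : b.all f = true) : (a ++ b).all f = true := by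
  rw [List.all_append, ha, hb]; rfl

theorem pieces_ok : cell.pieces.all (pieceOk cell.k.m) = true :=
  allApp (allApp (allApp (allApp (allApp (allApp (allApp (allApp (allApp (allApp (allApp (allApp (allApp (allApp (allApp (allApp (allApp (allApp (allApp (allApp (allApp (pieces0_ok) pieces1_ok) pieces2_ok) pieces3_ok) pieces4_ok) pieces5_ok) pieces6_ok) pieces7_ok) pieces8_ok) pieces9_ok) pieces10_ok) pieces11_ok) pieces12_ok) pieces13_ok) pieces14_ok) pieces15_ok) pieces16_ok) pieces17_ok) pieces18_ok) pieces19_ok) pieces20_ok) pieces21_ok

def row0_ok : cell.rowOk table row0 = true := by decide +kernel

def row1_ok : cell.rowOk table row1 = true := by decide +kernel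

def row2_ok : cell.rowOk table row2 = true := by decide +kernel

def row3_ok : cell.rowOk table row3 = true := by decide +kernel

def row4_ok : cell.rowOk table row4 = true := by decide +kernel

def row5_ok : cell.rowOk table row5 = true := by decide +kernel

def row6_ok : cell.rowOk table row6 = true := by decide +kernel

def row7_ok : cell.rowOk table row7 = true := by decide +kernel

def row8_ok : cell.rowOk table row8 = true := by decide +kernel

def row9_ok : cell.rowOk table row9 = true := by decide +kernel

def row10_ok : cell.rowOk table row10 = true := by decide +kernel

def row11_ok : cell.rowOk table row11 = true := by decide +kernel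

def row12_ok : cell.rowOk table row12 = true := by decide +kernel

def row13_ok : cell.rowOk table row13 = true := by decide +kernel

def row14_ok : cell.rowOk table row14 = true := by decide +kernel

def row15_ok : cell.rowOk table row15 = true := by decide +kernel

def row16_ok : cell.rowOk table row16 = true := by decide +kernel

def row17_ok : cell.rowOk table row17 = true := by decide +kernel

def row18_ok : cell.rowOk table row18 = true := by decide +kernel

def row19_ok : cell.rowOk table row19 = true := by decide +kernel

def row20_ok : cell.rowOk table row20 = true := by decide +kernel

def row21_ok : cell.rowOk table row21 = true := by decide +kernel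

def row22_ok : cell.rowOk table row22 = true := by decide +kernel

def row23_ok : cell.rowOk table row23 = true := by decide +kernel

def row24_ok : cell.rowOk table row24 = true := by decide +kernel

def row25_ok : cell.rowOk table row25 = true := by decide +kernel

def row26_ok : cell.rowOk table row26 = true := by decide +kernel

def row27_ok : cell.rowOk table row27 = true := by decide +kernel

def row28_ok : cell.rowOk table row28 = true := by decide +kernel

def row29_ok : cell.rowOk table row29 = true := by decide +kernel

def row30_ok : cell.rowOk table row30 = true := by decide +kernel

def row31_ok : cell.rowOk table row31 = true := by decide +kernel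

def row32_ok : cell.rowOk table row32 = true := by decide +kernel

def row33_ok : cell.rowOk table row33 = true := by decide +kernel

def row34_ok : cell.rowOk table row34 = true := by decide +kernel

def row35_ok : cell.rowOk table row35 = true := by decide +kernel

def row36_ok : cell.rowOk table row36 = true := by decide +kernel

def row37_ok : cell.rowOk table row37 = true := by decide +kernel

def row38_ok : cell.rowOk table row38 = true := by decide +kernel

def row39_ok : cell.rowOk table row39 = true := by decide +kernel

def row40_ok : cell.rowOk table row40 = true := by decide +kernel

def row41_ok : cell.rowOk table row41 = true := by decide +kernel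

def row42_ok : cell.rowOk table row42 = true := by decide +kernel

def row43_ok : cell.rowOk table row43 = true := by decide +kernel

def row44_ok : cell.rowOk table row44 = true := by decide +kernel

def row45_ok : cell.rowOk table row45 = true := by decide +kernel

theorem rows_ok : cell.rows.all (cell.rowOk table) = true := by
  show List.all [row0, row1, row2, row3, row4, row5, row6, row7, row8, row9, row10, row11, row12, row13, row14, row15, row16, row17, row18, row19, row20, row21, row22, row23, row24, row25, row26, row27, row28, row29, row30, row31, row32, row33, row34, row35, row36, row37, row38, row39, row40, row41, row42, row43, row44, row45] (cell.rowOk table) = true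
  simp only [List.all_cons, List.all_nil, row0_ok, row1_ok, row2_ok, row3_ok, row4_ok, row5_ok, row6_ok, row7_ok, row8_ok, row9_ok, row10_ok, row11_ok, row12_ok, row13_ok, row14_ok, row15_ok, row16_ok, row17_ok, row18_ok, row19_ok, row20_ok, row21_ok, row22_ok, row23_ok, row24_ok, row25_ok, row26_ok, row27_ok, row28_ok, row29_ok, row30_ok, row31_ok, row32_ok, row33_ok, row34_ok, row35_ok, row36_ok, row37_ok, row38_ok, row39_ok, row40_ok, row41_ok, row42_ok, row43_ok, row44_ok, row45_ok, Bool.and_self]

def mean_ok : cell.meanOk table = true := by decide +kernel

end Vale.Agent.P237.Petty.Cor.Grid.N13.Low
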