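import Vale.Agent.P237.Petty.Cor.Grid.N13.LowCert

/-!
# P237: a cell in dimension 13, subdivisions
-/

namespace Vale.Agent.P237.Petty.Cor.Grid.N13.Low

def covers0 : cell.Covers table row0.1 :=
  ⟨(.cut .d 0 (.cut .v 16777216 (.cut .v 8388608 (.cut .v 4194304 (.pos 4 .mm ⟨0, 0, 33743223, 0, 0, 0, 0, 0, 0, ⟨0, 0⟩, 0⟩ 0 0) (.pos 5 .mm ⟨0, 0, 0, 0, 0, 606147, 0, 0, 0, ⟨0, 0⟩, 0⟩ 0 0)) (.cut .d (-8388608) (.cut .v 12582912 (.pos 6 .mm ⟨0, 0, 0, 0, 0, 23891, 0, 0, 0, ⟨0, 0⟩, 0⟩ 0 0) (.pos 7 .mm ⟨0, 0, 0, 0, 0, 18977, 0, 0, 0, ⟨0, 0⟩, 0⟩ 0 0)) (.cut .v 12582912 (.cut .d (-4194304) (.pos 6 .mm ⟨0, 0, 0, 0, 0, 134557, 0, 0, 0, ⟨0, 0⟩, 0⟩ 0 0) (.pos 6 .mm ⟨0, 0, 0,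 0, 1882293, 373454, 0, 0, 0, ⟨0, 0⟩, 0⟩ 0 0)) (.cut .d (-4194304) (.cut .v 14680064 (.pos 10 .mm ⟨0, 0, 0, 0, 0, 61485, 0, 0, 0, ⟨0, 0⟩, 0⟩ 0 0) (.pos 11 .mm ⟨0, 0, 0, 0, 0, 56343, 0, 0, 0, ⟨0, 0⟩, 0⟩ 0 0)) (.cut .d (-2097152) (.cut .v 14680064 (.pos 10 .mm ⟨0, 0, 0, 0, 0, 179299, 0, 0, 0, ⟨0, 0⟩, 0⟩ 0 0) (.pos 11 .mm ⟨0, 0, 0, 0, 0, 149955, 0, 0, 0, ⟨0, 0⟩, 0⟩ 0 0)) (.cut .v 14680064 (.pos 10 .mm ⟨0, 0, 0, 0, 1737164, 792806, 0, 0, 0, ⟨0, 0⟩, 0⟩ 0 0) (.cut .d (-1048576) (.cut .v 15728640 (.pos 12 .mm ⟨0, 0, 0, 0, 0, 447742, 0, 0, 0, ⟨0, 0⟩, 0⟩ 0 0) (.pos 13 .mm ⟨0, 0, 0, 0, 0, 366105, 0, 0, 0, ⟨0, 0⟩, 0⟩ 0 0)) (.cut .v 15728640 (.pos 12 .mm ⟨0, 0, 0, 0, 0,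 0, 0, 0, 0, ⟨0, 0⟩, 0⟩ 0 0) (.cut .l 980822 (.cut .d (-524288) (.cut .v 16252928 (.pos 14 .mm ⟨0, 0, 0, 0, 0, 620295, 0, 0, 0, ⟨0, 0⟩, 0⟩ 0 0) (.pos 15 .mm ⟨0, 0, 0, 0, 0, 0, 0, 0, 0, ⟨0, 0⟩, 0⟩ 0 0)) (.cut .v 16252928 (.pos 14 .mm ⟨0, 0, 0, 0, 0, 0, 0, 0, 0, ⟨0, 0⟩, 0⟩ 0 0) (.cut .d (-262144) (.pos 15 .mm ⟨0, 0, 0, 0, 0, 0, 0, 0, 0, ⟨0, 0⟩, 0⟩ 0 0) (.pos 15 .mm ⟨0, 0, 0, 0, 0, 0, 0, 0, 0, ⟨0, 0⟩, 0⟩ 0 0)))) (.pos 13 .mm ⟨0, 0, 0, 0, 0, 0, 0, 0, 0, ⟨0, 0⟩, 0⟩ 0 0)))))))))) (.cut .v 25165824 (.cut .v 20971520 (.cut .v 18874368 (.cut .v 17825792 (.cut .s 851968 (.pos 25 .mp ⟨20010, 0, 0, 0, 0, 0, 151063, 0, 0, ⟨0, 0⟩, 0⟩ 0 0) (.pos 25 .mp ⟨391214, 0, 0, 0, 0,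 0, 0, 0, 0, ⟨0, 0⟩, 0⟩ 0 0)) (.pos 26 .mp ⟨1981709, 0, 0, 0, 0, 0, 0, 0, 0, ⟨0, 0⟩, 0⟩ 0 0)) (.void 24 ⟨100000, 0, 0, 0, 0, 0, 0, 0, 0, ⟨0, 0⟩, 0⟩ 0 0)) (.void 22 ⟨0, 0, 0, 0, 0, 0, 100000, 0, 0, ⟨0, 0⟩, 0⟩ 0 0)) (.void 20 ⟨0, 0, 0, 0, 0, 0, 100000, 0, 0, ⟨0, 0⟩, 0⟩ 0 0))) (.cut .v 16777216 (.cut .v 8388608 (.cut .v 4194304 (.pos 4 .pm ⟨0, 0, 34674219, 0, 0, 0, 0, 0, 0, ⟨0, 0⟩, 0⟩ 0 0) (.pos 5 .pm ⟨0, 0, 0, 0, 1683368, 0, 0, 0, 0, ⟨0, 0⟩, 0⟩ 0 0)) (.pos 3 .pm ⟨0, 0, 0, 0, 0, 0, 0, 425594, 0, ⟨(-1), 16325657⟩, 0⟩ 0 30)) (.cut .v 25165824 (.cut .v 20971520 (.cut .v 18874368 (.cut .d 1121761 (.cut .v 17825792 (.cut .d 560880 (.cut .v 17301504 (.cut .l 980822 (.cut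 .l 632372 (.cut .l 458147 (.cut .d 280440 (.cut .v 17039360 (.pos 29 .pp ⟨0, 0, 0, 0, 0, 0, 0, 0, 0, ⟨0, 0⟩, 0⟩ 0 0) (.pos 30 .pp ⟨500646, 0, 0, 0, 0, 0, 0, 0, 0, ⟨0, 0⟩, 0⟩ 0 0)) (.cut .v 17039360 (.pos 29 .pp ⟨0, 0, 0, 0, 0, 0, 0, 167619, 0, ⟨(-1), 16410007⟩, 0⟩ 0 27) (.cut .d 420660 (.pos 30 .pp ⟨698745, 0, 0, 0, 0, 0, 0, 200692, 0, ⟨(-1), 16410007⟩, 0⟩ 0 27) (.pos 30 .pp ⟨1069112, 0, 0, 0, 0, 0, 0, 374027, 0, ⟨(-1), 16410007⟩, 0⟩ 0 27)))) (.pos 27 .pp ⟨0, 0, 0, 0, 0, 0, 0, 0, 0, ⟨0, 0⟩, 0⟩ 0 0)) (.pos 27 .pp ⟨0, 0, 0, 0, 0, 0, 0, 0, 0, ⟨0, 0⟩, 0⟩ 0 0)) (.pos 27 .pp ⟨0, 0, 0, 0, 0, 0, 0, 0, 0, ⟨0, 0⟩, 0⟩ 0 0)) (.pos 28 .pp ⟨1586582, 0, 0, 0, 0, 0, 0, 0, 0,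 ⟨0, 0⟩, 0⟩ 0 0)) (.cut .v 17301504 (.pos 27 .pp ⟨1173594, 0, 0, 0, 0, 0, 0, 544332, 0, ⟨(-1), 16382802⟩, 0⟩ 0 28) (.pos 28 .pp ⟨1592258, 0, 0, 0, 0, 0, 0, 0, 0, ⟨0, 0⟩, 0⟩ 0 0))) (.pos 26 .pp ⟨1862917, 0, 0, 0, 0, 0, 0, 0, 0, ⟨0, 0⟩, 0⟩ 0 0)) (.cut .v 17825792 (.pos 25 .pp ⟨1632866, 0, 0, 0, 0, 0, 0, 0, 0, ⟨0, 0⟩, 0⟩ 0 0) (.cut .l 980822 (.pos 26 .pp ⟨4038798, 0, 0, 0, 0, 0, 0, 1331558, 0, ⟨(-1), 16325657⟩, 0⟩ 0 30) (.cut .d 1682641 (.pos 26 .pp ⟨1828516, 0, 0, 0, 0, 0, 0, 0, 0, ⟨0, 0⟩, 0⟩ 0 0) (.cut .s 851968 (.pos 26 .pp ⟨2769894, 0, 0, 0, 0, 0, 166142, 0, 0, ⟨0, 0⟩, 0⟩ 0 0) (.pos 26 .pp ⟨2254687, 0, 0, 0, 0, 0, 0, 1130591, 0, ⟨36043, 16018080⟩, 0⟩ 14 30))))))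 (.void 24 ⟨81786, 0, 0, 0, 0, 0, 0, 18214, 0, ⟨(-1), 16325657⟩, 0⟩ 0 30)) (.void 22 ⟨0, 0, 0, 0, 0, 0, 100000, 0, 0, ⟨0, 0⟩, 0⟩ 0 0)) (.void 20 ⟨0, 0, 0, 0, 0, 0, 100000, 0, 0, ⟨0, 0⟩, 0⟩ 0 0)))),
    by decide +kernel⟩

def covers1 : cell.Covers table row1.1 :=
  ⟨(.cut .d 0 (.cut .v 16777216 (.cut .v 8388608 (.void 2 ⟨0, 0, 0, 0, 50000, 50000, 0, 0, 0, ⟨0, 0⟩, 0⟩ 0 0) (.cut .d (-8388608) (.void 3 ⟨0, 0, 0, 0, 0, 100000, 0, 0, 0, ⟨0, 0⟩, 0⟩ 0 0) (.cut .v 12582912 (.cut .d (-4194304) (.pos 6 .mm ⟨0, 0, 0, 0, 0, 679197, 0, 0, 0, ⟨0, 0⟩, 0⟩ 0 0) (.pos 6 .mm ⟨0, 0, 0, 0, 7624167, 4921819, 0, 0, 0, ⟨0, 0⟩, 0⟩ 0 0)) (.cut .d (-4194304) (.pos 7 .mm ⟨0, 0, 0, 0, 0,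 754663, 0, 0, 0, ⟨0, 0⟩, 0⟩ 0 0) (.cut .d (-2097152) (.cut .v 14680064 (.pos 10 .mm ⟨0, 0, 0, 0, 0, 754663, 0, 0, 0, ⟨0, 0⟩, 0⟩ 0 0) (.pos 11 .mm ⟨0, 0, 0, 0, 0, 830129, 0, 0, 0, ⟨0, 0⟩, 0⟩ 0 0)) (.cut .v 14680064 (.pos 10 .mm ⟨0, 0, 0, 0, 0, 440472, 0, 0, 0, ⟨0, 0⟩, 0⟩ 0 0) (.cut .d (-1048576) (.cut .v 15728640 (.pos 12 .mm ⟨0, 0, 0, 0, 0, 673678, 0, 0, 0, ⟨0, 0⟩, 0⟩ 0 0) (.pos 13 .mm ⟨0, 0, 0, 0, 0, 832470, 0, 0, 0, ⟨0, 0⟩, 0⟩ 0 0)) (.cut .v 15728640 (.pos 12 .mm ⟨0, 0, 0, 0, 0, 471934, 0, 0, 0, ⟨0, 0⟩, 0⟩ 0 0) (.cut .d (-524288) (.cut .v 16252928 (.pos 14 .mm ⟨0, 0, 0, 0, 0, 482421, 0, 0, 0, ⟨0, 0⟩, 0⟩ 0 0) (.pos 15 .mm ⟨0, 0, 0, 0, 0, 345437, 0, 0, 0, ⟨0,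 0⟩, 0⟩ 0 0)) (.cut .l 980822 (.cut .v 16252928 (.cut .d (-262144) (.pos 14 .mm ⟨0, 0, 0, 0, 0, 377355, 0, 0, 0, ⟨0, 0⟩, 0⟩ 0 0) (.pos 14 .mm ⟨0, 0, 0, 0, 0, 0, 0, 0, 0, ⟨0, 0⟩, 0⟩ 0 0)) (.cut .d (-262144) (.pos 15 .mm ⟨0, 0, 0, 0, 0, 0, 0, 0, 0, ⟨0, 0⟩, 0⟩ 0 0) (.cut .s 2359296 (.pos 15 .mm ⟨0, 0, 0, 0, 0, 0, 0, 0, 0, ⟨0, 0⟩, 0⟩ 0 0) (.cut .v 16515072 (.cut .d (-131072) (.pos 16 .mm ⟨0, 0, 0, 0, 0, 0, 0, 0, 0, ⟨0, 0⟩, 0⟩ 0 0) (.pos 16 .mm ⟨0, 0, 0, 0, 0, 0, 0, 0, 0, ⟨0, 0⟩, 0⟩ 0 0)) (.pos 17 .mm ⟨0, 0, 0, 0, 0, 0, 0, 0, 0, ⟨0, 0⟩, 0⟩ 0 0))))) (.pos 13 .mm ⟨0, 0, 0, 0, 0, 0, 0, 0, 0, ⟨0, 0⟩, 0⟩ 0 0))))))))))) (.cut .v 25165824 (.cut .v 20971520 (.cut .v 18874368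 (.pos 23 .mp ⟨533793, 0, 0, 0, 0, 0, 0, 0, 0, ⟨0, 0⟩, 0⟩ 0 0) (.void 24 ⟨100000, 0, 0, 0, 0, 0, 0, 0, 0, ⟨0, 0⟩, 0⟩ 0 0)) (.void 22 ⟨100000, 0, 0, 0, 0, 0, 0, 0, 0, ⟨0, 0⟩, 0⟩ 0 0)) (.void 20 ⟨0, 0, 0, 0, 0, 0, 100000, 0, 0, ⟨0, 0⟩, 0⟩ 0 0))) (.cut .v 16777216 (.cut .v 8388608 (.void 2 ⟨0, 0, 0, 0, 100000, 0, 0, 0, 0, ⟨0, 0⟩, 0⟩ 0 0) (.cut .v 12582912 (.void 6 ⟨0, 0, 0, 0, 100000, 0, 0, 0, 0, ⟨0, 0⟩, 0⟩ 0 0) (.cut .v 14680064 (.pos 10 .pm ⟨0, 0, 0, 0, 0, 0, 0, 0, 607107, ⟨0, 0⟩, 15100357⟩ 0 0) (.cut .d 1662361 (.cut .d 831180 (.cut .v 15728640 (.pos 12 .pm ⟨0, 0, 0, 0, 0, 0, 0, 0, 0, ⟨0, 0⟩, 0⟩ 0 0) (.cut .d 415590 (.cut .v 16252928 (.pos 14 .pm ⟨0, 0, 0, 0,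 0, 0, 0, 0, 0, ⟨0, 0⟩, 0⟩ 0 0) (.cut .s 2359296 (.pos 15 .pm ⟨0, 0, 0, 0, 0, 0, 0, 0, 0, ⟨0, 0⟩, 0⟩ 0 0) (.cut .s 2686976 (.pos 15 .pm ⟨0, 0, 0, 0, 0, 0, 0, 0, 0, ⟨0, 0⟩, 0⟩ 0 0) (.cut .d 207795 (.cut .v 16515072 (.pos 16 .pm ⟨0, 0, 0, 0, 0, 0, 0, 0, 0, ⟨0, 0⟩, 0⟩ 0 0) (.pos 17 .pm ⟨0, 0, 0, 0, 0, 0, 0, 0, 0, ⟨0, 0⟩, 0⟩ 0 0)) (.pos 15 .pm ⟨0, 0, 0, 0, 0, 0, 0, 0, 0, ⟨0, 0⟩, 0⟩ 0 0))))) (.pos 13 .pm ⟨0, 0, 0, 0, 0, 0, 0, 626677, 0, ⟨178129, 14682379⟩, 0⟩ 26 49))) (.pos 11 .pm ⟨0, 0, 0, 0, 0, 0, 0, 626677, 0, ⟨199082, 14522400⟩, 0⟩ 27 51)) (.void 11 ⟨0, 0, 0, 0, 0, 0, 0, 0, 100000, ⟨0, 0⟩, 16226390⟩ 0 0))))) (.cut .v 25165824 (.cut .v 20971520 (.cut .d 1662361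 (.cut .v 18874368 (.cut .d 831180 (.cut .v 17825792 (.cut .d 415590 (.cut .v 17301504 (.cut .d 207795 (.pos 27 .pp ⟨0, 0, 0, 0, 0, 0, 0, 0, 0, ⟨0, 0⟩, 0⟩ 0 0) (.cut .v 17039360 (.pos 29 .pp ⟨0, 0, 0, 0, 0, 0, 0, 0, 0, ⟨0, 0⟩, 0⟩ 0 0) (.pos 30 .pp ⟨418040, 0, 0, 0, 0, 0, 0, 0, 0, ⟨0, 0⟩, 0⟩ 0 0))) (.pos 28 .pp ⟨890977, 0, 0, 0, 0, 0, 0, 0, 0, ⟨0, 0⟩, 0⟩ 0 0)) (.cut .l 980822 (.cut .v 17301504 (.cut .s 2359296 (.pos 27 .pp ⟨0, 0, 0, 0, 0, 0, 0, 1192077, 0, ⟨120473, 15250069⟩, 0⟩ 26 38) (.pos 27 .pp ⟨0, 0, 0, 0, 0, 0, 0, 633205, 0, ⟨275532, 14173499⟩, 0⟩ 36 49)) (.cut .s 2359296 (.pos 28 .pp ⟨904321, 0, 0, 0, 0, 0, 0, 453341, 0, ⟨120473, 15250069⟩, 0⟩ 26 38) (.pos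 28 .pp ⟨0, 0, 0, 0, 0, 0, 0, 780737, 0, ⟨275532, 14173499⟩, 0⟩ 36 49))) (.pos 25 .pp ⟨0, 0, 0, 0, 0, 0, 0, 0, 0, ⟨0, 0⟩, 0⟩ 0 0))) (.pos 26 .pp ⟨1094108, 0, 0, 0, 0, 0, 0, 0, 0, ⟨0, 0⟩, 0⟩ 0 0)) (.cut .v 17825792 (.cut .s 2359296 (.pos 25 .pp ⟨0, 0, 0, 0, 0, 0, 0, 1607393, 0, ⟨137208, 15109060⟩, 0⟩ 27 40) (.pos 25 .pp ⟨0, 0, 0, 0, 0, 0, 0, 743482, 0, ⟨303249, 13999524⟩, 0⟩ 37 51)) (.cut .d 1246770 (.pos 26 .pp ⟨1082869, 0, 0, 0, 0, 0, 0, 0, 0, ⟨0, 0⟩, 0⟩ 0 0) (.cut .s 2359296 (.pos 26 .pp ⟨454266, 0, 0, 0, 0, 0, 0, 1619438, 0, ⟨137208, 15109060⟩, 0⟩ 27 40) (.pos 26 .pp ⟨0, 0, 0, 0, 0, 0, 0, 1012986, 0, ⟨314439, 13943355⟩, 0⟩ 38 51))))) (.pos 24 .pp ⟨1572347,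 0, 0, 0, 0, 0, 0, 0, 0, ⟨0, 0⟩, 0⟩ 0 0)) (.cut .d 2493541 (.cut .l 980822 (.void 21 ⟨0, 0, 0, 0, 0, 0, 0, 100000, 0, ⟨221472, 14357903⟩, 0⟩ 28 53) (.cut .v 18874368 (.cut .d 2077951 (.cut .s 2359296 (.pos 23 .pp ⟨0, 0, 0, 0, 0, 0, 0, 2507893, 0, ⟨149732, 15013809⟩, 0⟩ 28 41) (.pos 23 .pp ⟨0, 0, 0, 0, 0, 0, 0, 678900, 0, ⟨335049, 13825555⟩, 0⟩ 39 52)) (.pos 23 .pp ⟨444617, 0, 0, 0, 0, 0, 0, 1686799, 0, ⟨231905, 14307509⟩, 0⟩ 29 53)) (.cut .v 19922944 (.cut .l 1329272 (.pos 41 .pp ⟨3718124, 0, 0, 0, 0, 0, 0, 5100558, 0, ⟨221472, 14357903⟩, 0⟩ 28 53) (.cut .d 2077951 (.cut .s 2359296 (.pos 41 .pp ⟨2398204, 0, 0, 0, 0, 0, 0, 1059476, 0, ⟨149732, 15013809⟩, 0⟩ 28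 41) (.pos 41 .pp ⟨0, 0, 0, 0, 0, 0, 0, 2359112, 0, ⟨335049, 13825555⟩, 0⟩ 39 52)) (.cut .s 2359296 (.void 41 ⟨0, 0, 0, 0, 0, 0, 0, 100000, 0, ⟨162943, 14916273⟩, 0⟩ 29 42) (.cut .s 2686976 (.void 41 ⟨0, 0, 0, 0, 0, 0, 0, 100000, 0, ⟨308994, 14009632⟩, 0⟩ 40 48) (.pos 41 .pp ⟨0, 0, 0, 0, 0, 0, 0, 4273221, 0, ⟨431162, 13345060⟩, 0⟩ 46 53))))) (.void 42 ⟨67938, 0, 0, 0, 0, 0, 0, 32062, 0, ⟨221472, 14357903⟩, 0⟩ 28 53)))) (.void 21 ⟨0, 0, 0, 0, 0, 0, 0, 100000, 0, ⟨252126, 14129009⟩, 0⟩ 29 56))) (.void 22 ⟨0, 0, 0, 0, 0, 0, 100000, 0, 0, ⟨0, 0⟩, 0⟩ 0 0)) (.void 20 ⟨0, 0, 0, 0, 0, 0, 100000, 0, 0, ⟨0, 0⟩, 0⟩ 0 0)))),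
    by decide +kernel⟩

def covers2 : cell.Covers table row2.1 :=
  ⟨(.cut .d 0 (.cut .v 16777216 (.cut .v 8388608 (.void 2 ⟨0, 0, 0, 0, 50000, 50000, 0, 0, 0, ⟨0, 0⟩, 0⟩ 0 0) (.cut .v 12582912 (.pos 6 .mm ⟨0, 0, 0, 0, 0, 14961318, 0, 0, 0, ⟨0, 0⟩, 0⟩ 0 0) (.cut .d (-8388608) (.void 7 ⟨0, 0, 0, 0, 0, 100000, 0, 0, 0, ⟨0, 0⟩, 0⟩ 0 0) (.cut .d (-4194304) (.void 7 ⟨0, 0, 0, 0, 0, 100000, 0, 0, 0, ⟨0, 0⟩, 0⟩ 0 0) (.cut .d (-2097152) (.void 7 ⟨0, 0, 0, 0, 0, 100000, 0, 0, 0, ⟨0, 0⟩, 0⟩ 0 0) (.cut .v 14680064 (.pos 10 .mm ⟨0, 0, 0, 0, 0, 280495, 0, 0, 0, ⟨0, 0⟩, 0⟩ 0 0) (.cut .d (-1048576) (.cut .v 15728640 (.pos 12 .mm ⟨0, 0, 0, 0, 0, 405581, 0, 0, 0, ⟨0, 0⟩, 0⟩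 0 0) (.pos 13 .mm ⟨0, 0, 0, 0, 0, 475538, 0, 0, 0, ⟨0, 0⟩, 0⟩ 0 0)) (.cut .v 15728640 (.cut .d (-524288) (.pos 12 .mm ⟨0, 0, 0, 0, 0, 409462, 0, 0, 0, ⟨0, 0⟩, 0⟩ 0 0) (.pos 12 .mm ⟨0, 0, 0, 0, 0, 310682, 0, 0, 0, ⟨0, 0⟩, 0⟩ 0 0)) (.cut .d (-524288) (.cut .v 16252928 (.pos 14 .mm ⟨0, 0, 0, 0, 0, 419956, 0, 0, 0, ⟨0, 0⟩, 0⟩ 0 0) (.pos 15 .mm ⟨0, 0, 0, 0, 0, 465347, 0, 0, 0, ⟨0, 0⟩, 0⟩ 0 0)) (.cut .v 16252928 (.cut .d (-262144) (.pos 14 .mm ⟨0, 0, 0, 0, 0, 354170, 0, 0, 0, ⟨0, 0⟩, 0⟩ 0 0) (.pos 14 .mm ⟨0, 0, 0, 0, 0, 0, 0, 0, 0, ⟨0, 0⟩, 0⟩ 0 0)) (.cut .d (-262144) (.pos 15 .mm ⟨0, 0, 0, 0, 0, 0, 0, 0, 0, ⟨0, 0⟩, 0⟩ 0 0) (.cut .v 16515072 (.pos 16 .mm ⟨0, 0, 0,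 0, 0, 0, 0, 0, 0, ⟨0, 0⟩, 0⟩ 0 0) (.pos 17 .mm ⟨0, 0, 0, 0, 0, 0, 0, 0, 0, ⟨0, 0⟩, 0⟩ 0 0))))))))))))) (.cut .v 25165824 (.cut .v 20971520 (.pos 21 .mp ⟨344825, 0, 0, 0, 0, 0, 0, 0, 0, ⟨0, 0⟩, 0⟩ 0 0) (.void 22 ⟨100000, 0, 0, 0, 0, 0, 0, 0, 0, ⟨0, 0⟩, 0⟩ 0 0)) (.void 20 ⟨100000, 0, 0, 0, 0, 0, 0, 0, 0, ⟨0, 0⟩, 0⟩ 0 0))) (.cut .v 16777216 (.cut .v 8388608 (.void 2 ⟨0, 0, 0, 0, 100000, 0, 0, 0, 0, ⟨0, 0⟩, 0⟩ 0 0) (.cut .v 12582912 (.void 6 ⟨0, 0, 0, 0, 100000, 0, 0, 0, 0, ⟨0, 0⟩, 0⟩ 0 0) (.cut .d 2152387 (.cut .v 14680064 (.pos 10 .pm ⟨0, 0, 0, 0, 0, 0, 0, 0, 0, ⟨0, 0⟩, 0⟩ 0 0) (.cut .d 1076193 (.cut .v 15728640 (.pos 12 .pm ⟨0, 0, 0, 0, 0, 0, 0, 0, 0, ⟨0, 0⟩,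 0⟩ 0 0) (.cut .d 538096 (.cut .v 16252928 (.pos 14 .pm ⟨0, 0, 0, 0, 0, 0, 0, 0, 0, ⟨0, 0⟩, 0⟩ 0 0) (.cut .d 269048 (.cut .v 16515072 (.pos 16 .pm ⟨0, 0, 0, 0, 0, 0, 0, 0, 0, ⟨0, 0⟩, 0⟩ 0 0) (.cut .d 134524 (.pos 17 .pm ⟨0, 0, 0, 0, 0, 0, 0, 0, 0, ⟨0, 0⟩, 0⟩ 0 0) (.pos 17 .pm ⟨0, 0, 0, 0, 0, 0, 0, 0, 0, ⟨0, 0⟩, 0⟩ 0 0))) (.pos 15 .pm ⟨0, 0, 0, 0, 0, 0, 0, 0, 0, ⟨0, 0⟩, 0⟩ 0 0))) (.pos 13 .pm ⟨0, 0, 0, 0, 0, 0, 0, 291785, 0, ⟨552971, 12689527⟩, 0⟩ 47 62))) (.pos 11 .pm ⟨0, 0, 0, 0, 0, 0, 0, 291785, 0, ⟨620104, 12350378⟩, 0⟩ 48 66))) (.void 7 ⟨0, 0, 0, 0, 0, 0, 0, 0, 100000, ⟨0, 0⟩, 15612959⟩ 0 0)))) (.cut .v 25165824 (.cut .v 20971520 (.cut .d 2152387 (.cut .v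 18874368 (.cut .d 1076193 (.cut .v 17825792 (.cut .d 538096 (.cut .v 17301504 (.cut .d 269048 (.pos 27 .pp ⟨0, 0, 0, 0, 0, 0, 0, 0, 0, ⟨0, 0⟩, 0⟩ 0 0) (.cut .v 17039360 (.pos 29 .pp ⟨0, 0, 0, 0, 0, 0, 0, 181842, 0, ⟨513275, 12888082⟩, 0⟩ 46 60) (.pos 30 .pp ⟨0, 0, 0, 0, 0, 0, 0, 352984, 0, ⟨513275, 12888082⟩, 0⟩ 46 60))) (.pos 28 .pp ⟨0, 0, 0, 0, 0, 0, 0, 419740, 0, ⟨513275, 12888082⟩, 0⟩ 46 60)) (.cut .v 17301504 (.pos 27 .pp ⟨0, 0, 0, 0, 0, 0, 0, 297864, 0, ⟨552971, 12689527⟩, 0⟩ 47 62) (.pos 28 .pp ⟨0, 0, 0, 0, 0, 0, 0, 355422, 0, ⟨552971, 12689527⟩, 0⟩ 47 62))) (.pos 26 .pp ⟨0, 0, 0, 0, 0, 0, 0, 472454, 0, ⟨537403, 12753808⟩, 0⟩ 46 62)) (.cut .v 17825792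 (.pos 25 .pp ⟨0, 0, 0, 0, 0, 0, 0, 310022, 0, ⟨620104, 12350378⟩, 0⟩ 48 66) (.cut .d 1614290 (.pos 26 .pp ⟨0, 0, 0, 0, 0, 0, 0, 556465, 0, ⟨594261, 12488208⟩, 0⟩ 48 64) (.pos 26 .pp ⟨0, 0, 0, 0, 0, 0, 0, 572879, 0, ⟨654270, 12217856⟩, 0⟩ 50 66)))) (.cut .v 19922944 (.cut .d 1076193 (.pos 41 .pp ⟨795561, 0, 0, 0, 0, 0, 0, 0, 0, ⟨0, 0⟩, 0⟩ 0 0) (.pos 41 .pp ⟨0, 0, 0, 0, 0, 0, 0, 723572, 0, ⟨620104, 12350378⟩, 0⟩ 48 66)) (.pos 42 .pp ⟨2190141, 0, 0, 0, 0, 0, 0, 0, 0, ⟨0, 0⟩, 0⟩ 0 0))) (.cut .v 18874368 (.pos 23 .pp ⟨0, 0, 0, 0, 0, 0, 0, 637038, 0, ⟨770031, 11656459⟩, 0⟩ 51 73) (.cut .d 3228580 (.cut .d 2690483 (.cut .v 19922944 (.cut .s 3407872 (.pos 41 .pp ⟨0,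 0, 0, 0, 0, 0, 0, 4115434, 0, ⟨602784, 12495974⟩, 0⟩ 51 61) (.cut .s 3604480 (.pos 41 .pp ⟨0, 0, 0, 0, 0, 0, 0, 3495881, 0, ⟨763139, 11812693⟩, 0⟩ 58 64) (.pos 41 .pp ⟨0, 0, 0, 0, 0, 0, 0, 3131891, 0, ⟨902390, 11246762⟩, 0⟩ 62 68))) (.pos 42 .pp ⟨0, 0, 0, 0, 0, 0, 0, 7771470, 0, ⟨699432, 12010842⟩, 0⟩ 51 68)) (.void 24 ⟨0, 0, 0, 0, 0, 0, 0, 100000, 0, ⟨764839, 11733338⟩, 0⟩ 53 70)) (.void 24 ⟨0, 0, 0, 0, 0, 0, 0, 100000, 0, ⟨828900, 11450017⟩, 0⟩ 54 73)))) (.void 22 ⟨58301, 0, 0, 0, 0, 0, 0, 41699, 0, ⟨674188, 11992566⟩, 0⟩ 46 73)) (.void 20 ⟨0, 0, 0, 0, 0, 0, 100000, 0, 0, ⟨0, 0⟩, 0⟩ 0 0)))),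
    by decide +kernel⟩

def covers3 : cell.Covers table row3.1 :=
  ⟨(.cut .d 0 (.cut .v 16777216 (.cut .v 8388608 (.void 2 ⟨0, 0, 0, 0, 50000, 50000, 0, 0, 0, ⟨0, 0⟩, 0⟩ 0 0) (.cut .v 12582912 (.pos 6 .mm ⟨0, 0, 0, 0, 0, 10641323, 0, 0, 0, ⟨0, 0⟩, 0⟩ 0 0) (.cut .d (-8388608) (.void 7 ⟨0, 0, 0, 0, 0, 100000, 0, 0, 0, ⟨0, 0⟩, 0⟩ 0 0) (.cut .d (-4194304) (.void 7 ⟨0, 0, 0, 0, 0, 100000, 0, 0, 0, ⟨0, 0⟩, 0⟩ 0 0) (.cut .d (-2097152) (.void 7 ⟨0, 0, 0, 0, 0, 100000, 0, 0, 0, ⟨0, 0⟩, 0⟩ 0 0) (.cut .v 14680064 (.pos 10 .mm ⟨0, 0, 0, 0, 0, 207677, 0, 0, 0, ⟨0, 0⟩, 0⟩ 0 0) (.cut .d (-1048576) (.cut .v 15728640 (.pos 12 .mm ⟨0, 0, 0, 0, 0, 293826, 0, 0, 0, ⟨0, 0⟩, 0⟩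 0 0) (.pos 13 .mm ⟨0, 0, 0, 0, 0, 300504, 0, 0, 0, ⟨0, 0⟩, 0⟩ 0 0)) (.cut .v 15728640 (.cut .d (-524288) (.pos 12 .mm ⟨0, 0, 0, 0, 0, 267594, 0, 0, 0, ⟨0, 0⟩, 0⟩ 0 0) (.pos 12 .mm ⟨0, 0, 0, 0, 0, 221048, 0, 0, 0, ⟨0, 0⟩, 0⟩ 0 0)) (.cut .d (-524288) (.pos 13 .mm ⟨0, 0, 0, 0, 0, 307182, 0, 0, 0, ⟨0, 0⟩, 0⟩ 0 0) (.cut .v 16252928 (.cut .d (-262144) (.pos 14 .mm ⟨0, 0, 0, 0, 0, 258492, 0, 0, 0, ⟨0, 0⟩, 0⟩ 0 0) (.pos 14 .mm ⟨0, 0, 0, 0, 0, 0, 0, 0, 0, ⟨0, 0⟩, 0⟩ 0 0)) (.pos 15 .mm ⟨0, 0, 0, 0, 0, 0, 0, 0, 0, ⟨0, 0⟩, 0⟩ 0 0))))))))))) (.cut .v 25165824 (.cut .v 20971520 (.pos 21 .mp ⟨0, 0, 0, 0, 0, 0, 0, 0, 0, ⟨0, 0⟩, 0⟩ 0 0) (.void 22 ⟨100000, 0, 0, 0, 0, 0, 0, 0,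 0, ⟨0, 0⟩, 0⟩ 0 0)) (.void 20 ⟨100000, 0, 0, 0, 0, 0, 0, 0, 0, ⟨0, 0⟩, 0⟩ 0 0))) (.cut .v 16777216 (.cut .v 8388608 (.void 2 ⟨0, 0, 0, 0, 100000, 0, 0, 0, 0, ⟨0, 0⟩, 0⟩ 0 0) (.cut .v 12582912 (.void 6 ⟨0, 0, 0, 0, 0, 0, 0, 0, 100000, ⟨0, 0⟩, 13128881⟩ 0 0) (.cut .d 2770661 (.cut .d 1385330 (.cut .v 14680064 (.pos 10 .pm ⟨0, 0, 0, 0, 0, 0, 0, 0, 0, ⟨0, 0⟩, 0⟩ 0 0) (.cut .d 692665 (.cut .v 15728640 (.pos 12 .pm ⟨0, 0, 0, 0, 0, 0, 0, 0, 0, ⟨0, 0⟩, 0⟩ 0 0) (.cut .v 16252928 (.pos 14 .pm ⟨0, 0, 0, 0, 0, 0, 0, 0, 0, ⟨0, 0⟩, 0⟩ 0 0) (.cut .d 346332 (.cut .l 980822 (.cut .l 632372 (.cut .v 16515072 (.cut .d 173166 (.pos 16 .pm ⟨0, 0, 0, 0, 0, 0, 0, 0, 0, ⟨0, 0⟩, 0⟩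 0 0) (.pos 16 .pm ⟨0, 0, 0, 0, 0, 0, 0, 0, 0, ⟨0, 0⟩, 0⟩ 0 0)) (.cut .d 173166 (.pos 17 .pm ⟨0, 0, 0, 0, 0, 0, 0, 0, 0, ⟨0, 0⟩, 0⟩ 0 0) (.pos 17 .pm ⟨0, 0, 0, 0, 0, 0, 0, 0, 0, ⟨0, 0⟩, 0⟩ 0 0))) (.pos 15 .pm ⟨0, 0, 0, 0, 0, 0, 0, 0, 0, ⟨0, 0⟩, 0⟩ 0 0)) (.pos 15 .pm ⟨0, 0, 0, 0, 0, 0, 0, 0, 0, ⟨0, 0⟩, 0⟩ 0 0)) (.cut .s 4161536 (.pos 15 .pm ⟨0, 0, 0, 0, 0, 0, 0, 0, 0, ⟨0, 0⟩, 0⟩ 0 0) (.pos 15 .pm ⟨0, 0, 0, 0, 0, 0, 0, 0, 0, ⟨0, 0⟩, 0⟩ 0 0))))) (.pos 11 .pm ⟨0, 0, 0, 0, 0, 0, 0, 188710, 0, ⟨983232, 10882935⟩, 0⟩ 60 75))) (.pos 7 .pm ⟨0, 0, 0, 0, 0, 0, 0, 228663, 0, ⟨1131434, 10301035⟩, 0⟩ 62 81)) (.void 7 ⟨0, 0, 0, 0, 0, 0, 0, 0, 100000, ⟨0, 0⟩, 15612959⟩ 0 0))))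 (.cut .v 25165824 (.cut .d 2770661 (.cut .v 20971520 (.cut .v 18874368 (.cut .d 1385330 (.cut .v 17825792 (.cut .d 692665 (.cut .d 346332 (.pos 25 .pp ⟨0, 0, 0, 0, 0, 0, 0, 0, 0, ⟨0, 0⟩, 0⟩ 0 0) (.cut .v 17301504 (.cut .d 519498 (.pos 27 .pp ⟨0, 0, 0, 0, 0, 0, 0, 190676, 0, ⟨912273, 11171505⟩, 0⟩ 59 72) (.cut .s 4161536 (.pos 27 .pp ⟨0, 0, 0, 0, 0, 0, 0, 240431, 0, ⟨829559, 11530400⟩, 0⟩ 59 67) (.pos 27 .pp ⟨0, 0, 0, 0, 0, 0, 0, 214738, 0, ⟨1033036, 10742125⟩, 0⟩ 65 72))) (.pos 28 .pp ⟨0, 0, 0, 0, 0, 0, 0, 199949, 0, ⟨912273, 11171505⟩, 0⟩ 59 72))) (.cut .v 17301504 (.pos 27 .pp ⟨0, 0, 0, 0, 0, 0, 0, 194607, 0, ⟨983232, 10882935⟩, 0⟩ 60 75) (.cut .d 1038997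 (.pos 28 .pp ⟨0, 0, 0, 0, 0, 0, 0, 194607, 0, ⟨966198, 10955611⟩, 0⟩ 60 74) (.pos 28 .pp ⟨0, 0, 0, 0, 0, 0, 0, 196573, 0, ⟨1004176, 10811446⟩, 0⟩ 61 75)))) (.pos 26 .pp ⟨378894, 0, 0, 0, 0, 0, 0, 34552, 0, ⟨941567, 11025152⟩, 0⟩ 58 75)) (.cut .d 2077995 (.cut .v 17825792 (.pos 25 .pp ⟨0, 0, 0, 0, 0, 0, 0, 196573, 0, ⟨1078248, 10520640⟩, 0⟩ 62 78) (.pos 26 .pp ⟨0, 0, 0, 0, 0, 0, 0, 204436, 0, ⟨1078248, 10520640⟩, 0⟩ 62 78)) (.pos 23 .pp ⟨0, 0, 0, 0, 0, 0, 0, 252138, 0, ⟨1200272, 10083472⟩, 0⟩ 65 81))) (.cut .d 1385330 (.pos 24 .pp ⟨455829, 0, 0, 0, 0, 0, 0, 0, 0, ⟨0, 0⟩, 0⟩ 0 0) (.cut .d 2077995 (.pos 24 .pp ⟨0, 0, 0, 0, 0, 0, 0, 340387, 0, ⟨1078248, 10520640⟩,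 0⟩ 62 78) (.cut .l 980822 (.void 24 ⟨0, 0, 0, 0, 0, 0, 0, 100000, 0, ⟨1200272, 10083472⟩, 0⟩ 65 81) (.cut .l 1329272 (.pos 24 .pp ⟨0, 0, 0, 0, 0, 0, 0, 24092547, 0, ⟨1200272, 10083472⟩, 0⟩ 65 81) (.cut .v 19922944 (.cut .d 2424328 (.pos 41 .pp ⟨0, 0, 0, 0, 0, 0, 0, 753592, 0, ⟨1163012, 10230217⟩, 0⟩ 65 79) (.cut .s 4161536 (.pos 41 .pp ⟨0, 0, 0, 0, 0, 0, 0, 6549794, 0, ⟨1091016, 10523808⟩, 0⟩ 66 74) (.pos 41 .pp ⟨0, 0, 0, 0, 0, 0, 0, 2647392, 0, ⟨1362363, 9571185⟩, 0⟩ 72 81))) (.cut .s 4161536 (.pos 42 .pp ⟨0, 0, 0, 0, 0, 0, 0, 8230003, 0, ⟨1070063, 10596295⟩, 0⟩ 65 74) (.pos 42 .pp ⟨0, 0, 0, 0, 0, 0, 0, 3870349, 0, ⟨1339119, 9644646⟩, 0⟩ 71 81)))))))) (.pos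 22 .pp ⟨0, 0, 0, 0, 0, 0, 0, 10183769, 0, ⟨1040540, 10588304⟩, 0⟩ 58 81)) (.cut .s 4161536 (.void 19 ⟨0, 0, 0, 0, 0, 0, 0, 100000, 0, ⟨1323264, 9644003⟩, 0⟩ 67 85) (.cut .s 4341760 (.void 19 ⟨0, 0, 0, 0, 0, 0, 0, 100000, 0, ⟨1552795, 8911424⟩, 0⟩ 73 89) (.void 19 ⟨0, 0, 0, 0, 0, 0, 0, 100000, 0, ⟨1720218, 8400537⟩, 0⟩ 77 92)))) (.void 20 ⟨0, 0, 0, 0, 0, 0, 100000, 0, 0, ⟨0, 0⟩, 0⟩ 0 0)))),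
    by decide +kernel⟩

def covers4 : cell.Covers table row4.1 :=
  ⟨(.cut .d 0 (.cut .v 16777216 (.cut .v 8388608 (.void 2 ⟨0, 0, 0, 0, 50000, 50000, 0, 0, 0, ⟨0, 0⟩, 0⟩ 0 0) (.cut .v 12582912 (.pos 6 .mm ⟨0, 0, 0, 0, 0, 7912606, 0, 0, 0, ⟨0, 0⟩, 0⟩ 0 0) (.cut .d (-8388608) (.void 7 ⟨0, 0, 0, 0, 0, 100000, 0, 0, 0, ⟨0, 0⟩, 0⟩ 0 0) (.cut .d (-4194304) (.void 7 ⟨0, 0, 0, 0, 0, 100000, 0, 0, 0, ⟨0, 0⟩, 0⟩ 0 0) (.cut .v 14680064 (.pos 10 .mm ⟨0, 0, 0, 0, 0, 3757266, 0, 0, 0, ⟨0, 0⟩, 0⟩ 0 0) (.cut .d (-2097152) (.void 11 ⟨0, 0, 0, 0, 0, 100000, 0, 0, 0, ⟨0, 0⟩, 0⟩ 0 0) (.cut .d (-1048576) (.pos 11 .mm ⟨0, 0, 0, 0, 0, 413303, 0, 0, 0, ⟨0, 0⟩, 0⟩ 0 0) (.cut .v 15728640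 (.pos 12 .mm ⟨0, 0, 0, 0, 0, 239902, 0, 0, 0, ⟨0, 0⟩, 0⟩ 0 0) (.cut .d (-524288) (.pos 13 .mm ⟨0, 0, 0, 0, 0, 262676, 0, 0, 0, ⟨0, 0⟩, 0⟩ 0 0) (.cut .v 16252928 (.pos 14 .mm ⟨0, 0, 0, 0, 0, 174843, 0, 0, 0, ⟨0, 0⟩, 0⟩ 0 0) (.pos 15 .mm ⟨0, 0, 0, 0, 0, 0, 0, 0, 0, ⟨0, 0⟩, 0⟩ 0 0))))))))))) (.cut .v 25165824 (.cut .v 20971520 (.pos 21 .mp ⟨0, 0, 0, 0, 0, 0, 0, 0, 0, ⟨0, 0⟩, 0⟩ 0 0) (.void 22 ⟨100000, 0, 0, 0, 0, 0, 0, 0, 0, ⟨0, 0⟩, 0⟩ 0 0)) (.void 20 ⟨100000, 0, 0, 0, 0, 0, 0, 0, 0, ⟨0, 0⟩, 0⟩ 0 0))) (.cut .v 16777216 (.cut .v 8388608 (.void 2 ⟨0, 0, 0, 0, 100000, 0, 0, 0, 0, ⟨0, 0⟩, 0⟩ 0 0) (.cut .d 3580341 (.cut .v 12582912 (.pos 6 .pm ⟨0, 0, 0, 0, 0, 0, 0,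 0, 177977, ⟨0, 0⟩, 13128881⟩ 0 0) (.cut .d 1790170 (.cut .v 14680064 (.pos 10 .pm ⟨0, 0, 0, 0, 0, 0, 0, 0, 0, ⟨0, 0⟩, 0⟩ 0 0) (.cut .d 895085 (.cut .v 15728640 (.pos 12 .pm ⟨0, 0, 0, 0, 0, 0, 0, 0, 0, ⟨0, 0⟩, 0⟩ 0 0) (.cut .d 447542 (.cut .v 16252928 (.cut .s 4882432 (.pos 14 .pm ⟨0, 0, 0, 0, 0, 0, 0, 0, 0, ⟨0, 0⟩, 0⟩ 0 0) (.pos 14 .pm ⟨0, 0, 0, 0, 0, 0, 0, 0, 0, ⟨0, 0⟩, 0⟩ 0 0)) (.cut .d 223771 (.cut .l 980822 (.cut .v 16515072 (.cut .s 4882432 (.pos 16 .pm ⟨0, 0, 0, 0, 0, 0, 0, 0, 0, ⟨0, 0⟩, 0⟩ 0 0) (.pos 16 .pm ⟨0, 0, 0, 0, 0, 0, 0, 0, 0, ⟨0, 0⟩, 0⟩ 0 0)) (.cut .s 4882432 (.pos 17 .pm ⟨0, 0, 0, 0, 0, 0, 0, 0, 0, ⟨0, 0⟩, 0⟩ 0 0) (.pos 17 .pm ⟨0, 0, 0, 0, 0,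 0, 0, 0, 0, ⟨0, 0⟩, 0⟩ 0 0))) (.pos 15 .pm ⟨0, 0, 0, 0, 0, 0, 0, 0, 0, ⟨0, 0⟩, 0⟩ 0 0)) (.cut .s 4882432 (.cut .v 16515072 (.pos 16 .pm ⟨0, 0, 0, 0, 0, 0, 0, 0, 0, ⟨0, 0⟩, 0⟩ 0 0) (.cut .s 4702208 (.pos 17 .pm ⟨0, 0, 0, 0, 0, 0, 0, 0, 0, ⟨0, 0⟩, 0⟩ 0 0) (.pos 17 .pm ⟨0, 0, 0, 0, 0, 0, 0, 0, 0, ⟨0, 0⟩, 0⟩ 0 0))) (.cut .v 16515072 (.pos 16 .pm ⟨0, 0, 0, 0, 0, 0, 0, 0, 0, ⟨0, 0⟩, 0⟩ 0 0) (.pos 17 .pm ⟨0, 0, 0, 0, 0, 0, 0, 0, 0, ⟨0, 0⟩, 0⟩ 0 0))))) (.cut .d 671313 (.cut .v 16252928 (.pos 14 .pm ⟨0, 0, 0, 0, 0, 0, 0, 0, 0, ⟨0, 0⟩, 0⟩ 0 0) (.cut .s 4882432 (.cut .s 4702208 (.pos 15 .pm ⟨0, 0, 0, 0, 0, 0, 0, 181346, 0, ⟨1195322, 10159001⟩, 0⟩ 70 75) (.pos 15 .pm ⟨0,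 0, 0, 0, 0, 0, 0, 166710, 0, ⟨1322688, 9718374⟩, 0⟩ 73 78)) (.pos 15 .pm ⟨0, 0, 0, 0, 0, 0, 0, 165586, 0, ⟨1520874, 9056608⟩, 0⟩ 76 84))) (.pos 13 .pm ⟨0, 0, 0, 0, 0, 0, 0, 114370, 0, ⟨1420610, 9350820⟩, 0⟩ 71 85)))) (.pos 11 .pm ⟨0, 0, 0, 0, 0, 0, 0, 114370, 0, ⟨1527275, 8984832⟩, 0⟩ 72 89))) (.pos 7 .pm ⟨0, 0, 0, 0, 0, 0, 0, 114370, 0, ⟨1821514, 8043927⟩, 0⟩ 76 98))) (.void 3 ⟨0, 0, 0, 0, 0, 0, 0, 0, 100000, ⟨0, 0⟩, 14107901⟩ 0 0))) (.cut .v 25165824 (.cut .d 3580341 (.cut .v 20971520 (.cut .d 1790170 (.cut .v 18874368 (.cut .d 895085 (.cut .v 17825792 (.cut .v 17301504 (.cut .d 447542 (.cut .s 4882432 (.pos 27 .pp ⟨0, 0, 0, 0, 0, 0, 0, 0, 0, ⟨0, 0⟩, 0⟩ 0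 0) (.pos 27 .pp ⟨0, 0, 0, 0, 0, 0, 0, 0, 0, ⟨0, 0⟩, 0⟩ 0 0)) (.cut .s 4882432 (.cut .d 671313 (.pos 27 .pp ⟨0, 0, 0, 0, 0, 0, 0, 171398, 0, ⟨1255581, 9938624⟩, 0⟩ 70 78) (.pos 27 .pp ⟨0, 0, 0, 0, 0, 0, 0, 171398, 0, ⟨1298323, 9791744⟩, 0⟩ 71 79)) (.pos 27 .pp ⟨0, 0, 0, 0, 0, 0, 0, 169072, 0, ⟨1542630, 8983324⟩, 0⟩ 76 85))) (.pos 28 .pp ⟨0, 0, 0, 0, 0, 0, 0, 117944, 0, ⟨1371885, 9497568⟩, 0⟩ 69 85)) (.pos 26 .pp ⟨0, 0, 0, 0, 0, 0, 0, 121518, 0, ⟨1371885, 9497568⟩, 0⟩ 69 85)) (.cut .v 17825792 (.cut .s 4882432 (.cut .v 17301504 (.pos 27 .pp ⟨0, 0, 0, 0, 0, 0, 0, 173165, 0, ⟨1403716, 9424151⟩, 0⟩ 72 83) (.pos 28 .pp ⟨0, 0, 0, 0, 0, 0, 0, 178466, 0, ⟨1403716, 9424151⟩,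 0⟩ 72 83)) (.pos 25 .pp ⟨0, 0, 0, 0, 0, 0, 0, 170815, 0, ⟨1680314, 8544628⟩, 0⟩ 78 89)) (.pos 26 .pp ⟨0, 0, 0, 0, 0, 0, 0, 121518, 0, ⟨1527275, 8984832⟩, 0⟩ 72 89))) (.pos 24 .pp ⟨0, 0, 0, 0, 0, 0, 0, 244175, 0, ⟨1450775, 9204876⟩, 0⟩ 69 89)) (.cut .v 18874368 (.cut .d 2685255 (.pos 23 .pp ⟨0, 0, 0, 0, 0, 0, 0, 135477, 0, ⟨1715342, 8401558⟩, 0⟩ 76 93) (.pos 23 .pp ⟨0, 0, 0, 0, 0, 0, 0, 232130, 0, ⟨1932666, 7753571⟩, 0⟩ 80 98)) (.cut .l 980822 (.pos 24 .pp ⟨0, 0, 0, 0, 0, 0, 0, 5591705, 0, ⟨1821514, 8043927⟩, 0⟩ 76 98) (.cut .d 2685255 (.cut .v 19922944 (.pos 41 .pp ⟨0, 0, 0, 0, 0, 0, 0, 261382, 0, ⟨1715342, 8401558⟩, 0⟩ 76 93) (.pos 42 .pp ⟨0, 0, 0, 0, 0, 0,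 0, 270887, 0, ⟨1715342, 8401558⟩, 0⟩ 76 93)) (.cut .v 19922944 (.pos 41 .pp ⟨0, 0, 0, 0, 0, 0, 0, 2714956, 0, ⟨1932666, 7753571⟩, 0⟩ 80 98) (.pos 42 .pp ⟨0, 0, 0, 0, 0, 0, 0, 5167739, 0, ⟨1932666, 7753571⟩, 0⟩ 80 98)))))) (.cut .d 1790170 (.pos 22 .pp ⟨1556813, 0, 0, 0, 0, 0, 0, 0, 0, ⟨0, 0⟩, 0⟩ 0 0) (.cut .d 2685255 (.pos 22 .pp ⟨0, 0, 0, 0, 0, 0, 0, 285144, 0, ⟨1715342, 8401558⟩, 0⟩ 76 93) (.pos 22 .pp ⟨0, 0, 0, 0, 0, 0, 0, 12537261, 0, ⟨1932666, 7753571⟩, 0⟩ 80 98)))) (.cut .s 4882432 (.void 19 ⟨0, 0, 0, 0, 0, 0, 0, 100000, 0, ⟨2216463, 6917365⟩, 0⟩ 83 107) (.void 19 ⟨0, 0, 0, 0, 0, 0, 0, 100000, 0, ⟨2602913, 5910671⟩, 0⟩ 90 115))) (.void 20 ⟨0, 0, 0, 0,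 0, 0, 100000, 0, 0, ⟨0, 0⟩, 0⟩ 0 0)))),
    by decide +kernel⟩

def covers5 : cell.Covers table row5.1 :=
  ⟨(.cut .d 0 (.cut .v 16777216 (.cut .v 8388608 (.void 2 ⟨0, 0, 0, 0, 50000, 50000, 0, 0, 0, ⟨0, 0⟩, 0⟩ 0 0) (.cut .v 12582912 (.pos 6 .mm ⟨0, 0, 0, 0, 0, 6186800, 0, 0, 0, ⟨0, 0⟩, 0⟩ 0 0) (.cut .v 14680064 (.pos 10 .mm ⟨0, 0, 0, 0, 0, 4352433, 0, 0, 0, ⟨0, 0⟩, 0⟩ 0 0) (.cut .d (-8388608) (.void 11 ⟨0, 0, 0, 0, 0, 100000, 0, 0, 0, ⟨0, 0⟩, 0⟩ 0 0) (.cut .d (-4194304) (.void 11 ⟨0, 0, 0, 0, 0, 100000, 0, 0, 0, ⟨0, 0⟩, 0⟩ 0 0) (.cut .d (-2097152) (.void 11 ⟨0, 0, 0, 0, 0, 100000, 0, 0, 0, ⟨0, 0⟩, 0⟩ 0 0) (.cut .d (-1048576) (.void 11 ⟨0, 0, 0, 0, 0, 100000,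 0, 0, 0, ⟨0, 0⟩, 0⟩ 0 0) (.cut .v 15728640 (.cut .d (-524288) (.pos 12 .mm ⟨0, 0, 0, 0, 0, 1004220, 0, 0, 0, ⟨0, 0⟩, 0⟩ 0 0) (.pos 12 .mm ⟨0, 0, 0, 0, 0, 670202, 0, 0, 0, ⟨0, 0⟩, 0⟩ 0 0)) (.cut .d (-524288) (.cut .s 5636096 (.pos 13 .mm ⟨0, 0, 0, 0, 0, 622535, 0, 0, 0, ⟨0, 0⟩, 0⟩ 0 0) (.pos 13 .mm ⟨0, 0, 0, 0, 0, 1185041, 0, 0, 0, ⟨0, 0⟩, 0⟩ 0 0)) (.cut .v 16252928 (.cut .l 980822 (.cut .d (-262144) (.cut .v 15990784 (.pos 35 .mm ⟨0, 0, 0, 0, 0, 937016, 0, 0, 0, ⟨0, 0⟩, 0⟩ 0 0) (.pos 36 .mm ⟨0, 0, 0, 0, 0, 945534, 0, 0, 0, ⟨0, 0⟩, 0⟩ 0 0)) (.cut .v 15990784 (.pos 35 .mm ⟨0, 0, 0, 0, 0, 595993, 0, 0, 0, ⟨0, 0⟩, 0⟩ 0 0) (.cut .s 5636096 (.pos 36 .mm ⟨0, 0, 0,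 0, 0, 337989, 0, 0, 0, ⟨0, 0⟩, 0⟩ 0 0) (.cut .s 5832704 (.pos 36 .mm ⟨0, 0, 0, 0, 0, 625060, 0, 0, 0, ⟨0, 0⟩, 0⟩ 0 0) (.pos 36 .mm ⟨0, 0, 0, 0, 0, 918561, 0, 0, 0, ⟨0, 0⟩, 0⟩ 0 0))))) (.pos 14 .mm ⟨0, 0, 0, 0, 0, 177916, 0, 0, 0, ⟨0, 0⟩, 0⟩ 0 0)) (.cut .l 980822 (.cut .d (-262144) (.pos 15 .mm ⟨0, 0, 0, 0, 0, 1023529, 0, 0, 0, ⟨0, 0⟩, 0⟩ 0 0) (.cut .s 5636096 (.pos 15 .mm ⟨0, 0, 0, 0, 0, 155450, 0, 0, 0, ⟨0, 0⟩, 0⟩ 0 0) (.cut .s 5832704 (.pos 15 .mm ⟨0, 0, 0, 0, 0, 439609, 0, 0, 0, ⟨0, 0⟩, 0⟩ 0 0) (.cut .d (-131072) (.pos 15 .mm ⟨0, 0, 0, 0, 0, 968737, 0, 0, 0, ⟨0, 0⟩, 0⟩ 0 0) (.pos 15 .mm ⟨0, 0, 0, 0, 0, 674410, 0, 0, 0, ⟨0, 0⟩, 0⟩ 0 0))))) (.pos 15 .mm ⟨0,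 0, 0, 0, 0, 104959, 0, 0, 0, ⟨0, 0⟩, 0⟩ 0 0)))))))))))) (.cut .v 25165824 (.cut .v 20971520 (.pos 21 .mp ⟨0, 0, 0, 0, 0, 688293, 0, 0, 0, ⟨0, 0⟩, 0⟩ 0 0) (.void 22 ⟨100000, 0, 0, 0, 0, 0, 0, 0, 0, ⟨0, 0⟩, 0⟩ 0 0)) (.void 20 ⟨100000, 0, 0, 0, 0, 0, 0, 0, 0, ⟨0, 0⟩, 0⟩ 0 0))) (.cut .v 16777216 (.cut .v 8388608 (.void 2 ⟨0, 0, 0, 0, 100000, 0, 0, 0, 0, ⟨0, 0⟩, 0⟩ 0 0) (.cut .d 4827282 (.cut .v 12582912 (.pos 6 .pm ⟨0, 0, 0, 0, 0, 0, 0, 0, 0, ⟨0, 0⟩, 0⟩ 0 0) (.cut .d 2413641 (.cut .v 14680064 (.pos 10 .pm ⟨0, 0, 0, 0, 0, 0, 0, 0, 0, ⟨0, 0⟩, 0⟩ 0 0) (.cut .d 1206820 (.cut .v 15728640 (.pos 12 .pm ⟨0, 0, 0, 0, 0, 0, 0, 0, 0, ⟨0, 0⟩, 0⟩ 0 0) (.cut .d 603410 (.cut .v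 16252928 (.pos 14 .pm ⟨0, 0, 0, 0, 0, 0, 0, 0, 0, ⟨0, 0⟩, 0⟩ 0 0) (.cut .d 301705 (.cut .d 150852 (.pos 15 .pm ⟨0, 0, 0, 0, 0, 0, 0, 0, 0, ⟨0, 0⟩, 0⟩ 0 0) (.pos 15 .pm ⟨0, 0, 0, 0, 0, 0, 0, 0, 0, ⟨0, 0⟩, 0⟩ 0 0)) (.pos 15 .pm ⟨0, 0, 0, 0, 0, 0, 0, 0, 0, ⟨0, 0⟩, 0⟩ 0 0))) (.pos 13 .pm ⟨0, 0, 0, 0, 0, 0, 0, 212227, 0, ⟨2010462, 7538883⟩, 0⟩ 82 99))) (.pos 11 .pm ⟨0, 0, 0, 0, 0, 0, 0, 212227, 0, ⟨2253139, 6843440⟩, 0⟩ 85 106))) (.pos 7 .pm ⟨0, 0, 0, 0, 0, 0, 0, 212227, 0, ⟨2721044, 5596150⟩, 0⟩ 91 119))) (.void 3 ⟨0, 0, 0, 0, 0, 0, 0, 0, 100000, ⟨0, 0⟩, 14107901⟩ 0 0))) (.cut .v 25165824 (.cut .d 4827282 (.cut .v 20971520 (.cut .d 2413641 (.cut .v 18874368 (.cut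 .d 1206820 (.cut .d 603410 (.pos 23 .pp ⟨0, 0, 0, 0, 0, 0, 0, 213302, 0, ⟨1888392, 7895248⟩, 0⟩ 80 96) (.cut .v 17825792 (.pos 25 .pp ⟨0, 0, 0, 0, 0, 0, 0, 216648, 0, ⟨2010462, 7538883⟩, 0⟩ 82 99) (.pos 26 .pp ⟨0, 0, 0, 0, 0, 0, 0, 225491, 0, ⟨2010462, 7538883⟩, 0⟩ 82 99))) (.pos 23 .pp ⟨0, 0, 0, 0, 0, 0, 0, 221070, 0, ⟨2253139, 6843440⟩, 0⟩ 85 106)) (.pos 24 .pp ⟨0, 0, 0, 0, 0, 0, 0, 238755, 0, ⟨2106137, 7198464⟩, 0⟩ 80 106)) (.cut .v 18874368 (.pos 23 .pp ⟨0, 0, 0, 0, 0, 0, 0, 238755, 0, ⟨2721044, 5596150⟩, 0⟩ 91 119) (.pos 24 .pp ⟨0, 0, 0, 0, 0, 0, 0, 5479454, 0, ⟨2721044, 5596150⟩, 0⟩ 91 119))) (.cut .d 2413641 (.pos 22 .pp ⟨0, 0, 0, 0, 0, 0, 0, 265283,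 0, ⟨2106137, 7198464⟩, 0⟩ 80 106) (.cut .d 3620461 (.pos 22 .pp ⟨0, 0, 0, 0, 0, 0, 0, 8636528, 0, ⟨2565686, 6033200⟩, 0⟩ 91 112) (.pos 22 .pp ⟨0, 0, 0, 0, 0, 0, 0, 17988954, 0, ⟨2903748, 5203106⟩, 0⟩ 97 119)))) (.pos 19 .pp ⟨0, 0, 0, 0, 0, 0, 0, 40926097, 0, ⟨3615399, 3493248⟩, 0⟩ 103 145)) (.cut .d 4827282 (.pos 20 .pp ⟨0, 0, 0, 0, 0, 0, 8118645, 19846880, 0, ⟨2372635, 6345668⟩, 0⟩ 80 119) (.pos 20 .pp ⟨0, 0, 0, 0, 0, 0, 2119505, 146811641, 0, ⟨3615399, 3493248⟩, 0⟩ 103 145))))),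
    by decide +kernel⟩

def covers6 : cell.Covers table row6.1 :=
  ⟨(.cut .d 0 (.cut .v 16777216 (.cut .d (-8388608) (.void 1 ⟨0, 0, 0, 0, 0, 100000, 0, 0, 0, ⟨0, 0⟩, 0⟩ 0 0) (.cut .d (-4194304) (.void 1 ⟨0, 0, 0, 0, 0, 100000, 0, 0, 0, ⟨0, 0⟩, 0⟩ 0 0) (.cut .d (-2097152) (.void 1 ⟨0, 0, 0, 0, 0, 100000, 0, 0, 0, ⟨0, 0⟩, 0⟩ 0 0) (.cut .d (-1048576) (.void 1 ⟨0, 0, 0, 0, 0, 100000, 0, 0, 0, ⟨0, 0⟩, 0⟩ 0 0) (.cut .v 8388608 (.cut .v 4194304 (.void 4 ⟨0, 0, 100000, 0, 0, 0, 0, 0, 0, ⟨0, 0⟩, 0⟩ 0 0) (.void 5 ⟨0, 0, 0, 0, 0, 54321, 0, 0, 45679, ⟨0, 0⟩, 9975792⟩ 0 0)) (.cut .v 12582912 (.pos 6 .mm ⟨0, 0, 0, 0, 0, 3448858, 0, 0, 0, ⟨0, 0⟩, 0⟩ 0 0) (.cut .v 14680064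 (.pos 10 .mm ⟨0, 0, 0, 0, 0, 3230591, 0, 0, 0, ⟨0, 0⟩, 0⟩ 0 0) (.cut .s 6422528 (.cut .v 15728640 (.cut .d (-524288) (.pos 12 .mm ⟨0, 0, 0, 0, 0, 2208638, 0, 0, 0, ⟨0, 0⟩, 0⟩ 0 0) (.pos 12 .mm ⟨0, 0, 0, 0, 0, 1745881, 0, 0, 0, ⟨0, 0⟩, 0⟩ 0 0)) (.cut .d (-524288) (.cut .v 16252928 (.pos 14 .mm ⟨0, 0, 0, 0, 0, 2318020, 0, 0, 0, ⟨0, 0⟩, 0⟩ 0 0) (.pos 15 .mm ⟨0, 0, 0, 0, 0, 2457022, 0, 0, 0, ⟨0, 0⟩, 0⟩ 0 0)) (.cut .s 6225920 (.cut .v 16252928 (.cut .l 980822 (.cut .d (-262144) (.pos 14 .mm ⟨0, 0, 0, 0, 0, 1605388, 0, 0, 0, ⟨0, 0⟩, 0⟩ 0 0) (.cut .s 6127616 (.pos 14 .mm ⟨0, 0, 0, 0, 0, 1290092, 0, 0, 0, ⟨0, 0⟩, 0⟩ 0 0) (.pos 14 .mm ⟨0, 0, 0, 0, 0, 1616232, 0, 0, 0,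 ⟨0, 0⟩, 0⟩ 0 0))) (.pos 14 .mm ⟨0, 0, 0, 0, 0, 833556, 0, 0, 0, ⟨0, 0⟩, 0⟩ 0 0)) (.cut .l 980822 (.cut .d (-262144) (.pos 15 .mm ⟨0, 0, 0, 0, 0, 1641325, 0, 0, 0, ⟨0, 0⟩, 0⟩ 0 0) (.cut .v 16515072 (.cut .s 6127616 (.pos 16 .mm ⟨0, 0, 0, 0, 0, 1314738, 0, 0, 0, ⟨0, 0⟩, 0⟩ 0 0) (.pos 16 .mm ⟨0, 0, 0, 0, 0, 1645573, 0, 0, 0, ⟨0, 0⟩, 0⟩ 0 0)) (.pos 17 .mm ⟨0, 0, 0, 0, 0, 1330843, 0, 0, 0, ⟨0, 0⟩, 0⟩ 0 0))) (.pos 15 .mm ⟨0, 0, 0, 0, 0, 722490, 0, 0, 0, ⟨0, 0⟩, 0⟩ 0 0))) (.cut .v 16252928 (.cut .v 15990784 (.pos 35 .mm ⟨0, 0, 0, 0, 0, 2149402, 0, 0, 0, ⟨0, 0⟩, 0⟩ 0 0) (.cut .l 980822 (.cut .d (-262144) (.pos 36 .mm ⟨0, 0, 0, 0, 0, 2467159, 0, 0, 0, ⟨0, 0⟩, 0⟩ 0 0)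 (.cut .s 6324224 (.pos 36 .mm ⟨0, 0, 0, 0, 0, 1996421, 0, 0, 0, ⟨0, 0⟩, 0⟩ 0 0) (.pos 36 .mm ⟨0, 0, 0, 0, 0, 2438077, 0, 0, 0, ⟨0, 0⟩, 0⟩ 0 0))) (.pos 36 .mm ⟨0, 0, 0, 0, 0, 1682652, 0, 0, 0, ⟨0, 0⟩, 0⟩ 0 0))) (.cut .l 980822 (.cut .d (-262144) (.pos 15 .mm ⟨0, 0, 0, 0, 0, 2583515, 0, 0, 0, ⟨0, 0⟩, 0⟩ 0 0) (.cut .l 632372 (.cut .v 16515072 (.cut .s 6324224 (.pos 16 .mm ⟨0, 0, 0, 0, 0, 2024031, 0, 0, 0, ⟨0, 0⟩, 0⟩ 0 0) (.pos 16 .mm ⟨0, 0, 0, 0, 0, 2452963, 0, 0, 0, ⟨0, 0⟩, 0⟩ 0 0)) (.pos 17 .mm ⟨0, 0, 0, 0, 0, 2147170, 0, 0, 0, ⟨0, 0⟩, 0⟩ 0 0)) (.pos 15 .mm ⟨0, 0, 0, 0, 0, 1749519, 0, 0, 0, ⟨0, 0⟩, 0⟩ 0 0))) (.pos 15 .mm ⟨0, 0, 0, 0, 0, 1655021, 0, 0, 0, ⟨0,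 0⟩, 0⟩ 0 0)))))) (.cut .v 15728640 (.cut .s 6619136 (.pos 12 .mm ⟨0, 0, 0, 0, 0, 3406988, 0, 0, 0, ⟨0, 0⟩, 0⟩ 0 0) (.pos 12 .mm ⟨0, 0, 0, 0, 0, 4537209, 0, 0, 0, ⟨0, 0⟩, 0⟩ 0 0)) (.cut .d (-524288) (.pos 13 .mm ⟨0, 0, 0, 0, 0, 4868064, 0, 0, 0, ⟨0, 0⟩, 0⟩ 0 0) (.cut .s 6619136 (.cut .v 16252928 (.cut .s 6520832 (.cut .s 6471680 (.pos 14 .mm ⟨0, 0, 0, 0, 0, 2930857, 0, 0, 0, ⟨0, 0⟩, 0⟩ 0 0) (.pos 14 .mm ⟨0, 0, 0, 0, 0, 3184607, 0, 0, 0, ⟨0, 0⟩, 0⟩ 0 0)) (.pos 14 .mm ⟨0, 0, 0, 0, 0, 3531701, 0, 0, 0, ⟨0, 0⟩, 0⟩ 0 0)) (.cut .l 980822 (.cut .d (-262144) (.pos 15 .mm ⟨0, 0, 0, 0, 0, 3632226, 0, 0, 0, ⟨0, 0⟩, 0⟩ 0 0) (.cut .l 632372 (.cut .s 6520832 (.cut .s 6471680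 (.pos 15 .mm ⟨0, 0, 0, 0, 0, 2907175, 0, 0, 0, ⟨0, 0⟩, 0⟩ 0 0) (.pos 15 .mm ⟨0, 0, 0, 0, 0, 3167554, 0, 0, 0, ⟨0, 0⟩, 0⟩ 0 0)) (.cut .s 6569984 (.pos 15 .mm ⟨0, 0, 0, 0, 0, 3431277, 0, 0, 0, ⟨0, 0⟩, 0⟩ 0 0) (.pos 15 .mm ⟨0, 0, 0, 0, 0, 3695013, 0, 0, 0, ⟨0, 0⟩, 0⟩ 0 0))) (.pos 15 .mm ⟨0, 0, 0, 0, 0, 2812267, 0, 0, 0, ⟨0, 0⟩, 0⟩ 0 0))) (.pos 15 .mm ⟨0, 0, 0, 0, 0, 2787278, 0, 0, 0, ⟨0, 0⟩, 0⟩ 0 0))) (.cut .s 6717440 (.cut .v 16252928 (.pos 14 .mm ⟨0, 0, 0, 0, 0, 4110928, 0, 0, 0, ⟨0, 0⟩, 0⟩ 0 0) (.cut .d (-262144) (.pos 15 .mm ⟨0, 0, 0, 0, 0, 4219914, 0, 0, 0, ⟨0, 0⟩, 0⟩ 0 0) (.cut .s 6668288 (.pos 15 .mm ⟨0, 0, 0, 0, 0, 4011482, 0, 0, 0, ⟨0, 0⟩, 0⟩ 0 0) (.pos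 15 .mm ⟨0, 0, 0, 0, 0, 4331832, 0, 0, 0, ⟨0, 0⟩, 0⟩ 0 0)))) (.cut .v 16252928 (.pos 14 .mm ⟨0, 0, 0, 0, 0, 4743169, 0, 0, 0, ⟨0, 0⟩, 0⟩ 0 0) (.cut .d (-262144) (.pos 15 .mm ⟨0, 0, 0, 0, 0, 4914926, 0, 0, 0, ⟨0, 0⟩, 0⟩ 0 0) (.cut .v 16515072 (.pos 16 .mm ⟨0, 0, 0, 0, 0, 4700657, 0, 0, 0, ⟨0, 0⟩, 0⟩ 0 0) (.cut .s 6766592 (.pos 17 .mm ⟨0, 0, 0, 0, 0, 4658517, 0, 0, 0, ⟨0, 0⟩, 0⟩ 0 0) (.pos 17 .mm ⟨0, 0, 0, 0, 0, 5007180, 0, 0, 0, ⟨0, 0⟩, 0⟩ 0 0))))))))))))))))) (.cut .v 25165824 (.cut .v 20971520 (.cut .d (-8388608) (.void 21 ⟨0, 0, 0, 0, 0, 100000, 0, 0, 0, ⟨0, 0⟩, 0⟩ 0 0) (.cut .d (-4194304) (.void 21 ⟨0, 0, 0, 0, 0, 100000, 0, 0, 0, ⟨0, 0⟩, 0⟩ 0 0) (.cut .d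 (-2097152) (.void 21 ⟨0, 0, 0, 0, 0, 100000, 0, 0, 0, ⟨0, 0⟩, 0⟩ 0 0) (.cut .d (-1048576) (.void 21 ⟨0, 0, 0, 0, 0, 100000, 0, 0, 0, ⟨0, 0⟩, 0⟩ 0 0) (.cut .d (-524288) (.pos 21 .mp ⟨305776, 0, 0, 0, 0, 5506768, 0, 0, 0, ⟨0, 0⟩, 0⟩ 0 0) (.cut .v 18874368 (.cut .v 17825792 (.cut .v 17301504 (.cut .s 6422528 (.cut .s 6225920 (.pos 27 .mp ⟨0, 0, 0, 0, 0, 1357452, 0, 0, 0, ⟨0, 0⟩, 0⟩ 0 0) (.pos 27 .mp ⟨0, 0, 0, 0, 0, 2158759, 0, 0, 0, ⟨0, 0⟩, 0⟩ 0 0)) (.cut .s 6619136 (.cut .s 6520832 (.pos 27 .mp ⟨0, 0, 0, 0, 0, 2976120, 0, 0, 0, ⟨0, 0⟩, 0⟩ 0 0) (.pos 27 .mp ⟨0, 0, 0, 0, 0, 3539102, 0, 0, 0, ⟨0, 0⟩, 0⟩ 0 0)) (.cut .d (-262144) (.pos 27 .mp ⟨0, 0, 0, 0, 0, 4727426,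 0, 0, 0, ⟨0, 0⟩, 0⟩ 0 0) (.cut .s 6717440 (.pos 27 .mp ⟨0, 0, 0, 0, 0, 4089947, 0, 0, 0, ⟨0, 0⟩, 0⟩ 0 0) (.pos 27 .mp ⟨0, 0, 0, 0, 0, 4741964, 0, 0, 0, ⟨0, 0⟩, 0⟩ 0 0))))) (.pos 28 .mp ⟨3557161, 0, 0, 0, 0, 0, 0, 0, 0, ⟨0, 0⟩, 0⟩ 0 0)) (.pos 26 .mp ⟨4001536, 0, 0, 0, 0, 0, 0, 0, 0, ⟨0, 0⟩, 0⟩ 0 0)) (.void 24 ⟨100000, 0, 0, 0, 0, 0, 0, 0, 0, ⟨0, 0⟩, 0⟩ 0 0))))))) (.void 22 ⟨100000, 0, 0, 0, 0, 0, 0, 0, 0, ⟨0, 0⟩, 0⟩ 0 0)) (.void 20 ⟨100000, 0, 0, 0, 0, 0, 0, 0, 0, ⟨0, 0⟩, 0⟩ 0 0))) (.cut .v 16777216 (.cut .v 8388608 (.cut .v 4194304 (.void 4 ⟨0, 0, 50000, 0, 50000, 0, 0, 0, 0, ⟨0, 0⟩, 0⟩ 0 0) (.void 5 ⟨0, 0, 0, 0, 0, 0, 0, 0, 100000, ⟨0, 0⟩, 9975792⟩ 0 0)) (.cut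 .v 12582912 (.pos 6 .pm ⟨0, 0, 0, 0, 0, 0, 0, 0, 0, ⟨0, 0⟩, 0⟩ 0 0) (.cut .v 14680064 (.pos 10 .pm ⟨0, 0, 0, 0, 0, 0, 0, 0, 0, ⟨0, 0⟩, 0⟩ 0 0) (.cut .v 15728640 (.pos 12 .pm ⟨0, 0, 0, 0, 0, 0, 0, 0, 0, ⟨0, 0⟩, 0⟩ 0 0) (.pos 13 .pm ⟨0, 0, 0, 0, 0, 0, 0, 0, 0, ⟨0, 0⟩, 0⟩ 0 0))))) (.cut .d 7180113 (.cut .v 25165824 (.cut .d 3590056 (.cut .v 20971520 (.cut .v 18874368 (.pos 23 .pp ⟨0, 0, 0, 0, 0, 0, 0, 333906, 0, ⟨2920443, 5060783⟩, 0⟩ 92 127) (.pos 24 .pp ⟨0, 0, 0, 0, 0, 0, 0, 710649, 0, ⟨2920443, 5060783⟩, 0⟩ 92 127)) (.pos 22 .pp ⟨0, 0, 0, 0, 0, 0, 285151, 0, 0, ⟨0, 0⟩, 0⟩ 0 0)) (.pos 19 .pp ⟨0, 0, 0, 0, 0, 0, 0, 736970, 0, ⟨3927332, 2904400⟩, 0⟩ 111 149)) (.cut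 .d 3590056 (.pos 20 .pp ⟨0, 0, 0, 0, 0, 0, 342182, 0, 0, ⟨0, 0⟩, 0⟩ 0 0) (.pos 20 .pp ⟨0, 0, 0, 0, 0, 0, 12371364, 23990533, 0, ⟨3927332, 2904400⟩, 0⟩ 111 149))) (.pos 18 .pp ⟨0, 0, 0, 0, 0, 0, 0, 155649011, 0, ⟨4972265, 984969⟩, 0⟩ 131 195)))),
    by decide +kernel⟩

def covers7 : cell.Covers table row7.1 :=
  ⟨(.cut .d 0 (.cut .v 16777216 (.cut .d (-8388608) (.void 1 ⟨0, 0, 0, 0, 0, 100000, 0, 0, 0, ⟨0, 0⟩, 0⟩ 0 0) (.cut .d (-4194304) (.void 1 ⟨0, 0, 0, 0, 0, 100000, 0, 0, 0, ⟨0, 0⟩, 0⟩ 0 0) (.cut .d (-2097152) (.void 1 ⟨0, 0, 0, 0, 0, 100000, 0, 0, 0, ⟨0, 0⟩, 0⟩ 0 0) (.cut .d (-1048576) (.void 1 ⟨0, 0, 0, 0, 0, 100000, 0, 0, 0, ⟨0, 0⟩, 0⟩ 0 0) (.cut .d (-524288)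 (.void 1 ⟨0, 0, 0, 0, 0, 100000, 0, 0, 0, ⟨0, 0⟩, 0⟩ 0 0) (.cut .v 8388608 (.cut .v 4194304 (.void 4 ⟨0, 0, 100000, 0, 0, 0, 0, 0, 0, ⟨0, 0⟩, 0⟩ 0 0) (.pos 5 .mm ⟨0, 0, 0, 0, 0, 7772409, 0, 0, 0, ⟨0, 0⟩, 0⟩ 0 0)) (.cut .v 12582912 (.pos 6 .mm ⟨0, 0, 0, 0, 0, 5837684, 0, 0, 0, ⟨0, 0⟩, 0⟩ 0 0) (.cut .v 14680064 (.pos 10 .mm ⟨0, 0, 0, 0, 0, 6444988, 0, 0, 0, ⟨0, 0⟩, 0⟩ 0 0) (.cut .s 7176192 (.cut .v 15728640 (.pos 12 .mm ⟨0, 0, 0, 0, 0, 6049242, 0, 0, 0, ⟨0, 0⟩, 0⟩ 0 0) (.cut .s 6995968 (.cut .s 6905856 (.cut .v 16252928 (.pos 14 .mm ⟨0, 0, 0, 0, 0, 5351980, 0, 0, 0, ⟨0, 0⟩, 0⟩ 0 0) (.cut .d (-262144) (.pos 15 .mm ⟨0, 0, 0, 0, 0, 5564927, 0, 0, 0, ⟨0, 0⟩, 0⟩ 0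 0) (.cut .s 6860800 (.pos 15 .mm ⟨0, 0, 0, 0, 0, 5273167, 0, 0, 0, ⟨0, 0⟩, 0⟩ 0 0) (.pos 15 .mm ⟨0, 0, 0, 0, 0, 5632392, 0, 0, 0, ⟨0, 0⟩, 0⟩ 0 0)))) (.cut .s 6950912 (.pos 13 .mm ⟨0, 0, 0, 0, 0, 6129763, 0, 0, 0, ⟨0, 0⟩, 0⟩ 0 0) (.pos 13 .mm ⟨0, 0, 0, 0, 0, 6569628, 0, 0, 0, ⟨0, 0⟩, 0⟩ 0 0))) (.cut .v 16252928 (.pos 14 .mm ⟨0, 0, 0, 0, 0, 7302568, 0, 0, 0, ⟨0, 0⟩, 0⟩ 0 0) (.cut .s 7086080 (.cut .s 7041024 (.pos 15 .mm ⟨0, 0, 0, 0, 0, 6997214, 0, 0, 0, ⟨0, 0⟩, 0⟩ 0 0) (.pos 15 .mm ⟨0, 0, 0, 0, 0, 7443541, 0, 0, 0, ⟨0, 0⟩, 0⟩ 0 0)) (.cut .s 7131136 (.pos 15 .mm ⟨0, 0, 0, 0, 0, 7908253, 0, 0, 0, ⟨0, 0⟩, 0⟩ 0 0) (.pos 15 .mm ⟨0, 0, 0, 0, 0, 8391007, 0, 0, 0, ⟨0,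 0⟩, 0⟩ 0 0)))))) (.cut .v 15728640 (.pos 12 .mm ⟨0, 0, 0, 0, 0, 9677353, 0, 0, 0, ⟨0, 0⟩, 0⟩ 0 0) (.cut .s 7356416 (.cut .v 16252928 (.pos 14 .mm ⟨0, 0, 0, 0, 0, 9255225, 0, 0, 0, ⟨0, 0⟩, 0⟩ 0 0) (.cut .s 7266304 (.cut .s 7221248 (.pos 15 .mm ⟨0, 0, 0, 0, 0, 8891465, 0, 0, 0, ⟨0, 0⟩, 0⟩ 0 0) (.pos 15 .mm ⟨0, 0, 0, 0, 0, 9409299, 0, 0, 0, ⟨0, 0⟩, 0⟩ 0 0)) (.cut .s 7311360 (.pos 15 .mm ⟨0, 0, 0, 0, 0, 9944189, 0, 0, 0, ⟨0, 0⟩, 0⟩ 0 0) (.pos 15 .mm ⟨0, 0, 0, 0, 0, 10495823, 0, 0, 0, ⟨0, 0⟩, 0⟩ 0 0)))) (.cut .s 7446528 (.cut .s 7401472 (.pos 13 .mm ⟨0, 0, 0, 0, 0, 11063897, 0, 0, 0, ⟨0, 0⟩, 0⟩ 0 0) (.pos 13 .mm ⟨0, 0, 0, 0, 0, 11648112, 0, 0, 0, ⟨0, 0⟩, 0⟩ 0 0))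 (.pos 13 .mm ⟨0, 0, 0, 0, 0, 12626128, 0, 0, 0, ⟨0, 0⟩, 0⟩ 0 0))))))))))))) (.cut .v 33554432 (.cut .v 25165824 (.cut .v 20971520 (.cut .v 18874368 (.cut .d (-8388608) (.void 23 ⟨0, 0, 0, 0, 0, 100000, 0, 0, 0, ⟨0, 0⟩, 0⟩ 0 0) (.cut .d (-4194304) (.void 23 ⟨0, 0, 0, 0, 0, 100000, 0, 0, 0, ⟨0, 0⟩, 0⟩ 0 0) (.cut .d (-2097152) (.void 23 ⟨0, 0, 0, 0, 0, 100000, 0, 0, 0, ⟨0, 0⟩, 0⟩ 0 0) (.cut .d (-1048576) (.void 23 ⟨0, 0, 0, 0, 0, 100000, 0, 0, 0, ⟨0, 0⟩, 0⟩ 0 0) (.cut .d (-524288) (.void 23 ⟨0, 0, 0, 0, 0, 100000, 0, 0, 0, ⟨0, 0⟩, 0⟩ 0 0) (.cut .v 17825792 (.cut .s 7176192 (.cut .v 17301504 (.cut .s 6995968 (.cut .l 980822 (.cut .d (-262144) (.pos 27 .mp ⟨0, 0,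 0, 0, 0, 6689339, 0, 0, 0, ⟨0, 0⟩, 0⟩ 0 0) (.cut .v 17039360 (.cut .l 632372 (.cut .s 6905856 (.cut .s 6860800 (.pos 29 .mp ⟨0, 0, 0, 0, 0, 5272985, 0, 0, 0, ⟨0, 0⟩, 0⟩ 0 0) (.pos 29 .mp ⟨1846, 0, 0, 0, 0, 5643619, 0, 0, 0, ⟨0, 0⟩, 0⟩ 0 0)) (.cut .s 6950912 (.pos 29 .mp ⟨162430, 0, 0, 0, 0, 5902962, 0, 0, 0, ⟨0, 0⟩, 0⟩ 0 0) (.pos 29 .mp ⟨329505, 0, 0, 0, 0, 6174792, 0, 0, 0, ⟨0, 0⟩, 0⟩ 0 0))) (.pos 29 .mp ⟨0, 0, 0, 0, 0, 5346460, 0, 0, 0, ⟨0, 0⟩, 0⟩ 0 0)) (.pos 30 .mp ⟨6149345, 0, 0, 0, 0, 0, 0, 0, 0, ⟨0, 0⟩, 0⟩ 0 0))) (.pos 27 .mp ⟨0, 0, 0, 0, 0, 5393580, 0, 0, 0, ⟨0, 0⟩, 0⟩ 0 0)) (.cut .s 7086080 (.cut .d (-262144) (.pos 27 .mp ⟨0, 0, 0, 0, 0, 7570292, 0,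 0, 0, ⟨0, 0⟩, 0⟩ 0 0) (.cut .s 7041024 (.pos 27 .mp ⟨666657, 0, 0, 0, 0, 6293857, 0, 0, 0, ⟨0, 0⟩, 0⟩ 0 0) (.pos 27 .mp ⟨883873, 0, 0, 0, 0, 6538211, 0, 0, 0, ⟨0, 0⟩, 0⟩ 0 0))) (.cut .d (-262144) (.pos 27 .mp ⟨259272, 0, 0, 0, 0, 8313170, 0, 0, 0, ⟨0, 0⟩, 0⟩ 0 0) (.cut .s 7131136 (.pos 27 .mp ⟨1068019, 0, 0, 0, 0, 6818794, 0, 0, 0, ⟨0, 0⟩, 0⟩ 0 0) (.cut .s 7153664 (.pos 27 .mp ⟨1224642, 0, 0, 0, 0, 7103048, 0, 0, 0, ⟨0, 0⟩, 0⟩ 0 0) (.pos 27 .mp ⟨1342257, 0, 0, 0, 0, 7240235, 0, 0, 0, ⟨0, 0⟩, 0⟩ 0 0)))))) (.pos 28 .mp ⟨7386460, 0, 0, 0, 0, 0, 0, 0, 0, ⟨0, 0⟩, 0⟩ 0 0)) (.cut .s 7356416 (.cut .v 17301504 (.cut .s 7266304 (.cut .l 980822 (.cut .d (-262144) (.pos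 27 .mp ⟨462661, 0, 0, 0, 0, 9816191, 0, 0, 0, ⟨0, 0⟩, 0⟩ 0 0) (.cut .v 17039360 (.cut .s 7221248 (.pos 29 .mp ⟨1036543, 0, 0, 0, 0, 7888873, 0, 0, 0, ⟨0, 0⟩, 0⟩ 0 0) (.cut .s 7243776 (.pos 29 .mp ⟨1390528, 0, 0, 0, 0, 7987292, 0, 0, 0, ⟨0, 0⟩, 0⟩ 0 0) (.pos 29 .mp ⟨1454867, 0, 0, 0, 0, 8192556, 0, 0, 0, ⟨0, 0⟩, 0⟩ 0 0))) (.pos 30 .mp ⟨6105025, 0, 0, 0, 0, 3241734, 0, 0, 0, ⟨0, 0⟩, 0⟩ 0 0))) (.pos 27 .mp ⟨0, 0, 0, 0, 0, 8866569, 0, 0, 0, ⟨0, 0⟩, 0⟩ 0 0)) (.cut .s 7311360 (.cut .d (-262144) (.pos 27 .mp ⟨382818, 0, 0, 0, 0, 10216279, 0, 0, 0, ⟨0, 0⟩, 0⟩ 0 0) (.cut .s 7288832 (.pos 27 .mp ⟨1903437, 0, 0, 0, 0, 7962244, 0, 0, 0, ⟨0, 0⟩, 0⟩ 0 0) (.cut .s 7300096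 (.pos 27 .mp ⟨2025679, 0, 0, 0, 0, 8088301, 0, 0, 0, ⟨0, 0⟩, 0⟩ 0 0) (.pos 27 .mp ⟨2090912, 0, 0, 0, 0, 8157794, 0, 0, 0, ⟨0, 0⟩, 0⟩ 0 0)))) (.cut .d (-262144) (.pos 27 .mp ⟨722717, 0, 0, 0, 0, 10415859, 0, 0, 0, ⟨0, 0⟩, 0⟩ 0 0) (.cut .v 17039360 (.cut .s 7333888 (.pos 29 .mp ⟨1691694, 0, 0, 0, 0, 8772637, 0, 0, 0, ⟨0, 0⟩, 0⟩ 0 0) (.pos 29 .mp ⟨1829077, 0, 0, 0, 0, 8910478, 0, 0, 0, ⟨0, 0⟩, 0⟩ 0 0)) (.pos 30 .mp ⟨4333192, 0, 0, 0, 0, 6187821, 0, 0, 0, ⟨0, 0⟩, 0⟩ 0 0))))) (.pos 28 .mp ⟨10482461, 0, 0, 0, 0, 0, 0, 0, 0, ⟨0, 0⟩, 0⟩ 0 0)) (.cut .v 17301504 (.cut .s 7446528 (.cut .s 7401472 (.cut .d (-262144) (.pos 27 .mp ⟨1073137, 0, 0, 0, 0, 10620433, 0, 0, 0,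 ⟨0, 0⟩, 0⟩ 0 0) (.cut .v 17039360 (.cut .s 7378944 (.pos 29 .mp ⟨1949196, 0, 0, 0, 0, 9073468, 0, 0, 0, ⟨0, 0⟩, 0⟩ 0 0) (.pos 29 .mp ⟨1989838, 0, 0, 0, 0, 9336429, 0, 0, 0, ⟨0, 0⟩, 0⟩ 0 0)) (.pos 30 .mp ⟨4441581, 0, 0, 0, 0, 6664004, 0, 0, 0, ⟨0, 0⟩, 0⟩ 0 0))) (.cut .l 980822 (.cut .d (-262144) (.void 27 ⟨0, 0, 0, 0, 0, 100000, 0, 0, 0, ⟨0, 0⟩, 0⟩ 0 0) (.cut .v 17039360 (.cut .s 7424000 (.pos 29 .mp ⟨2114815, 0, 0, 0, 0, 9529905, 0, 0, 0, ⟨0, 0⟩, 0⟩ 0 0) (.cut .s 7435264 (.pos 29 .mp ⟨2326874, 0, 0, 0, 0, 9561547, 0, 0, 0, ⟨0, 0⟩, 0⟩ 0 0) (.pos 29 .mp ⟨2400160, 0, 0, 0, 0, 9636575, 0, 0, 0, ⟨0, 0⟩, 0⟩ 0 0))) (.pos 30 .mp ⟨12888603, 0, 0, 0, 0, 0, 0, 0, 0, ⟨0,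 0⟩, 0⟩ 0 0))) (.pos 27 .mp ⟨1495107, 0, 0, 0, 0, 10168741, 0, 0, 0, ⟨0, 0⟩, 0⟩ 0 0))) (.cut .s 7491584 (.cut .d (-262144) (.cut .s 7469056 (.pos 27 .mp ⟨1618737, 0, 0, 0, 0, 11089452, 0, 0, 0, ⟨0, 0⟩, 0⟩ 0 0) (.pos 27 .mp ⟨1805987, 0, 0, 0, 0, 11199052, 0, 0, 0, ⟨0, 0⟩, 0⟩ 0 0)) (.cut .v 17039360 (.cut .l 980822 (.cut .s 7469056 (.cut .s 7457792 (.pos 29 .mp ⟨2473994, 0, 0, 0, 0, 9712040, 0, 0, 0, ⟨0, 0⟩, 0⟩ 0 0) (.pos 29 .mp ⟨2548376, 0, 0, 0, 0, 9787941, 0, 0, 0, ⟨0, 0⟩, 0⟩ 0 0)) (.cut .s 7480320 (.pos 29 .mp ⟨2623308, 0, 0, 0, 0, 9864276, 0, 0, 0, ⟨0, 0⟩, 0⟩ 0 0) (.pos 29 .mp ⟨2680420, 0, 0, 0, 0, 9963578, 0, 0, 0, ⟨0, 0⟩, 0⟩ 0 0))) (.pos 29 .mp ⟨1528079,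 0, 0, 0, 0, 10547943, 0, 0, 0, ⟨0, 0⟩, 0⟩ 0 0)) (.pos 30 .mp ⟨4699899, 0, 0, 0, 0, 7628040, 0, 0, 0, ⟨0, 0⟩, 0⟩ 0 0))) (.cut .s 7514112 (.cut .d (-262144) (.pos 27 .mp ⟨1995951, 0, 0, 0, 0, 11309999, 0, 0, 0, ⟨0, 0⟩, 0⟩ 0 0) (.cut .v 17039360 (.cut .s 7502848 (.pos 29 .mp ⟨2598331, 0, 0, 0, 0, 10210350, 0, 0, 0, ⟨0, 0⟩, 0⟩ 0 0) (.pos 29 .mp ⟨2546318, 0, 0, 0, 0, 10443129, 0, 0, 0, ⟨0, 0⟩, 0⟩ 0 0)) (.pos 30 .mp ⟨4202638, 0, 0, 0, 0, 8683788, 0, 0, 0, ⟨0, 0⟩, 0⟩ 0 0))) (.cut .d (-262144) (.pos 27 .mp ⟨2188647, 0, 0, 0, 0, 11422302, 0, 0, 0, ⟨0, 0⟩, 0⟩ 0 0) (.cut .v 17039360 (.cut .s 7525376 (.pos 29 .mp ⟨2521585, 0, 0, 0, 0, 10644937, 0, 0, 0, ⟨0, 0⟩, 0⟩ 0 0)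 (.cut .s 7531008 (.pos 29 .mp ⟨2954297, 0, 0, 0, 0, 10278858, 0, 0, 0, ⟨0, 0⟩, 0⟩ 0 0) (.pos 29 .mp ⟨2972359, 0, 0, 0, 0, 10343321, 0, 0, 0, ⟨0, 0⟩, 0⟩ 0 0))) (.pos 30 .mp ⟨4274549, 0, 0, 0, 0, 8937133, 0, 0, 0, ⟨0, 0⟩, 0⟩ 0 0)))))) (.pos 28 .mp ⟨13062110, 0, 0, 0, 0, 0, 0, 0, 0, ⟨0, 0⟩, 0⟩ 0 0)))) (.pos 26 .mp ⟨11336124, 0, 0, 0, 0, 0, 0, 0, 0, ⟨0, 0⟩, 0⟩ 0 0))))))) (.void 24 ⟨100000, 0, 0, 0, 0, 0, 0, 0, 0, ⟨0, 0⟩, 0⟩ 0 0)) (.void 22 ⟨100000, 0, 0, 0, 0, 0, 0, 0, 0, ⟨0, 0⟩, 0⟩ 0 0)) (.void 20 ⟨100000, 0, 0, 0, 0, 0, 0, 0, 0, ⟨0, 0⟩, 0⟩ 0 0)) (.void 59 ⟨100000, 0, 0, 0, 0, 0, 0, 0, 0, ⟨0, 0⟩, 0⟩ 0 0))) (.cut .v 16777216 (.cut .v 8388608 (.cut .v 4194304 (.void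 4 ⟨0, 0, 50000, 0, 50000, 0, 0, 0, 0, ⟨0, 0⟩, 0⟩ 0 0) (.pos 5 .pm ⟨0, 0, 0, 0, 0, 0, 0, 0, 2908124, ⟨0, 0⟩, 9975792⟩ 0 0)) (.pos 3 .pm ⟨0, 0, 0, 0, 0, 0, 0, 0, 0, ⟨0, 0⟩, 0⟩ 0 0)) (.cut .v 33554432 (.cut .d 12260274 (.cut .v 25165824 (.cut .v 20971520 (.pos 21 .pp ⟨4166119, 0, 0, 0, 0, 0, 0, 0, 0, ⟨0, 0⟩, 0⟩ 0 0) (.pos 22 .pp ⟨4842919, 0, 0, 0, 0, 0, 184113, 0, 0, ⟨0, 0⟩, 0⟩ 0 0)) (.pos 20 .pp ⟨3306118, 0, 0, 0, 0, 0, 1392557, 0, 0, ⟨0, 0⟩, 0⟩ 0 0)) (.pos 18 .pp ⟨0, 0, 0, 0, 0, 0, 1265205, 0, 13854, ⟨0, 0⟩, 19951585⟩ 0 0)) (.cut .s 7176192 (.pos 59 .pp ⟨1920413, 0, 0, 0, 0, 0, 120749376, 0, 0, ⟨0, 0⟩, 0⟩ 0 0) (.pos 59 .pp ⟨16144476, 0, 0, 0, 0, 0, 40737322,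 0, 0, ⟨0, 0⟩, 0⟩ 0 0))))),
    by decide +kernel⟩

def covers8 : cell.Covers table row8.1 :=
  ⟨(.cut .d 0 (.cut .v 16777216 (.cut .d (-8388608) (.void 1 ⟨0, 0, 0, 0, 0, 100000, 0, 0, 0, ⟨0, 0⟩, 0⟩ 0 0) (.cut .d (-4194304) (.void 1 ⟨0, 0, 0, 0, 0, 100000, 0, 0, 0, ⟨0, 0⟩, 0⟩ 0 0) (.cut .d (-2097152) (.void 1 ⟨0, 0, 0, 0, 0, 100000, 0, 0, 0, ⟨0, 0⟩, 0⟩ 0 0) (.cut .d (-1048576) (.void 1 ⟨0, 0, 0, 0, 0, 100000, 0, 0, 0, ⟨0, 0⟩, 0⟩ 0 0) (.cut .d (-524288) (.void 1 ⟨0, 0, 0, 0, 0, 100000, 0, 0, 0, ⟨0, 0⟩, 0⟩ 0 0) (.cut .v 8388608 (.cut .v 4194304 (.void 4 ⟨0, 0, 100000, 0, 0, 0, 0, 0, 0, ⟨0, 0⟩, 0⟩ 0 0) (.pos 5 .mm ⟨0, 0, 0, 0, 0, 10264241, 0, 0, 0, ⟨0, 0⟩, 0⟩ 0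 0)) (.cut .v 12582912 (.pos 6 .mm ⟨0, 0, 0, 0, 0, 10944215, 0, 0, 0, ⟨0, 0⟩, 0⟩ 0 0) (.cut .v 14680064 (.pos 10 .mm ⟨0, 0, 0, 0, 0, 13764873, 0, 0, 0, ⟨0, 0⟩, 0⟩ 0 0) (.cut .v 15728640 (.pos 12 .mm ⟨0, 0, 0, 0, 0, 15813906, 0, 0, 0, ⟨0, 0⟩, 0⟩ 0 0) (.cut .s 7798784 (.cut .v 16252928 (.pos 14 .mm ⟨0, 0, 0, 0, 0, 14672417, 0, 0, 0, ⟨0, 0⟩, 0⟩ 0 0) (.cut .s 7667712 (.cut .s 7602176 (.pos 15 .mm ⟨0, 0, 0, 0, 0, 13704500, 0, 0, 0, ⟨0, 0⟩, 0⟩ 0 0) (.pos 15 .mm ⟨0, 0, 0, 0, 0, 14701932, 0, 0, 0, ⟨0, 0⟩, 0⟩ 0 0)) (.cut .s 7733248 (.pos 15 .mm ⟨0, 0, 0, 0, 0, 15787419, 0, 0, 0, ⟨0, 0⟩, 0⟩ 0 0) (.pos 15 .mm ⟨0, 0, 0, 0, 0, 16935949, 0, 0, 0, ⟨0, 0⟩, 0⟩ 0 0)))) (.cut .d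 (-262144) (.pos 13 .mm ⟨0, 0, 0, 0, 0, 22052221, 0, 0, 0, ⟨0, 0⟩, 0⟩ 0 0) (.cut .s 7929856 (.pos 13 .mm ⟨0, 0, 0, 0, 0, 18893656, 0, 0, 0, ⟨0, 0⟩, 0⟩ 0 0) (.pos 13 .mm ⟨0, 0, 0, 0, 0, 21531781, 0, 0, 0, ⟨0, 0⟩, 0⟩ 0 0))))))))))))) (.cut .v 33554432 (.cut .v 25165824 (.cut .v 20971520 (.cut .v 18874368 (.cut .d (-8388608) (.void 23 ⟨0, 0, 0, 0, 0, 100000, 0, 0, 0, ⟨0, 0⟩, 0⟩ 0 0) (.cut .d (-4194304) (.void 23 ⟨0, 0, 0, 0, 0, 100000, 0, 0, 0, ⟨0, 0⟩, 0⟩ 0 0) (.cut .d (-2097152) (.void 23 ⟨0, 0, 0, 0, 0, 100000, 0, 0, 0, ⟨0, 0⟩, 0⟩ 0 0) (.cut .d (-1048576) (.void 23 ⟨0, 0, 0, 0, 0, 100000, 0, 0, 0, ⟨0, 0⟩, 0⟩ 0 0) (.cut .d (-524288) (.void 23 ⟨0, 0, 0, 0, 0, 100000,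 0, 0, 0, ⟨0, 0⟩, 0⟩ 0 0) (.cut .v 17825792 (.cut .s 7798784 (.cut .v 17301504 (.cut .s 7667712 (.cut .s 7602176 (.cut .d (-262144) (.cut .l 980822 (.void 27 ⟨0, 0, 0, 0, 0, 100000, 0, 0, 0, ⟨0, 0⟩, 0⟩ 0 0) (.cut .s 7569408 (.pos 27 .mp ⟨2211532, 0, 0, 0, 0, 11618207, 0, 0, 0, ⟨0, 0⟩, 0⟩ 0 0) (.pos 27 .mp ⟨2410043, 0, 0, 0, 0, 11981088, 0, 0, 0, ⟨0, 0⟩, 0⟩ 0 0))) (.cut .l 980822 (.cut .v 17039360 (.cut .s 7569408 (.cut .s 7553024 (.cut .s 7544832 (.pos 29 .mp ⟨2973933, 0, 0, 0, 0, 10453882, 0, 0, 0, ⟨0, 0⟩, 0⟩ 0 0) (.pos 29 .mp ⟨2997642, 0, 0, 0, 0, 10560964, 0, 0, 0, ⟨0, 0⟩, 0⟩ 0 0)) (.cut .s 7561216 (.pos 29 .mp ⟨3020844, 0, 0, 0, 0, 10669577, 0, 0, 0, ⟨0,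 0⟩, 0⟩ 0 0) (.pos 29 .mp ⟨3043565, 0, 0, 0, 0, 10779692, 0, 0, 0, ⟨0, 0⟩, 0⟩ 0 0))) (.cut .d (-131072) (.cut .s 7585792 (.pos 29 .mp ⟨2934938, 0, 0, 0, 0, 11233609, 0, 0, 0, ⟨0, 0⟩, 0⟩ 0 0) (.pos 29 .mp ⟨3058749, 0, 0, 0, 0, 11371543, 0, 0, 0, ⟨0, 0⟩, 0⟩ 0 0)) (.cut .s 7585792 (.pos 29 .mp ⟨3352750, 0, 0, 0, 0, 10552431, 0, 0, 0, ⟨0, 0⟩, 0⟩ 0 0) (.pos 29 .mp ⟨3471320, 0, 0, 0, 0, 10688007, 0, 0, 0, ⟨0, 0⟩, 0⟩ 0 0)))) (.pos 30 .mp ⟨14761080, 0, 0, 0, 0, 0, 0, 0, 0, ⟨0, 0⟩, 0⟩ 0 0)) (.pos 27 .mp ⟨2904009, 0, 0, 0, 0, 10428360, 0, 0, 0, ⟨0, 0⟩, 0⟩ 0 0))) (.cut .d (-262144) (.cut .l 980822 (.void 27 ⟨0, 0, 0, 0, 0, 100000, 0, 0, 0, ⟨0, 0⟩, 0⟩ 0 0) (.cut .s 7634944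 (.pos 27 .mp ⟨2371517, 0, 0, 0, 0, 12690224, 0, 0, 0, ⟨0, 0⟩, 0⟩ 0 0) (.pos 27 .mp ⟨2611686, 0, 0, 0, 0, 13027216, 0, 0, 0, ⟨0, 0⟩, 0⟩ 0 0))) (.cut .l 980822 (.cut .v 17039360 (.cut .s 7634944 (.cut .d (-131072) (.cut .s 7618560 (.pos 29 .mp ⟨3183223, 0, 0, 0, 0, 11512184, 0, 0, 0, ⟨0, 0⟩, 0⟩ 0 0) (.pos 29 .mp ⟨3308449, 0, 0, 0, 0, 11655423, 0, 0, 0, ⟨0, 0⟩, 0⟩ 0 0)) (.cut .s 7618560 (.pos 29 .mp ⟨3591264, 0, 0, 0, 0, 10825339, 0, 0, 0, ⟨0, 0⟩, 0⟩ 0 0) (.pos 29 .mp ⟨3712588, 0, 0, 0, 0, 10964419, 0, 0, 0, ⟨0, 0⟩, 0⟩ 0 0))) (.cut .d (-131072) (.cut .s 7651328 (.pos 29 .mp ⟨3434516, 0, 0, 0, 0, 11801153, 0, 0, 0, ⟨0, 0⟩, 0⟩ 0 0) (.pos 29 .mp ⟨3561511, 0, 0, 0,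 0, 11949264, 0, 0, 0, ⟨0, 0⟩, 0⟩ 0 0)) (.cut .s 7651328 (.pos 29 .mp ⟨3835297, 0, 0, 0, 0, 11105238, 0, 0, 0, ⟨0, 0⟩, 0⟩ 0 0) (.pos 29 .mp ⟨3959397, 0, 0, 0, 0, 11247787, 0, 0, 0, ⟨0, 0⟩, 0⟩ 0 0)))) (.pos 30 .mp ⟨15771510, 0, 0, 0, 0, 0, 0, 0, 0, ⟨0, 0⟩, 0⟩ 0 0)) (.pos 27 .mp ⟨3435975, 0, 0, 0, 0, 10920050, 0, 0, 0, ⟨0, 0⟩, 0⟩ 0 0)))) (.cut .d (-262144) (.cut .l 980822 (.void 27 ⟨0, 0, 0, 0, 0, 100000, 0, 0, 0, ⟨0, 0⟩, 0⟩ 0 0) (.cut .d (-393216) (.pos 27 .mp ⟨2662093, 0, 0, 0, 0, 16234650, 0, 0, 0, ⟨0, 0⟩, 0⟩ 0 0) (.cut .v 17039360 (.pos 29 .mp ⟨0, 0, 0, 0, 0, 17140157, 0, 0, 0, ⟨0, 0⟩, 0⟩ 0 0) (.cut .s 7733248 (.pos 30 .mp ⟨3950939, 0, 0, 0, 0, 12348276, 0,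 0, 0, ⟨0, 0⟩, 0⟩ 0 0) (.pos 30 .mp ⟨4651199, 0, 0, 0, 0, 12835761, 0, 0, 0, ⟨0, 0⟩, 0⟩ 0 0))))) (.cut .l 980822 (.cut .v 17039360 (.cut .s 7733248 (.cut .d (-131072) (.cut .s 7700480 (.pos 29 .mp ⟨3470434, 0, 0, 0, 0, 12569339, 0, 0, 0, ⟨0, 0⟩, 0⟩ 0 0) (.pos 29 .mp ⟨3727855, 0, 0, 0, 0, 12885924, 0, 0, 0, ⟨0, 0⟩, 0⟩ 0 0)) (.cut .d (-65536) (.cut .l 632372 (.cut .s 7700480 (.pos 29 .mp ⟨3858373, 0, 0, 0, 0, 11925999, 0, 0, 0, ⟨0, 0⟩, 0⟩ 0 0) (.pos 29 .mp ⟨4124278, 0, 0, 0, 0, 12212752, 0, 0, 0, ⟨0, 0⟩, 0⟩ 0 0)) (.pos 29 .mp ⟨3804426, 0, 0, 0, 0, 0, 0, 0, 0, ⟨0, 0⟩, 0⟩ 0 0)) (.pos 29 .mp ⟨4250015, 0, 0, 0, 0, 11083243, 0, 0, 0, ⟨0, 0⟩, 0⟩ 0 0))) (.cut .d (-131072)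 (.cut .s 7766016 (.pos 29 .mp ⟨3990594, 0, 0, 0, 0, 13210012, 0, 0, 0, ⟨0, 0⟩, 0⟩ 0 0) (.pos 29 .mp ⟨4259346, 0, 0, 0, 0, 13540718, 0, 0, 0, ⟨0, 0⟩, 0⟩ 0 0)) (.cut .d (-65536) (.cut .l 632372 (.cut .s 7766016 (.pos 29 .mp ⟨4395984, 0, 0, 0, 0, 12505993, 0, 0, 0, ⟨0, 0⟩, 0⟩ 0 0) (.pos 29 .mp ⟨4673538, 0, 0, 0, 0, 12805643, 0, 0, 0, ⟨0, 0⟩, 0⟩ 0 0)) (.pos 29 .mp ⟨4330549, 0, 0, 0, 0, 0, 0, 0, 0, ⟨0, 0⟩, 0⟩ 0 0)) (.pos 29 .mp ⟨4766281, 0, 0, 0, 0, 11647875, 0, 0, 0, ⟨0, 0⟩, 0⟩ 0 0)))) (.pos 30 .mp ⟨16965929, 0, 0, 0, 0, 0, 0, 0, 0, ⟨0, 0⟩, 0⟩ 0 0)) (.cut .s 7733248 (.pos 27 .mp ⟨3993075, 0, 0, 0, 0, 11424442, 0, 0, 0, ⟨0, 0⟩, 0⟩ 0 0) (.pos 27 .mp ⟨4575722, 0, 0,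 0, 0, 11953125, 0, 0, 0, ⟨0, 0⟩, 0⟩ 0 0))))) (.pos 28 .mp ⟨16162304, 0, 0, 0, 0, 0, 0, 0, 0, ⟨0, 0⟩, 0⟩ 0 0)) (.cut .v 17301504 (.cut .d (-262144) (.cut .l 980822 (.void 27 ⟨0, 0, 0, 0, 0, 100000, 0, 0, 0, ⟨0, 0⟩, 0⟩ 0 0) (.cut .d (-393216) (.void 27 ⟨0, 0, 0, 0, 0, 100000, 0, 0, 0, ⟨0, 0⟩, 0⟩ 0 0) (.cut .s 7929856 (.cut .v 17039360 (.pos 29 .mp ⟨0, 0, 0, 0, 0, 19841853, 0, 0, 0, ⟨0, 0⟩, 0⟩ 0 0) (.cut .s 7864320 (.cut .s 7831552 (.pos 30 .mp ⟨5013109, 0, 0, 0, 0, 13392335, 0, 0, 0, ⟨0, 0⟩, 0⟩ 0 0) (.pos 30 .mp ⟨5382962, 0, 0, 0, 0, 13648058, 0, 0, 0, ⟨0, 0⟩, 0⟩ 0 0)) (.pos 30 .mp ⟨6146758, 0, 0, 0, 0, 13860656, 0, 0, 0, ⟨0, 0⟩, 0⟩ 0 0))) (.cut .d (-327680) (.pos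 27 .mp ⟨5426083, 0, 0, 0, 0, 18083997, 0, 0, 0, ⟨0, 0⟩, 0⟩ 0 0) (.cut .s 7995392 (.pos 27 .mp ⟨5760045, 0, 0, 0, 0, 15704195, 0, 0, 0, ⟨0, 0⟩, 0⟩ 0 0) (.pos 27 .mp ⟨6334269, 0, 0, 0, 0, 16606509, 0, 0, 0, ⟨0, 0⟩, 0⟩ 0 0)))))) (.cut .s 7929856 (.cut .l 980822 (.cut .v 17039360 (.cut .s 7864320 (.cut .d (-131072) (.cut .s 7831552 (.pos 29 .mp ⟨4531740, 0, 0, 0, 0, 13881786, 0, 0, 0, ⟨0, 0⟩, 0⟩ 0 0) (.pos 29 .mp ⟨4804741, 0, 0, 0, 0, 14238013, 0, 0, 0, ⟨0, 0⟩, 0⟩ 0 0)) (.cut .d (-65536) (.cut .l 632372 (.cut .s 7831552 (.pos 29 .mp ⟨4956989, 0, 0, 0, 0, 13111618, 0, 0, 0, ⟨0, 0⟩, 0⟩ 0 0) (.pos 29 .mp ⟨5246388, 0, 0, 0, 0, 13423833, 0, 0, 0, ⟨0, 0⟩, 0⟩ 0 0)) (.pos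 29 .mp ⟨4879314, 0, 0, 0, 0, 0, 0, 0, 0, ⟨0, 0⟩, 0⟩ 0 0)) (.pos 29 .mp ⟨5300605, 0, 0, 0, 0, 12243503, 0, 0, 0, ⟨0, 0⟩, 0⟩ 0 0))) (.cut .d (-131072) (.cut .s 7897088 (.pos 29 .mp ⟨5085561, 0, 0, 0, 0, 14598664, 0, 0, 0, ⟨0, 0⟩, 0⟩ 0 0) (.pos 29 .mp ⟨5374888, 0, 0, 0, 0, 14962834, 0, 0, 0, ⟨0, 0⟩, 0⟩ 0 0)) (.cut .d (-65536) (.cut .l 632372 (.cut .s 7897088 (.pos 29 .mp ⟨5541783, 0, 0, 0, 0, 13742201, 0, 0, 0, ⟨0, 0⟩, 0⟩ 0 0) (.pos 29 .mp ⟨5843227, 0, 0, 0, 0, 14066632, 0, 0, 0, ⟨0, 0⟩, 0⟩ 0 0)) (.pos 29 .mp ⟨5451104, 0, 0, 0, 0, 0, 0, 0, 0, ⟨0, 0⟩, 0⟩ 0 0)) (.pos 29 .mp ⟨5853620, 0, 0, 0, 0, 12862827, 0, 0, 0, ⟨0, 0⟩, 0⟩ 0 0)))) (.pos 30 .mp ⟨19256406, 0, 0,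 0, 0, 0, 0, 0, 0, ⟨0, 0⟩, 0⟩ 0 0)) (.cut .s 7864320 (.pos 27 .mp ⟨5184339, 0, 0, 0, 0, 12503720, 0, 0, 0, ⟨0, 0⟩, 0⟩ 0 0) (.pos 27 .mp ⟨5819362, 0, 0, 0, 0, 13073865, 0, 0, 0, ⟨0, 0⟩, 0⟩ 0 0))) (.cut .l 980822 (.cut .v 17039360 (.cut .d (-131072) (.cut .d (-196608) (.pos 29 .mp ⟨5446705, 0, 0, 0, 0, 17993541, 0, 0, 0, ⟨0, 0⟩, 0⟩ 0 0) (.cut .l 632372 (.pos 29 .mp ⟨5745937, 0, 0, 0, 0, 17925289, 0, 0, 0, ⟨0, 0⟩, 0⟩ 0 0) (.cut .s 7995392 (.pos 29 .mp ⟨5355748, 0, 0, 0, 0, 15802544, 0, 0, 0, ⟨0, 0⟩, 0⟩ 0 0) (.pos 29 .mp ⟨5907591, 0, 0, 0, 0, 16652079, 0, 0, 0, ⟨0, 0⟩, 0⟩ 0 0)))) (.cut .d (-65536) (.cut .l 632372 (.cut .s 7995392 (.cut .s 7962624 (.pos 29 .mp ⟨6150771,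 0, 0, 0, 0, 14397034, 0, 0, 0, ⟨0, 0⟩, 0⟩ 0 0) (.pos 29 .mp ⟨6464469, 0, 0, 0, 0, 14733313, 0, 0, 0, ⟨0, 0⟩, 0⟩ 0 0)) (.cut .s 8028160 (.pos 29 .mp ⟨6784373, 0, 0, 0, 0, 15075372, 0, 0, 0, ⟨0, 0⟩, 0⟩ 0 0) (.pos 29 .mp ⟨7110540, 0, 0, 0, 0, 15423111, 0, 0, 0, ⟨0, 0⟩, 0⟩ 0 0))) (.pos 29 .mp ⟨6924475, 0, 0, 0, 0, 0, 0, 0, 0, ⟨0, 0⟩, 0⟩ 0 0)) (.pos 29 .mp ⟨6873268, 0, 0, 0, 0, 13085258, 0, 0, 0, ⟨0, 0⟩, 0⟩ 0 0))) (.pos 30 .mp ⟨21698131, 0, 0, 0, 0, 0, 0, 0, 0, ⟨0, 0⟩, 0⟩ 0 0)) (.cut .s 7995392 (.pos 27 .mp ⟨6481245, 0, 0, 0, 0, 13661214, 0, 0, 0, ⟨0, 0⟩, 0⟩ 0 0) (.pos 27 .mp ⟨7170454, 0, 0, 0, 0, 14263437, 0, 0, 0, ⟨0, 0⟩, 0⟩ 0 0))))) (.pos 28 .mp ⟨21072849, 0,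 0, 0, 0, 0, 0, 0, 0, ⟨0, 0⟩, 0⟩ 0 0))) (.pos 26 .mp ⟨20805307, 0, 0, 0, 0, 0, 0, 0, 0, ⟨0, 0⟩, 0⟩ 0 0))))))) (.void 24 ⟨100000, 0, 0, 0, 0, 0, 0, 0, 0, ⟨0, 0⟩, 0⟩ 0 0)) (.void 22 ⟨100000, 0, 0, 0, 0, 0, 0, 0, 0, ⟨0, 0⟩, 0⟩ 0 0)) (.void 20 ⟨100000, 0, 0, 0, 0, 0, 0, 0, 0, ⟨0, 0⟩, 0⟩ 0 0)) (.void 59 ⟨100000, 0, 0, 0, 0, 0, 0, 0, 0, ⟨0, 0⟩, 0⟩ 0 0))) (.cut .v 16777216 (.cut .v 8388608 (.cut .v 4194304 (.void 4 ⟨0, 0, 50000, 0, 50000, 0, 0, 0, 0, ⟨0, 0⟩, 0⟩ 0 0) (.pos 5 .pm ⟨0, 0, 0, 0, 0, 0, 0, 0, 0, ⟨0, 0⟩, 0⟩ 0 0)) (.pos 3 .pm ⟨0, 0, 0, 0, 0, 0, 0, 0, 0, ⟨0, 0⟩, 0⟩ 0 0)) (.cut .d 10285164 (.cut .v 33554432 (.cut .v 25165824 (.cut .v 20971520 (.pos 21 .pp ⟨8217726,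 0, 0, 0, 0, 0, 0, 0, 0, ⟨0, 0⟩, 0⟩ 0 0) (.pos 22 .pp ⟨16955073, 0, 0, 0, 0, 0, 0, 0, 0, ⟨0, 0⟩, 0⟩ 0 0)) (.pos 20 .pp ⟨20324205, 0, 0, 0, 0, 0, 813230, 0, 0, ⟨0, 0⟩, 0⟩ 0 0)) (.cut .v 50331648 (.cut .d 5142582 (.pos 62 .pp ⟨60747192, 0, 0, 0, 0, 0, 693534, 0, 0, ⟨0, 0⟩, 0⟩ 0 0) (.pos 62 .pp ⟨0, 0, 0, 0, 0, 0, 2253722, 0, 0, ⟨0, 0⟩, 0⟩ 0 0)) (.void 63 ⟨0, 0, 0, 0, 0, 0, 100000, 0, 0, ⟨0, 0⟩, 0⟩ 0 0))) (.pos 58 .pp ⟨0, 0, 0, 0, 0, 0, 2253722, 0, 0, ⟨0, 0⟩, 0⟩ 0 0)))),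
    by decide +kernel⟩

def covers9 : cell.Covers table row9.1 :=
  ⟨(.cut .d 0 (.cut .v 16777216 (.cut .d (-8388608) (.void 1 ⟨0, 0, 0, 0, 0, 100000, 0, 0, 0, ⟨0, 0⟩, 0⟩ 0 0) (.cut .d (-4194304) (.void 1 ⟨0, 0, 0, 0, 0, 100000, 0, 0, 0, ⟨0, 0⟩, 0⟩ 0 0) (.cut .d (-2097152) (.void 1 ⟨0, 0, 0, 0, 0, 100000, 0, 0, 0, ⟨0, 0⟩, 0⟩ 0 0) (.cut .d (-1048576) (.void 1 ⟨0, 0, 0, 0, 0, 100000, 0, 0, 0, ⟨0, 0⟩, 0⟩ 0 0) (.cut .d (-524288) (.void 1 ⟨0, 0, 0, 0, 0, 100000, 0, 0, 0, ⟨0, 0⟩, 0⟩ 0 0) (.cut .v 8388608 (.cut .v 4194304 (.void 4 ⟨0, 0, 100000, 0, 0, 0, 0, 0, 0, ⟨0, 0⟩, 0⟩ 0 0) (.pos 5 .mm ⟨0, 0, 0, 0, 0, 13947089, 0, 0, 0, ⟨0, 0⟩, 0⟩ 0 0)) (.cut .v 12582912 (.pos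 6 .mm ⟨0, 0, 0, 0, 0, 18009920, 0, 0, 0, ⟨0, 0⟩, 0⟩ 0 0) (.cut .v 14680064 (.pos 10 .mm ⟨0, 0, 0, 0, 0, 23535060, 0, 0, 0, ⟨0, 0⟩, 0⟩ 0 0) (.cut .v 15728640 (.pos 12 .mm ⟨0, 0, 0, 0, 0, 27007407, 0, 0, 0, ⟨0, 0⟩, 0⟩ 0 0) (.cut .s 8323072 (.cut .s 8192000 (.pos 13 .mm ⟨0, 0, 0, 0, 0, 24848902, 0, 0, 0, ⟨0, 0⟩, 0⟩ 0 0) (.pos 13 .mm ⟨0, 0, 0, 0, 0, 28091607, 0, 0, 0, ⟨0, 0⟩, 0⟩ 0 0)) (.cut .s 8454144 (.pos 13 .mm ⟨0, 0, 0, 0, 0, 31630824, 0, 0, 0, ⟨0, 0⟩, 0⟩ 0 0) (.pos 13 .mm ⟨0, 0, 0, 0, 0, 35459097, 0, 0, 0, ⟨0, 0⟩, 0⟩ 0 0)))))))))))) (.cut .v 33554432 (.cut .v 25165824 (.cut .v 20971520 (.cut .d (-8388608) (.void 21 ⟨0, 0, 0, 0, 0, 100000, 0, 0, 0, ⟨0, 0⟩, 0⟩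 0 0) (.cut .v 18874368 (.cut .d (-4194304) (.void 23 ⟨0, 0, 0, 0, 0, 100000, 0, 0, 0, ⟨0, 0⟩, 0⟩ 0 0) (.cut .d (-2097152) (.void 23 ⟨0, 0, 0, 0, 0, 100000, 0, 0, 0, ⟨0, 0⟩, 0⟩ 0 0) (.cut .d (-1048576) (.void 23 ⟨0, 0, 0, 0, 0, 100000, 0, 0, 0, ⟨0, 0⟩, 0⟩ 0 0) (.cut .d (-524288) (.void 23 ⟨0, 0, 0, 0, 0, 100000, 0, 0, 0, ⟨0, 0⟩, 0⟩ 0 0) (.cut .v 17825792 (.cut .d (-262144) (.cut .v 17301504 (.cut .l 980822 (.void 27 ⟨0, 0, 0, 0, 0, 100000, 0, 0, 0, ⟨0, 0⟩, 0⟩ 0 0) (.cut .d (-393216) (.void 27 ⟨0, 0, 0, 0, 0, 100000, 0, 0, 0, ⟨0, 0⟩, 0⟩ 0 0) (.cut .s 8323072 (.cut .s 8192000 (.cut .s 8126464 (.pos 27 .mp ⟨6282199, 0, 0, 0, 0, 18703636, 0, 0, 0, ⟨0, 0⟩, 0⟩ 0 0)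 (.cut .s 8159232 (.pos 27 .mp ⟨6950305, 0, 0, 0, 0, 18979941, 0, 0, 0, ⟨0, 0⟩, 0⟩ 0 0) (.pos 27 .mp ⟨7295268, 0, 0, 0, 0, 19426440, 0, 0, 0, ⟨0, 0⟩, 0⟩ 0 0))) (.cut .l 1329272 (.pos 27 .mp ⟨8415035, 0, 0, 0, 0, 22092905, 0, 0, 0, ⟨0, 0⟩, 0⟩ 0 0) (.cut .s 8257536 (.pos 27 .mp ⟨7647590, 0, 0, 0, 0, 20335968, 0, 0, 0, ⟨0, 0⟩, 0⟩ 0 0) (.pos 27 .mp ⟨8374578, 0, 0, 0, 0, 21345805, 0, 0, 0, ⟨0, 0⟩, 0⟩ 0 0)))) (.cut .d (-327680) (.pos 27 .mp ⟨9823368, 0, 0, 0, 0, 29076188, 0, 0, 0, ⟨0, 0⟩, 0⟩ 0 0) (.cut .l 1329272 (.pos 27 .mp ⟨9689524, 0, 0, 0, 0, 33904327, 0, 0, 0, ⟨0, 0⟩, 0⟩ 0 0) (.cut .v 17039360 (.pos 29 .mp ⟨0, 0, 0, 0, 0, 34405353, 0, 0, 0, ⟨0, 0⟩, 0⟩ 0 0) (.cut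 .v 17170432 (.cut .s 8454144 (.cut .s 8388608 (.pos 31 .mp ⟨9238814, 0, 0, 0, 0, 21595987, 0, 0, 0, ⟨0, 0⟩, 0⟩ 0 0) (.pos 31 .mp ⟨9944730, 0, 0, 0, 0, 22740043, 0, 0, 0, ⟨0, 0⟩, 0⟩ 0 0)) (.cut .s 8519680 (.pos 31 .mp ⟨10779444, 0, 0, 0, 0, 23795120, 0, 0, 0, ⟨0, 0⟩, 0⟩ 0 0) (.pos 31 .mp ⟨11646623, 0, 0, 0, 0, 24884496, 0, 0, 0, ⟨0, 0⟩, 0⟩ 0 0))) (.pos 32 .mp ⟨31196217, 0, 0, 0, 0, 0, 0, 0, 0, ⟨0, 0⟩, 0⟩ 0 0)))))))) (.pos 28 .mp ⟨34494090, 0, 0, 0, 0, 0, 0, 0, 0, ⟨0, 0⟩, 0⟩ 0 0)) (.cut .s 8323072 (.cut .v 17301504 (.cut .s 8192000 (.cut .s 8126464 (.cut .l 980822 (.cut .v 17039360 (.cut .d (-131072) (.cut .s 8093696 (.pos 29 .mp ⟨6792780, 0, 0, 0, 0, 17099457,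 0, 0, 0, ⟨0, 0⟩, 0⟩ 0 0) (.pos 29 .mp ⟨7081372, 0, 0, 0, 0, 17540144, 0, 0, 0, ⟨0, 0⟩, 0⟩ 0 0)) (.cut .d (-65536) (.cut .s 8093696 (.pos 29 .mp ⟨7443840, 0, 0, 0, 0, 15722390, 0, 0, 0, ⟨0, 0⟩, 0⟩ 0 0) (.cut .s 8110080 (.pos 29 .mp ⟨7613125, 0, 0, 0, 0, 16160089, 0, 0, 0, ⟨0, 0⟩, 0⟩ 0 0) (.pos 29 .mp ⟨7784155, 0, 0, 0, 0, 16335466, 0, 0, 0, ⟨0, 0⟩, 0⟩ 0 0))) (.pos 29 .mp ⟨7804403, 0, 0, 0, 0, 14723677, 0, 0, 0, ⟨0, 0⟩, 0⟩ 0 0))) (.pos 30 .mp ⟨24107939, 0, 0, 0, 0, 0, 0, 0, 0, ⟨0, 0⟩, 0⟩ 0 0)) (.pos 27 .mp ⟨7892796, 0, 0, 0, 0, 14945541, 0, 0, 0, ⟨0, 0⟩, 0⟩ 0 0)) (.cut .l 980822 (.cut .v 17039360 (.cut .d (-131072) (.cut .s 8159232 (.pos 29 .mp ⟨7376034, 0, 0,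 0, 0, 17992125, 0, 0, 0, ⟨0, 0⟩, 0⟩ 0 0) (.pos 29 .mp ⟨7676819, 0, 0, 0, 0, 18455555, 0, 0, 0, ⟨0, 0⟩, 0⟩ 0 0)) (.cut .d (-65536) (.cut .l 632372 (.cut .s 8159232 (.pos 29 .mp ⟨8131479, 0, 0, 0, 0, 16496519, 0, 0, 0, ⟨0, 0⟩, 0⟩ 0 0) (.pos 29 .mp ⟨8485876, 0, 0, 0, 0, 16861163, 0, 0, 0, ⟨0, 0⟩, 0⟩ 0 0)) (.pos 29 .mp ⟨7905453, 0, 0, 0, 0, 15997298, 0, 0, 0, ⟨0, 0⟩, 0⟩ 0 0)) (.pos 29 .mp ⟨8417564, 0, 0, 0, 0, 15489125, 0, 0, 0, ⟨0, 0⟩, 0⟩ 0 0))) (.pos 30 .mp ⟨25462700, 0, 0, 0, 0, 0, 0, 0, 0, ⟨0, 0⟩, 0⟩ 0 0)) (.cut .s 8159232 (.pos 27 .mp ⟨8265674, 0, 0, 0, 0, 15868691, 0, 0, 0, ⟨0, 0⟩, 0⟩ 0 0) (.pos 27 .mp ⟨8646525, 0, 0, 0, 0, 16207495, 0, 0, 0, ⟨0, 0⟩, 0⟩ 0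 0)))) (.cut .s 8257536 (.cut .l 980822 (.cut .v 17039360 (.cut .d (-131072) (.cut .s 8224768 (.pos 29 .mp ⟨7983781, 0, 0, 0, 0, 18930589, 0, 0, 0, ⟨0, 0⟩, 0⟩ 0 0) (.pos 29 .mp ⟨8296976, 0, 0, 0, 0, 19417387, 0, 0, 0, ⟨0, 0⟩, 0⟩ 0 0)) (.cut .d (-65536) (.cut .l 632372 (.cut .d (-98304) (.pos 29 .mp ⟨8199611, 0, 0, 0, 0, 19371801, 0, 0, 0, ⟨0, 0⟩, 0⟩ 0 0) (.cut .s 8224768 (.pos 29 .mp ⟨8546082, 0, 0, 0, 0, 17582183, 0, 0, 0, ⟨0, 0⟩, 0⟩ 0 0) (.pos 29 .mp ⟨8901101, 0, 0, 0, 0, 17978938, 0, 0, 0, ⟨0, 0⟩, 0⟩ 0 0))) (.pos 29 .mp ⟨8624575, 0, 0, 0, 0, 16719089, 0, 0, 0, ⟨0, 0⟩, 0⟩ 0 0)) (.pos 29 .mp ⟨9055233, 0, 0, 0, 0, 16297200, 0, 0, 0, ⟨0, 0⟩, 0⟩ 0 0))) (.pos 30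 .mp ⟨26877217, 0, 0, 0, 0, 0, 0, 0, 0, ⟨0, 0⟩, 0⟩ 0 0)) (.cut .s 8224768 (.pos 27 .mp ⟨9035420, 0, 0, 0, 0, 16554901, 0, 0, 0, ⟨0, 0⟩, 0⟩ 0 0) (.pos 27 .mp ⟨9432431, 0, 0, 0, 0, 16910516, 0, 0, 0, ⟨0, 0⟩, 0⟩ 0 0))) (.cut .v 17039360 (.cut .l 980822 (.cut .d (-131072) (.cut .s 8290304 (.pos 29 .mp ⟨8616462, 0, 0, 0, 0, 19916110, 0, 0, 0, ⟨0, 0⟩, 0⟩ 0 0) (.pos 29 .mp ⟨8942294, 0, 0, 0, 0, 20426921, 0, 0, 0, ⟨0, 0⟩, 0⟩ 0 0)) (.cut .l 632372 (.cut .v 16908288 (.cut .d (-65536) (.cut .s 8290304 (.pos 60 .mp ⟨8602954, 0, 0, 0, 0, 19334598, 0, 0, 0, ⟨0, 0⟩, 0⟩ 0 0) (.pos 60 .mp ⟨8931371, 0, 0, 0, 0, 19815501, 0, 0, 0, ⟨0, 0⟩, 0⟩ 0 0)) (.pos 60 .mp ⟨9553957, 0, 0, 0,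 0, 17326051, 0, 0, 0, ⟨0, 0⟩, 0⟩ 0 0)) (.pos 61 .mp ⟨17394500, 0, 0, 0, 0, 9908059, 0, 0, 0, ⟨0, 0⟩, 0⟩ 0 0)) (.pos 29 .mp ⟨9370069, 0, 0, 0, 0, 17435039, 0, 0, 0, ⟨0, 0⟩, 0⟩ 0 0))) (.cut .s 8290304 (.pos 29 .mp ⟨7125083, 0, 0, 0, 0, 20555794, 0, 0, 0, ⟨0, 0⟩, 0⟩ 0 0) (.pos 29 .mp ⟨7405507, 0, 0, 0, 0, 21098340, 0, 0, 0, ⟨0, 0⟩, 0⟩ 0 0))) (.cut .s 8290304 (.pos 30 .mp ⟨12918842, 0, 0, 0, 0, 14698521, 0, 0, 0, ⟨0, 0⟩, 0⟩ 0 0) (.pos 30 .mp ⟨13345123, 0, 0, 0, 0, 15065585, 0, 0, 0, ⟨0, 0⟩, 0⟩ 0 0))))) (.pos 28 .mp ⟨24695021, 0, 0, 0, 0, 0, 0, 0, 0, ⟨0, 0⟩, 0⟩ 0 0)) (.cut .v 17301504 (.cut .s 8454144 (.cut .s 8388608 (.cut .v 17039360 (.cut .d (-131072) (.cut .l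 980822 (.cut .s 8355840 (.pos 29 .mp ⟨9274533, 0, 0, 0, 0, 20949984, 0, 0, 0, ⟨0, 0⟩, 0⟩ 0 0) (.pos 29 .mp ⟨9613237, 0, 0, 0, 0, 21485468, 0, 0, 0, ⟨0, 0⟩, 0⟩ 0 0)) (.pos 29 .mp ⟨7709031, 0, 0, 0, 0, 22464961, 0, 0, 0, ⟨0, 0⟩, 0⟩ 0 0)) (.cut .l 980822 (.cut .l 632372 (.cut .v 16908288 (.cut .d (-65536) (.cut .s 8355840 (.pos 60 .mp ⟨9268834, 0, 0, 0, 0, 20303441, 0, 0, 0, ⟨0, 0⟩, 0⟩ 0 0) (.pos 60 .mp ⟨9616073, 0, 0, 0, 0, 20797371, 0, 0, 0, ⟨0, 0⟩, 0⟩ 0 0)) (.cut .s 8355840 (.pos 60 .mp ⟨9802551, 0, 0, 0, 0, 18612996, 0, 0, 0, ⟨0, 0⟩, 0⟩ 0 0) (.pos 60 .mp ⟨10158535, 0, 0, 0, 0, 19060441, 0, 0, 0, ⟨0, 0⟩, 0⟩ 0 0))) (.pos 61 .mp ⟨18442225, 0, 0, 0, 0, 10408806,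 0, 0, 0, ⟨0, 0⟩, 0⟩ 0 0)) (.pos 29 .mp ⟨10139544, 0, 0, 0, 0, 18228072, 0, 0, 0, ⟨0, 0⟩, 0⟩ 0 0)) (.pos 29 .mp ⟨0, 0, 0, 0, 0, 0, 0, 0, 0, ⟨0, 0⟩, 0⟩ 0 0))) (.cut .s 8355840 (.pos 30 .mp ⟨13784841, 0, 0, 0, 0, 15435203, 0, 0, 0, ⟨0, 0⟩, 0⟩ 0 0) (.pos 30 .mp ⟨14239924, 0, 0, 0, 0, 15805088, 0, 0, 0, ⟨0, 0⟩, 0⟩ 0 0))) (.cut .v 17039360 (.cut .d (-131072) (.cut .l 980822 (.cut .s 8421376 (.pos 29 .mp ⟨9958468, 0, 0, 0, 0, 22033542, 0, 0, 0, ⟨0, 0⟩, 0⟩ 0 0) (.pos 29 .mp ⟨10310286, 0, 0, 0, 0, 22594378, 0, 0, 0, ⟨0, 0⟩, 0⟩ 0 0)) (.pos 29 .mp ⟨8176575, 0, 0, 0, 0, 23790499, 0, 0, 0, ⟨0, 0⟩, 0⟩ 0 0)) (.cut .l 980822 (.cut .l 632372 (.cut .v 16908288 (.cut .d (-65536)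 (.cut .s 8421376 (.pos 60 .mp ⟨9973818, 0, 0, 0, 0, 21296235, 0, 0, 0, ⟨0, 0⟩, 0⟩ 0 0) (.pos 60 .mp ⟨10342794, 0, 0, 0, 0, 21798973, 0, 0, 0, ⟨0, 0⟩, 0⟩ 0 0)) (.cut .s 8421376 (.pos 60 .mp ⟨10521119, 0, 0, 0, 0, 19516235, 0, 0, 0, ⟨0, 0⟩, 0⟩ 0 0) (.pos 60 .mp ⟨10890364, 0, 0, 0, 0, 19980033, 0, 0, 0, ⟨0, 0⟩, 0⟩ 0 0))) (.pos 61 .mp ⟨19569028, 0, 0, 0, 0, 10886398, 0, 0, 0, ⟨0, 0⟩, 0⟩ 0 0)) (.pos 29 .mp ⟨10934892, 0, 0, 0, 0, 19056304, 0, 0, 0, ⟨0, 0⟩, 0⟩ 0 0)) (.pos 29 .mp ⟨0, 0, 0, 0, 0, 0, 0, 0, 0, ⟨0, 0⟩, 0⟩ 0 0))) (.cut .s 8421376 (.pos 30 .mp ⟨14712313, 0, 0, 0, 0, 16172915, 0, 0, 0, ⟨0, 0⟩, 0⟩ 0 0) (.pos 30 .mp ⟨15203963, 0, 0, 0, 0, 16536317, 0, 0, 0,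 ⟨0, 0⟩, 0⟩ 0 0)))) (.cut .s 8519680 (.cut .v 17039360 (.cut .d (-131072) (.cut .l 980822 (.cut .s 8486912 (.pos 29 .mp ⟨10475544, 0, 0, 0, 0, 23477216, 0, 0, 0, ⟨0, 0⟩, 0⟩ 0 0) (.pos 29 .mp ⟨10851527, 0, 0, 0, 0, 24047627, 0, 0, 0, ⟨0, 0⟩, 0⟩ 0 0)) (.pos 29 .mp ⟨8726555, 0, 0, 0, 0, 25097659, 0, 0, 0, ⟨0, 0⟩, 0⟩ 0 0)) (.cut .l 980822 (.cut .l 632372 (.cut .v 16908288 (.cut .d (-65536) (.cut .s 8486912 (.pos 60 .mp ⟨10723729, 0, 0, 0, 0, 22304515, 0, 0, 0, ⟨0, 0⟩, 0⟩ 0 0) (.pos 60 .mp ⟨11117348, 0, 0, 0, 0, 22811787, 0, 0, 0, ⟨0, 0⟩, 0⟩ 0 0)) (.cut .s 8486912 (.pos 60 .mp ⟨11266336, 0, 0, 0, 0, 20451490, 0, 0, 0, ⟨0, 0⟩, 0⟩ 0 0) (.pos 60 .mp ⟨11649099, 0, 0,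 0, 0, 20930264, 0, 0, 0, ⟨0, 0⟩, 0⟩ 0 0))) (.pos 61 .mp ⟨20790525, 0, 0, 0, 0, 11321612, 0, 0, 0, ⟨0, 0⟩, 0⟩ 0 0)) (.pos 29 .mp ⟨11756687, 0, 0, 0, 0, 19916859, 0, 0, 0, ⟨0, 0⟩, 0⟩ 0 0)) (.pos 29 .mp ⟨0, 0, 0, 0, 0, 0, 0, 0, 0, ⟨0, 0⟩, 0⟩ 0 0))) (.cut .s 8486912 (.pos 30 .mp ⟨15716839, 0, 0, 0, 0, 16892892, 0, 0, 0, ⟨0, 0⟩, 0⟩ 0 0) (.pos 30 .mp ⟨16252924, 0, 0, 0, 0, 17240191, 0, 0, 0, ⟨0, 0⟩, 0⟩ 0 0))) (.cut .v 17039360 (.cut .d (-131072) (.cut .l 980822 (.pos 29 .mp ⟨11234446, 0, 0, 0, 0, 25323447, 0, 0, 0, ⟨0, 0⟩, 0⟩ 0 0) (.pos 29 .mp ⟨9374795, 0, 0, 0, 0, 26366921, 0, 0, 0, ⟨0, 0⟩, 0⟩ 0 0)) (.cut .l 980822 (.cut .l 632372 (.cut .v 16908288 (.cut .d (-65536)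 (.cut .s 8552448 (.pos 60 .mp ⟨11524374, 0, 0, 0, 0, 23319704, 0, 0, 0, ⟨0, 0⟩, 0⟩ 0 0) (.pos 60 .mp ⟨11945532, 0, 0, 0, 0, 23827176, 0, 0, 0, ⟨0, 0⟩, 0⟩ 0 0)) (.cut .s 8552448 (.pos 60 .mp ⟨12038720, 0, 0, 0, 0, 21416012, 0, 0, 0, ⟨0, 0⟩, 0⟩ 0 0) (.pos 60 .mp ⟨12435267, 0, 0, 0, 0, 21908391, 0, 0, 0, ⟨0, 0⟩, 0⟩ 0 0))) (.pos 61 .mp ⟨22122608, 0, 0, 0, 0, 11694505, 0, 0, 0, ⟨0, 0⟩, 0⟩ 0 0)) (.pos 29 .mp ⟨12605516, 0, 0, 0, 0, 20806880, 0, 0, 0, ⟨0, 0⟩, 0⟩ 0 0)) (.pos 29 .mp ⟨0, 0, 0, 0, 0, 0, 0, 0, 0, ⟨0, 0⟩, 0⟩ 0 0))) (.cut .s 8552448 (.pos 30 .mp ⟨16814212, 0, 0, 0, 0, 17575728, 0, 0, 0, ⟨0, 0⟩, 0⟩ 0 0) (.pos 30 .mp ⟨17402713, 0, 0, 0, 0, 17896971, 0, 0, 0,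 ⟨0, 0⟩, 0⟩ 0 0))))) (.pos 28 .mp ⟨30704370, 0, 0, 0, 0, 0, 0, 0, 0, ⟨0, 0⟩, 0⟩ 0 0)))) (.pos 26 .mp ⟨33354243, 0, 0, 0, 0, 0, 0, 0, 0, ⟨0, 0⟩, 0⟩ 0 0)))))) (.void 24 ⟨100000, 0, 0, 0, 0, 0, 0, 0, 0, ⟨0, 0⟩, 0⟩ 0 0))) (.void 22 ⟨100000, 0, 0, 0, 0, 0, 0, 0, 0, ⟨0, 0⟩, 0⟩ 0 0)) (.void 20 ⟨100000, 0, 0, 0, 0, 0, 0, 0, 0, ⟨0, 0⟩, 0⟩ 0 0)) (.void 59 ⟨100000, 0, 0, 0, 0, 0, 0, 0, 0, ⟨0, 0⟩, 0⟩ 0 0))) (.cut .v 16777216 (.cut .v 8388608 (.cut .v 4194304 (.void 4 ⟨0, 0, 50000, 0, 50000, 0, 0, 0, 0, ⟨0, 0⟩, 0⟩ 0 0) (.pos 5 .pm ⟨0, 0, 0, 0, 0, 0, 0, 0, 0, ⟨0, 0⟩, 0⟩ 0 0)) (.pos 3 .pm ⟨0, 0, 0, 0, 0, 0, 0, 0, 0, ⟨0, 0⟩, 0⟩ 0 0)) (.cut .d 9070610 (.cut .v 33554432 (.cut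 .v 25165824 (.cut .v 20971520 (.pos 21 .pp ⟨13369914, 0, 0, 0, 0, 0, 0, 0, 0, ⟨0, 0⟩, 0⟩ 0 0) (.pos 22 .pp ⟨23106304, 0, 0, 0, 0, 0, 0, 0, 0, ⟨0, 0⟩, 0⟩ 0 0)) (.pos 20 .pp ⟨33085056, 0, 0, 0, 0, 0, 1790324, 0, 0, ⟨0, 0⟩, 0⟩ 0 0)) (.cut .d 4535305 (.cut .d 2267652 (.pos 59 .pp ⟨272058341, 0, 0, 0, 0, 0, 0, 0, 0, ⟨0, 0⟩, 0⟩ 0 0) (.pos 59 .pp ⟨82667475, 0, 0, 0, 0, 0, 3210567, 0, 0, ⟨0, 0⟩, 0⟩ 0 0)) (.pos 59 .pp ⟨0, 0, 0, 0, 0, 0, 2960351, 0, 0, ⟨0, 0⟩, 0⟩ 0 0))) (.pos 58 .pp ⟨0, 0, 0, 0, 0, 0, 2960351, 0, 0, ⟨0, 0⟩, 0⟩ 0 0)))),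
    by decide +kernel⟩

def covers10 : cell.Covers table row10.1 :=
  ⟨(.cut .d 0 (.cut .v 16777216 (.cut .d (-8388608) (.void 1 ⟨0, 0, 0, 0, 0, 100000, 0, 0, 0, ⟨0, 0⟩, 0⟩ 0 0) (.cut .d (-4194304) (.void 1 ⟨0, 0, 0, 0, 0, 100000, 0, 0, 0, ⟨0, 0⟩, 0⟩ 0 0) (.cut .d (-2097152) (.void 1 ⟨0, 0, 0, 0, 0, 100000, 0, 0, 0, ⟨0, 0⟩, 0⟩ 0 0) (.cut .d (-1048576) (.void 1 ⟨0, 0, 0, 0, 0, 100000, 0, 0, 0, ⟨0, 0⟩, 0⟩ 0 0) (.cut .d (-524288) (.void 1 ⟨0, 0, 0, 0, 0, 100000, 0, 0, 0, ⟨0, 0⟩, 0⟩ 0 0) (.cut .v 8388608 (.cut .v 4194304 (.void 4 ⟨0, 0, 100000, 0, 0, 0, 0, 0, 0, ⟨0, 0⟩, 0⟩ 0 0) (.pos 5 .mm ⟨0, 0, 0, 0, 0, 18901564, 0, 0, 0, ⟨0, 0⟩, 0⟩ 0 0)) (.cut .d (-262144) (.pos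 3 .mm ⟨0, 0, 0, 0, 0, 52916260, 0, 0, 0, ⟨0, 0⟩, 0⟩ 0 0) (.cut .v 12582912 (.pos 6 .mm ⟨0, 0, 0, 0, 0, 23158456, 0, 0, 0, ⟨0, 0⟩, 0⟩ 0 0) (.cut .v 14680064 (.pos 10 .mm ⟨0, 0, 0, 0, 0, 32234884, 0, 0, 0, ⟨0, 0⟩, 0⟩ 0 0) (.cut .v 15728640 (.pos 12 .mm ⟨0, 0, 0, 0, 0, 38666991, 0, 0, 0, ⟨0, 0⟩, 0⟩ 0 0) (.cut .v 16252928 (.pos 14 .mm ⟨0, 0, 0, 0, 0, 41487137, 0, 0, 0, ⟨0, 0⟩, 0⟩ 0 0) (.cut .s 8814592 (.cut .s 8699904 (.pos 15 .mm ⟨0, 0, 0, 0, 0, 38464638, 0, 0, 0, ⟨0, 0⟩, 0⟩ 0 0) (.pos 15 .mm ⟨0, 0, 0, 0, 0, 42319224, 0, 0, 0, ⟨0, 0⟩, 0⟩ 0 0)) (.cut .s 8929280 (.pos 15 .mm ⟨0, 0, 0, 0, 0, 46470206, 0, 0, 0, ⟨0, 0⟩, 0⟩ 0 0) (.pos 15 .mm ⟨0, 0, 0, 0, 0, 50906379,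 0, 0, 0, ⟨0, 0⟩, 0⟩ 0 0)))))))))))))) (.cut .v 67108864 (.cut .v 33554432 (.cut .v 25165824 (.cut .v 20971520 (.cut .d (-8388608) (.void 21 ⟨0, 0, 0, 0, 0, 100000, 0, 0, 0, ⟨0, 0⟩, 0⟩ 0 0) (.cut .v 18874368 (.cut .d (-4194304) (.void 23 ⟨0, 0, 0, 0, 0, 100000, 0, 0, 0, ⟨0, 0⟩, 0⟩ 0 0) (.cut .d (-2097152) (.void 23 ⟨0, 0, 0, 0, 0, 100000, 0, 0, 0, ⟨0, 0⟩, 0⟩ 0 0) (.cut .d (-1048576) (.void 23 ⟨0, 0, 0, 0, 0, 100000, 0, 0, 0, ⟨0, 0⟩, 0⟩ 0 0) (.cut .d (-524288) (.void 23 ⟨0, 0, 0, 0, 0, 100000, 0, 0, 0, ⟨0, 0⟩, 0⟩ 0 0) (.cut .v 17825792 (.cut .d (-262144) (.cut .v 17301504 (.cut .d (-393216) (.void 27 ⟨0, 0, 0, 0, 0, 100000, 0, 0, 0, ⟨0, 0⟩, 0⟩ 0 0) (.cut .l 980822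 (.void 27 ⟨0, 0, 0, 0, 0, 100000, 0, 0, 0, ⟨0, 0⟩, 0⟩ 0 0) (.cut .d (-327680) (.void 27 ⟨0, 0, 0, 0, 0, 100000, 0, 0, 0, ⟨0, 0⟩, 0⟩ 0 0) (.cut .l 1329272 (.void 27 ⟨0, 0, 0, 0, 0, 100000, 0, 0, 0, ⟨0, 0⟩, 0⟩ 0 0) (.cut .s 8814592 (.cut .d (-294912) (.pos 27 .mp ⟨13182160, 0, 0, 0, 0, 32556971, 0, 0, 0, ⟨0, 0⟩, 0⟩ 0 0) (.cut .v 17039360 (.pos 29 .mp ⟨0, 0, 0, 0, 0, 43680766, 0, 0, 0, ⟨0, 0⟩, 0⟩ 0 0) (.cut .s 8699904 (.pos 30 .mp ⟨15565442, 0, 0, 0, 0, 22662526, 0, 0, 0, ⟨0, 0⟩, 0⟩ 0 0) (.pos 30 .mp ⟨17550874, 0, 0, 0, 0, 24421645, 0, 0, 0, ⟨0, 0⟩, 0⟩ 0 0)))) (.cut .s 8929280 (.cut .s 8871936 (.pos 27 .mp ⟨15926521, 0, 0, 0, 0, 31150691, 0, 0, 0, ⟨0, 0⟩, 0⟩ 0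 0) (.pos 27 .mp ⟨16875729, 0, 0, 0, 0, 32341159, 0, 0, 0, ⟨0, 0⟩, 0⟩ 0 0)) (.pos 27 .mp ⟨17839801, 0, 0, 0, 0, 35793564, 0, 0, 0, ⟨0, 0⟩, 0⟩ 0 0))))))) (.pos 28 .mp ⟨50997457, 0, 0, 0, 0, 0, 0, 0, 0, ⟨0, 0⟩, 0⟩ 0 0)) (.cut .s 8814592 (.cut .v 17301504 (.cut .s 8699904 (.cut .s 8642560 (.cut .v 17039360 (.cut .d (-131072) (.cut .s 8613888 (.pos 29 .mp ⟨11634648, 0, 0, 0, 0, 25730036, 0, 0, 0, ⟨0, 0⟩, 0⟩ 0 0) (.pos 29 .mp ⟨11918155, 0, 0, 0, 0, 26323227, 0, 0, 0, ⟨0, 0⟩, 0⟩ 0 0)) (.cut .l 980822 (.cut .l 632372 (.cut .v 16908288 (.cut .d (-65536) (.pos 60 .mp ⟨11771908, 0, 0, 0, 0, 25693456, 0, 0, 0, ⟨0, 0⟩, 0⟩ 0 0) (.cut .s 8613888 (.pos 60 .mp ⟨12788294, 0,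 0, 0, 0, 22484334, 0, 0, 0, ⟨0, 0⟩, 0⟩ 0 0) (.pos 60 .mp ⟨13147543, 0, 0, 0, 0, 22933647, 0, 0, 0, ⟨0, 0⟩, 0⟩ 0 0))) (.pos 61 .mp ⟨22020259, 0, 0, 0, 0, 13654409, 0, 0, 0, ⟨0, 0⟩, 0⟩ 0 0)) (.pos 29 .mp ⟨13459239, 0, 0, 0, 0, 21812601, 0, 0, 0, ⟨0, 0⟩, 0⟩ 0 0)) (.pos 29 .mp ⟨0, 0, 0, 0, 0, 0, 0, 0, 0, ⟨0, 0⟩, 0⟩ 0 0))) (.cut .s 8613888 (.pos 30 .mp ⟨17707252, 0, 0, 0, 0, 18516875, 0, 0, 0, ⟨0, 0⟩, 0⟩ 0 0) (.pos 30 .mp ⟨18113120, 0, 0, 0, 0, 18935811, 0, 0, 0, ⟨0, 0⟩, 0⟩ 0 0))) (.cut .v 17039360 (.cut .d (-131072) (.cut .l 980822 (.pos 29 .mp ⟨12737836, 0, 0, 0, 0, 27489564, 0, 0, 0, ⟨0, 0⟩, 0⟩ 0 0) (.pos 29 .mp ⟨10421150, 0, 0, 0, 0, 29124275, 0, 0, 0, ⟨0, 0⟩,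 0⟩ 0 0)) (.cut .l 980822 (.cut .l 632372 (.cut .v 16908288 (.cut .d (-65536) (.pos 60 .mp ⟨12427547, 0, 0, 0, 0, 26783396, 0, 0, 0, ⟨0, 0⟩, 0⟩ 0 0) (.cut .s 8671232 (.pos 60 .mp ⟨13512469, 0, 0, 0, 0, 23393864, 0, 0, 0, ⟨0, 0⟩, 0⟩ 0 0) (.pos 60 .mp ⟨13883122, 0, 0, 0, 0, 23864687, 0, 0, 0, ⟨0, 0⟩, 0⟩ 0 0))) (.pos 61 .mp ⟨22974611, 0, 0, 0, 0, 14317658, 0, 0, 0, ⟨0, 0⟩, 0⟩ 0 0)) (.pos 29 .mp ⟨14231894, 0, 0, 0, 0, 22689976, 0, 0, 0, ⟨0, 0⟩, 0⟩ 0 0)) (.pos 29 .mp ⟨0, 0, 0, 0, 0, 0, 0, 0, 0, ⟨0, 0⟩, 0⟩ 0 0))) (.cut .s 8671232 (.pos 30 .mp ⟨18526104, 0, 0, 0, 0, 19364965, 0, 0, 0, ⟨0, 0⟩, 0⟩ 0 0) (.pos 30 .mp ⟨18947918, 0, 0, 0, 0, 19802304, 0, 0, 0, ⟨0, 0⟩, 0⟩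 0 0)))) (.cut .s 8757248 (.cut .v 17039360 (.cut .d (-131072) (.cut .l 980822 (.pos 29 .mp ⟨13478507, 0, 0, 0, 0, 28592859, 0, 0, 0, ⟨0, 0⟩, 0⟩ 0 0) (.pos 29 .mp ⟨10725433, 0, 0, 0, 0, 30727302, 0, 0, 0, ⟨0, 0⟩, 0⟩ 0 0)) (.cut .l 980822 (.cut .l 632372 (.cut .v 16908288 (.cut .d (-65536) (.pos 60 .mp ⟨13131283, 0, 0, 0, 0, 27888863, 0, 0, 0, ⟨0, 0⟩, 0⟩ 0 0) (.cut .s 8728576 (.pos 60 .mp ⟨14259553, 0, 0, 0, 0, 24345819, 0, 0, 0, ⟨0, 0⟩, 0⟩ 0 0) (.cut .s 8742912 (.pos 60 .mp ⟨14449951, 0, 0, 0, 0, 24956979, 0, 0, 0, ⟨0, 0⟩, 0⟩ 0 0) (.pos 60 .mp ⟨14641813, 0, 0, 0, 0, 25206361, 0, 0, 0, ⟨0, 0⟩, 0⟩ 0 0)))) (.pos 61 .mp ⟨23981275, 0, 0, 0, 0, 14990427, 0, 0, 0, ⟨0,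 0⟩, 0⟩ 0 0)) (.pos 29 .mp ⟨15029692, 0, 0, 0, 0, 23606683, 0, 0, 0, ⟨0, 0⟩, 0⟩ 0 0)) (.pos 29 .mp ⟨0, 0, 0, 0, 0, 0, 0, 0, 0, ⟨0, 0⟩, 0⟩ 0 0))) (.cut .s 8728576 (.pos 30 .mp ⟨19380286, 0, 0, 0, 0, 20245769, 0, 0, 0, ⟨0, 0⟩, 0⟩ 0 0) (.pos 30 .mp ⟨19824942, 0, 0, 0, 0, 20693266, 0, 0, 0, ⟨0, 0⟩, 0⟩ 0 0))) (.cut .v 17039360 (.cut .d (-131072) (.cut .l 980822 (.pos 29 .mp ⟨14243089, 0, 0, 0, 0, 29747155, 0, 0, 0, ⟨0, 0⟩, 0⟩ 0 0) (.pos 29 .mp ⟨11081982, 0, 0, 0, 0, 32348822, 0, 0, 0, ⟨0, 0⟩, 0⟩ 0 0)) (.cut .l 980822 (.cut .l 632372 (.cut .v 16908288 (.cut .d (-65536) (.pos 60 .mp ⟨13856905, 0, 0, 0, 0, 29042188, 0, 0, 0, ⟨0, 0⟩, 0⟩ 0 0) (.cut .d (-32768) (.cut .s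 8785920 (.pos 60 .mp ⟨14152053, 0, 0, 0, 0, 27293443, 0, 0, 0, ⟨0, 0⟩, 0⟩ 0 0) (.pos 60 .mp ⟨14511822, 0, 0, 0, 0, 27876213, 0, 0, 0, ⟨0, 0⟩, 0⟩ 0 0)) (.pos 60 .mp ⟨0, 0, 0, 0, 0, 0, 0, 0, 0, ⟨0, 0⟩, 0⟩ 0 0))) (.pos 61 .mp ⟨25054082, 0, 0, 0, 0, 15655740, 0, 0, 0, ⟨0, 0⟩, 0⟩ 0 0)) (.pos 29 .mp ⟨15853082, 0, 0, 0, 0, 24560275, 0, 0, 0, ⟨0, 0⟩, 0⟩ 0 0)) (.pos 29 .mp ⟨0, 0, 0, 0, 0, 0, 0, 0, 0, ⟨0, 0⟩, 0⟩ 0 0))) (.cut .s 8785920 (.pos 30 .mp ⟨20283631, 0, 0, 0, 0, 21142669, 0, 0, 0, ⟨0, 0⟩, 0⟩ 0 0) (.pos 30 .mp ⟨20758109, 0, 0, 0, 0, 21591818, 0, 0, 0, ⟨0, 0⟩, 0⟩ 0 0))))) (.pos 28 .mp ⟨37259291, 0, 0, 0, 0, 0, 0, 0, 0, ⟨0, 0⟩, 0⟩ 0 0)) (.cut .v 17301504 (.cut .s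 8929280 (.cut .s 8871936 (.cut .v 17039360 (.cut .d (-131072) (.cut .l 980822 (.pos 29 .mp ⟨15032007, 0, 0, 0, 0, 30953728, 0, 0, 0, ⟨0, 0⟩, 0⟩ 0 0) (.pos 29 .mp ⟨11504808, 0, 0, 0, 0, 33971668, 0, 0, 0, ⟨0, 0⟩, 0⟩ 0 0)) (.cut .l 980822 (.cut .l 632372 (.cut .v 16908288 (.cut .d (-65536) (.pos 60 .mp ⟨14604807, 0, 0, 0, 0, 30242697, 0, 0, 0, ⟨0, 0⟩, 0⟩ 0 0) (.cut .d (-32768) (.cut .s 8843264 (.pos 60 .mp ⟨14876990, 0, 0, 0, 0, 28469069, 0, 0, 0, ⟨0, 0⟩, 0⟩ 0 0) (.pos 60 .mp ⟨15247607, 0, 0, 0, 0, 29071729, 0, 0, 0, ⟨0, 0⟩, 0⟩ 0 0)) (.pos 60 .mp ⟨0, 0, 0, 0, 0, 0, 0, 0, 0, ⟨0, 0⟩, 0⟩ 0 0))) (.pos 61 .mp ⟨26207081, 0, 0, 0, 0, 16296053, 0, 0, 0, ⟨0, 0⟩, 0⟩ 0 0))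 (.pos 29 .mp ⟨16710504, 0, 0, 0, 0, 25538740, 0, 0, 0, ⟨0, 0⟩, 0⟩ 0 0)) (.pos 29 .mp ⟨0, 0, 0, 0, 0, 0, 0, 0, 0, ⟨0, 0⟩, 0⟩ 0 0))) (.cut .s 8843264 (.pos 30 .mp ⟨21250145, 0, 0, 0, 0, 22038523, 0, 0, 0, ⟨0, 0⟩, 0⟩ 0 0) (.pos 30 .mp ⟨21761520, 0, 0, 0, 0, 22480557, 0, 0, 0, ⟨0, 0⟩, 0⟩ 0 0))) (.cut .v 17039360 (.cut .d (-131072) (.cut .l 980822 (.pos 29 .mp ⟨15853394, 0, 0, 0, 0, 32201160, 0, 0, 0, ⟨0, 0⟩, 0⟩ 0 0) (.pos 29 .mp ⟨12008140, 0, 0, 0, 0, 35578098, 0, 0, 0, ⟨0, 0⟩, 0⟩ 0 0)) (.cut .l 980822 (.cut .l 632372 (.cut .v 16908288 (.cut .d (-65536) (.pos 60 .mp ⟨15375392, 0, 0, 0, 0, 31489682, 0, 0, 0, ⟨0, 0⟩, 0⟩ 0 0) (.cut .d (-32768) (.cut .s 8900608 (.pos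 60 .mp ⟨15623722, 0, 0, 0, 0, 29683912, 0, 0, 0, ⟨0, 0⟩, 0⟩ 0 0) (.pos 60 .mp ⟨16005386, 0, 0, 0, 0, 30305339, 0, 0, 0, ⟨0, 0⟩, 0⟩ 0 0)) (.pos 60 .mp ⟨15679879, 0, 0, 0, 0, 0, 0, 0, 0, ⟨0, 0⟩, 0⟩ 0 0))) (.pos 61 .mp ⟨27454552, 0, 0, 0, 0, 16893228, 0, 0, 0, ⟨0, 0⟩, 0⟩ 0 0)) (.pos 29 .mp ⟨17598175, 0, 0, 0, 0, 26544666, 0, 0, 0, ⟨0, 0⟩, 0⟩ 0 0)) (.pos 29 .mp ⟨0, 0, 0, 0, 0, 0, 0, 0, 0, ⟨0, 0⟩, 0⟩ 0 0))) (.cut .s 8900608 (.pos 30 .mp ⟨22294026, 0, 0, 0, 0, 22915658, 0, 0, 0, ⟨0, 0⟩, 0⟩ 0 0) (.pos 30 .mp ⟨22849468, 0, 0, 0, 0, 23341530, 0, 0, 0, ⟨0, 0⟩, 0⟩ 0 0)))) (.cut .v 17039360 (.cut .s 8986624 (.cut .d (-131072) (.cut .s 8957952 (.pos 29 .mp ⟨14936348, 0,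 0, 0, 0, 34493886, 0, 0, 0, ⟨0, 0⟩, 0⟩ 0 0) (.pos 29 .mp ⟨15326289, 0, 0, 0, 0, 35197005, 0, 0, 0, ⟨0, 0⟩, 0⟩ 0 0)) (.cut .l 980822 (.cut .l 632372 (.cut .v 16908288 (.cut .d (-65536) (.pos 60 .mp ⟨16172629, 0, 0, 0, 0, 32795450, 0, 0, 0, ⟨0, 0⟩, 0⟩ 0 0) (.cut .d (-32768) (.cut .s 8957952 (.pos 60 .mp ⟨16392649, 0, 0, 0, 0, 30935731, 0, 0, 0, ⟨0, 0⟩, 0⟩ 0 0) (.pos 60 .mp ⟨16785566, 0, 0, 0, 0, 31574810, 0, 0, 0, ⟨0, 0⟩, 0⟩ 0 0)) (.pos 60 .mp ⟨16474548, 0, 0, 0, 0, 0, 0, 0, 0, ⟨0, 0⟩, 0⟩ 0 0))) (.pos 61 .mp ⟨28811016, 0, 0, 0, 0, 17428515, 0, 0, 0, ⟨0, 0⟩, 0⟩ 0 0)) (.pos 29 .mp ⟨18501318, 0, 0, 0, 0, 27597521, 0, 0, 0, ⟨0, 0⟩, 0⟩ 0 0)) (.pos 29 .mp ⟨0, 0, 0,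 0, 0, 0, 0, 0, 0, ⟨0, 0⟩, 0⟩ 0 0))) (.cut .d (-131072) (.cut .s 9015296 (.pos 29 .mp ⟨15723611, 0, 0, 0, 0, 35912920, 0, 0, 0, ⟨0, 0⟩, 0⟩ 0 0) (.pos 29 .mp ⟨16126811, 0, 0, 0, 0, 36644289, 0, 0, 0, ⟨0, 0⟩, 0⟩ 0 0)) (.cut .l 980822 (.cut .l 632372 (.cut .v 16908288 (.cut .d (-65536) (.pos 60 .mp ⟨16974052, 0, 0, 0, 0, 34191471, 0, 0, 0, ⟨0, 0⟩, 0⟩ 0 0) (.cut .d (-32768) (.cut .s 9015296 (.pos 60 .mp ⟨17188791, 0, 0, 0, 0, 32213341, 0, 0, 0, ⟨0, 0⟩, 0⟩ 0 0) (.pos 60 .mp ⟨17598977, 0, 0, 0, 0, 32857684, 0, 0, 0, ⟨0, 0⟩, 0⟩ 0 0)) (.pos 60 .mp ⟨17291557, 0, 0, 0, 0, 0, 0, 0, 0, ⟨0, 0⟩, 0⟩ 0 0))) (.pos 61 .mp ⟨30291254, 0, 0, 0, 0, 17882521, 0, 0, 0, ⟨0, 0⟩, 0⟩ 0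 0)) (.pos 29 .mp ⟨19431991, 0, 0, 0, 0, 28677562, 0, 0, 0, ⟨0, 0⟩, 0⟩ 0 0)) (.pos 29 .mp ⟨0, 0, 0, 0, 0, 0, 0, 0, 0, ⟨0, 0⟩, 0⟩ 0 0)))) (.cut .d (-131072) (.cut .l 980822 (.pos 30 .mp ⟨49055265, 0, 0, 0, 0, 0, 0, 0, 0, ⟨0, 0⟩, 0⟩ 0 0) (.cut .s 8986624 (.pos 30 .mp ⟨20957811, 0, 0, 0, 0, 27233947, 0, 0, 0, ⟨0, 0⟩, 0⟩ 0 0) (.pos 30 .mp ⟨22091782, 0, 0, 0, 0, 28198269, 0, 0, 0, ⟨0, 0⟩, 0⟩ 0 0))) (.pos 30 .mp ⟨41847879, 0, 0, 0, 0, 0, 0, 0, 0, ⟨0, 0⟩, 0⟩ 0 0)))) (.pos 28 .mp ⟨44083733, 0, 0, 0, 0, 0, 0, 0, 0, ⟨0, 0⟩, 0⟩ 0 0)))) (.pos 26 .mp ⟨48730030, 0, 0, 0, 0, 0, 0, 0, 0, ⟨0, 0⟩, 0⟩ 0 0)))))) (.void 24 ⟨100000, 0, 0, 0, 0, 0, 0, 0, 0, ⟨0, 0⟩, 0⟩ 0 0))) (.void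 22 ⟨100000, 0, 0, 0, 0, 0, 0, 0, 0, ⟨0, 0⟩, 0⟩ 0 0)) (.void 20 ⟨100000, 0, 0, 0, 0, 0, 0, 0, 0, ⟨0, 0⟩, 0⟩ 0 0)) (.void 59 ⟨100000, 0, 0, 0, 0, 0, 0, 0, 0, ⟨0, 0⟩, 0⟩ 0 0)) (.void 72 ⟨100000, 0, 0, 0, 0, 0, 0, 0, 0, ⟨0, 0⟩, 0⟩ 0 0))) (.cut .v 16777216 (.cut .v 8388608 (.cut .v 4194304 (.void 4 ⟨0, 0, 50000, 0, 50000, 0, 0, 0, 0, ⟨0, 0⟩, 0⟩ 0 0) (.pos 5 .pm ⟨0, 0, 0, 0, 0, 0, 0, 0, 0, ⟨0, 0⟩, 0⟩ 0 0)) (.pos 3 .pm ⟨0, 0, 0, 0, 0, 0, 0, 0, 0, ⟨0, 0⟩, 0⟩ 0 0)) (.cut .v 67108864 (.cut .d 8004398 (.cut .d 4002199 (.cut .v 33554432 (.cut .v 25165824 (.cut .v 20971520 (.pos 21 .pp ⟨20962600, 0, 0, 0, 0, 0, 0, 0, 0, ⟨0, 0⟩, 0⟩ 0 0) (.pos 22 .pp ⟨41091913, 0, 0, 0, 0,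 0, 0, 0, 0, ⟨0, 0⟩, 0⟩ 0 0)) (.pos 20 .pp ⟨66824296, 0, 0, 0, 0, 0, 0, 0, 0, ⟨0, 0⟩, 0⟩ 0 0)) (.cut .d 2001099 (.pos 59 .pp ⟨385635719, 0, 0, 0, 0, 0, 0, 0, 0, ⟨0, 0⟩, 0⟩ 0 0) (.pos 59 .pp ⟨131198966, 0, 0, 0, 0, 0, 2884039, 0, 0, ⟨0, 0⟩, 0⟩ 0 0))) (.pos 58 .pp ⟨0, 0, 0, 0, 0, 0, 3427658, 0, 0, ⟨0, 0⟩, 0⟩ 0 0)) (.pos 58 .pp ⟨0, 0, 0, 0, 0, 0, 0, 0, 0, ⟨0, 0⟩, 0⟩ 0 0)) (.cut .d 8004398 (.cut .d 4002199 (.cut .v 134217728 (.pos 73 .pp ⟨1092867156, 692383934, 0, 0, 0, 0, 0, 0, 0, ⟨0, 0⟩, 0⟩ 0 0) (.void 74 ⟨0, 0, 0, 0, 0, 0, 100000, 0, 0, ⟨0, 0⟩, 0⟩ 0 0)) (.pos 72 .pp ⟨0, 449001540, 0, 0, 0, 0, 215791271, 0, 0, ⟨0, 0⟩, 0⟩ 0 0)) (.void 72 ⟨0, 100000, 0, 0, 0, 0,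 0, 0, 0, ⟨0, 0⟩, 0⟩ 0 0))))),
    by decide +kernel⟩

def covers11 : cell.Covers table row11.1 :=
  ⟨(.cut .d 0 (.cut .v 16777216 (.cut .d (-8388608) (.void 1 ⟨0, 0, 0, 0, 0, 100000, 0, 0, 0, ⟨0, 0⟩, 0⟩ 0 0) (.cut .d (-4194304) (.void 1 ⟨0, 0, 0, 0, 0, 100000, 0, 0, 0, ⟨0, 0⟩, 0⟩ 0 0) (.cut .d (-2097152) (.void 1 ⟨0, 0, 0, 0, 0, 100000, 0, 0, 0, ⟨0, 0⟩, 0⟩ 0 0) (.cut .d (-1048576) (.void 1 ⟨0, 0, 0, 0, 0, 100000, 0, 0, 0, ⟨0, 0⟩, 0⟩ 0 0) (.cut .d (-524288) (.void 1 ⟨0, 0, 0, 0, 0, 100000, 0, 0, 0, ⟨0, 0⟩, 0⟩ 0 0) (.cut .v 8388608 (.cut .v 4194304 (.void 4 ⟨0, 0, 100000, 0, 0, 0, 0, 0, 0, ⟨0, 0⟩, 0⟩ 0 0) (.pos 5 .mm ⟨0, 0, 0, 0, 0, 26584540, 0, 0, 0, ⟨0, 0⟩,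 0⟩ 0 0)) (.cut .d (-262144) (.pos 3 .mm ⟨0, 0, 0, 0, 0, 81416339, 0, 0, 0, ⟨0, 0⟩, 0⟩ 0 0) (.cut .v 12582912 (.pos 6 .mm ⟨0, 0, 0, 0, 0, 33933462, 0, 0, 0, ⟨0, 0⟩, 0⟩ 0 0) (.cut .v 14680064 (.pos 10 .mm ⟨0, 0, 0, 0, 0, 49584638, 0, 0, 0, ⟨0, 0⟩, 0⟩ 0 0) (.cut .v 15728640 (.pos 12 .mm ⟨0, 0, 0, 0, 0, 57674434, 0, 0, 0, ⟨0, 0⟩, 0⟩ 0 0) (.cut .v 16252928 (.pos 14 .mm ⟨0, 0, 0, 0, 0, 61799364, 0, 0, 0, ⟨0, 0⟩, 0⟩ 0 0) (.cut .s 9306112 (.cut .s 9175040 (.pos 15 .mm ⟨0, 0, 0, 0, 0, 56335555, 0, 0, 0, ⟨0, 0⟩, 0⟩ 0 0) (.pos 15 .mm ⟨0, 0, 0, 0, 0, 62311034, 0, 0, 0, ⟨0, 0⟩, 0⟩ 0 0)) (.cut .s 9437184 (.pos 15 .mm ⟨0, 0, 0, 0, 0, 68790331, 0, 0, 0, ⟨0, 0⟩, 0⟩ 0 0) (.pos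 15 .mm ⟨0, 0, 0, 0, 0, 75752875, 0, 0, 0, ⟨0, 0⟩, 0⟩ 0 0)))))))))))))) (.cut .v 67108864 (.cut .v 33554432 (.cut .v 25165824 (.cut .v 20971520 (.cut .d (-8388608) (.void 21 ⟨0, 0, 0, 0, 0, 100000, 0, 0, 0, ⟨0, 0⟩, 0⟩ 0 0) (.cut .d (-4194304) (.void 21 ⟨0, 0, 0, 0, 0, 100000, 0, 0, 0, ⟨0, 0⟩, 0⟩ 0 0) (.cut .v 18874368 (.cut .d (-2097152) (.void 23 ⟨0, 0, 0, 0, 0, 100000, 0, 0, 0, ⟨0, 0⟩, 0⟩ 0 0) (.cut .d (-1048576) (.void 23 ⟨0, 0, 0, 0, 0, 100000, 0, 0, 0, ⟨0, 0⟩, 0⟩ 0 0) (.cut .d (-524288) (.void 23 ⟨0, 0, 0, 0, 0, 100000, 0, 0, 0, ⟨0, 0⟩, 0⟩ 0 0) (.cut .v 17825792 (.cut .d (-262144) (.cut .v 17301504 (.cut .s 9306112 (.cut .s 9175040 (.pos 27 .mp ⟨20282131,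 0, 0, 0, 0, 40110545, 0, 0, 0, ⟨0, 0⟩, 0⟩ 0 0) (.pos 27 .mp ⟨22328162, 0, 0, 0, 0, 52806788, 0, 0, 0, ⟨0, 0⟩, 0⟩ 0 0)) (.void 27 ⟨0, 0, 0, 0, 0, 100000, 0, 0, 0, ⟨0, 0⟩, 0⟩ 0 0)) (.void 28 ⟨100000, 0, 0, 0, 0, 0, 0, 0, 0, ⟨0, 0⟩, 0⟩ 0 0)) (.cut .s 9306112 (.cut .v 17301504 (.cut .s 9175040 (.cut .d (-131072) (.cut .l 980822 (.cut .s 9109504 (.pos 27 .mp ⟨18742017, 0, 0, 0, 0, 37774978, 0, 0, 0, ⟨0, 0⟩, 0⟩ 0 0) (.pos 27 .mp ⟨19873224, 0, 0, 0, 0, 39277678, 0, 0, 0, ⟨0, 0⟩, 0⟩ 0 0)) (.cut .d (-196608) (.cut .v 17039360 (.pos 29 .mp ⟨7599078, 0, 0, 0, 0, 51129069, 0, 0, 0, ⟨0, 0⟩, 0⟩ 0 0) (.cut .s 9109504 (.pos 30 .mp ⟨23443767, 0, 0, 0, 0, 29610981, 0, 0, 0, ⟨0,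 0⟩, 0⟩ 0 0) (.pos 30 .mp ⟨24844422, 0, 0, 0, 0, 30729066, 0, 0, 0, ⟨0, 0⟩, 0⟩ 0 0))) (.cut .s 9109504 (.pos 27 .mp ⟨21448627, 0, 0, 0, 0, 29544303, 0, 0, 0, ⟨0, 0⟩, 0⟩ 0 0) (.cut .s 9142272 (.pos 27 .mp ⟨22066251, 0, 0, 0, 0, 31298155, 0, 0, 0, ⟨0, 0⟩, 0⟩ 0 0) (.pos 27 .mp ⟨22694968, 0, 0, 0, 0, 31916429, 0, 0, 0, ⟨0, 0⟩, 0⟩ 0 0))))) (.cut .l 980822 (.cut .v 17039360 (.cut .s 9109504 (.cut .l 632372 (.cut .v 16908288 (.cut .d (-65536) (.pos 60 .mp ⟨17804483, 0, 0, 0, 0, 35937269, 0, 0, 0, ⟨0, 0⟩, 0⟩ 0 0) (.cut .d (-32768) (.cut .s 9076736 (.pos 60 .mp ⟨18015818, 0, 0, 0, 0, 33784852, 0, 0, 0, ⟨0, 0⟩, 0⟩ 0 0) (.pos 60 .mp ⟨18500088, 0, 0, 0, 0, 34554484, 0, 0,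 0, ⟨0, 0⟩, 0⟩ 0 0)) (.pos 60 .mp ⟨18474536, 0, 0, 0, 0, 0, 0, 0, 0, ⟨0, 0⟩, 0⟩ 0 0))) (.pos 61 .mp ⟨31697067, 0, 0, 0, 0, 18699109, 0, 0, 0, ⟨0, 0⟩, 0⟩ 0 0)) (.pos 29 .mp ⟨20537738, 0, 0, 0, 0, 29833771, 0, 0, 0, ⟨0, 0⟩, 0⟩ 0 0)) (.cut .d (-65536) (.cut .l 632372 (.cut .s 9142272 (.pos 29 .mp ⟨19536601, 0, 0, 0, 0, 35974027, 0, 0, 0, ⟨0, 0⟩, 0⟩ 0 0) (.pos 29 .mp ⟨20032932, 0, 0, 0, 0, 36817586, 0, 0, 0, ⟨0, 0⟩, 0⟩ 0 0)) (.pos 29 .mp ⟨21680916, 0, 0, 0, 0, 31775026, 0, 0, 0, ⟨0, 0⟩, 0⟩ 0 0)) (.cut .d (-32768) (.cut .v 16908288 (.cut .s 9142272 (.pos 60 .mp ⟨18992220, 0, 0, 0, 0, 35344625, 0, 0, 0, ⟨0, 0⟩, 0⟩ 0 0) (.pos 60 .mp ⟨19492303, 0, 0, 0, 0, 36154743,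 0, 0, 0, ⟨0, 0⟩, 0⟩ 0 0)) (.pos 61 .mp ⟨46015009, 0, 0, 0, 0, 0, 0, 0, 0, ⟨0, 0⟩, 0⟩ 0 0)) (.pos 29 .mp ⟨19874589, 0, 0, 0, 0, 0, 0, 0, 0, ⟨0, 0⟩, 0⟩ 0 0)))) (.pos 30 .mp ⟨47486076, 0, 0, 0, 0, 0, 0, 0, 0, ⟨0, 0⟩, 0⟩ 0 0)) (.pos 27 .mp ⟨20601875, 0, 0, 0, 0, 0, 0, 0, 0, ⟨0, 0⟩, 0⟩ 0 0))) (.cut .d (-131072) (.cut .l 980822 (.cut .s 9240576 (.pos 27 .mp ⟨21038946, 0, 0, 0, 0, 40903417, 0, 0, 0, ⟨0, 0⟩, 0⟩ 0 0) (.pos 27 .mp ⟨22238655, 0, 0, 0, 0, 42708230, 0, 0, 0, ⟨0, 0⟩, 0⟩ 0 0)) (.cut .d (-196608) (.cut .l 1329272 (.pos 27 .mp ⟨22115966, 0, 0, 0, 0, 43111469, 0, 0, 0, ⟨0, 0⟩, 0⟩ 0 0) (.cut .v 17039360 (.pos 29 .mp ⟨0, 0, 0, 0, 0, 64846531, 0, 0, 0, ⟨0, 0⟩, 0⟩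 0 0) (.cut .s 9240576 (.pos 30 .mp ⟨25159944, 0, 0, 0, 0, 33001647, 0, 0, 0, ⟨0, 0⟩, 0⟩ 0 0) (.pos 30 .mp ⟨26614173, 0, 0, 0, 0, 34343285, 0, 0, 0, ⟨0, 0⟩, 0⟩ 0 0)))) (.cut .d (-163840) (.cut .l 1329272 (.cut .v 17039360 (.pos 29 .mp ⟨20430564, 0, 0, 0, 0, 40639560, 0, 0, 0, ⟨0, 0⟩, 0⟩ 0 0) (.pos 30 .mp ⟨41361478, 0, 0, 0, 0, 14301262, 0, 0, 0, ⟨0, 0⟩, 0⟩ 0 0)) (.pos 27 .mp ⟨24151970, 0, 0, 0, 0, 0, 0, 0, 0, ⟨0, 0⟩, 0⟩ 0 0)) (.pos 27 .mp ⟨24257866, 0, 0, 0, 0, 31085817, 0, 0, 0, ⟨0, 0⟩, 0⟩ 0 0)))) (.cut .v 17039360 (.cut .l 980822 (.cut .s 9240576 (.cut .d (-65536) (.cut .l 632372 (.cut .s 9207808 (.pos 29 .mp ⟨20541294, 0, 0, 0, 0, 37677375, 0, 0, 0, ⟨0, 0⟩,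 0⟩ 0 0) (.pos 29 .mp ⟨21062491, 0, 0, 0, 0, 38552022, 0, 0, 0, ⟨0, 0⟩, 0⟩ 0 0)) (.cut .s 9207808 (.pos 29 .mp ⟨21414971, 0, 0, 0, 0, 35030367, 0, 0, 0, ⟨0, 0⟩, 0⟩ 0 0) (.pos 29 .mp ⟨22071600, 0, 0, 0, 0, 35652648, 0, 0, 0, ⟨0, 0⟩, 0⟩ 0 0))) (.cut .d (-32768) (.cut .v 16908288 (.cut .s 9207808 (.pos 60 .mp ⟨20045273, 0, 0, 0, 0, 36897562, 0, 0, 0, ⟨0, 0⟩, 0⟩ 0 0) (.pos 60 .mp ⟨20613707, 0, 0, 0, 0, 37645264, 0, 0, 0, ⟨0, 0⟩, 0⟩ 0 0)) (.pos 61 .mp ⟨48086228, 0, 0, 0, 0, 0, 0, 0, 0, ⟨0, 0⟩, 0⟩ 0 0)) (.pos 29 .mp ⟨20938265, 0, 0, 0, 0, 0, 0, 0, 0, ⟨0, 0⟩, 0⟩ 0 0))) (.cut .d (-65536) (.cut .l 632372 (.cut .s 9273344 (.pos 29 .mp ⟨21597326, 0, 0, 0, 0, 39440143, 0,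 0, 0, ⟨0, 0⟩, 0⟩ 0 0) (.pos 29 .mp ⟨22146604, 0, 0, 0, 0, 40340351, 0, 0, 0, ⟨0, 0⟩, 0⟩ 0 0)) (.cut .s 9273344 (.pos 29 .mp ⟨22728151, 0, 0, 0, 0, 36310605, 0, 0, 0, ⟨0, 0⟩, 0⟩ 0 0) (.pos 29 .mp ⟨23382785, 0, 0, 0, 0, 37007373, 0, 0, 0, ⟨0, 0⟩, 0⟩ 0 0))) (.cut .d (-32768) (.cut .v 16908288 (.cut .s 9273344 (.pos 60 .mp ⟨21178969, 0, 0, 0, 0, 38433514, 0, 0, 0, ⟨0, 0⟩, 0⟩ 0 0) (.cut .s 9289728 (.pos 60 .mp ⟨21573936, 0, 0, 0, 0, 38932849, 0, 0, 0, ⟨0, 0⟩, 0⟩ 0 0) (.pos 60 .mp ⟨21843477, 0, 0, 0, 0, 39374639, 0, 0, 0, ⟨0, 0⟩, 0⟩ 0 0))) (.pos 61 .mp ⟨50252310, 0, 0, 0, 0, 0, 0, 0, 0, ⟨0, 0⟩, 0⟩ 0 0)) (.pos 29 .mp ⟨22035008, 0, 0, 0, 0, 0, 0, 0, 0, ⟨0, 0⟩, 0⟩ 0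 0)))) (.pos 29 .mp ⟨0, 0, 0, 0, 0, 0, 0, 0, 0, ⟨0, 0⟩, 0⟩ 0 0)) (.pos 30 .mp ⟨49976559, 0, 0, 0, 0, 0, 0, 0, 0, ⟨0, 0⟩, 0⟩ 0 0)))) (.pos 28 .mp ⟨52602032, 0, 0, 0, 0, 0, 0, 0, 0, ⟨0, 0⟩, 0⟩ 0 0)) (.cut .v 17301504 (.cut .s 9437184 (.cut .d (-131072) (.cut .l 980822 (.cut .s 9371648 (.pos 27 .mp ⟨23475632, 0, 0, 0, 0, 44586659, 0, 0, 0, ⟨0, 0⟩, 0⟩ 0 0) (.pos 27 .mp ⟨24750835, 0, 0, 0, 0, 46533999, 0, 0, 0, ⟨0, 0⟩, 0⟩ 0 0)) (.cut .d (-196608) (.cut .v 17039360 (.pos 29 .mp ⟨0, 0, 0, 0, 0, 75051899, 0, 0, 0, ⟨0, 0⟩, 0⟩ 0 0) (.cut .l 1329272 (.pos 30 .mp ⟨27775027, 0, 0, 0, 0, 42138642, 0, 0, 0, ⟨0, 0⟩, 0⟩ 0 0) (.cut .s 9371648 (.pos 30 .mp ⟨28120791, 0, 0, 0, 0,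 35744876, 0, 0, 0, ⟨0, 0⟩, 0⟩ 0 0) (.pos 30 .mp ⟨29680998, 0, 0, 0, 0, 37204154, 0, 0, 0, ⟨0, 0⟩, 0⟩ 0 0)))) (.cut .l 1329272 (.cut .v 17039360 (.cut .s 9371648 (.pos 29 .mp ⟨21772808, 0, 0, 0, 0, 43008463, 0, 0, 0, ⟨0, 0⟩, 0⟩ 0 0) (.pos 29 .mp ⟨22932882, 0, 0, 0, 0, 44951918, 0, 0, 0, ⟨0, 0⟩, 0⟩ 0 0)) (.pos 30 .mp ⟨46875904, 0, 0, 0, 0, 13703003, 0, 0, 0, ⟨0, 0⟩, 0⟩ 0 0)) (.pos 27 .mp ⟨26858737, 0, 0, 0, 0, 14350987, 0, 0, 0, ⟨0, 0⟩, 0⟩ 0 0)))) (.cut .l 980822 (.cut .v 17039360 (.cut .s 9371648 (.cut .d (-65536) (.cut .l 632372 (.cut .s 9338880 (.pos 29 .mp ⟨22711129, 0, 0, 0, 0, 41251249, 0, 0, 0, ⟨0, 0⟩, 0⟩ 0 0) (.pos 29 .mp ⟨23291706, 0, 0, 0, 0, 42171430,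 0, 0, 0, ⟨0, 0⟩, 0⟩ 0 0)) (.cut .s 9338880 (.pos 29 .mp ⟨24033587, 0, 0, 0, 0, 37746228, 0, 0, 0, ⟨0, 0⟩, 0⟩ 0 0) (.pos 29 .mp ⟨24678561, 0, 0, 0, 0, 38530593, 0, 0, 0, ⟨0, 0⟩, 0⟩ 0 0))) (.cut .d (-32768) (.cut .v 16908288 (.cut .s 9338880 (.pos 60 .mp ⟨22292385, 0, 0, 0, 0, 40144688, 0, 0, 0, ⟨0, 0⟩, 0⟩ 0 0) (.pos 60 .mp ⟨22836549, 0, 0, 0, 0, 41074490, 0, 0, 0, ⟨0, 0⟩, 0⟩ 0 0)) (.pos 61 .mp ⟨52515271, 0, 0, 0, 0, 0, 0, 0, 0, ⟨0, 0⟩, 0⟩ 0 0)) (.pos 29 .mp ⟨23165561, 0, 0, 0, 0, 0, 0, 0, 0, ⟨0, 0⟩, 0⟩ 0 0))) (.cut .d (-65536) (.cut .l 632372 (.cut .s 9404416 (.pos 29 .mp ⟨23889140, 0, 0, 0, 0, 43099480, 0, 0, 0, ⟨0, 0⟩, 0⟩ 0 0) (.pos 29 .mp ⟨24504240, 0, 0,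 0, 0, 44033975, 0, 0, 0, ⟨0, 0⟩, 0⟩ 0 0)) (.cut .s 9404416 (.pos 29 .mp ⟨25315630, 0, 0, 0, 0, 39364047, 0, 0, 0, ⟨0, 0⟩, 0⟩ 0 0) (.pos 29 .mp ⟨25942630, 0, 0, 0, 0, 40250327, 0, 0, 0, ⟨0, 0⟩, 0⟩ 0 0))) (.cut .d (-32768) (.cut .v 16908288 (.cut .s 9404416 (.pos 60 .mp ⟨23369553, 0, 0, 0, 0, 42058609, 0, 0, 0, ⟨0, 0⟩, 0⟩ 0 0) (.pos 60 .mp ⟨23889193, 0, 0, 0, 0, 43100873, 0, 0, 0, ⟨0, 0⟩, 0⟩ 0 0)) (.pos 61 .mp ⟨54877201, 0, 0, 0, 0, 0, 0, 0, 0, ⟨0, 0⟩, 0⟩ 0 0)) (.pos 29 .mp ⟨24330698, 0, 0, 0, 0, 0, 0, 0, 0, ⟨0, 0⟩, 0⟩ 0 0)))) (.pos 30 .mp ⟨56750181, 0, 0, 0, 0, 0, 0, 0, 0, ⟨0, 0⟩, 0⟩ 0 0)) (.pos 27 .mp ⟨25765830, 0, 0, 0, 0, 0, 0, 0, 0, ⟨0, 0⟩, 0⟩ 0 0))) (.cut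 .d (-131072) (.cut .l 980822 (.pos 27 .mp ⟨26180440, 0, 0, 0, 0, 52243824, 0, 0, 0, ⟨0, 0⟩, 0⟩ 0 0) (.cut .d (-196608) (.cut .v 17039360 (.pos 29 .mp ⟨0, 0, 0, 0, 0, 82906619, 0, 0, 0, ⟨0, 0⟩, 0⟩ 0 0) (.cut .s 9502720 (.pos 30 .mp ⟨32656212, 0, 0, 0, 0, 37259628, 0, 0, 0, ⟨0, 0⟩, 0⟩ 0 0) (.pos 30 .mp ⟨34389052, 0, 0, 0, 0, 38746129, 0, 0, 0, ⟨0, 0⟩, 0⟩ 0 0))) (.cut .l 1329272 (.cut .v 17039360 (.cut .s 9502720 (.pos 29 .mp ⟨24131023, 0, 0, 0, 0, 46976139, 0, 0, 0, ⟨0, 0⟩, 0⟩ 0 0) (.pos 29 .mp ⟨25368126, 0, 0, 0, 0, 49079454, 0, 0, 0, ⟨0, 0⟩, 0⟩ 0 0)) (.pos 30 .mp ⟨52391571, 0, 0, 0, 0, 13585843, 0, 0, 0, ⟨0, 0⟩, 0⟩ 0 0)) (.pos 27 .mp ⟨28456776, 0, 0, 0, 0, 38434495,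 0, 0, 0, ⟨0, 0⟩, 0⟩ 0 0)))) (.cut .l 980822 (.cut .v 17039360 (.cut .s 9502720 (.cut .d (-65536) (.cut .l 632372 (.cut .s 9469952 (.pos 29 .mp ⟨25137815, 0, 0, 0, 0, 44973482, 0, 0, 0, ⟨0, 0⟩, 0⟩ 0 0) (.pos 29 .mp ⟨25790674, 0, 0, 0, 0, 45916556, 0, 0, 0, ⟨0, 0⟩, 0⟩ 0 0)) (.cut .s 9469952 (.pos 29 .mp ⟨26557305, 0, 0, 0, 0, 41193338, 0, 0, 0, ⟨0, 0⟩, 0⟩ 0 0) (.pos 29 .mp ⟨27157308, 0, 0, 0, 0, 42197160, 0, 0, 0, ⟨0, 0⟩, 0⟩ 0 0))) (.cut .d (-32768) (.cut .v 16908288 (.cut .s 9469952 (.pos 60 .mp ⟨24393174, 0, 0, 0, 0, 44205278, 0, 0, 0, ⟨0, 0⟩, 0⟩ 0 0) (.pos 60 .mp ⟨24950728, 0, 0, 0, 0, 45238410, 0, 0, 0, ⟨0, 0⟩, 0⟩ 0 0)) (.pos 61 .mp ⟨57340269, 0, 0, 0, 0,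 0, 0, 0, 0, ⟨0, 0⟩, 0⟩ 0 0)) (.pos 29 .mp ⟨25531218, 0, 0, 0, 0, 0, 0, 0, 0, ⟨0, 0⟩, 0⟩ 0 0))) (.cut .d (-65536) (.cut .l 632372 (.pos 29 .mp ⟨26128893, 0, 0, 0, 0, 48973958, 0, 0, 0, ⟨0, 0⟩, 0⟩ 0 0) (.pos 29 .mp ⟨29408068, 0, 0, 0, 0, 41156893, 0, 0, 0, ⟨0, 0⟩, 0⟩ 0 0)) (.cut .d (-32768) (.cut .s 9535488 (.cut .s 9519104 (.pos 29 .mp ⟨26093682, 0, 0, 0, 0, 45569360, 0, 0, 0, ⟨0, 0⟩, 0⟩ 0 0) (.pos 29 .mp ⟨26376441, 0, 0, 0, 0, 46134596, 0, 0, 0, ⟨0, 0⟩, 0⟩ 0 0)) (.pos 29 .mp ⟨27441036, 0, 0, 0, 0, 45613932, 0, 0, 0, ⟨0, 0⟩, 0⟩ 0 0)) (.pos 29 .mp ⟨26767951, 0, 0, 0, 0, 0, 0, 0, 0, ⟨0, 0⟩, 0⟩ 0 0)))) (.pos 30 .mp ⟨61971357, 0, 0, 0, 0, 0, 0, 0, 0, ⟨0, 0⟩, 0⟩ 0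 0)) (.pos 27 .mp ⟨28581614, 0, 0, 0, 0, 0, 0, 0, 0, ⟨0, 0⟩, 0⟩ 0 0)))) (.pos 28 .mp ⟨62671132, 0, 0, 0, 0, 0, 0, 0, 0, ⟨0, 0⟩, 0⟩ 0 0)))) (.pos 26 .mp ⟨69523201, 0, 0, 0, 0, 0, 0, 0, 0, ⟨0, 0⟩, 0⟩ 0 0))))) (.void 24 ⟨100000, 0, 0, 0, 0, 0, 0, 0, 0, ⟨0, 0⟩, 0⟩ 0 0)))) (.void 22 ⟨100000, 0, 0, 0, 0, 0, 0, 0, 0, ⟨0, 0⟩, 0⟩ 0 0)) (.void 20 ⟨100000, 0, 0, 0, 0, 0, 0, 0, 0, ⟨0, 0⟩, 0⟩ 0 0)) (.void 59 ⟨100000, 0, 0, 0, 0, 0, 0, 0, 0, ⟨0, 0⟩, 0⟩ 0 0)) (.void 72 ⟨100000, 0, 0, 0, 0, 0, 0, 0, 0, ⟨0, 0⟩, 0⟩ 0 0))) (.cut .v 16777216 (.cut .v 8388608 (.cut .v 4194304 (.void 4 ⟨0, 0, 32105, 0, 0, 0, 0, 0, 67895, ⟨0, 0⟩, 3966728⟩ 0 0) (.pos 5 .pm ⟨0, 0, 0, 0, 0, 0, 0, 0, 0,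 ⟨0, 0⟩, 0⟩ 0 0)) (.pos 3 .pm ⟨0, 0, 0, 0, 0, 0, 0, 0, 0, ⟨0, 0⟩, 0⟩ 0 0)) (.cut .d 7172869 (.cut .v 67108864 (.cut .d 3586434 (.cut .v 33554432 (.cut .d 1793217 (.cut .v 25165824 (.cut .v 20971520 (.pos 21 .pp ⟨34171303, 0, 0, 0, 0, 0, 0, 0, 0, ⟨0, 0⟩, 0⟩ 0 0) (.pos 22 .pp ⟨66136772, 0, 0, 0, 0, 0, 0, 0, 0, ⟨0, 0⟩, 0⟩ 0 0)) (.pos 20 .pp ⟨116883207, 0, 0, 0, 0, 0, 0, 0, 0, ⟨0, 0⟩, 0⟩ 0 0)) (.pos 18 .pp ⟨0, 0, 0, 0, 0, 0, 0, 0, 0, ⟨0, 0⟩, 0⟩ 0 0)) (.cut .d 1793217 (.pos 59 .pp ⟨536551602, 0, 0, 0, 0, 0, 0, 0, 0, ⟨0, 0⟩, 0⟩ 0 0) (.pos 59 .pp ⟨194287547, 0, 0, 0, 0, 0, 0, 0, 0, ⟨0, 0⟩, 0⟩ 0 0))) (.pos 58 .pp ⟨0, 0, 0, 0, 0, 0, 1826695, 0, 0, ⟨0, 0⟩, 0⟩ 0 0)) (.cut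 .v 134217728 (.cut .d 3586434 (.pos 73 .pp ⟨1460169705, 950269543, 0, 0, 0, 0, 0, 0, 0, ⟨0, 0⟩, 0⟩ 0 0) (.pos 73 .pp ⟨479164275, 137828484, 0, 0, 0, 0, 0, 0, 0, ⟨0, 0⟩, 0⟩ 0 0)) (.void 74 ⟨41938, 58062, 0, 0, 0, 0, 0, 0, 0, ⟨0, 0⟩, 0⟩ 0 0))) (.pos 71 .pp ⟨0, 25730121, 0, 0, 0, 0, 1815295, 0, 0, ⟨0, 0⟩, 0⟩ 0 0)))),
    by decide +kernel⟩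

def covers12 : cell.Covers table row12.1 :=
  ⟨(.cut .d 0 (.cut .v 16777216 (.cut .d (-8388608) (.void 1 ⟨0, 0, 0, 0, 0, 100000, 0, 0, 0, ⟨0, 0⟩, 0⟩ 0 0) (.cut .d (-4194304) (.void 1 ⟨0, 0, 0, 0, 0, 100000, 0, 0, 0, ⟨0, 0⟩, 0⟩ 0 0) (.cut .d (-2097152) (.void 1 ⟨0, 0, 0, 0, 0, 100000, 0, 0, 0, ⟨0, 0⟩, 0⟩ 0 0) (.cut .d (-1048576) (.void 1 ⟨0, 0, 0, 0, 0, 100000, 0, 0, 0, ⟨0, 0⟩, 0⟩ 0 0) (.cut .d (-524288) (.void 1 ⟨0, 0, 0, 0, 0, 100000, 0, 0, 0, ⟨0, 0⟩, 0⟩ 0 0) (.cut .d (-262144) (.void 1 ⟨0, 0, 0, 0, 0, 100000, 0, 0, 0, ⟨0, 0⟩, 0⟩ 0 0) (.cut .v 8388608 (.cut .v 4194304 (.void 4 ⟨0, 0, 100000, 0, 0, 0, 0, 0, 0, ⟨0, 0⟩, 0⟩ 0 0) (.pos 5 .mm ⟨0, 0, 0, 0, 0, 34716048,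 0, 0, 0, ⟨0, 0⟩, 0⟩ 0 0)) (.cut .v 12582912 (.pos 6 .mm ⟨0, 0, 0, 0, 0, 54271203, 0, 0, 0, ⟨0, 0⟩, 0⟩ 0 0) (.cut .v 14680064 (.pos 10 .mm ⟨0, 0, 0, 0, 0, 75852454, 0, 0, 0, ⟨0, 0⟩, 0⟩ 0 0) (.cut .v 15728640 (.pos 12 .mm ⟨0, 0, 0, 0, 0, 86336042, 0, 0, 0, ⟨0, 0⟩, 0⟩ 0 0) (.cut .v 16252928 (.pos 14 .mm ⟨0, 0, 0, 0, 0, 92041481, 0, 0, 0, ⟨0, 0⟩, 0⟩ 0 0) (.cut .s 9830400 (.cut .s 9699328 (.pos 15 .mm ⟨0, 0, 0, 0, 0, 83429029, 0, 0, 0, ⟨0, 0⟩, 0⟩ 0 0) (.pos 15 .mm ⟨0, 0, 0, 0, 0, 91635522, 0, 0, 0, ⟨0, 0⟩, 0⟩ 0 0)) (.cut .s 9961472 (.pos 15 .mm ⟨0, 0, 0, 0, 0, 100506447, 0, 0, 0, ⟨0, 0⟩, 0⟩ 0 0) (.pos 15 .mm ⟨0, 0, 0, 0, 0, 110016068, 0, 0, 0, ⟨0, 0⟩, 0⟩ 0 0))))))))))))))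 (.cut .v 67108864 (.cut .v 33554432 (.cut .v 25165824 (.cut .d (-8388608) (.void 19 ⟨0, 0, 0, 0, 0, 100000, 0, 0, 0, ⟨0, 0⟩, 0⟩ 0 0) (.cut .v 20971520 (.cut .d (-4194304) (.void 21 ⟨0, 0, 0, 0, 0, 100000, 0, 0, 0, ⟨0, 0⟩, 0⟩ 0 0) (.cut .v 18874368 (.cut .d (-2097152) (.void 23 ⟨100000, 0, 0, 0, 0, 0, 0, 0, 0, ⟨0, 0⟩, 0⟩ 0 0) (.cut .d (-1048576) (.void 23 ⟨100000, 0, 0, 0, 0, 0, 0, 0, 0, ⟨0, 0⟩, 0⟩ 0 0) (.cut .d (-524288) (.void 23 ⟨0, 0, 0, 0, 0, 100000, 0, 0, 0, ⟨0, 0⟩, 0⟩ 0 0) (.cut .d (-262144) (.void 23 ⟨0, 0, 0, 0, 0, 100000, 0, 0, 0, ⟨0, 0⟩, 0⟩ 0 0) (.cut .v 17825792 (.cut .s 9830400 (.cut .v 17301504 (.cut .d (-131072) (.cut .l 980822 (.cut .s 9699328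 (.pos 27 .mp ⟨30240903, 0, 0, 0, 0, 55061254, 0, 0, 0, ⟨0, 0⟩, 0⟩ 0 0) (.pos 27 .mp ⟨31526789, 0, 0, 0, 0, 99915005, 0, 0, 0, ⟨0, 0⟩, 0⟩ 0 0)) (.cut .s 9699328 (.cut .d (-196608) (.cut .s 9633792 (.pos 27 .mp ⟨28365541, 0, 0, 0, 0, 53008027, 0, 0, 0, ⟨0, 0⟩, 0⟩ 0 0) (.cut .s 9666560 (.pos 27 .mp ⟨29854912, 0, 0, 0, 0, 53630631, 0, 0, 0, ⟨0, 0⟩, 0⟩ 0 0) (.pos 27 .mp ⟨30618054, 0, 0, 0, 0, 54755058, 0, 0, 0, ⟨0, 0⟩, 0⟩ 0 0))) (.cut .v 17039360 (.cut .s 9633792 (.pos 29 .mp ⟨25279870, 0, 0, 0, 0, 53085241, 0, 0, 0, ⟨0, 0⟩, 0⟩ 0 0) (.pos 29 .mp ⟨26567535, 0, 0, 0, 0, 55224136, 0, 0, 0, ⟨0, 0⟩, 0⟩ 0 0)) (.cut .l 1329272 (.pos 30 .mp ⟨49048272, 0, 0, 0, 0, 26118145,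 0, 0, 0, ⟨0, 0⟩, 0⟩ 0 0) (.pos 30 .mp ⟨33602819, 0, 0, 0, 0, 42410906, 0, 0, 0, ⟨0, 0⟩, 0⟩ 0 0)))) (.cut .d (-196608) (.cut .v 17039360 (.pos 29 .mp ⟨0, 0, 0, 0, 0, 101687867, 0, 0, 0, ⟨0, 0⟩, 0⟩ 0 0) (.cut .d (-229376) (.void 30 ⟨0, 0, 0, 0, 0, 100000, 0, 0, 0, ⟨0, 0⟩, 0⟩ 0 0) (.cut .s 9764864 (.pos 30 .mp ⟨38463264, 0, 0, 0, 0, 44997398, 0, 0, 0, ⟨0, 0⟩, 0⟩ 0 0) (.pos 30 .mp ⟨40384231, 0, 0, 0, 0, 46659836, 0, 0, 0, ⟨0, 0⟩, 0⟩ 0 0)))) (.cut .v 17039360 (.cut .l 1329272 (.cut .s 9764864 (.pos 29 .mp ⟨29375069, 0, 0, 0, 0, 56202363, 0, 0, 0, ⟨0, 0⟩, 0⟩ 0 0) (.pos 29 .mp ⟨30803476, 0, 0, 0, 0, 58580056, 0, 0, 0, ⟨0, 0⟩, 0⟩ 0 0)) (.pos 29 .mp ⟨19608175, 0, 0,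 0, 0, 67826047, 0, 0, 0, ⟨0, 0⟩, 0⟩ 0 0)) (.cut .s 9764864 (.pos 30 .mp ⟨42567658, 0, 0, 0, 0, 38311659, 0, 0, 0, ⟨0, 0⟩, 0⟩ 0 0) (.pos 30 .mp ⟨44105016, 0, 0, 0, 0, 40397375, 0, 0, 0, ⟨0, 0⟩, 0⟩ 0 0)))))) (.cut .l 980822 (.cut .v 17039360 (.cut .s 9699328 (.cut .d (-65536) (.cut .s 9633792 (.cut .s 9601024 (.pos 29 .mp ⟨26847894, 0, 0, 0, 0, 49934835, 0, 0, 0, ⟨0, 0⟩, 0⟩ 0 0) (.cut .s 9617408 (.pos 29 .mp ⟨27978202, 0, 0, 0, 0, 49545234, 0, 0, 0, ⟨0, 0⟩, 0⟩ 0 0) (.pos 29 .mp ⟨28233483, 0, 0, 0, 0, 50161455, 0, 0, 0, ⟨0, 0⟩, 0⟩ 0 0))) (.cut .d (-98304) (.pos 29 .mp ⟨28088414, 0, 0, 0, 0, 54758718, 0, 0, 0, ⟨0, 0⟩, 0⟩ 0 0) (.cut .l 632372 (.pos 29 .mp ⟨29159477,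 0, 0, 0, 0, 52629787, 0, 0, 0, ⟨0, 0⟩, 0⟩ 0 0) (.pos 29 .mp ⟨30947283, 0, 0, 0, 0, 45627281, 0, 0, 0, ⟨0, 0⟩, 0⟩ 0 0)))) (.cut .d (-32768) (.cut .v 16908288 (.cut .l 632372 (.cut .l 458147 (.cut .s 9633792 (.cut .s 9601024 (.pos 60 .mp ⟨26879200, 0, 0, 0, 0, 48330285, 0, 0, 0, ⟨0, 0⟩, 0⟩ 0 0) (.pos 60 .mp ⟨27452948, 0, 0, 0, 0, 49440293, 0, 0, 0, ⟨0, 0⟩, 0⟩ 0 0)) (.cut .s 9666560 (.pos 60 .mp ⟨28006741, 0, 0, 0, 0, 50612171, 0, 0, 0, ⟨0, 0⟩, 0⟩ 0 0) (.pos 60 .mp ⟨28576071, 0, 0, 0, 0, 51804790, 0, 0, 0, ⟨0, 0⟩, 0⟩ 0 0))) (.pos 60 .mp ⟨29970540, 0, 0, 0, 0, 42294558, 0, 0, 0, ⟨0, 0⟩, 0⟩ 0 0)) (.pos 60 .mp ⟨0, 0, 0, 0, 0, 0, 0, 0, 0, ⟨0, 0⟩, 0⟩ 0 0)) (.pos 61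 .mp ⟨63640452, 0, 0, 0, 0, 0, 0, 0, 0, ⟨0, 0⟩, 0⟩ 0 0)) (.pos 29 .mp ⟨29617713, 0, 0, 0, 0, 0, 0, 0, 0, ⟨0, 0⟩, 0⟩ 0 0))) (.cut .d (-65536) (.cut .s 9764864 (.cut .d (-98304) (.pos 29 .mp ⟨29451191, 0, 0, 0, 0, 56955769, 0, 0, 0, ⟨0, 0⟩, 0⟩ 0 0) (.cut .l 632372 (.cut .s 9732096 (.pos 29 .mp ⟨29532056, 0, 0, 0, 0, 55487219, 0, 0, 0, ⟨0, 0⟩, 0⟩ 0 0) (.pos 29 .mp ⟨30217388, 0, 0, 0, 0, 56616248, 0, 0, 0, ⟨0, 0⟩, 0⟩ 0 0)) (.pos 29 .mp ⟨32413200, 0, 0, 0, 0, 47657091, 0, 0, 0, ⟨0, 0⟩, 0⟩ 0 0))) (.cut .d (-98304) (.pos 29 .mp ⟨30855740, 0, 0, 0, 0, 59298848, 0, 0, 0, ⟨0, 0⟩, 0⟩ 0 0) (.cut .l 632372 (.cut .s 9797632 (.pos 29 .mp ⟨30912917, 0, 0, 0, 0, 57782702, 0,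 0, 0, ⟨0, 0⟩, 0⟩ 0 0) (.pos 29 .mp ⟨31618773, 0, 0, 0, 0, 58987188, 0, 0, 0, ⟨0, 0⟩, 0⟩ 0 0)) (.pos 29 .mp ⟨33924862, 0, 0, 0, 0, 49771562, 0, 0, 0, ⟨0, 0⟩, 0⟩ 0 0)))) (.cut .d (-32768) (.cut .l 632372 (.cut .v 16908288 (.cut .l 458147 (.cut .s 9764864 (.cut .s 9732096 (.pos 60 .mp ⟨29161980, 0, 0, 0, 0, 53016333, 0, 0, 0, ⟨0, 0⟩, 0⟩ 0 0) (.pos 60 .mp ⟨29765506, 0, 0, 0, 0, 54244969, 0, 0, 0, ⟨0, 0⟩, 0⟩ 0 0)) (.cut .d (-49152) (.pos 60 .mp ⟨30614092, 0, 0, 0, 0, 58575979, 0, 0, 0, ⟨0, 0⟩, 0⟩ 0 0) (.cut .s 9797632 (.pos 60 .mp ⟨31132382, 0, 0, 0, 0, 54001209, 0, 0, 0, ⟨0, 0⟩, 0⟩ 0 0) (.cut .s 9814016 (.pos 60 .mp ⟨31404274, 0, 0, 0, 0, 55185531, 0, 0, 0, ⟨0,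 0⟩, 0⟩ 0 0) (.pos 60 .mp ⟨31749176, 0, 0, 0, 0, 55787293, 0, 0, 0, ⟨0, 0⟩, 0⟩ 0 0))))) (.pos 60 .mp ⟨32787247, 0, 0, 0, 0, 46266658, 0, 0, 0, ⟨0, 0⟩, 0⟩ 0 0)) (.pos 61 .mp ⟨70824315, 0, 0, 0, 0, 0, 0, 0, 0, ⟨0, 0⟩, 0⟩ 0 0)) (.pos 29 .mp ⟨31464584, 0, 0, 0, 0, 0, 0, 0, 0, ⟨0, 0⟩, 0⟩ 0 0)) (.pos 29 .mp ⟨32372207, 0, 0, 0, 0, 0, 0, 0, 0, ⟨0, 0⟩, 0⟩ 0 0)))) (.pos 30 .mp ⟨71379941, 0, 0, 0, 0, 0, 0, 0, 0, ⟨0, 0⟩, 0⟩ 0 0)) (.pos 27 .mp ⟨34656031, 0, 0, 0, 0, 27690713, 0, 0, 0, ⟨0, 0⟩, 0⟩ 0 0))) (.pos 28 .mp ⟨74612248, 0, 0, 0, 0, 0, 0, 0, 0, ⟨0, 0⟩, 0⟩ 0 0)) (.cut .v 17301504 (.cut .d (-131072) (.cut .l 980822 (.void 27 ⟨0, 0, 0, 0, 0, 100000, 0, 0, 0, ⟨0, 0⟩, 0⟩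 0 0) (.cut .s 9961472 (.cut .d (-196608) (.cut .d (-229376) (.void 27 ⟨0, 0, 0, 0, 0, 100000, 0, 0, 0, ⟨0, 0⟩, 0⟩ 0 0) (.cut .v 17039360 (.pos 29 .mp ⟨0, 0, 0, 0, 0, 111487874, 0, 0, 0, ⟨0, 0⟩, 0⟩ 0 0) (.cut .s 9895936 (.cut .s 9863168 (.pos 30 .mp ⟨39877419, 0, 0, 0, 0, 50560866, 0, 0, 0, ⟨0, 0⟩, 0⟩ 0 0) (.pos 30 .mp ⟨37602403, 0, 0, 0, 0, 57178926, 0, 0, 0, ⟨0, 0⟩, 0⟩ 0 0)) (.pos 30 .mp ⟨37915749, 0, 0, 0, 0, 61629491, 0, 0, 0, ⟨0, 0⟩, 0⟩ 0 0)))) (.cut .v 17039360 (.cut .v 16908288 (.pos 60 .mp ⟨0, 0, 0, 0, 0, 103811166, 0, 0, 0, ⟨0, 0⟩, 0⟩ 0 0) (.cut .v 16973824 (.pos 77 .mp ⟨0, 0, 0, 0, 0, 104538863, 0, 0, 0, ⟨0, 0⟩, 0⟩ 0 0) (.cut .s 9895936 (.cut .s 9863168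 (.pos 78 .mp ⟨31214267, 0, 0, 0, 0, 60689880, 0, 0, 0, ⟨0, 0⟩, 0⟩ 0 0) (.pos 78 .mp ⟨31954075, 0, 0, 0, 0, 61952414, 0, 0, 0, ⟨0, 0⟩, 0⟩ 0 0)) (.cut .s 9928704 (.pos 78 .mp ⟨32704930, 0, 0, 0, 0, 63247524, 0, 0, 0, ⟨0, 0⟩, 0⟩ 0 0) (.pos 78 .mp ⟨33466975, 0, 0, 0, 0, 64575172, 0, 0, 0, ⟨0, 0⟩, 0⟩ 0 0))))) (.cut .l 1329272 (.pos 30 .mp ⟨84642167, 0, 0, 0, 0, 0, 0, 0, 0, ⟨0, 0⟩, 0⟩ 0 0) (.cut .s 9895936 (.pos 30 .mp ⟨38888431, 0, 0, 0, 0, 50821474, 0, 0, 0, ⟨0, 0⟩, 0⟩ 0 0) (.pos 30 .mp ⟨40767036, 0, 0, 0, 0, 52853945, 0, 0, 0, ⟨0, 0⟩, 0⟩ 0 0))))) (.cut .d (-196608) (.cut .s 10027008 (.cut .s 9994240 (.pos 27 .mp ⟨38068210, 0, 0, 0, 0, 65900458, 0, 0, 0, ⟨0, 0⟩,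 0⟩ 0 0) (.pos 27 .mp ⟨38963716, 0, 0, 0, 0, 67238846, 0, 0, 0, ⟨0, 0⟩, 0⟩ 0 0)) (.pos 27 .mp ⟨39873412, 0, 0, 0, 0, 70716610, 0, 0, 0, ⟨0, 0⟩, 0⟩ 0 0)) (.cut .v 17039360 (.cut .s 10027008 (.cut .s 9994240 (.pos 29 .mp ⟨33618261, 0, 0, 0, 0, 66763657, 0, 0, 0, ⟨0, 0⟩, 0⟩ 0 0) (.pos 29 .mp ⟨34382643, 0, 0, 0, 0, 68185522, 0, 0, 0, ⟨0, 0⟩, 0⟩ 0 0)) (.pos 29 .mp ⟨35158378, 0, 0, 0, 0, 70809222, 0, 0, 0, ⟨0, 0⟩, 0⟩ 0 0)) (.cut .s 10027008 (.pos 30 .mp ⟨50119059, 0, 0, 0, 0, 45896214, 0, 0, 0, ⟨0, 0⟩, 0⟩ 0 0) (.pos 30 .mp ⟨52728242, 0, 0, 0, 0, 47284692, 0, 0, 0, ⟨0, 0⟩, 0⟩ 0 0)))))) (.cut .l 980822 (.cut .v 17039360 (.cut .s 9961472 (.cut .d (-65536) (.cut .s 9895936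 (.cut .d (-98304) (.pos 29 .mp ⟨32303122, 0, 0, 0, 0, 61792682, 0, 0, 0, ⟨0, 0⟩, 0⟩ 0 0) (.cut .l 632372 (.cut .s 9863168 (.pos 29 .mp ⟨32335088, 0, 0, 0, 0, 60230321, 0, 0, 0, ⟨0, 0⟩, 0⟩ 0 0) (.pos 29 .mp ⟨33061996, 0, 0, 0, 0, 61512730, 0, 0, 0, ⟨0, 0⟩, 0⟩ 0 0)) (.pos 29 .mp ⟨35390601, 0, 0, 0, 0, 52205640, 0, 0, 0, ⟨0, 0⟩, 0⟩ 0 0))) (.cut .l 632372 (.pos 29 .mp ⟨33799634, 0, 0, 0, 0, 64862135, 0, 0, 0, ⟨0, 0⟩, 0⟩ 0 0) (.cut .s 9928704 (.pos 29 .mp ⟨32116462, 0, 0, 0, 0, 63411020, 0, 0, 0, ⟨0, 0⟩, 0⟩ 0 0) (.pos 29 .mp ⟨32830369, 0, 0, 0, 0, 64779454, 0, 0, 0, ⟨0, 0⟩, 0⟩ 0 0)))) (.cut .d (-32768) (.cut .v 16908288 (.cut .l 632372 (.cut .s 9895936 (.cut .l 458147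 (.cut .d (-49152) (.pos 60 .mp ⟨31999137, 0, 0, 0, 0, 61111327, 0, 0, 0, ⟨0, 0⟩, 0⟩ 0 0) (.cut .v 16842752 (.pos 68 .mp ⟨28522466, 0, 0, 0, 0, 62488351, 0, 0, 0, ⟨0, 0⟩, 0⟩ 0 0) (.cut .s 9863168 (.pos 69 .mp ⟨35319181, 0, 0, 0, 0, 52743294, 0, 0, 0, ⟨0, 0⟩, 0⟩ 0 0) (.pos 69 .mp ⟨36048569, 0, 0, 0, 0, 53933554, 0, 0, 0, ⟨0, 0⟩, 0⟩ 0 0)))) (.pos 60 .mp ⟨34259812, 0, 0, 0, 0, 52001783, 0, 0, 0, ⟨0, 0⟩, 0⟩ 0 0)) (.cut .v 16842752 (.pos 68 .mp ⟨28104699, 0, 0, 0, 0, 67676311, 0, 0, 0, ⟨0, 0⟩, 0⟩ 0 0) (.cut .s 9928704 (.pos 69 .mp ⟨36074981, 0, 0, 0, 0, 56223721, 0, 0, 0, ⟨0, 0⟩, 0⟩ 0 0) (.pos 69 .mp ⟨36863435, 0, 0, 0, 0, 57432444, 0, 0, 0, ⟨0, 0⟩, 0⟩ 0 0)))) (.pos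 60 .mp ⟨0, 0, 0, 0, 0, 0, 0, 0, 0, ⟨0, 0⟩, 0⟩ 0 0)) (.pos 61 .mp ⟨74645515, 0, 0, 0, 0, 0, 0, 0, 0, ⟨0, 0⟩, 0⟩ 0 0)) (.pos 29 .mp ⟨35290074, 0, 0, 0, 0, 0, 0, 0, 0, ⟨0, 0⟩, 0⟩ 0 0))) (.cut .d (-65536) (.cut .s 10027008 (.cut .l 632372 (.pos 29 .mp ⟨35307666, 0, 0, 0, 0, 67723737, 0, 0, 0, ⟨0, 0⟩, 0⟩ 0 0) (.cut .s 9994240 (.pos 29 .mp ⟨33554520, 0, 0, 0, 0, 66178249, 0, 0, 0, ⟨0, 0⟩, 0⟩ 0 0) (.pos 29 .mp ⟨34289051, 0, 0, 0, 0, 67607148, 0, 0, 0, ⟨0, 0⟩, 0⟩ 0 0))) (.cut .d (-98304) (.pos 29 .mp ⟨36913509, 0, 0, 0, 0, 70228502, 0, 0, 0, ⟨0, 0⟩, 0⟩ 0 0) (.cut .v 16908288 (.pos 60 .mp ⟨34608640, 0, 0, 0, 0, 70448515, 0, 0, 0, ⟨0, 0⟩, 0⟩ 0 0) (.pos 61 .mp ⟨57835708,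 0, 0, 0, 0, 38300817, 0, 0, 0, ⟨0, 0⟩, 0⟩ 0 0)))) (.cut .d (-32768) (.cut .v 16908288 (.cut .l 632372 (.cut .s 10027008 (.cut .s 9994240 (.cut .s 9977856 (.pos 60 .mp ⟨34964055, 0, 0, 0, 0, 61601369, 0, 0, 0, ⟨0, 0⟩, 0⟩ 0 0) (.pos 60 .mp ⟨35334067, 0, 0, 0, 0, 62261585, 0, 0, 0, ⟨0, 0⟩, 0⟩ 0 0)) (.pos 60 .mp ⟨35069838, 0, 0, 0, 0, 64803685, 0, 0, 0, ⟨0, 0⟩, 0⟩ 0 0)) (.cut .s 10059776 (.pos 60 .mp ⟨35917405, 0, 0, 0, 0, 66056962, 0, 0, 0, ⟨0, 0⟩, 0⟩ 0 0) (.pos 60 .mp ⟨36805303, 0, 0, 0, 0, 67293382, 0, 0, 0, ⟨0, 0⟩, 0⟩ 0 0))) (.pos 60 .mp ⟨0, 0, 0, 0, 0, 0, 0, 0, 0, ⟨0, 0⟩, 0⟩ 0 0)) (.pos 61 .mp ⟨80940131, 0, 0, 0, 0, 0, 0, 0, 0, ⟨0, 0⟩, 0⟩ 0 0)) (.pos 29 .mp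 ⟨38380066, 0, 0, 0, 0, 0, 0, 0, 0, ⟨0, 0⟩, 0⟩ 0 0)))) (.pos 30 .mp ⟨83783046, 0, 0, 0, 0, 0, 0, 0, 0, ⟨0, 0⟩, 0⟩ 0 0)) (.cut .s 9961472 (.pos 27 .mp ⟨37475513, 0, 0, 0, 0, 48278493, 0, 0, 0, ⟨0, 0⟩, 0⟩ 0 0) (.pos 27 .mp ⟨41037081, 0, 0, 0, 0, 52313269, 0, 0, 0, ⟨0, 0⟩, 0⟩ 0 0)))) (.pos 28 .mp ⟨87524186, 0, 0, 0, 0, 0, 0, 0, 0, ⟨0, 0⟩, 0⟩ 0 0))) (.pos 26 .mp ⟨88782490, 0, 0, 0, 0, 0, 0, 0, 0, ⟨0, 0⟩, 0⟩ 0 0)))))) (.void 24 ⟨100000, 0, 0, 0, 0, 0, 0, 0, 0, ⟨0, 0⟩, 0⟩ 0 0))) (.void 22 ⟨100000, 0, 0, 0, 0, 0, 0, 0, 0, ⟨0, 0⟩, 0⟩ 0 0))) (.void 20 ⟨100000, 0, 0, 0, 0, 0, 0, 0, 0, ⟨0, 0⟩, 0⟩ 0 0)) (.void 59 ⟨100000, 0, 0, 0, 0, 0, 0, 0, 0, ⟨0, 0⟩, 0⟩ 0 0)) (.void 72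 ⟨100000, 0, 0, 0, 0, 0, 0, 0, 0, ⟨0, 0⟩, 0⟩ 0 0))) (.cut .v 16777216 (.cut .v 8388608 (.cut .v 4194304 (.cut .v 2097152 (.void 83 ⟨0, 0, 50000, 0, 50000, 0, 0, 0, 0, ⟨0, 0⟩, 0⟩ 0 0) (.void 84 ⟨0, 0, 45679, 0, 0, 0, 0, 0, 54321, ⟨0, 0⟩, 7053950⟩ 0 0)) (.pos 5 .pm ⟨0, 0, 0, 0, 0, 0, 0, 0, 3017210, ⟨0, 0⟩, 9975792⟩ 0 0)) (.cut .d 6320185 (.pos 3 .pm ⟨0, 0, 0, 0, 0, 0, 0, 0, 0, ⟨0, 0⟩, 0⟩ 0 0) (.pos 3 .pm ⟨0, 26975950, 0, 0, 0, 0, 0, 0, 0, ⟨0, 0⟩, 0⟩ 0 0))) (.cut .d 6320185 (.cut .v 67108864 (.cut .d 3160092 (.cut .v 33554432 (.cut .d 1580046 (.cut .v 25165824 (.cut .v 20971520 (.pos 21 .pp ⟨50944576, 0, 0, 0, 0, 0, 0, 0, 0, ⟨0, 0⟩, 0⟩ 0 0) (.pos 22 .pp ⟨93302148,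 0, 0, 0, 0, 0, 0, 0, 0, ⟨0, 0⟩, 0⟩ 0 0)) (.pos 20 .pp ⟨164319375, 0, 0, 0, 0, 0, 0, 0, 0, ⟨0, 0⟩, 0⟩ 0 0)) (.pos 18 .pp ⟨0, 0, 0, 0, 0, 0, 0, 0, 0, ⟨0, 0⟩, 0⟩ 0 0)) (.cut .d 1580046 (.pos 59 .pp ⟨722578252, 0, 0, 0, 0, 0, 0, 0, 0, ⟨0, 0⟩, 0⟩ 0 0) (.cut .v 50331648 (.pos 62 .pp ⟨149984754, 0, 0, 0, 0, 0, 0, 0, 0, ⟨0, 0⟩, 0⟩ 0 0) (.pos 63 .pp ⟨505295127, 0, 0, 0, 0, 0, 0, 0, 0, ⟨0, 0⟩, 0⟩ 0 0)))) (.pos 58 .pp ⟨0, 0, 0, 0, 0, 0, 0, 19658615, 0, ⟨5597726, 147773⟩, 0⟩ 173 233)) (.cut .v 134217728 (.cut .d 3160092 (.cut .d 1580046 (.void 73 ⟨100000, 0, 0, 0, 0, 0, 0, 0, 0, ⟨0, 0⟩, 0⟩ 0 0) (.pos 73 .pp ⟨1301110748, 641254495, 0, 0, 0, 0, 0, 0, 0, ⟨0, 0⟩, 0⟩ 0 0)) (.pos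 73 .pp ⟨627038222, 148791521, 0, 0, 0, 0, 0, 0, 0, ⟨0, 0⟩, 0⟩ 0 0)) (.void 74 ⟨41157, 58843, 0, 0, 0, 0, 0, 0, 0, ⟨0, 0⟩, 0⟩ 0 0))) (.pos 71 .pp ⟨0, 24961295, 0, 0, 0, 0, 0, 0, 0, ⟨0, 0⟩, 0⟩ 0 0)))),
    by decide +kernel⟩

def covers13 : cell.Covers table row13.1 :=
  ⟨(.cut .d 0 (.cut .v 16777216 (.cut .d (-8388608) (.void 1 ⟨0, 0, 0, 0, 0, 100000, 0, 0, 0, ⟨0, 0⟩, 0⟩ 0 0) (.cut .d (-4194304) (.void 1 ⟨0, 0, 0, 0, 0, 100000, 0, 0, 0, ⟨0, 0⟩, 0⟩ 0 0) (.cut .d (-2097152) (.void 1 ⟨0, 0, 0, 0, 0, 100000, 0, 0, 0, ⟨0, 0⟩, 0⟩ 0 0) (.cut .d (-1048576) (.void 1 ⟨0, 0, 0, 0, 0, 100000, 0, 0, 0, ⟨0, 0⟩, 0⟩ 0 0) (.cut .d (-524288) (.void 1 ⟨0, 0, 0, 0, 0, 100000, 0,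 0, 0, ⟨0, 0⟩, 0⟩ 0 0) (.cut .d (-262144) (.void 1 ⟨0, 0, 0, 0, 0, 100000, 0, 0, 0, ⟨0, 0⟩, 0⟩ 0 0) (.cut .v 8388608 (.cut .v 4194304 (.void 4 ⟨0, 0, 100000, 0, 0, 0, 0, 0, 0, ⟨0, 0⟩, 0⟩ 0 0) (.pos 5 .mm ⟨0, 0, 0, 0, 0, 48095799, 0, 0, 0, ⟨0, 0⟩, 0⟩ 0 0)) (.cut .d (-131072) (.pos 3 .mm ⟨0, 0, 0, 0, 0, 144248094, 0, 0, 0, ⟨0, 0⟩, 0⟩ 0 0) (.cut .s 10289152 (.pos 3 .mm ⟨0, 0, 0, 0, 0, 122051420, 0, 0, 0, ⟨0, 0⟩, 0⟩ 0 0) (.pos 3 .mm ⟨0, 0, 0, 0, 0, 139113794, 0, 0, 0, ⟨0, 0⟩, 0⟩ 0 0)))))))))) (.cut .v 67108864 (.cut .v 33554432 (.cut .v 25165824 (.cut .d (-8388608) (.void 19 ⟨0, 0, 0, 0, 0, 100000, 0, 0, 0, ⟨0, 0⟩, 0⟩ 0 0) (.cut .v 20971520 (.cut .d (-4194304) (.void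 21 ⟨100000, 0, 0, 0, 0, 0, 0, 0, 0, ⟨0, 0⟩, 0⟩ 0 0) (.cut .v 18874368 (.cut .d (-2097152) (.void 23 ⟨100000, 0, 0, 0, 0, 0, 0, 0, 0, ⟨0, 0⟩, 0⟩ 0 0) (.cut .d (-1048576) (.void 23 ⟨100000, 0, 0, 0, 0, 0, 0, 0, 0, ⟨0, 0⟩, 0⟩ 0 0) (.cut .d (-524288) (.void 23 ⟨100000, 0, 0, 0, 0, 0, 0, 0, 0, ⟨0, 0⟩, 0⟩ 0 0) (.cut .d (-262144) (.void 23 ⟨0, 0, 0, 0, 0, 100000, 0, 0, 0, ⟨0, 0⟩, 0⟩ 0 0) (.cut .v 17825792 (.cut .v 17301504 (.cut .d (-131072) (.cut .l 980822 (.void 27 ⟨0, 0, 0, 0, 0, 100000, 0, 0, 0, ⟨0, 0⟩, 0⟩ 0 0) (.cut .d (-196608) (.cut .s 10289152 (.cut .s 10190848 (.pos 27 .mp ⟨43049109, 0, 0, 0, 0, 75317679, 0, 0, 0, ⟨0, 0⟩, 0⟩ 0 0) (.pos 27 .mp ⟨44703020, 0,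 0, 0, 0, 104573926, 0, 0, 0, ⟨0, 0⟩, 0⟩ 0 0)) (.void 27 ⟨0, 0, 0, 0, 0, 100000, 0, 0, 0, ⟨0, 0⟩, 0⟩ 0 0)) (.cut .s 10289152 (.cut .v 17039360 (.cut .v 16908288 (.pos 60 .mp ⟨0, 0, 0, 0, 0, 128393272, 0, 0, 0, ⟨0, 0⟩, 0⟩ 0 0) (.cut .v 16973824 (.pos 77 .mp ⟨0, 0, 0, 0, 0, 129327915, 0, 0, 0, ⟨0, 0⟩, 0⟩ 0 0) (.cut .s 10190848 (.cut .s 10141696 (.pos 78 .mp ⟨37447926, 0, 0, 0, 0, 72693794, 0, 0, 0, ⟨0, 0⟩, 0⟩ 0 0) (.pos 78 .mp ⟨38732147, 0, 0, 0, 0, 74765243, 0, 0, 0, ⟨0, 0⟩, 0⟩ 0 0)) (.cut .s 10240000 (.pos 78 .mp ⟨40043619, 0, 0, 0, 0, 76935716, 0, 0, 0, ⟨0, 0⟩, 0⟩ 0 0) (.pos 78 .mp ⟨41382913, 0, 0, 0, 0, 79205153, 0, 0, 0, ⟨0, 0⟩, 0⟩ 0 0))))) (.cut .l 1329272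 (.pos 30 .mp ⟨103867827, 0, 0, 0, 0, 0, 0, 0, 0, ⟨0, 0⟩, 0⟩ 0 0) (.cut .d (-163840) (.cut .s 10190848 (.pos 30 .mp ⟨47882285, 0, 0, 0, 0, 61214150, 0, 0, 0, ⟨0, 0⟩, 0⟩ 0 0) (.cut .s 10240000 (.pos 30 .mp ⟨49527703, 0, 0, 0, 0, 64359270, 0, 0, 0, ⟨0, 0⟩, 0⟩ 0 0) (.pos 30 .mp ⟨51212246, 0, 0, 0, 0, 66131621, 0, 0, 0, ⟨0, 0⟩, 0⟩ 0 0))) (.pos 30 .mp ⟨64396638, 0, 0, 0, 0, 37636845, 0, 0, 0, ⟨0, 0⟩, 0⟩ 0 0)))) (.cut .s 10387456 (.cut .v 17039360 (.cut .l 1329272 (.pos 29 .mp ⟨44023930, 0, 0, 0, 0, 84423091, 0, 0, 0, ⟨0, 0⟩, 0⟩ 0 0) (.cut .s 10338304 (.pos 29 .mp ⟨30502345, 0, 0, 0, 0, 97072884, 0, 0, 0, ⟨0, 0⟩, 0⟩ 0 0) (.pos 29 .mp ⟨31082931, 0, 0, 0, 0, 100673681,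 0, 0, 0, ⟨0, 0⟩, 0⟩ 0 0))) (.cut .s 10338304 (.pos 30 .mp ⟨56991800, 0, 0, 0, 0, 62155277, 0, 0, 0, ⟨0, 0⟩, 0⟩ 0 0) (.pos 30 .mp ⟨58563806, 0, 0, 0, 0, 64315147, 0, 0, 0, ⟨0, 0⟩, 0⟩ 0 0))) (.cut .v 17039360 (.cut .s 10436608 (.pos 29 .mp ⟨44660762, 0, 0, 0, 0, 87859482, 0, 0, 0, ⟨0, 0⟩, 0⟩ 0 0) (.pos 29 .mp ⟨46080352, 0, 0, 0, 0, 90578737, 0, 0, 0, ⟨0, 0⟩, 0⟩ 0 0)) (.cut .s 10436608 (.pos 30 .mp ⟨60415560, 0, 0, 0, 0, 66228483, 0, 0, 0, ⟨0, 0⟩, 0⟩ 0 0) (.pos 30 .mp ⟨62573114, 0, 0, 0, 0, 67856513, 0, 0, 0, ⟨0, 0⟩, 0⟩ 0 0))))))) (.cut .s 10289152 (.cut .v 17039360 (.cut .l 980822 (.cut .d (-65536) (.cut .s 10190848 (.cut .l 632372 (.pos 29 .mp ⟨38598432, 0, 0,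 0, 0, 76775377, 0, 0, 0, ⟨0, 0⟩, 0⟩ 0 0) (.cut .s 10141696 (.pos 29 .mp ⟨36554849, 0, 0, 0, 0, 73064173, 0, 0, 0, ⟨0, 0⟩, 0⟩ 0 0) (.cut .s 10166272 (.pos 29 .mp ⟨37926589, 0, 0, 0, 0, 73759017, 0, 0, 0, ⟨0, 0⟩, 0⟩ 0 0) (.pos 29 .mp ⟨38438568, 0, 0, 0, 0, 75033082, 0, 0, 0, ⟨0, 0⟩, 0⟩ 0 0)))) (.cut .d (-98304) (.pos 29 .mp ⟨41114379, 0, 0, 0, 0, 80383666, 0, 0, 0, ⟨0, 0⟩, 0⟩ 0 0) (.cut .l 632372 (.pos 29 .mp ⟨41081742, 0, 0, 0, 0, 81401776, 0, 0, 0, ⟨0, 0⟩, 0⟩ 0 0) (.cut .s 10240000 (.pos 29 .mp ⟨44518018, 0, 0, 0, 0, 66203661, 0, 0, 0, ⟨0, 0⟩, 0⟩ 0 0) (.pos 29 .mp ⟨45933913, 0, 0, 0, 0, 68176131, 0, 0, 0, ⟨0, 0⟩, 0⟩ 0 0))))) (.cut .l 632372 (.cut .v 16908288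 (.cut .d (-32768) (.cut .s 10190848 (.cut .v 16842752 (.pos 68 .mp ⟨24134450, 0, 0, 0, 0, 89094483, 0, 0, 0, ⟨0, 0⟩, 0⟩ 0 0) (.cut .s 10141696 (.pos 69 .mp ⟨41419771, 0, 0, 0, 0, 64036348, 0, 0, 0, ⟨0, 0⟩, 0⟩ 0 0) (.cut .s 10166272 (.pos 69 .mp ⟨44876006, 0, 0, 0, 0, 62155564, 0, 0, 0, ⟨0, 0⟩, 0⟩ 0 0) (.pos 69 .mp ⟨45152118, 0, 0, 0, 0, 63636104, 0, 0, 0, ⟨0, 0⟩, 0⟩ 0 0)))) (.cut .s 10240000 (.cut .s 10215424 (.pos 60 .mp ⟨40564199, 0, 0, 0, 0, 71807087, 0, 0, 0, ⟨0, 0⟩, 0⟩ 0 0) (.pos 60 .mp ⟨41076745, 0, 0, 0, 0, 73082068, 0, 0, 0, ⟨0, 0⟩, 0⟩ 0 0)) (.cut .s 10264576 (.pos 60 .mp ⟨41610107, 0, 0, 0, 0, 74358203, 0, 0, 0, ⟨0, 0⟩, 0⟩ 0 0) (.pos 60 .mp ⟨42165224,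 0, 0, 0, 0, 75633953, 0, 0, 0, ⟨0, 0⟩, 0⟩ 0 0)))) (.cut .s 10190848 (.pos 60 .mp ⟨40038414, 0, 0, 0, 0, 61378866, 0, 0, 0, ⟨0, 0⟩, 0⟩ 0 0) (.cut .s 10240000 (.pos 60 .mp ⟨41385974, 0, 0, 0, 0, 66776685, 0, 0, 0, ⟨0, 0⟩, 0⟩ 0 0) (.pos 60 .mp ⟨42645025, 0, 0, 0, 0, 68926861, 0, 0, 0, ⟨0, 0⟩, 0⟩ 0 0)))) (.pos 61 .mp ⟨93284874, 0, 0, 0, 0, 0, 0, 0, 0, ⟨0, 0⟩, 0⟩ 0 0)) (.pos 29 .mp ⟨43579411, 0, 0, 0, 0, 0, 0, 0, 0, ⟨0, 0⟩, 0⟩ 0 0))) (.cut .s 10190848 (.pos 29 .mp ⟨43281565, 0, 0, 0, 0, 59010676, 0, 0, 0, ⟨0, 0⟩, 0⟩ 0 0) (.cut .s 10240000 (.pos 29 .mp ⟨44701246, 0, 0, 0, 0, 64086729, 0, 0, 0, ⟨0, 0⟩, 0⟩ 0 0) (.pos 29 .mp ⟨46152930, 0, 0, 0, 0, 66048303, 0, 0, 0,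 ⟨0, 0⟩, 0⟩ 0 0)))) (.pos 30 .mp ⟨92609842, 0, 0, 0, 0, 0, 0, 0, 0, ⟨0, 0⟩, 0⟩ 0 0)) (.cut .v 17039360 (.cut .l 980822 (.cut .d (-65536) (.cut .s 10387456 (.cut .d (-98304) (.pos 29 .mp ⟨43798303, 0, 0, 0, 0, 85275501, 0, 0, 0, ⟨0, 0⟩, 0⟩ 0 0) (.cut .l 632372 (.pos 29 .mp ⟨43642068, 0, 0, 0, 0, 86579764, 0, 0, 0, ⟨0, 0⟩, 0⟩ 0 0) (.cut .s 10338304 (.pos 29 .mp ⟨47381065, 0, 0, 0, 0, 70237255, 0, 0, 0, ⟨0, 0⟩, 0⟩ 0 0) (.pos 29 .mp ⟨48860141, 0, 0, 0, 0, 72386721, 0, 0, 0, ⟨0, 0⟩, 0⟩ 0 0)))) (.cut .d (-98304) (.pos 29 .mp ⟨46598470, 0, 0, 0, 0, 90663406, 0, 0, 0, ⟨0, 0⟩, 0⟩ 0 0) (.cut .l 632372 (.pos 29 .mp ⟨46303981, 0, 0, 0, 0, 92283854, 0, 0, 0, ⟨0, 0⟩, 0⟩ 0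 0) (.cut .s 10436608 (.pos 29 .mp ⟨50371831, 0, 0, 0, 0, 74624172, 0, 0, 0, ⟨0, 0⟩, 0⟩ 0 0) (.pos 29 .mp ⟨51916847, 0, 0, 0, 0, 76949203, 0, 0, 0, ⟨0, 0⟩, 0⟩ 0 0))))) (.cut .l 632372 (.cut .v 16908288 (.cut .d (-32768) (.cut .s 10387456 (.cut .s 10338304 (.cut .s 10313728 (.pos 60 .mp ⟨42743036, 0, 0, 0, 0, 76907763, 0, 0, 0, ⟨0, 0⟩, 0⟩ 0 0) (.pos 60 .mp ⟨43344489, 0, 0, 0, 0, 78178065, 0, 0, 0, ⟨0, 0⟩, 0⟩ 0 0)) (.cut .s 10362880 (.pos 60 .mp ⟨43970533, 0, 0, 0, 0, 79443274, 0, 0, 0, ⟨0, 0⟩, 0⟩ 0 0) (.pos 60 .mp ⟨44622125, 0, 0, 0, 0, 80701793, 0, 0, 0, ⟨0, 0⟩, 0⟩ 0 0))) (.cut .v 16842752 (.pos 68 .mp ⟨25687145, 0, 0, 0, 0, 111932763, 0, 0, 0, ⟨0, 0⟩, 0⟩ 0 0)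 (.cut .s 10436608 (.cut .s 10412032 (.pos 69 .mp ⟨50065092, 0, 0, 0, 0, 75200454, 0, 0, 0, ⟨0, 0⟩, 0⟩ 0 0) (.pos 69 .mp ⟨50937625, 0, 0, 0, 0, 76206760, 0, 0, 0, ⟨0, 0⟩, 0⟩ 0 0)) (.cut .s 10461184 (.pos 69 .mp ⟨51887226, 0, 0, 0, 0, 77139910, 0, 0, 0, ⟨0, 0⟩, 0⟩ 0 0) (.pos 69 .mp ⟨52917203, 0, 0, 0, 0, 77994909, 0, 0, 0, ⟨0, 0⟩, 0⟩ 0 0))))) (.cut .d (-16384) (.cut .d (-24576) (.cut .d (-28672) (.cut .l 458147 (.cut .v 16842752 (.cut .s 10387456 (.pos 68 .mp ⟨41205747, 0, 0, 0, 0, 79541148, 0, 0, 0, ⟨0, 0⟩, 0⟩ 0 0) (.pos 68 .mp ⟨43699530, 0, 0, 0, 0, 84653863, 0, 0, 0, ⟨0, 0⟩, 0⟩ 0 0)) (.pos 69 .mp ⟨96484580, 0, 0, 0, 0, 0, 0, 0, 0, ⟨0, 0⟩, 0⟩ 0 0)) (.pos 60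 .mp ⟨0, 0, 0, 0, 0, 0, 0, 0, 0, ⟨0, 0⟩, 0⟩ 0 0)) (.pos 60 .mp ⟨47796875, 0, 0, 0, 0, 0, 0, 0, 0, ⟨0, 0⟩, 0⟩ 0 0)) (.pos 60 .mp ⟨46020796, 0, 0, 0, 0, 0, 0, 0, 0, ⟨0, 0⟩, 0⟩ 0 0)) (.pos 60 .mp ⟨0, 0, 0, 0, 0, 0, 0, 0, 0, ⟨0, 0⟩, 0⟩ 0 0))) (.pos 61 .mp ⟨104424005, 0, 0, 0, 0, 0, 0, 0, 0, ⟨0, 0⟩, 0⟩ 0 0)) (.pos 29 .mp ⟨49144004, 0, 0, 0, 0, 0, 0, 0, 0, ⟨0, 0⟩, 0⟩ 0 0))) (.cut .v 16908288 (.pos 60 .mp ⟨0, 0, 0, 0, 0, 130567002, 0, 0, 0, ⟨0, 0⟩, 0⟩ 0 0) (.cut .d (-65536) (.cut .d (-98304) (.cut .s 10387456 (.pos 61 .mp ⟨49784953, 0, 0, 0, 0, 68788907, 0, 0, 0, ⟨0, 0⟩, 0⟩ 0 0) (.pos 61 .mp ⟨52974748, 0, 0, 0, 0, 72989576, 0, 0, 0, ⟨0, 0⟩, 0⟩ 0 0)) (.pos 61 .mp ⟨50179717,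 0, 0, 0, 0, 0, 0, 0, 0, ⟨0, 0⟩, 0⟩ 0 0)) (.pos 61 .mp ⟨0, 0, 0, 0, 0, 0, 0, 0, 0, ⟨0, 0⟩, 0⟩ 0 0)))) (.cut .s 10387456 (.pos 30 .mp ⟨99769629, 0, 0, 0, 0, 0, 0, 0, 0, ⟨0, 0⟩, 0⟩ 0 0) (.pos 30 .mp ⟨105659440, 0, 0, 0, 0, 0, 0, 0, 0, ⟨0, 0⟩, 0⟩ 0 0))))) (.cut .d (-131072) (.pos 28 .mp ⟨115464076, 0, 0, 0, 0, 0, 0, 0, 0, ⟨0, 0⟩, 0⟩ 0 0) (.pos 28 .mp ⟨101384575, 0, 0, 0, 0, 0, 0, 0, 0, ⟨0, 0⟩, 0⟩ 0 0))) (.pos 26 .mp ⟨116125467, 0, 0, 0, 0, 0, 0, 0, 0, ⟨0, 0⟩, 0⟩ 0 0)))))) (.void 24 ⟨100000, 0, 0, 0, 0, 0, 0, 0, 0, ⟨0, 0⟩, 0⟩ 0 0))) (.void 22 ⟨100000, 0, 0, 0, 0, 0, 0, 0, 0, ⟨0, 0⟩, 0⟩ 0 0))) (.void 20 ⟨100000, 0, 0, 0, 0, 0, 0, 0, 0, ⟨0, 0⟩, 0⟩ 0 0)) (.void 59 ⟨100000,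 0, 0, 0, 0, 0, 0, 0, 0, ⟨0, 0⟩, 0⟩ 0 0)) (.void 72 ⟨100000, 0, 0, 0, 0, 0, 0, 0, 0, ⟨0, 0⟩, 0⟩ 0 0))) (.cut .v 16777216 (.cut .v 8388608 (.cut .v 4194304 (.cut .v 2097152 (.void 83 ⟨0, 0, 25058, 0, 0, 0, 0, 0, 74942, ⟨0, 0⟩, 2804900⟩ 0 0) (.pos 84 .pm ⟨0, 0, 8574061, 0, 0, 0, 0, 0, 8270587, ⟨0, 0⟩, 7053950⟩ 0 0)) (.cut .d 5556092 (.pos 5 .pm ⟨0, 0, 0, 0, 0, 0, 0, 0, 0, ⟨0, 0⟩, 0⟩ 0 0) (.pos 5 .pm ⟨0, 26664182, 0, 0, 0, 0, 0, 0, 0, ⟨0, 0⟩, 0⟩ 0 0))) (.cut .d 5556092 (.pos 3 .pm ⟨0, 0, 0, 0, 0, 0, 0, 0, 0, ⟨0, 0⟩, 0⟩ 0 0) (.cut .d 8334138 (.pos 3 .pm ⟨0, 0, 0, 0, 0, 0, 0, 0, 0, ⟨0, 0⟩, 0⟩ 0 0) (.pos 3 .pm ⟨0, 57076840, 0, 0, 0, 0, 0, 0, 0, ⟨0, 0⟩, 0⟩ 0 0)))) (.cut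 .d 5556092 (.cut .v 67108864 (.cut .d 2778046 (.cut .v 33554432 (.cut .d 1389023 (.cut .v 25165824 (.cut .v 20971520 (.pos 21 .pp ⟨66563701, 0, 0, 0, 0, 0, 0, 0, 0, ⟨0, 0⟩, 0⟩ 0 0) (.pos 22 .pp ⟨123520671, 0, 0, 0, 0, 0, 0, 0, 0, ⟨0, 0⟩, 0⟩ 0 0)) (.pos 20 .pp ⟨211784585, 0, 0, 0, 0, 0, 0, 0, 0, ⟨0, 0⟩, 0⟩ 0 0)) (.pos 18 .pp ⟨0, 0, 0, 0, 0, 0, 0, 0, 0, ⟨0, 0⟩, 0⟩ 0 0)) (.cut .d 1389023 (.pos 59 .pp ⟨898526932, 0, 0, 0, 0, 0, 0, 0, 0, ⟨0, 0⟩, 0⟩ 0 0) (.cut .v 50331648 (.pos 62 .pp ⟨220136113, 0, 0, 0, 0, 0, 0, 0, 0, ⟨0, 0⟩, 0⟩ 0 0) (.pos 63 .pp ⟨656879442, 0, 0, 0, 0, 0, 0, 0, 0, ⟨0, 0⟩, 0⟩ 0 0)))) (.pos 58 .pp ⟨0, 0, 0, 0, 0, 0, 0, 0, 0, ⟨0, 0⟩, 0⟩ 0 0)) (.cut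 .v 134217728 (.cut .d 2778046 (.cut .v 100663296 (.pos 75 .pp ⟨2107691016, 0, 0, 0, 0, 0, 0, 0, 0, ⟨0, 0⟩, 0⟩ 0 0) (.void 76 ⟨42490, 57510, 0, 0, 0, 0, 0, 0, 0, ⟨0, 0⟩, 0⟩ 0 0)) (.pos 73 .pp ⟨425516201, 266610746, 0, 0, 0, 0, 0, 0, 0, ⟨0, 0⟩, 0⟩ 0 0)) (.void 74 ⟨40700, 59300, 0, 0, 0, 0, 0, 0, 0, ⟨0, 0⟩, 0⟩ 0 0))) (.pos 71 .pp ⟨0, 38838309, 0, 0, 0, 0, 0, 0, 0, ⟨0, 0⟩, 0⟩ 0 0)))),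
    by decide +kernel⟩

def covers14 : cell.Covers table row14.1 :=
  ⟨(.cut .d 0 (.cut .v 16777216 (.cut .d (-8388608) (.void 1 ⟨0, 0, 0, 0, 0, 100000, 0, 0, 0, ⟨0, 0⟩, 0⟩ 0 0) (.cut .d (-4194304) (.void 1 ⟨0, 0, 0, 0, 0, 100000, 0, 0, 0, ⟨0, 0⟩, 0⟩ 0 0) (.cut .d (-2097152) (.void 1 ⟨0, 0, 0, 0, 0, 100000, 0, 0, 0, ⟨0, 0⟩, 0⟩ 0 0) (.cut .d (-1048576) (.void 1 ⟨0, 0, 0, 0, 0, 100000, 0, 0, 0, ⟨0, 0⟩, 0⟩ 0 0) (.cut .d (-524288) (.void 1 ⟨0, 0, 0, 0, 0, 100000, 0, 0, 0, ⟨0, 0⟩, 0⟩ 0 0) (.cut .d (-262144) (.void 1 ⟨0, 0, 0, 0, 0, 100000, 0, 0, 0, ⟨0, 0⟩, 0⟩ 0 0) (.cut .v 8388608 (.cut .v 4194304 (.void 4 ⟨0, 0, 100000, 0, 0, 0, 0, 0, 0, ⟨0, 0⟩, 0⟩ 0 0) (.pos 5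 .mm ⟨0, 0, 0, 0, 0, 64190872, 0, 0, 0, ⟨0, 0⟩, 0⟩ 0 0)) (.cut .d (-131072) (.pos 3 .mm ⟨0, 0, 0, 0, 0, 187889375, 0, 0, 0, ⟨0, 0⟩, 0⟩ 0 0) (.cut .l 980822 (.cut .d (-65536) (.pos 3 .mm ⟨0, 0, 0, 0, 0, 181778114, 0, 0, 0, ⟨0, 0⟩, 0⟩ 0 0) (.cut .s 10682368 (.pos 3 .mm ⟨0, 0, 0, 0, 0, 153366576, 0, 0, 0, ⟨0, 0⟩, 0⟩ 0 0) (.pos 3 .mm ⟨0, 0, 0, 0, 0, 173976995, 0, 0, 0, ⟨0, 0⟩, 0⟩ 0 0))) (.pos 3 .mm ⟨0, 0, 0, 0, 0, 152775384, 0, 0, 0, ⟨0, 0⟩, 0⟩ 0 0)))))))))) (.cut .v 268435456 (.cut .v 67108864 (.cut .v 33554432 (.cut .v 25165824 (.cut .d (-8388608) (.void 19 ⟨0, 0, 0, 0, 0, 100000, 0, 0, 0, ⟨0, 0⟩, 0⟩ 0 0) (.cut .v 20971520 (.cut .d (-4194304) (.void 21 ⟨100000,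 0, 0, 0, 0, 0, 0, 0, 0, ⟨0, 0⟩, 0⟩ 0 0) (.cut .v 18874368 (.cut .d (-2097152) (.void 23 ⟨100000, 0, 0, 0, 0, 0, 0, 0, 0, ⟨0, 0⟩, 0⟩ 0 0) (.cut .d (-1048576) (.void 23 ⟨100000, 0, 0, 0, 0, 0, 0, 0, 0, ⟨0, 0⟩, 0⟩ 0 0) (.cut .d (-524288) (.void 23 ⟨100000, 0, 0, 0, 0, 0, 0, 0, 0, ⟨0, 0⟩, 0⟩ 0 0) (.cut .d (-262144) (.void 23 ⟨0, 0, 0, 0, 0, 100000, 0, 0, 0, ⟨0, 0⟩, 0⟩ 0 0) (.cut .v 17825792 (.cut .v 17301504 (.cut .d (-131072) (.cut .d (-196608) (.void 27 ⟨0, 0, 0, 0, 0, 100000, 0, 0, 0, ⟨0, 0⟩, 0⟩ 0 0) (.cut .l 980822 (.void 27 ⟨0, 0, 0, 0, 0, 100000, 0, 0, 0, ⟨0, 0⟩, 0⟩ 0 0) (.cut .s 10682368 (.cut .s 10584064 (.cut .v 17039360 (.cut .s 10534912 (.pos 29 .mp ⟨47531321,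 0, 0, 0, 0, 93750226, 0, 0, 0, ⟨0, 0⟩, 0⟩ 0 0) (.pos 29 .mp ⟨49041328, 0, 0, 0, 0, 96442954, 0, 0, 0, ⟨0, 0⟩, 0⟩ 0 0)) (.cut .d (-163840) (.pos 30 .mp ⟨62952712, 0, 0, 0, 0, 77768570, 0, 0, 0, ⟨0, 0⟩, 0⟩ 0 0) (.pos 30 .mp ⟨79345531, 0, 0, 0, 0, 50721317, 0, 0, 0, ⟨0, 0⟩, 0⟩ 0 0))) (.cut .v 17039360 (.cut .l 1329272 (.pos 29 .mp ⟨53086971, 0, 0, 0, 0, 101997668, 0, 0, 0, ⟨0, 0⟩, 0⟩ 0 0) (.cut .s 10633216 (.pos 29 .mp ⟨30346219, 0, 0, 0, 0, 126079774, 0, 0, 0, ⟨0, 0⟩, 0⟩ 0 0) (.pos 29 .mp ⟨30624188, 0, 0, 0, 0, 130886872, 0, 0, 0, ⟨0, 0⟩, 0⟩ 0 0))) (.cut .v 17170432 (.cut .v 17104896 (.cut .d (-163840) (.pos 66 .mp ⟨55425143, 0, 0, 0, 0, 99125343, 0, 0, 0, ⟨0,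 0⟩, 0⟩ 0 0) (.cut .s 10633216 (.pos 66 .mp ⟨66254292, 0, 0, 0, 0, 76079854, 0, 0, 0, ⟨0, 0⟩, 0⟩ 0 0) (.pos 66 .mp ⟨67807802, 0, 0, 0, 0, 78929314, 0, 0, 0, ⟨0, 0⟩, 0⟩ 0 0))) (.pos 67 .mp ⟨130837549, 0, 0, 0, 0, 0, 0, 0, 0, ⟨0, 0⟩, 0⟩ 0 0)) (.pos 32 .mp ⟨132102140, 0, 0, 0, 0, 0, 0, 0, 0, ⟨0, 0⟩, 0⟩ 0 0)))) (.cut .l 1329272 (.cut .v 17039360 (.pos 29 .mp ⟨56404039, 0, 0, 0, 0, 118492468, 0, 0, 0, ⟨0, 0⟩, 0⟩ 0 0) (.pos 30 .mp ⟨147341256, 0, 0, 0, 0, 0, 0, 0, 0, ⟨0, 0⟩, 0⟩ 0 0)) (.cut .d (-163840) (.cut .s 10780672 (.cut .v 17039360 (.pos 29 .mp ⟨0, 0, 0, 0, 0, 190242667, 0, 0, 0, ⟨0, 0⟩, 0⟩ 0 0) (.pos 30 .mp ⟨64087936, 0, 0, 0, 0, 99844834, 0, 0, 0, ⟨0, 0⟩, 0⟩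 0 0)) (.pos 27 .mp ⟨62287887, 0, 0, 0, 0, 117235927, 0, 0, 0, ⟨0, 0⟩, 0⟩ 0 0)) (.cut .v 17039360 (.cut .s 10780672 (.cut .s 10731520 (.pos 29 .mp ⟨53756129, 0, 0, 0, 0, 103410281, 0, 0, 0, ⟨0, 0⟩, 0⟩ 0 0) (.pos 29 .mp ⟨36222835, 0, 0, 0, 0, 133473142, 0, 0, 0, ⟨0, 0⟩, 0⟩ 0 0)) (.pos 29 .mp ⟨19612112, 0, 0, 0, 0, 164884334, 0, 0, 0, ⟨0, 0⟩, 0⟩ 0 0)) (.cut .s 10780672 (.cut .s 10731520 (.pos 30 .mp ⟨66816070, 0, 0, 0, 0, 85125391, 0, 0, 0, ⟨0, 0⟩, 0⟩ 0 0) (.pos 30 .mp ⟨66896673, 0, 0, 0, 0, 90379411, 0, 0, 0, ⟨0, 0⟩, 0⟩ 0 0)) (.pos 30 .mp ⟨71045891, 0, 0, 0, 0, 92306136, 0, 0, 0, ⟨0, 0⟩, 0⟩ 0 0)))))))) (.cut .s 10682368 (.cut .v 17039360 (.cut .s 10584064 (.cut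 .d (-65536) (.cut .l 980822 (.cut .l 632372 (.pos 29 .mp ⟨50584559, 0, 0, 0, 0, 95444313, 0, 0, 0, ⟨0, 0⟩, 0⟩ 0 0) (.cut .v 16908288 (.pos 60 .mp ⟨20564801, 0, 0, 0, 0, 129913966, 0, 0, 0, ⟨0, 0⟩, 0⟩ 0 0) (.cut .s 10534912 (.pos 61 .mp ⟨57126915, 0, 0, 0, 0, 77771617, 0, 0, 0, ⟨0, 0⟩, 0⟩ 0 0) (.pos 61 .mp ⟨58897840, 0, 0, 0, 0, 79989102, 0, 0, 0, ⟨0, 0⟩, 0⟩ 0 0)))) (.cut .s 10534912 (.pos 29 .mp ⟨53934327, 0, 0, 0, 0, 78373109, 0, 0, 0, ⟨0, 0⟩, 0⟩ 0 0) (.cut .s 10559488 (.pos 29 .mp ⟨54334274, 0, 0, 0, 0, 82113926, 0, 0, 0, ⟨0, 0⟩, 0⟩ 0 0) (.pos 29 .mp ⟨55486742, 0, 0, 0, 0, 82738370, 0, 0, 0, ⟨0, 0⟩, 0⟩ 0 0)))) (.cut .v 16908288 (.cut .l 980822 (.cut .l 632372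 (.cut .d (-32768) (.cut .s 10534912 (.cut .s 10510336 (.pos 60 .mp ⟨48511806, 0, 0, 0, 0, 86577557, 0, 0, 0, ⟨0, 0⟩, 0⟩ 0 0) (.pos 60 .mp ⟨49058692, 0, 0, 0, 0, 88122272, 0, 0, 0, ⟨0, 0⟩, 0⟩ 0 0)) (.cut .s 10559488 (.pos 60 .mp ⟨49629812, 0, 0, 0, 0, 89670603, 0, 0, 0, ⟨0, 0⟩, 0⟩ 0 0) (.pos 60 .mp ⟨50226344, 0, 0, 0, 0, 91220597, 0, 0, 0, ⟨0, 0⟩, 0⟩ 0 0))) (.cut .d (-16384) (.cut .d (-24576) (.cut .s 10534912 (.pos 60 .mp ⟨49542987, 0, 0, 0, 0, 81809563, 0, 0, 0, ⟨0, 0⟩, 0⟩ 0 0) (.cut .s 10559488 (.pos 60 .mp ⟨50254052, 0, 0, 0, 0, 84724610, 0, 0, 0, ⟨0, 0⟩, 0⟩ 0 0) (.pos 60 .mp ⟨50971857, 0, 0, 0, 0, 86050063, 0, 0, 0, ⟨0, 0⟩, 0⟩ 0 0))) (.pos 60 .mp ⟨50228111,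 0, 0, 0, 0, 0, 0, 0, 0, ⟨0, 0⟩, 0⟩ 0 0)) (.pos 60 .mp ⟨0, 0, 0, 0, 0, 0, 0, 0, 0, ⟨0, 0⟩, 0⟩ 0 0))) (.pos 60 .mp ⟨51430202, 0, 0, 0, 0, 60231223, 0, 0, 0, ⟨0, 0⟩, 0⟩ 0 0)) (.pos 60 .mp ⟨0, 0, 0, 0, 0, 0, 0, 0, 0, ⟨0, 0⟩, 0⟩ 0 0)) (.pos 61 .mp ⟨108352569, 0, 0, 0, 0, 0, 0, 0, 0, ⟨0, 0⟩, 0⟩ 0 0))) (.cut .d (-65536) (.cut .l 980822 (.cut .d (-98304) (.pos 29 .mp ⟨52602168, 0, 0, 0, 0, 102740664, 0, 0, 0, ⟨0, 0⟩, 0⟩ 0 0) (.cut .l 632372 (.void 29 ⟨0, 0, 0, 0, 0, 100000, 0, 0, 0, ⟨0, 0⟩, 0⟩ 0 0) (.cut .v 16908288 (.pos 60 .mp ⟨21675996, 0, 0, 0, 0, 138039662, 0, 0, 0, ⟨0, 0⟩, 0⟩ 0 0) (.cut .s 10633216 (.pos 61 .mp ⟨57542093, 0, 0, 0, 0, 85564172, 0, 0, 0, ⟨0, 0⟩,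 0⟩ 0 0) (.pos 61 .mp ⟨59263221, 0, 0, 0, 0, 88113686, 0, 0, 0, ⟨0, 0⟩, 0⟩ 0 0))))) (.cut .d (-98304) (.cut .s 10633216 (.pos 29 .mp ⟨47594891, 0, 0, 0, 0, 101043486, 0, 0, 0, ⟨0, 0⟩, 0⟩ 0 0) (.pos 29 .mp ⟨49043185, 0, 0, 0, 0, 104058064, 0, 0, 0, ⟨0, 0⟩, 0⟩ 0 0)) (.pos 29 .mp ⟨55810178, 0, 0, 0, 0, 0, 0, 0, 0, ⟨0, 0⟩, 0⟩ 0 0))) (.cut .l 980822 (.cut .v 16908288 (.cut .l 632372 (.cut .d (-32768) (.cut .s 10633216 (.cut .s 10608640 (.pos 60 .mp ⟨50849474, 0, 0, 0, 0, 92770281, 0, 0, 0, ⟨0, 0⟩, 0⟩ 0 0) (.pos 60 .mp ⟨51500393, 0, 0, 0, 0, 94317659, 0, 0, 0, ⟨0, 0⟩, 0⟩ 0 0)) (.cut .s 10657792 (.pos 60 .mp ⟨52180300, 0, 0, 0, 0, 95860717, 0, 0, 0, ⟨0, 0⟩, 0⟩ 0 0)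 (.pos 60 .mp ⟨52890401, 0, 0, 0, 0, 97397421, 0, 0, 0, ⟨0, 0⟩, 0⟩ 0 0))) (.cut .d (-16384) (.cut .d (-24576) (.cut .l 458147 (.cut .l 371034 (.cut .v 16842752 (.cut .s 10633216 (.pos 68 .mp ⟨49891411, 0, 0, 0, 0, 92902536, 0, 0, 0, ⟨0, 0⟩, 0⟩ 0 0) (.pos 68 .mp ⟨51304449, 0, 0, 0, 0, 95796758, 0, 0, 0, ⟨0, 0⟩, 0⟩ 0 0)) (.pos 69 .mp ⟨115644756, 0, 0, 0, 0, 0, 0, 0, 0, ⟨0, 0⟩, 0⟩ 0 0)) (.pos 60 .mp ⟨53246397, 0, 0, 0, 0, 0, 0, 0, 0, ⟨0, 0⟩, 0⟩ 0 0)) (.pos 60 .mp ⟨0, 0, 0, 0, 0, 0, 0, 0, 0, ⟨0, 0⟩, 0⟩ 0 0)) (.pos 60 .mp ⟨53106037, 0, 0, 0, 0, 0, 0, 0, 0, ⟨0, 0⟩, 0⟩ 0 0)) (.pos 60 .mp ⟨0, 0, 0, 0, 0, 0, 0, 0, 0, ⟨0, 0⟩, 0⟩ 0 0))) (.pos 60 .mp ⟨52723496, 0, 0, 0,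 0, 85689696, 0, 0, 0, ⟨0, 0⟩, 0⟩ 0 0)) (.pos 61 .mp ⟨116025891, 0, 0, 0, 0, 0, 0, 0, 0, ⟨0, 0⟩, 0⟩ 0 0)) (.pos 29 .mp ⟨0, 0, 0, 0, 0, 0, 0, 0, 0, ⟨0, 0⟩, 0⟩ 0 0)))) (.cut .s 10584064 (.pos 30 .mp ⟨112128343, 0, 0, 0, 0, 0, 0, 0, 0, ⟨0, 0⟩, 0⟩ 0 0) (.pos 30 .mp ⟨118391349, 0, 0, 0, 0, 0, 0, 0, 0, ⟨0, 0⟩, 0⟩ 0 0))) (.cut .v 17039360 (.cut .s 10780672 (.cut .d (-65536) (.cut .l 980822 (.cut .d (-98304) (.pos 29 .mp ⟨55810178, 0, 0, 0, 0, 109117900, 0, 0, 0, ⟨0, 0⟩, 0⟩ 0 0) (.cut .l 632372 (.void 29 ⟨0, 0, 0, 0, 0, 100000, 0, 0, 0, ⟨0, 0⟩, 0⟩ 0 0) (.cut .s 10731520 (.pos 29 .mp ⟨52562945, 0, 0, 0, 0, 104887338, 0, 0, 0, ⟨0, 0⟩, 0⟩ 0 0) (.pos 29 .mp ⟨54083436, 0,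 0, 0, 0, 108161373, 0, 0, 0, ⟨0, 0⟩, 0⟩ 0 0)))) (.cut .d (-98304) (.cut .s 10731520 (.pos 29 .mp ⟨50518441, 0, 0, 0, 0, 107220835, 0, 0, 0, ⟨0, 0⟩, 0⟩ 0 0) (.pos 29 .mp ⟨52021298, 0, 0, 0, 0, 110533263, 0, 0, 0, ⟨0, 0⟩, 0⟩ 0 0)) (.pos 29 .mp ⟨56628429, 0, 0, 0, 0, 91730526, 0, 0, 0, ⟨0, 0⟩, 0⟩ 0 0))) (.cut .l 980822 (.cut .v 16908288 (.cut .l 632372 (.cut .d (-32768) (.cut .v 16842752 (.pos 68 .mp ⟨0, 0, 0, 0, 0, 182105943, 0, 0, 0, ⟨0, 0⟩, 0⟩ 0 0) (.cut .s 10731520 (.cut .s 10706944 (.pos 69 .mp ⟨55038198, 0, 0, 0, 0, 97160208, 0, 0, 0, ⟨0, 0⟩, 0⟩ 0 0) (.pos 69 .mp ⟨55804763, 0, 0, 0, 0, 98707115, 0, 0, 0, ⟨0, 0⟩, 0⟩ 0 0)) (.cut .s 10756096 (.pos 69 .mp ⟨56578703,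 0, 0, 0, 0, 100297409, 0, 0, 0, ⟨0, 0⟩, 0⟩ 0 0) (.pos 69 .mp ⟨57360106, 0, 0, 0, 0, 101931683, 0, 0, 0, ⟨0, 0⟩, 0⟩ 0 0)))) (.cut .d (-16384) (.cut .d (-24576) (.cut .l 458147 (.cut .l 371034 (.cut .v 16842752 (.cut .s 10731520 (.pos 68 .mp ⟨52743975, 0, 0, 0, 0, 98776900, 0, 0, 0, ⟨0, 0⟩, 0⟩ 0 0) (.pos 68 .mp ⟨54210615, 0, 0, 0, 0, 101839945, 0, 0, 0, ⟨0, 0⟩, 0⟩ 0 0)) (.pos 69 .mp ⟨90669769, 0, 0, 0, 0, 47687340, 0, 0, 0, ⟨0, 0⟩, 0⟩ 0 0)) (.pos 60 .mp ⟨56262428, 0, 0, 0, 0, 0, 0, 0, 0, ⟨0, 0⟩, 0⟩ 0 0)) (.pos 60 .mp ⟨0, 0, 0, 0, 0, 0, 0, 0, 0, ⟨0, 0⟩, 0⟩ 0 0)) (.pos 60 .mp ⟨56093426, 0, 0, 0, 0, 0, 0, 0, 0, ⟨0, 0⟩, 0⟩ 0 0)) (.pos 60 .mp ⟨0, 0, 0, 0, 0, 0, 0,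 0, 0, ⟨0, 0⟩, 0⟩ 0 0))) (.pos 60 .mp ⟨55703917, 0, 0, 0, 0, 91273510, 0, 0, 0, ⟨0, 0⟩, 0⟩ 0 0)) (.pos 61 .mp ⟨122621692, 0, 0, 0, 0, 0, 0, 0, 0, ⟨0, 0⟩, 0⟩ 0 0)) (.pos 29 .mp ⟨0, 0, 0, 0, 0, 0, 0, 0, 0, ⟨0, 0⟩, 0⟩ 0 0))) (.cut .d (-65536) (.cut .l 980822 (.cut .s 10829824 (.cut .s 10805248 (.pos 29 .mp ⟨55632912, 0, 0, 0, 0, 111300168, 0, 0, 0, ⟨0, 0⟩, 0⟩ 0 0) (.pos 29 .mp ⟨56418736, 0, 0, 0, 0, 113113780, 0, 0, 0, ⟨0, 0⟩, 0⟩ 0 0)) (.pos 29 .mp ⟨57212070, 0, 0, 0, 0, 116781718, 0, 0, 0, ⟨0, 0⟩, 0⟩ 0 0)) (.cut .s 10829824 (.pos 29 .mp ⟨50479980, 0, 0, 0, 0, 117245362, 0, 0, 0, ⟨0, 0⟩, 0⟩ 0 0) (.pos 29 .mp ⟨52209757, 0, 0, 0, 0, 120476888, 0, 0, 0, ⟨0, 0⟩, 0⟩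 0 0))) (.cut .l 980822 (.cut .v 16908288 (.cut .l 632372 (.cut .d (-32768) (.cut .s 10829824 (.cut .s 10805248 (.pos 60 .mp ⟨56936579, 0, 0, 0, 0, 104912851, 0, 0, 0, ⟨0, 0⟩, 0⟩ 0 0) (.pos 60 .mp ⟨57853618, 0, 0, 0, 0, 106367447, 0, 0, 0, ⟨0, 0⟩, 0⟩ 0 0)) (.pos 60 .mp ⟨56199593, 0, 0, 0, 0, 113873521, 0, 0, 0, ⟨0, 0⟩, 0⟩ 0 0)) (.cut .s 10829824 (.cut .s 10805248 (.pos 60 .mp ⟨57748633, 0, 0, 0, 0, 98098882, 0, 0, 0, ⟨0, 0⟩, 0⟩ 0 0) (.pos 60 .mp ⟨58538322, 0, 0, 0, 0, 99624357, 0, 0, 0, ⟨0, 0⟩, 0⟩ 0 0)) (.pos 60 .mp ⟨60140793, 0, 0, 0, 0, 100282821, 0, 0, 0, ⟨0, 0⟩, 0⟩ 0 0))) (.pos 60 .mp ⟨58758274, 0, 0, 0, 0, 97254859, 0, 0, 0, ⟨0, 0⟩, 0⟩ 0 0)) (.pos 61 .mp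 ⟨129732627, 0, 0, 0, 0, 0, 0, 0, 0, ⟨0, 0⟩, 0⟩ 0 0)) (.pos 29 .mp ⟨0, 0, 0, 0, 0, 0, 0, 0, 0, ⟨0, 0⟩, 0⟩ 0 0)))) (.cut .s 10780672 (.pos 30 .mp ⟨125157739, 0, 0, 0, 0, 0, 0, 0, 0, ⟨0, 0⟩, 0⟩ 0 0) (.pos 30 .mp ⟨132448486, 0, 0, 0, 0, 0, 0, 0, 0, ⟨0, 0⟩, 0⟩ 0 0))))) (.cut .d (-131072) (.pos 28 .mp ⟨147024189, 0, 0, 0, 0, 0, 0, 0, 0, ⟨0, 0⟩, 0⟩ 0 0) (.pos 28 .mp ⟨127515764, 0, 0, 0, 0, 0, 0, 0, 0, ⟨0, 0⟩, 0⟩ 0 0))) (.pos 26 .mp ⟨145846178, 0, 0, 0, 0, 0, 0, 0, 0, ⟨0, 0⟩, 0⟩ 0 0)))))) (.void 24 ⟨100000, 0, 0, 0, 0, 0, 0, 0, 0, ⟨0, 0⟩, 0⟩ 0 0))) (.void 22 ⟨100000, 0, 0, 0, 0, 0, 0, 0, 0, ⟨0, 0⟩, 0⟩ 0 0))) (.void 20 ⟨100000, 0, 0, 0, 0, 0, 0, 0, 0, ⟨0, 0⟩, 0⟩ 0 0))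 (.void 59 ⟨100000, 0, 0, 0, 0, 0, 0, 0, 0, ⟨0, 0⟩, 0⟩ 0 0)) (.void 72 ⟨100000, 0, 0, 0, 0, 0, 0, 0, 0, ⟨0, 0⟩, 0⟩ 0 0)) (.void 91 ⟨95573, 0, 0, 4427, 0, 0, 0, 0, 0, ⟨0, 0⟩, 0⟩ 0 0))) (.cut .v 16777216 (.cut .v 8388608 (.cut .v 4194304 (.cut .v 2097152 (.void 83 ⟨0, 0, 25058, 0, 0, 0, 0, 0, 74942, ⟨0, 0⟩, 2804900⟩ 0 0) (.pos 84 .pm ⟨0, 0, 0, 0, 0, 0, 0, 0, 3326078, ⟨0, 0⟩, 7053950⟩ 0 0)) (.cut .d 5033166 (.pos 5 .pm ⟨0, 0, 0, 0, 0, 0, 0, 0, 0, ⟨0, 0⟩, 0⟩ 0 0) (.cut .d 7549749 (.pos 5 .pm ⟨0, 0, 0, 0, 0, 0, 0, 0, 0, ⟨0, 0⟩, 0⟩ 0 0) (.pos 5 .pm ⟨0, 57381117, 0, 0, 0, 0, 0, 0, 0, ⟨0, 0⟩, 0⟩ 0 0)))) (.cut .d 5033166 (.pos 3 .pm ⟨0, 0, 0, 0, 0, 0, 0, 0, 0, ⟨0, 0⟩,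 0⟩ 0 0) (.cut .d 7549749 (.pos 3 .pm ⟨0, 0, 0, 0, 0, 0, 0, 0, 0, ⟨0, 0⟩, 0⟩ 0 0) (.pos 3 .pm ⟨0, 74602809, 0, 0, 0, 0, 0, 0, 0, ⟨0, 0⟩, 0⟩ 0 0)))) (.cut .v 268435456 (.cut .d 5033166 (.cut .v 67108864 (.cut .d 2516583 (.cut .v 33554432 (.cut .d 1258291 (.cut .v 25165824 (.cut .v 20971520 (.pos 21 .pp ⟨84205982, 0, 0, 0, 0, 0, 0, 0, 0, ⟨0, 0⟩, 0⟩ 0 0) (.pos 22 .pp ⟨153954507, 0, 0, 0, 0, 0, 0, 0, 0, ⟨0, 0⟩, 0⟩ 0 0)) (.pos 20 .pp ⟨262511423, 0, 0, 0, 0, 0, 0, 0, 0, ⟨0, 0⟩, 0⟩ 0 0)) (.pos 18 .pp ⟨0, 0, 0, 0, 0, 0, 0, 0, 0, ⟨0, 0⟩, 0⟩ 0 0)) (.cut .d 1258291 (.pos 59 .pp ⟨1091663014, 0, 0, 0, 0, 0, 0, 0, 0, ⟨0, 0⟩, 0⟩ 0 0) (.cut .v 50331648 (.pos 62 .pp ⟨277373662,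 0, 0, 0, 0, 0, 0, 0, 0, ⟨0, 0⟩, 0⟩ 0 0) (.pos 63 .pp ⟨801152446, 0, 0, 0, 0, 0, 0, 0, 0, ⟨0, 0⟩, 0⟩ 0 0)))) (.pos 58 .pp ⟨0, 0, 0, 0, 0, 0, 0, 0, 0, ⟨0, 0⟩, 0⟩ 0 0)) (.cut .v 134217728 (.cut .d 2516583 (.cut .v 100663296 (.pos 75 .pp ⟨2512814263, 0, 0, 0, 0, 0, 0, 0, 0, ⟨0, 0⟩, 0⟩ 0 0) (.void 76 ⟨41769, 58231, 0, 0, 0, 0, 0, 0, 0, ⟨0, 0⟩, 0⟩ 0 0)) (.pos 73 .pp ⟨533148861, 323735479, 0, 0, 0, 0, 0, 0, 0, ⟨0, 0⟩, 0⟩ 0 0)) (.void 74 ⟨40138, 59862, 0, 0, 0, 0, 0, 0, 0, ⟨0, 0⟩, 0⟩ 0 0))) (.pos 71 .pp ⟨0, 56795596, 0, 0, 0, 0, 0, 0, 0, ⟨0, 0⟩, 0⟩ 0 0)) (.void 91 ⟨0, 0, 0, 100000, 0, 0, 0, 0, 0, ⟨0, 0⟩, 0⟩ 0 0)))),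
    by decide +kernel⟩

def covers15 : cell.Covers table row15.1 :=
  ⟨(.cut .d 0 (.cut .v 16777216 (.cut .d (-8388608) (.void 1 ⟨0, 0, 0, 0, 0, 100000, 0, 0, 0, ⟨0, 0⟩, 0⟩ 0 0) (.cut .d (-4194304) (.void 1 ⟨0, 0, 0, 0, 0, 100000, 0, 0, 0, ⟨0, 0⟩, 0⟩ 0 0) (.cut .d (-2097152) (.void 1 ⟨0, 0, 0, 0, 0, 100000, 0, 0, 0, ⟨0, 0⟩, 0⟩ 0 0) (.cut .d (-1048576) (.void 1 ⟨0, 0, 0, 0, 0, 100000, 0, 0, 0, ⟨0, 0⟩, 0⟩ 0 0) (.cut .d (-524288) (.void 1 ⟨0, 0, 0, 0, 0, 100000, 0, 0, 0, ⟨0, 0⟩, 0⟩ 0 0) (.cut .d (-262144) (.void 1 ⟨0, 0, 0, 0, 0, 100000, 0, 0, 0, ⟨0, 0⟩, 0⟩ 0 0) (.cut .v 8388608 (.cut .v 4194304 (.void 4 ⟨0, 0, 100000, 0, 0, 0, 0, 0, 0, ⟨0, 0⟩, 0⟩ 0 0) (.pos 5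 .mm ⟨0, 0, 0, 0, 0, 88691337, 0, 0, 0, ⟨0, 0⟩, 0⟩ 0 0)) (.cut .d (-131072) (.pos 3 .mm ⟨0, 0, 0, 0, 0, 252313509, 0, 0, 0, ⟨0, 0⟩, 0⟩ 0 0) (.cut .v 12582912 (.pos 6 .mm ⟨0, 0, 0, 0, 0, 127420312, 0, 0, 0, ⟨0, 0⟩, 0⟩ 0 0) (.cut .v 14680064 (.pos 10 .mm ⟨0, 0, 0, 0, 0, 173073665, 0, 0, 0, ⟨0, 0⟩, 0⟩ 0 0) (.cut .v 15728640 (.pos 12 .mm ⟨0, 0, 0, 0, 0, 196885871, 0, 0, 0, ⟨0, 0⟩, 0⟩ 0 0) (.cut .v 16252928 (.pos 14 .mm ⟨0, 0, 0, 0, 0, 208038194, 0, 0, 0, ⟨0, 0⟩, 0⟩ 0 0) (.cut .v 16515072 (.pos 16 .mm ⟨0, 0, 0, 0, 0, 213801439, 0, 0, 0, ⟨0, 0⟩, 0⟩ 0 0) (.cut .s 11108352 (.cut .s 10993664 (.pos 17 .mm ⟨0, 0, 0, 0, 0, 196104890, 0, 0, 0, ⟨0, 0⟩, 0⟩ 0 0) (.pos 17 .mm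 ⟨0, 0, 0, 0, 0, 210734792, 0, 0, 0, ⟨0, 0⟩, 0⟩ 0 0)) (.cut .s 11223040 (.pos 17 .mm ⟨0, 0, 0, 0, 0, 226335757, 0, 0, 0, ⟨0, 0⟩, 0⟩ 0 0) (.pos 17 .mm ⟨0, 0, 0, 0, 0, 242878559, 0, 0, 0, ⟨0, 0⟩, 0⟩ 0 0)))))))))))))))) (.cut .v 268435456 (.cut .v 67108864 (.cut .v 33554432 (.cut .v 25165824 (.cut .d (-8388608) (.void 19 ⟨0, 0, 0, 0, 0, 100000, 0, 0, 0, ⟨0, 0⟩, 0⟩ 0 0) (.cut .v 20971520 (.cut .d (-4194304) (.void 21 ⟨100000, 0, 0, 0, 0, 0, 0, 0, 0, ⟨0, 0⟩, 0⟩ 0 0) (.cut .d (-2097152) (.void 21 ⟨100000, 0, 0, 0, 0, 0, 0, 0, 0, ⟨0, 0⟩, 0⟩ 0 0) (.cut .d (-1048576) (.void 21 ⟨100000, 0, 0, 0, 0, 0, 0, 0, 0, ⟨0, 0⟩, 0⟩ 0 0) (.cut .d (-524288) (.void 21 ⟨100000, 0, 0,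 0, 0, 0, 0, 0, 0, ⟨0, 0⟩, 0⟩ 0 0) (.cut .d (-262144) (.void 21 ⟨0, 0, 0, 0, 0, 100000, 0, 0, 0, ⟨0, 0⟩, 0⟩ 0 0) (.cut .v 18874368 (.cut .v 17825792 (.cut .d (-131072) (.cut .v 17301504 (.cut .d (-196608) (.void 27 ⟨0, 0, 0, 0, 0, 100000, 0, 0, 0, ⟨0, 0⟩, 0⟩ 0 0) (.cut .l 980822 (.void 27 ⟨0, 0, 0, 0, 0, 100000, 0, 0, 0, ⟨0, 0⟩, 0⟩ 0 0) (.cut .d (-163840) (.void 27 ⟨0, 0, 0, 0, 0, 100000, 0, 0, 0, ⟨0, 0⟩, 0⟩ 0 0) (.cut .l 1329272 (.void 27 ⟨0, 0, 0, 0, 0, 100000, 0, 0, 0, ⟨0, 0⟩, 0⟩ 0 0) (.cut .s 11108352 (.cut .v 17039360 (.cut .s 10993664 (.pos 29 .mp ⟨27555342, 0, 0, 0, 0, 171013486, 0, 0, 0, ⟨0, 0⟩, 0⟩ 0 0) (.cut .s 11051008 (.pos 29 .mp ⟨41992022, 0, 0,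 0, 0, 159614570, 0, 0, 0, ⟨0, 0⟩, 0⟩ 0 0) (.pos 29 .mp ⟨41073208, 0, 0, 0, 0, 168435414, 0, 0, 0, ⟨0, 0⟩, 0⟩ 0 0))) (.cut .s 10993664 (.pos 30 .mp ⟨76250829, 0, 0, 0, 0, 101784332, 0, 0, 0, ⟨0, 0⟩, 0⟩ 0 0) (.cut .s 11051008 (.pos 30 .mp ⟨78144396, 0, 0, 0, 0, 108322289, 0, 0, 0, ⟨0, 0⟩, 0⟩ 0 0) (.cut .s 11079680 (.pos 30 .mp ⟨77978128, 0, 0, 0, 0, 114098163, 0, 0, 0, ⟨0, 0⟩, 0⟩ 0 0) (.pos 30 .mp ⟨79266337, 0, 0, 0, 0, 116037179, 0, 0, 0, ⟨0, 0⟩, 0⟩ 0 0))))) (.cut .s 11223040 (.cut .v 17039360 (.cut .s 11165696 (.pos 29 .mp ⟨40704305, 0, 0, 0, 0, 176799261, 0, 0, 0, ⟨0, 0⟩, 0⟩ 0 0) (.pos 29 .mp ⟨40954055, 0, 0, 0, 0, 184599846, 0, 0, 0, ⟨0, 0⟩, 0⟩ 0 0)) (.cut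 .s 11165696 (.cut .s 11137024 (.pos 30 .mp ⟨80600940, 0, 0, 0, 0, 117968653, 0, 0, 0, ⟨0, 0⟩, 0⟩ 0 0) (.pos 30 .mp ⟨81983619, 0, 0, 0, 0, 119889427, 0, 0, 0, ⟨0, 0⟩, 0⟩ 0 0)) (.pos 30 .mp ⟨86654913, 0, 0, 0, 0, 118857164, 0, 0, 0, ⟨0, 0⟩, 0⟩ 0 0))) (.cut .v 17039360 (.pos 29 .mp ⟨17239933, 0, 0, 0, 0, 233370610, 0, 0, 0, ⟨0, 0⟩, 0⟩ 0 0) (.cut .s 11280384 (.pos 30 .mp ⟨89907183, 0, 0, 0, 0, 122212969, 0, 0, 0, ⟨0, 0⟩, 0⟩ 0 0) (.pos 30 .mp ⟨93390248, 0, 0, 0, 0, 125447099, 0, 0, 0, ⟨0, 0⟩, 0⟩ 0 0))))))))) (.pos 28 .mp ⟨193193388, 0, 0, 0, 0, 0, 0, 0, 0, ⟨0, 0⟩, 0⟩ 0 0)) (.cut .v 17301504 (.cut .s 11108352 (.cut .s 10993664 (.cut .v 17039360 (.cut .d (-65536) (.cut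 .l 980822 (.cut .s 10936320 (.pos 29 .mp ⟨58826043, 0, 0, 0, 0, 121786326, 0, 0, 0, ⟨0, 0⟩, 0⟩ 0 0) (.cut .s 10964992 (.pos 29 .mp ⟨60787155, 0, 0, 0, 0, 122927283, 0, 0, 0, ⟨0, 0⟩, 0⟩ 0 0) (.pos 29 .mp ⟨61782320, 0, 0, 0, 0, 124820742, 0, 0, 0, ⟨0, 0⟩, 0⟩ 0 0))) (.cut .d (-98304) (.cut .s 10936320 (.pos 29 .mp ⟨56707500, 0, 0, 0, 0, 122789516, 0, 0, 0, ⟨0, 0⟩, 0⟩ 0 0) (.pos 29 .mp ⟨58675368, 0, 0, 0, 0, 126573132, 0, 0, 0, ⟨0, 0⟩, 0⟩ 0 0)) (.pos 29 .mp ⟨66965404, 0, 0, 0, 0, 101093795, 0, 0, 0, ⟨0, 0⟩, 0⟩ 0 0))) (.cut .l 980822 (.cut .v 16908288 (.cut .l 632372 (.cut .d (-32768) (.cut .s 10936320 (.pos 60 .mp ⟨58371080, 0, 0, 0, 0, 117538967, 0, 0, 0, ⟨0, 0⟩,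 0⟩ 0 0) (.cut .s 10964992 (.pos 60 .mp ⟨62090555, 0, 0, 0, 0, 116008635, 0, 0, 0, ⟨0, 0⟩, 0⟩ 0 0) (.pos 60 .mp ⟨62738212, 0, 0, 0, 0, 118530078, 0, 0, 0, ⟨0, 0⟩, 0⟩ 0 0))) (.cut .d (-16384) (.cut .d (-24576) (.cut .s 10936320 (.pos 60 .mp ⟨61954077, 0, 0, 0, 0, 108694163, 0, 0, 0, ⟨0, 0⟩, 0⟩ 0 0) (.cut .s 10964992 (.pos 60 .mp ⟨61806779, 0, 0, 0, 0, 115291348, 0, 0, 0, ⟨0, 0⟩, 0⟩ 0 0) (.pos 60 .mp ⟨62877003, 0, 0, 0, 0, 116948473, 0, 0, 0, ⟨0, 0⟩, 0⟩ 0 0))) (.pos 60 .mp ⟨62990419, 0, 0, 0, 0, 0, 0, 0, 0, ⟨0, 0⟩, 0⟩ 0 0)) (.pos 60 .mp ⟨0, 0, 0, 0, 0, 0, 0, 0, 0, ⟨0, 0⟩, 0⟩ 0 0))) (.pos 60 .mp ⟨65018804, 0, 0, 0, 0, 100915917, 0, 0, 0, ⟨0, 0⟩, 0⟩ 0 0)) (.pos 61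 .mp ⟨138725924, 0, 0, 0, 0, 0, 0, 0, 0, ⟨0, 0⟩, 0⟩ 0 0)) (.pos 29 .mp ⟨0, 0, 0, 0, 0, 0, 0, 0, 0, ⟨0, 0⟩, 0⟩ 0 0))) (.pos 30 .mp ⟨141626640, 0, 0, 0, 0, 0, 0, 0, 0, ⟨0, 0⟩, 0⟩ 0 0)) (.cut .v 17039360 (.cut .d (-65536) (.cut .l 980822 (.cut .d (-98304) (.void 29 ⟨0, 0, 0, 0, 0, 100000, 0, 0, 0, ⟨0, 0⟩, 0⟩ 0 0) (.cut .l 632372 (.void 29 ⟨0, 0, 0, 0, 0, 100000, 0, 0, 0, ⟨0, 0⟩, 0⟩ 0 0) (.cut .s 11051008 (.pos 29 .mp ⟨62787418, 0, 0, 0, 0, 128456544, 0, 0, 0, ⟨0, 0⟩, 0⟩ 0 0) (.cut .s 11079680 (.pos 29 .mp ⟨64828008, 0, 0, 0, 0, 130151405, 0, 0, 0, ⟨0, 0⟩, 0⟩ 0 0) (.pos 29 .mp ⟨65863806, 0, 0, 0, 0, 132395867, 0, 0, 0, ⟨0, 0⟩, 0⟩ 0 0))))) (.cut .v 16908288 (.pos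 60 .mp ⟨0, 0, 0, 0, 0, 212521464, 0, 0, 0, ⟨0, 0⟩, 0⟩ 0 0) (.cut .d (-98304) (.cut .l 1329272 (.cut .s 11051008 (.pos 61 .mp ⟨64748223, 0, 0, 0, 0, 126335935, 0, 0, 0, ⟨0, 0⟩, 0⟩ 0 0) (.pos 61 .mp ⟨66926421, 0, 0, 0, 0, 130544916, 0, 0, 0, ⟨0, 0⟩, 0⟩ 0 0)) (.cut .s 11051008 (.pos 61 .mp ⟨71338821, 0, 0, 0, 0, 110677288, 0, 0, 0, ⟨0, 0⟩, 0⟩ 0 0) (.pos 61 .mp ⟨73771968, 0, 0, 0, 0, 114235891, 0, 0, 0, ⟨0, 0⟩, 0⟩ 0 0))) (.pos 61 .mp ⟨72518663, 0, 0, 0, 0, 108728272, 0, 0, 0, ⟨0, 0⟩, 0⟩ 0 0)))) (.cut .l 980822 (.cut .v 16908288 (.cut .d (-32768) (.cut .l 632372 (.cut .d (-49152) (.pos 60 .mp ⟨62945053, 0, 0, 0, 0, 133802039, 0, 0, 0, ⟨0, 0⟩, 0⟩ 0 0) (.cut .l 458147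 (.cut .s 11051008 (.pos 60 .mp ⟨62448641, 0, 0, 0, 0, 127607296, 0, 0, 0, ⟨0, 0⟩, 0⟩ 0 0) (.cut .s 11079680 (.pos 60 .mp ⟨64401884, 0, 0, 0, 0, 129443051, 0, 0, 0, ⟨0, 0⟩, 0⟩ 0 0) (.pos 60 .mp ⟨65393074, 0, 0, 0, 0, 131663511, 0, 0, 0, ⟨0, 0⟩, 0⟩ 0 0))) (.cut .s 11051008 (.pos 60 .mp ⟨64983568, 0, 0, 0, 0, 117075788, 0, 0, 0, ⟨0, 0⟩, 0⟩ 0 0) (.pos 60 .mp ⟨67298684, 0, 0, 0, 0, 120565761, 0, 0, 0, ⟨0, 0⟩, 0⟩ 0 0)))) (.pos 60 .mp ⟨58229132, 0, 0, 0, 0, 129176732, 0, 0, 0, ⟨0, 0⟩, 0⟩ 0 0)) (.cut .d (-16384) (.cut .d (-24576) (.cut .l 632372 (.cut .l 458147 (.cut .l 371034 (.cut .v 16842752 (.cut .s 11051008 (.pos 68 .mp ⟨61754391, 0, 0, 0, 0, 124081391, 0, 0, 0,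 ⟨0, 0⟩, 0⟩ 0 0) (.cut .s 11079680 (.pos 68 .mp ⟨64694189, 0, 0, 0, 0, 124189421, 0, 0, 0, ⟨0, 0⟩, 0⟩ 0 0) (.pos 68 .mp ⟨65631120, 0, 0, 0, 0, 126894106, 0, 0, 0, ⟨0, 0⟩, 0⟩ 0 0))) (.pos 69 .mp ⟨134484402, 0, 0, 0, 0, 23265803, 0, 0, 0, ⟨0, 0⟩, 0⟩ 0 0)) (.pos 60 .mp ⟨67231690, 0, 0, 0, 0, 89962577, 0, 0, 0, ⟨0, 0⟩, 0⟩ 0 0)) (.pos 60 .mp ⟨0, 0, 0, 0, 0, 0, 0, 0, 0, ⟨0, 0⟩, 0⟩ 0 0)) (.pos 60 .mp ⟨0, 0, 0, 0, 0, 0, 0, 0, 0, ⟨0, 0⟩, 0⟩ 0 0)) (.pos 60 .mp ⟨66934254, 0, 0, 0, 0, 86249080, 0, 0, 0, ⟨0, 0⟩, 0⟩ 0 0)) (.pos 60 .mp ⟨0, 0, 0, 0, 0, 0, 0, 0, 0, ⟨0, 0⟩, 0⟩ 0 0))) (.cut .s 11051008 (.pos 61 .mp ⟨144088165, 0, 0, 0, 0, 0, 0, 0, 0, ⟨0, 0⟩, 0⟩ 0 0) (.pos 61 .mp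 ⟨148479564, 0, 0, 0, 0, 0, 0, 0, 0, ⟨0, 0⟩, 0⟩ 0 0))) (.pos 29 .mp ⟨0, 0, 0, 0, 0, 0, 0, 0, 0, ⟨0, 0⟩, 0⟩ 0 0))) (.pos 30 .mp ⟨150255335, 0, 0, 0, 0, 0, 0, 0, 0, ⟨0, 0⟩, 0⟩ 0 0))) (.cut .s 11223040 (.cut .v 17039360 (.cut .d (-65536) (.cut .l 980822 (.cut .d (-98304) (.void 29 ⟨0, 0, 0, 0, 0, 100000, 0, 0, 0, ⟨0, 0⟩, 0⟩ 0 0) (.cut .d (-81920) (.pos 29 .mp ⟨69198378, 0, 0, 0, 0, 144458857, 0, 0, 0, ⟨0, 0⟩, 0⟩ 0 0) (.cut .l 632372 (.void 29 ⟨0, 0, 0, 0, 0, 100000, 0, 0, 0, ⟨0, 0⟩, 0⟩ 0 0) (.cut .s 11165696 (.pos 29 .mp ⟨66910147, 0, 0, 0, 0, 136867900, 0, 0, 0, ⟨0, 0⟩, 0⟩ 0 0) (.pos 29 .mp ⟨69035106, 0, 0, 0, 0, 141695333, 0, 0, 0, ⟨0, 0⟩, 0⟩ 0 0))))) (.cut .v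 16908288 (.pos 60 .mp ⟨0, 0, 0, 0, 0, 228120600, 0, 0, 0, ⟨0, 0⟩, 0⟩ 0 0) (.cut .d (-98304) (.cut .s 11165696 (.cut .s 11137024 (.pos 61 .mp ⟨65806899, 0, 0, 0, 0, 136193195, 0, 0, 0, ⟨0, 0⟩, 0⟩ 0 0) (.pos 61 .mp ⟨66884908, 0, 0, 0, 0, 138532132, 0, 0, 0, ⟨0, 0⟩, 0⟩ 0 0)) (.cut .l 1329272 (.pos 61 .mp ⟨71423988, 0, 0, 0, 0, 139664131, 0, 0, 0, ⟨0, 0⟩, 0⟩ 0 0) (.pos 61 .mp ⟨67973838, 0, 0, 0, 0, 140673136, 0, 0, 0, ⟨0, 0⟩, 0⟩ 0 0))) (.pos 61 .mp ⟨77331991, 0, 0, 0, 0, 116031756, 0, 0, 0, ⟨0, 0⟩, 0⟩ 0 0)))) (.cut .l 980822 (.cut .s 11165696 (.cut .v 16908288 (.cut .l 632372 (.cut .d (-32768) (.cut .s 11137024 (.pos 60 .mp ⟨66759122, 0, 0, 0, 0, 130965426, 0, 0,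 0, ⟨0, 0⟩, 0⟩ 0 0) (.pos 60 .mp ⟨67737517, 0, 0, 0, 0, 133387568, 0, 0, 0, ⟨0, 0⟩, 0⟩ 0 0)) (.cut .d (-16384) (.cut .l 458147 (.cut .l 371034 (.cut .v 16842752 (.cut .d (-24576) (.cut .s 11137024 (.pos 68 .mp ⟨66586019, 0, 0, 0, 0, 129204164, 0, 0, 0, ⟨0, 0⟩, 0⟩ 0 0) (.pos 68 .mp ⟨67548409, 0, 0, 0, 0, 131601469, 0, 0, 0, ⟨0, 0⟩, 0⟩ 0 0)) (.pos 68 .mp ⟨67022069, 0, 0, 0, 0, 122996585, 0, 0, 0, ⟨0, 0⟩, 0⟩ 0 0)) (.pos 69 .mp ⟨117222302, 0, 0, 0, 0, 58099800, 0, 0, 0, ⟨0, 0⟩, 0⟩ 0 0)) (.pos 60 .mp ⟨68460108, 0, 0, 0, 0, 121293381, 0, 0, 0, ⟨0, 0⟩, 0⟩ 0 0)) (.pos 60 .mp ⟨0, 0, 0, 0, 0, 0, 0, 0, 0, ⟨0, 0⟩, 0⟩ 0 0)) (.pos 60 .mp ⟨66378835, 0, 0, 0, 0, 0, 0, 0, 0,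 ⟨0, 0⟩, 0⟩ 0 0))) (.pos 60 .mp ⟨60201428, 0, 0, 0, 0, 136363009, 0, 0, 0, ⟨0, 0⟩, 0⟩ 0 0)) (.pos 61 .mp ⟨153095870, 0, 0, 0, 0, 0, 0, 0, 0, ⟨0, 0⟩, 0⟩ 0 0)) (.cut .v 16908288 (.cut .l 632372 (.cut .d (-32768) (.cut .s 11194368 (.pos 60 .mp ⟨68779991, 0, 0, 0, 0, 135777595, 0, 0, 0, ⟨0, 0⟩, 0⟩ 0 0) (.pos 60 .mp ⟨69889172, 0, 0, 0, 0, 138130889, 0, 0, 0, ⟨0, 0⟩, 0⟩ 0 0)) (.cut .d (-16384) (.cut .l 458147 (.cut .l 371034 (.cut .v 16842752 (.cut .d (-24576) (.pos 68 .mp ⟨67602206, 0, 0, 0, 0, 137691675, 0, 0, 0, ⟨0, 0⟩, 0⟩ 0 0) (.pos 68 .mp ⟨68884820, 0, 0, 0, 0, 127746031, 0, 0, 0, ⟨0, 0⟩, 0⟩ 0 0)) (.pos 69 .mp ⟨120704674, 0, 0, 0, 0, 60403424, 0, 0, 0, ⟨0, 0⟩,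 0⟩ 0 0)) (.pos 60 .mp ⟨70444411, 0, 0, 0, 0, 125881754, 0, 0, 0, ⟨0, 0⟩, 0⟩ 0 0)) (.pos 60 .mp ⟨0, 0, 0, 0, 0, 0, 0, 0, 0, ⟨0, 0⟩, 0⟩ 0 0)) (.pos 60 .mp ⟨68266648, 0, 0, 0, 0, 0, 0, 0, 0, ⟨0, 0⟩, 0⟩ 0 0))) (.pos 60 .mp ⟨61969151, 0, 0, 0, 0, 141390384, 0, 0, 0, ⟨0, 0⟩, 0⟩ 0 0)) (.pos 61 .mp ⟨157943029, 0, 0, 0, 0, 0, 0, 0, 0, ⟨0, 0⟩, 0⟩ 0 0))) (.pos 29 .mp ⟨0, 0, 0, 0, 0, 0, 0, 0, 0, ⟨0, 0⟩, 0⟩ 0 0))) (.pos 30 .mp ⟨159775097, 0, 0, 0, 0, 0, 0, 0, 0, ⟨0, 0⟩, 0⟩ 0 0)) (.cut .v 17039360 (.cut .d (-65536) (.cut .l 980822 (.cut .s 11280384 (.pos 29 .mp ⟨71204209, 0, 0, 0, 0, 149237232, 0, 0, 0, ⟨0, 0⟩, 0⟩ 0 0) (.pos 29 .mp ⟨73418838, 0, 0, 0, 0, 154714738, 0, 0,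 0, ⟨0, 0⟩, 0⟩ 0 0)) (.cut .v 16908288 (.pos 60 .mp ⟨0, 0, 0, 0, 0, 244663811, 0, 0, 0, ⟨0, 0⟩, 0⟩ 0 0) (.cut .d (-98304) (.cut .l 1329272 (.pos 61 .mp ⟨73746240, 0, 0, 0, 0, 150307980, 0, 0, 0, ⟨0, 0⟩, 0⟩ 0 0) (.pos 61 .mp ⟨70185143, 0, 0, 0, 0, 147262715, 0, 0, 0, ⟨0, 0⟩, 0⟩ 0 0)) (.pos 61 .mp ⟨82370531, 0, 0, 0, 0, 124285688, 0, 0, 0, ⟨0, 0⟩, 0⟩ 0 0)))) (.cut .l 980822 (.cut .s 11280384 (.cut .v 16908288 (.cut .l 632372 (.cut .d (-32768) (.cut .s 11251712 (.pos 60 .mp ⟨71067715, 0, 0, 0, 0, 140442765, 0, 0, 0, ⟨0, 0⟩, 0⟩ 0 0) (.pos 60 .mp ⟨72318302, 0, 0, 0, 0, 142708465, 0, 0, 0, ⟨0, 0⟩, 0⟩ 0 0)) (.cut .d (-16384) (.cut .d (-24576) (.cut .s 11251712 (.pos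 60 .mp ⟨72083297, 0, 0, 0, 0, 136787990, 0, 0, 0, ⟨0, 0⟩, 0⟩ 0 0) (.pos 60 .mp ⟨73032793, 0, 0, 0, 0, 139614696, 0, 0, 0, ⟨0, 0⟩, 0⟩ 0 0)) (.pos 60 .mp ⟨72225459, 0, 0, 0, 0, 130729135, 0, 0, 0, ⟨0, 0⟩, 0⟩ 0 0)) (.pos 60 .mp ⟨70191079, 0, 0, 0, 0, 0, 0, 0, 0, ⟨0, 0⟩, 0⟩ 0 0))) (.pos 60 .mp ⟨63766455, 0, 0, 0, 0, 146588555, 0, 0, 0, ⟨0, 0⟩, 0⟩ 0 0)) (.pos 61 .mp ⟨112001662, 0, 0, 0, 0, 81016399, 0, 0, 0, ⟨0, 0⟩, 0⟩ 0 0)) (.cut .v 16908288 (.cut .l 632372 (.cut .d (-32768) (.pos 60 .mp ⟨70781396, 0, 0, 0, 0, 152678574, 0, 0, 0, ⟨0, 0⟩, 0⟩ 0 0) (.cut .d (-16384) (.cut .d (-24576) (.pos 60 .mp ⟨76648285, 0, 0, 0, 0, 138297770, 0, 0, 0, ⟨0, 0⟩, 0⟩ 0 0) (.pos 60 .mp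 ⟨74275505, 0, 0, 0, 0, 135630367, 0, 0, 0, ⟨0, 0⟩, 0⟩ 0 0)) (.pos 60 .mp ⟨72153250, 0, 0, 0, 0, 0, 0, 0, 0, ⟨0, 0⟩, 0⟩ 0 0))) (.pos 60 .mp ⟨65594309, 0, 0, 0, 0, 151952113, 0, 0, 0, ⟨0, 0⟩, 0⟩ 0 0)) (.pos 61 .mp ⟨117228718, 0, 0, 0, 0, 81505802, 0, 0, 0, ⟨0, 0⟩, 0⟩ 0 0))) (.pos 29 .mp ⟨0, 0, 0, 0, 0, 0, 0, 0, 0, ⟨0, 0⟩, 0⟩ 0 0))) (.pos 30 .mp ⟨170232930, 0, 0, 0, 0, 0, 0, 0, 0, ⟨0, 0⟩, 0⟩ 0 0)))) (.pos 28 .mp ⟨162898667, 0, 0, 0, 0, 0, 0, 0, 0, ⟨0, 0⟩, 0⟩ 0 0))) (.pos 26 .mp ⟨187147141, 0, 0, 0, 0, 0, 0, 0, 0, ⟨0, 0⟩, 0⟩ 0 0)) (.void 24 ⟨100000, 0, 0, 0, 0, 0, 0, 0, 0, ⟨0, 0⟩, 0⟩ 0 0))))))) (.void 22 ⟨100000, 0, 0, 0, 0, 0, 0, 0, 0, ⟨0, 0⟩, 0⟩ 0 0))) (.void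 20 ⟨100000, 0, 0, 0, 0, 0, 0, 0, 0, ⟨0, 0⟩, 0⟩ 0 0)) (.void 59 ⟨100000, 0, 0, 0, 0, 0, 0, 0, 0, ⟨0, 0⟩, 0⟩ 0 0)) (.void 72 ⟨100000, 0, 0, 0, 0, 0, 0, 0, 0, ⟨0, 0⟩, 0⟩ 0 0)) (.void 91 ⟨95395, 0, 0, 4605, 0, 0, 0, 0, 0, ⟨0, 0⟩, 0⟩ 0 0))) (.cut .v 16777216 (.cut .v 8388608 (.cut .v 4194304 (.cut .v 2097152 (.pos 83 .pm ⟨0, 0, 30706759, 0, 0, 0, 0, 0, 64055291, ⟨0, 0⟩, 2804900⟩ 0 0) (.pos 84 .pm ⟨0, 9344863, 0, 0, 0, 0, 0, 0, 0, ⟨0, 0⟩, 0⟩ 0 0)) (.cut .d 4548041 (.pos 5 .pm ⟨0, 0, 0, 0, 0, 0, 0, 0, 0, ⟨0, 0⟩, 0⟩ 0 0) (.cut .d 6822062 (.pos 5 .pm ⟨0, 0, 0, 0, 0, 0, 0, 0, 0, ⟨0, 0⟩, 0⟩ 0 0) (.cut .d 7959072 (.pos 5 .pm ⟨0, 59982030, 0, 0, 0, 0, 0, 0, 0, ⟨0, 0⟩, 0⟩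 0 0) (.pos 5 .pm ⟨0, 100312597, 0, 0, 0, 0, 0, 0, 0, ⟨0, 0⟩, 0⟩ 0 0))))) (.cut .d 4548041 (.pos 3 .pm ⟨0, 0, 0, 0, 0, 0, 0, 0, 0, ⟨0, 0⟩, 0⟩ 0 0) (.cut .d 6822062 (.pos 3 .pm ⟨0, 0, 0, 0, 0, 0, 0, 0, 0, ⟨0, 0⟩, 0⟩ 0 0) (.cut .d 7959072 (.pos 3 .pm ⟨0, 74812806, 0, 0, 0, 0, 0, 0, 0, ⟨0, 0⟩, 0⟩ 0 0) (.pos 3 .pm ⟨0, 124754325, 0, 0, 0, 0, 0, 0, 0, ⟨0, 0⟩, 0⟩ 0 0))))) (.cut .v 268435456 (.cut .d 4548041 (.cut .v 67108864 (.cut .d 2274020 (.cut .v 33554432 (.cut .d 1137010 (.cut .v 25165824 (.cut .v 20971520 (.pos 21 .pp ⟨107977494, 0, 0, 0, 0, 0, 0, 0, 0, ⟨0, 0⟩, 0⟩ 0 0) (.pos 22 .pp ⟨192510702, 0, 0, 0, 0, 0, 0, 0, 0, ⟨0, 0⟩, 0⟩ 0 0)) (.pos 20 .pp ⟨328871797, 0,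 0, 0, 0, 0, 0, 0, 0, ⟨0, 0⟩, 0⟩ 0 0)) (.pos 18 .pp ⟨0, 0, 0, 0, 0, 0, 0, 0, 0, ⟨0, 0⟩, 0⟩ 0 0)) (.cut .d 1137010 (.cut .v 50331648 (.pos 62 .pp ⟨809776115, 0, 0, 0, 0, 0, 0, 0, 0, ⟨0, 0⟩, 0⟩ 0 0) (.void 63 ⟨100000, 0, 0, 0, 0, 0, 0, 0, 0, ⟨0, 0⟩, 0⟩ 0 0)) (.cut .v 50331648 (.pos 62 .pp ⟨345265401, 0, 0, 0, 0, 0, 0, 0, 0, ⟨0, 0⟩, 0⟩ 0 0) (.pos 63 .pp ⟨977384681, 0, 0, 0, 0, 0, 0, 0, 0, ⟨0, 0⟩, 0⟩ 0 0)))) (.pos 58 .pp ⟨0, 0, 0, 0, 0, 0, 0, 0, 0, ⟨0, 0⟩, 0⟩ 0 0)) (.cut .v 134217728 (.cut .d 2274020 (.cut .v 100663296 (.cut .v 83886080 (.pos 94 .pp ⟨2245158384, 0, 0, 0, 0, 0, 0, 0, 0, ⟨0, 0⟩, 0⟩ 0 0) (.void 95 ⟨40931, 59069, 0, 0, 0, 0, 0, 0, 0, ⟨0, 0⟩, 0⟩ 0 0))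 (.void 76 ⟨40931, 59069, 0, 0, 0, 0, 0, 0, 0, ⟨0, 0⟩, 0⟩ 0 0)) (.pos 73 .pp ⟨665571167, 402962802, 0, 0, 0, 0, 0, 0, 0, ⟨0, 0⟩, 0⟩ 0 0)) (.void 74 ⟨39452, 60548, 0, 0, 0, 0, 0, 0, 0, ⟨0, 0⟩, 0⟩ 0 0))) (.pos 71 .pp ⟨0, 83440539, 0, 0, 0, 0, 0, 0, 0, ⟨0, 0⟩, 0⟩ 0 0)) (.void 91 ⟨0, 0, 0, 100000, 0, 0, 0, 0, 0, ⟨0, 0⟩, 0⟩ 0 0)))),
    by decide +kernel⟩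

def covers16 : cell.Covers table row16.1 :=
  ⟨(.cut .d 0 (.cut .v 16777216 (.cut .d (-8388608) (.void 1 ⟨0, 0, 0, 0, 0, 100000, 0, 0, 0, ⟨0, 0⟩, 0⟩ 0 0) (.cut .d (-4194304) (.void 1 ⟨0, 0, 0, 0, 0, 100000, 0, 0, 0, ⟨0, 0⟩, 0⟩ 0 0) (.cut .d (-2097152) (.void 1 ⟨0, 0, 0, 0, 0, 100000, 0, 0, 0, ⟨0, 0⟩, 0⟩ 0 0) (.cut .d (-1048576) (.void 1 ⟨0, 0, 0, 0, 0, 100000, 0, 0, 0, ⟨0, 0⟩, 0⟩ 0 0) (.cut .d (-524288) (.void 1 ⟨0, 0, 0, 0, 0, 100000, 0, 0, 0, ⟨0, 0⟩, 0⟩ 0 0) (.cut .d (-262144) (.void 1 ⟨0, 0, 0, 0, 0, 100000, 0, 0, 0, ⟨0, 0⟩, 0⟩ 0 0) (.cut .v 8388608 (.cut .v 4194304 (.void 4 ⟨0, 0, 100000, 0, 0, 0, 0, 0, 0, ⟨0, 0⟩, 0⟩ 0 0) (.pos 5 .mm ⟨0, 0, 0, 0, 0, 116476829,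 0, 0, 0, ⟨0, 0⟩, 0⟩ 0 0)) (.cut .d (-131072) (.pos 3 .mm ⟨0, 0, 0, 0, 0, 321661688, 0, 0, 0, ⟨0, 0⟩, 0⟩ 0 0) (.cut .s 11534336 (.pos 3 .mm ⟨0, 0, 0, 0, 0, 268115743, 0, 0, 0, ⟨0, 0⟩, 0⟩ 0 0) (.pos 3 .mm ⟨0, 0, 0, 0, 0, 302170329, 0, 0, 0, ⟨0, 0⟩, 0⟩ 0 0)))))))))) (.cut .v 268435456 (.cut .v 67108864 (.cut .v 33554432 (.cut .v 25165824 (.cut .d (-8388608) (.void 19 ⟨100000, 0, 0, 0, 0, 0, 0, 0, 0, ⟨0, 0⟩, 0⟩ 0 0) (.cut .d (-4194304) (.void 19 ⟨100000, 0, 0, 0, 0, 0, 0, 0, 0, ⟨0, 0⟩, 0⟩ 0 0) (.cut .v 20971520 (.cut .d (-2097152) (.void 21 ⟨100000, 0, 0, 0, 0, 0, 0, 0, 0, ⟨0, 0⟩, 0⟩ 0 0) (.cut .d (-1048576) (.void 21 ⟨100000, 0, 0, 0, 0, 0, 0, 0, 0, ⟨0, 0⟩, 0⟩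 0 0) (.cut .d (-524288) (.void 21 ⟨100000, 0, 0, 0, 0, 0, 0, 0, 0, ⟨0, 0⟩, 0⟩ 0 0) (.cut .d (-262144) (.void 21 ⟨100000, 0, 0, 0, 0, 0, 0, 0, 0, ⟨0, 0⟩, 0⟩ 0 0) (.cut .v 18874368 (.cut .v 17825792 (.cut .d (-131072) (.cut .v 17301504 (.cut .s 11534336 (.cut .s 11436032 (.cut .s 11386880 (.pos 27 .mp ⟨81479153, 0, 0, 0, 0, 163523800, 0, 0, 0, ⟨0, 0⟩, 0⟩ 0 0) (.pos 27 .mp ⟨83772336, 0, 0, 0, 0, 168305835, 0, 0, 0, ⟨0, 0⟩, 0⟩ 0 0)) (.pos 27 .mp ⟨86106561, 0, 0, 0, 0, 180862993, 0, 0, 0, ⟨0, 0⟩, 0⟩ 0 0)) (.pos 27 .mp ⟨90902783, 0, 0, 0, 0, 207588380, 0, 0, 0, ⟨0, 0⟩, 0⟩ 0 0)) (.void 28 ⟨100000, 0, 0, 0, 0, 0, 0, 0, 0, ⟨0, 0⟩, 0⟩ 0 0)) (.cut .v 17301504 (.cut .s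 11534336 (.cut .v 17039360 (.cut .d (-65536) (.cut .s 11436032 (.cut .l 980822 (.pos 29 .mp ⟨75679137, 0, 0, 0, 0, 164365906, 0, 0, 0, ⟨0, 0⟩, 0⟩ 0 0) (.cut .s 11386880 (.pos 29 .mp ⟨68132820, 0, 0, 0, 0, 166273424, 0, 0, 0, ⟨0, 0⟩, 0⟩ 0 0) (.pos 29 .mp ⟨69915592, 0, 0, 0, 0, 170946409, 0, 0, 0, ⟨0, 0⟩, 0⟩ 0 0))) (.cut .s 11485184 (.pos 29 .mp ⟨71720014, 0, 0, 0, 0, 177877456, 0, 0, 0, ⟨0, 0⟩, 0⟩ 0 0) (.pos 29 .mp ⟨73546749, 0, 0, 0, 0, 183088716, 0, 0, 0, ⟨0, 0⟩, 0⟩ 0 0))) (.cut .d (-32768) (.cut .s 11436032 (.cut .s 11386880 (.cut .s 11362304 (.pos 29 .mp ⟨82882713, 0, 0, 0, 0, 137548052, 0, 0, 0, ⟨0, 0⟩, 0⟩ 0 0) (.pos 29 .mp ⟨84458616, 0, 0, 0, 0, 138410520,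 0, 0, 0, ⟨0, 0⟩, 0⟩ 0 0)) (.pos 29 .mp ⟨87658433, 0, 0, 0, 0, 137280056, 0, 0, 0, ⟨0, 0⟩, 0⟩ 0 0)) (.pos 29 .mp ⟨92148998, 0, 0, 0, 0, 138836584, 0, 0, 0, ⟨0, 0⟩, 0⟩ 0 0)) (.pos 29 .mp ⟨78357480, 0, 0, 0, 0, 137733952, 0, 0, 0, ⟨0, 0⟩, 0⟩ 0 0))) (.pos 30 .mp ⟨186974936, 0, 0, 0, 0, 0, 0, 0, 0, ⟨0, 0⟩, 0⟩ 0 0)) (.cut .v 17039360 (.cut .d (-65536) (.cut .s 11632640 (.cut .s 11583488 (.pos 29 .mp ⟨75396483, 0, 0, 0, 0, 188593002, 0, 0, 0, ⟨0, 0⟩, 0⟩ 0 0) (.pos 29 .mp ⟨77269929, 0, 0, 0, 0, 194393833, 0, 0, 0, ⟨0, 0⟩, 0⟩ 0 0)) (.pos 29 .mp ⟨79167825, 0, 0, 0, 0, 205541556, 0, 0, 0, ⟨0, 0⟩, 0⟩ 0 0)) (.cut .s 11632640 (.pos 29 .mp ⟨96811689, 0, 0, 0, 0, 146190893,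 0, 0, 0, ⟨0, 0⟩, 0⟩ 0 0) (.pos 29 .mp ⟨101656561, 0, 0, 0, 0, 155584770, 0, 0, 0, ⟨0, 0⟩, 0⟩ 0 0))) (.pos 30 .mp ⟨205735861, 0, 0, 0, 0, 2320876, 0, 0, 0, ⟨0, 0⟩, 0⟩ 0 0))) (.pos 28 .mp ⟨202253303, 0, 0, 0, 0, 0, 0, 0, 0, ⟨0, 0⟩, 0⟩ 0 0))) (.pos 26 .mp ⟨231699650, 0, 0, 0, 0, 0, 0, 0, 0, ⟨0, 0⟩, 0⟩ 0 0)) (.void 24 ⟨100000, 0, 0, 0, 0, 0, 0, 0, 0, ⟨0, 0⟩, 0⟩ 0 0)))))) (.void 22 ⟨100000, 0, 0, 0, 0, 0, 0, 0, 0, ⟨0, 0⟩, 0⟩ 0 0)))) (.void 20 ⟨100000, 0, 0, 0, 0, 0, 0, 0, 0, ⟨0, 0⟩, 0⟩ 0 0)) (.void 59 ⟨100000, 0, 0, 0, 0, 0, 0, 0, 0, ⟨0, 0⟩, 0⟩ 0 0)) (.void 72 ⟨100000, 0, 0, 0, 0, 0, 0, 0, 0, ⟨0, 0⟩, 0⟩ 0 0)) (.void 91 ⟨95243, 0, 0, 4757, 0, 0, 0, 0, 0, ⟨0, 0⟩, 0⟩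 0 0))) (.cut .v 16777216 (.cut .v 8388608 (.cut .v 4194304 (.cut .v 2097152 (.cut .v 1048576 (.void 96 ⟨0, 0, 19122, 0, 0, 0, 0, 0, 80878, ⟨0, 0⟩, 1983364⟩ 0 0) (.pos 97 .pm ⟨0, 0, 1252125, 0, 0, 0, 0, 0, 0, ⟨0, 0⟩, 0⟩ 0 0)) (.cut .d 4024593 (.pos 84 .pm ⟨0, 0, 20258693, 0, 0, 0, 0, 0, 0, ⟨0, 0⟩, 0⟩ 0 0) (.pos 84 .pm ⟨0, 40083642, 0, 0, 0, 0, 0, 0, 0, ⟨0, 0⟩, 0⟩ 0 0))) (.cut .d 4024593 (.pos 5 .pm ⟨0, 0, 0, 0, 0, 0, 0, 0, 0, ⟨0, 0⟩, 0⟩ 0 0) (.cut .d 6036890 (.pos 5 .pm ⟨0, 0, 0, 0, 0, 0, 0, 0, 0, ⟨0, 0⟩, 0⟩ 0 0) (.cut .d 7043038 (.cut .v 6291456 (.pos 87 .pm ⟨0, 68275251, 0, 0, 0, 0, 0, 0, 0, ⟨0, 0⟩, 0⟩ 0 0) (.cut .d 6539964 (.pos 88 .pm ⟨0, 0, 0, 0, 0, 0, 0,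 0, 0, ⟨0, 0⟩, 0⟩ 0 0) (.pos 88 .pm ⟨0, 86487777, 0, 0, 0, 0, 0, 0, 0, ⟨0, 0⟩, 0⟩ 0 0))) (.cut .v 6291456 (.pos 87 .pm ⟨0, 107471701, 0, 0, 0, 0, 0, 0, 0, ⟨0, 0⟩, 0⟩ 0 0) (.cut .s 11534336 (.pos 88 .pm ⟨0, 101874116, 0, 0, 0, 0, 0, 0, 0, ⟨0, 0⟩, 0⟩ 0 0) (.pos 88 .pm ⟨0, 132187171, 0, 0, 0, 0, 0, 0, 0, ⟨0, 0⟩, 0⟩ 0 0))))))) (.cut .d 4024593 (.pos 3 .pm ⟨0, 0, 0, 0, 0, 0, 0, 0, 0, ⟨0, 0⟩, 0⟩ 0 0) (.cut .d 6036890 (.pos 3 .pm ⟨0, 0, 0, 0, 0, 0, 0, 0, 0, ⟨0, 0⟩, 0⟩ 0 0) (.cut .d 7043038 (.pos 3 .pm ⟨0, 91622742, 0, 0, 0, 0, 0, 0, 0, ⟨0, 0⟩, 0⟩ 0 0) (.pos 3 .pm ⟨0, 143897417, 0, 0, 0, 0, 0, 0, 0, ⟨0, 0⟩, 0⟩ 0 0))))) (.cut .v 268435456 (.cut .d 4024593 (.cut .v 67108864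 (.cut .d 2012296 (.cut .v 33554432 (.cut .d 1006148 (.cut .v 25165824 (.cut .v 20971520 (.pos 21 .pp ⟨129113706, 0, 0, 0, 0, 0, 0, 0, 0, ⟨0, 0⟩, 0⟩ 0 0) (.pos 22 .pp ⟨239518461, 0, 0, 0, 0, 0, 0, 0, 0, ⟨0, 0⟩, 0⟩ 0 0)) (.pos 20 .pp ⟨402527583, 0, 0, 0, 0, 0, 0, 0, 0, ⟨0, 0⟩, 0⟩ 0 0)) (.pos 18 .pp ⟨0, 0, 0, 0, 0, 0, 0, 0, 0, ⟨0, 0⟩, 0⟩ 0 0)) (.cut .d 1006148 (.cut .v 50331648 (.pos 62 .pp ⟨975594104, 0, 0, 0, 0, 0, 0, 0, 0, ⟨0, 0⟩, 0⟩ 0 0) (.void 63 ⟨100000, 0, 0, 0, 0, 0, 0, 0, 0, ⟨0, 0⟩, 0⟩ 0 0)) (.cut .v 50331648 (.pos 62 .pp ⟨439765566, 0, 0, 0, 0, 0, 0, 0, 0, ⟨0, 0⟩, 0⟩ 0 0) (.pos 63 .pp ⟨1194429237, 0, 0, 0, 0, 0, 0, 0, 0, ⟨0, 0⟩, 0⟩ 0 0)))) (.pos 58 .pp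 ⟨0, 0, 0, 0, 0, 0, 0, 0, 0, ⟨0, 0⟩, 0⟩ 0 0)) (.cut .v 134217728 (.cut .d 2012296 (.cut .v 100663296 (.cut .v 83886080 (.pos 94 .pp ⟨2660183856, 0, 0, 0, 0, 0, 0, 0, 0, ⟨0, 0⟩, 0⟩ 0 0) (.void 95 ⟨40285, 59715, 0, 0, 0, 0, 0, 0, 0, ⟨0, 0⟩, 0⟩ 0 0)) (.void 76 ⟨40285, 59715, 0, 0, 0, 0, 0, 0, 0, ⟨0, 0⟩, 0⟩ 0 0)) (.pos 73 .pp ⟨850610477, 532623575, 0, 0, 0, 0, 0, 0, 0, ⟨0, 0⟩, 0⟩ 0 0)) (.void 74 ⟨89939, 0, 0, 10061, 0, 0, 0, 0, 0, ⟨0, 0⟩, 0⟩ 0 0))) (.pos 71 .pp ⟨0, 106095478, 0, 0, 0, 0, 0, 0, 0, ⟨0, 0⟩, 0⟩ 0 0)) (.void 91 ⟨0, 0, 0, 100000, 0, 0, 0, 0, 0, ⟨0, 0⟩, 0⟩ 0 0)))),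
    by decide +kernel⟩

def covers17 : cell.Covers table row17.1 :=
  ⟨(.cut .d 0 (.cut .v 16777216 (.cut .d (-8388608) (.void 1 ⟨0, 0, 0, 0, 0, 100000, 0, 0, 0, ⟨0, 0⟩, 0⟩ 0 0) (.cut .d (-4194304) (.void 1 ⟨0, 0, 0, 0, 0, 100000, 0, 0, 0, ⟨0, 0⟩, 0⟩ 0 0) (.cut .d (-2097152) (.void 1 ⟨0, 0, 0, 0, 0, 100000, 0, 0, 0, ⟨0, 0⟩, 0⟩ 0 0) (.cut .d (-1048576) (.void 1 ⟨0, 0, 0, 0, 0, 100000, 0, 0, 0, ⟨0, 0⟩, 0⟩ 0 0) (.cut .d (-524288) (.void 1 ⟨0, 0, 0, 0, 0, 100000, 0, 0, 0, ⟨0, 0⟩, 0⟩ 0 0) (.cut .d (-262144) (.void 1 ⟨0, 0, 0, 0, 0, 100000, 0, 0, 0, ⟨0, 0⟩, 0⟩ 0 0) (.cut .d (-131072) (.void 1 ⟨0, 0, 0, 0, 0, 100000, 0, 0, 0, ⟨0, 0⟩, 0⟩ 0 0) (.cut .v 8388608 (.cut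 .v 4194304 (.void 4 ⟨0, 0, 100000, 0, 0, 0, 0, 0, 0, ⟨0, 0⟩, 0⟩ 0 0) (.pos 5 .mm ⟨0, 0, 1616671, 0, 0, 154429177, 0, 0, 0, ⟨0, 0⟩, 0⟩ 0 0)) (.cut .s 11993088 (.pos 3 .mm ⟨0, 0, 0, 0, 0, 347258137, 0, 0, 0, ⟨0, 0⟩, 0⟩ 0 0) (.pos 3 .mm ⟨0, 0, 0, 0, 0, 404813136, 0, 0, 0, ⟨0, 0⟩, 0⟩ 0 0)))))))))) (.cut .v 268435456 (.cut .v 67108864 (.cut .v 33554432 (.cut .v 25165824 (.cut .d (-8388608) (.void 19 ⟨100000, 0, 0, 0, 0, 0, 0, 0, 0, ⟨0, 0⟩, 0⟩ 0 0) (.cut .d (-4194304) (.void 19 ⟨100000, 0, 0, 0, 0, 0, 0, 0, 0, ⟨0, 0⟩, 0⟩ 0 0) (.cut .v 20971520 (.cut .d (-2097152) (.void 21 ⟨100000, 0, 0, 0, 0, 0, 0, 0, 0, ⟨0, 0⟩, 0⟩ 0 0) (.cut .d (-1048576) (.void 21 ⟨100000, 0, 0,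 0, 0, 0, 0, 0, 0, ⟨0, 0⟩, 0⟩ 0 0) (.cut .d (-524288) (.void 21 ⟨100000, 0, 0, 0, 0, 0, 0, 0, 0, ⟨0, 0⟩, 0⟩ 0 0) (.cut .d (-262144) (.void 21 ⟨100000, 0, 0, 0, 0, 0, 0, 0, 0, ⟨0, 0⟩, 0⟩ 0 0) (.cut .d (-131072) (.void 21 ⟨0, 0, 0, 0, 0, 100000, 0, 0, 0, ⟨0, 0⟩, 0⟩ 0 0) (.cut .v 18874368 (.cut .v 17825792 (.cut .v 17301504 (.cut .s 11993088 (.cut .v 17039360 (.cut .d (-65536) (.cut .s 11862016 (.pos 29 .mp ⟨83059810, 0, 0, 0, 0, 223515466, 0, 0, 0, ⟨0, 0⟩, 0⟩ 0 0) (.pos 29 .mp ⟨88671222, 0, 0, 0, 0, 241031195, 0, 0, 0, ⟨0, 0⟩, 0⟩ 0 0)) (.cut .s 11862016 (.pos 29 .mp ⟨108485827, 0, 0, 0, 0, 164940853, 0, 0, 0, ⟨0, 0⟩, 0⟩ 0 0) (.pos 29 .mp ⟨115617113, 0, 0, 0, 0,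 177848948, 0, 0, 0, ⟨0, 0⟩, 0⟩ 0 0))) (.pos 30 .mp ⟨234901617, 0, 0, 0, 0, 0, 0, 0, 0, ⟨0, 0⟩, 0⟩ 0 0)) (.cut .d (-65536) (.cut .s 12124160 (.pos 27 .mp ⟨97663254, 0, 0, 0, 0, 265233063, 0, 0, 0, ⟨0, 0⟩, 0⟩ 0 0) (.pos 27 .mp ⟨103798692, 0, 0, 0, 0, 288936691, 0, 0, 0, ⟨0, 0⟩, 0⟩ 0 0)) (.pos 27 .mp ⟨134926446, 0, 0, 0, 0, 180681435, 0, 0, 0, ⟨0, 0⟩, 0⟩ 0 0))) (.pos 28 .mp ⟨260432065, 0, 0, 0, 0, 0, 0, 0, 0, ⟨0, 0⟩, 0⟩ 0 0)) (.pos 26 .mp ⟨277985699, 0, 0, 0, 0, 0, 0, 0, 0, ⟨0, 0⟩, 0⟩ 0 0)) (.void 24 ⟨100000, 0, 0, 0, 0, 0, 0, 0, 0, ⟨0, 0⟩, 0⟩ 0 0))))))) (.void 22 ⟨100000, 0, 0, 0, 0, 0, 0, 0, 0, ⟨0, 0⟩, 0⟩ 0 0)))) (.void 20 ⟨100000, 0, 0, 0, 0, 0, 0, 0, 0, ⟨0,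 0⟩, 0⟩ 0 0)) (.void 59 ⟨100000, 0, 0, 0, 0, 0, 0, 0, 0, ⟨0, 0⟩, 0⟩ 0 0)) (.void 72 ⟨100000, 0, 0, 0, 0, 0, 0, 0, 0, ⟨0, 0⟩, 0⟩ 0 0)) (.void 91 ⟨95041, 0, 0, 4959, 0, 0, 0, 0, 0, ⟨0, 0⟩, 0⟩ 0 0))) (.cut .v 16777216 (.cut .v 8388608 (.cut .v 4194304 (.cut .v 2097152 (.cut .v 1048576 (.pos 96 .pm ⟨0, 0, 20241545, 0, 0, 0, 0, 0, 36452425, ⟨0, 0⟩, 1983364⟩ 0 0) (.pos 97 .pm ⟨0, 4812301, 0, 0, 0, 0, 0, 0, 0, ⟨0, 0⟩, 0⟩ 0 0)) (.cut .d 3608508 (.pos 84 .pm ⟨0, 0, 25376340, 0, 0, 0, 0, 0, 0, ⟨0, 0⟩, 0⟩ 0 0) (.cut .d 5412762 (.pos 84 .pm ⟨0, 0, 0, 0, 0, 0, 0, 0, 0, ⟨0, 0⟩, 0⟩ 0 0) (.cut .d 6314889 (.pos 84 .pm ⟨0, 70020174, 0, 0, 0, 0, 0, 0, 0, ⟨0, 0⟩, 0⟩ 0 0) (.pos 84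 .pm ⟨0, 101879715, 0, 0, 0, 0, 0, 0, 0, ⟨0, 0⟩, 0⟩ 0 0))))) (.cut .d 3608508 (.pos 5 .pm ⟨0, 0, 1769659, 0, 0, 0, 0, 0, 0, ⟨0, 0⟩, 0⟩ 0 0) (.cut .d 5412762 (.pos 5 .pm ⟨0, 0, 0, 0, 0, 0, 0, 0, 0, ⟨0, 0⟩, 0⟩ 0 0) (.cut .d 6314889 (.cut .s 11993088 (.cut .v 6291456 (.pos 87 .pm ⟨0, 66630498, 0, 0, 0, 0, 0, 0, 0, ⟨0, 0⟩, 0⟩ 0 0) (.pos 88 .pm ⟨0, 82787458, 0, 0, 0, 0, 0, 0, 0, ⟨0, 0⟩, 0⟩ 0 0)) (.cut .v 6291456 (.cut .d 5863825 (.cut .v 5242880 (.pos 102 .pm ⟨0, 0, 0, 0, 0, 0, 0, 0, 0, ⟨0, 0⟩, 0⟩ 0 0) (.cut .v 5767168 (.pos 104 .pm ⟨0, 89353576, 0, 0, 0, 0, 0, 0, 0, ⟨0, 0⟩, 0⟩ 0 0) (.pos 105 .pm ⟨0, 94553258, 0, 0, 0, 0, 0, 0, 0, ⟨0, 0⟩, 0⟩ 0 0))) (.cut .s 12124160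 (.cut .v 5242880 (.pos 102 .pm ⟨0, 98702701, 0, 0, 0, 0, 0, 0, 0, ⟨0, 0⟩, 0⟩ 0 0) (.cut .d 6089357 (.pos 103 .pm ⟨0, 101403164, 0, 0, 0, 0, 0, 0, 0, ⟨0, 0⟩, 0⟩ 0 0) (.cut .s 12058624 (.pos 103 .pm ⟨0, 109148854, 0, 0, 0, 0, 0, 0, 0, ⟨0, 0⟩, 0⟩ 0 0) (.cut .v 5767168 (.pos 104 .pm ⟨0, 116543879, 0, 0, 0, 0, 0, 0, 0, ⟨0, 0⟩, 0⟩ 0 0) (.pos 105 .pm ⟨0, 120936019, 0, 0, 0, 0, 0, 0, 0, ⟨0, 0⟩, 0⟩ 0 0))))) (.cut .l 980822 (.cut .d 6089357 (.cut .v 5242880 (.pos 102 .pm ⟨0, 110333110, 0, 0, 0, 0, 0, 0, 0, ⟨0, 0⟩, 0⟩ 0 0) (.cut .l 632372 (.cut .s 12189696 (.cut .l 458147 (.cut .d 5976591 (.cut .v 5767168 (.pos 104 .pm ⟨0, 109201698, 0, 0, 0, 0, 0, 0, 0, ⟨0, 0⟩, 0⟩ 0 0)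 (.pos 105 .pm ⟨0, 112559986, 0, 0, 0, 0, 0, 0, 0, ⟨0, 0⟩, 0⟩ 0 0)) (.cut .v 5767168 (.pos 104 .pm ⟨0, 117202824, 0, 0, 0, 0, 0, 0, 0, ⟨0, 0⟩, 0⟩ 0 0) (.pos 105 .pm ⟨0, 120161131, 0, 0, 0, 0, 0, 0, 0, ⟨0, 0⟩, 0⟩ 0 0))) (.pos 103 .pm ⟨0, 113674797, 0, 0, 0, 0, 0, 0, 0, ⟨0, 0⟩, 0⟩ 0 0)) (.cut .d 5976591 (.cut .l 458147 (.cut .l 371034 (.cut .v 5767168 (.cut .s 12222464 (.pos 104 .pm ⟨0, 116131046, 0, 0, 0, 0, 0, 0, 0, ⟨0, 0⟩, 0⟩ 0 0) (.pos 104 .pm ⟨0, 120897797, 0, 0, 0, 0, 0, 0, 0, ⟨0, 0⟩, 0⟩ 0 0)) (.cut .s 12222464 (.pos 105 .pm ⟨0, 119263063, 0, 0, 0, 0, 0, 0, 0, ⟨0, 0⟩, 0⟩ 0 0) (.pos 105 .pm ⟨0, 124147746, 0, 0, 0, 0, 0, 0, 0, ⟨0, 0⟩, 0⟩ 0 0))) (.pos 103 .pm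 ⟨0, 119119963, 0, 0, 0, 0, 0, 0, 0, ⟨0, 0⟩, 0⟩ 0 0)) (.pos 103 .pm ⟨0, 118816169, 0, 0, 0, 0, 0, 0, 0, ⟨0, 0⟩, 0⟩ 0 0)) (.pos 103 .pm ⟨0, 211664127, 0, 0, 0, 0, 0, 0, 0, ⟨0, 0⟩, 0⟩ 0 0))) (.pos 103 .pm ⟨0, 118795676, 0, 0, 0, 0, 0, 0, 0, ⟨0, 0⟩, 0⟩ 0 0))) (.cut .v 5242880 (.pos 102 .pm ⟨0, 121877506, 0, 0, 0, 0, 0, 0, 0, ⟨0, 0⟩, 0⟩ 0 0) (.pos 103 .pm ⟨0, 137572795, 0, 0, 0, 0, 0, 0, 0, ⟨0, 0⟩, 0⟩ 0 0))) (.pos 87 .pm ⟨0, 122260904, 0, 0, 0, 0, 0, 0, 0, ⟨0, 0⟩, 0⟩ 0 0)))) (.cut .d 5863825 (.pos 88 .pm ⟨0, 101163531, 0, 0, 0, 0, 0, 0, 0, ⟨0, 0⟩, 0⟩ 0 0) (.cut .v 7340032 (.cut .l 980822 (.cut .s 12124160 (.cut .d 6089357 (.pos 100 .pm ⟨0, 110560302, 0, 0, 0, 0,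 0, 0, 0, ⟨0, 0⟩, 0⟩ 0 0) (.pos 100 .pm ⟨0, 122977066, 0, 0, 0, 0, 0, 0, 0, ⟨0, 0⟩, 0⟩ 0 0)) (.cut .d 6089357 (.pos 100 .pm ⟨0, 128774815, 0, 0, 0, 0, 0, 0, 0, ⟨0, 0⟩, 0⟩ 0 0) (.void 100 ⟨0, 100000, 0, 0, 0, 0, 0, 0, 0, ⟨0, 0⟩, 0⟩ 0 0))) (.pos 100 .pm ⟨0, 126905614, 0, 0, 0, 0, 0, 0, 0, ⟨0, 0⟩, 0⟩ 0 0)) (.pos 101 .pm ⟨0, 143240933, 0, 0, 0, 0, 0, 0, 0, ⟨0, 0⟩, 0⟩ 0 0))))) (.cut .s 11993088 (.cut .v 6291456 (.cut .d 6765953 (.cut .s 11862016 (.pos 87 .pm ⟨0, 93804761, 0, 0, 0, 0, 0, 0, 0, ⟨0, 0⟩, 0⟩ 0 0) (.cut .d 6540421 (.pos 87 .pm ⟨0, 107493412, 0, 0, 0, 0, 0, 0, 0, ⟨0, 0⟩, 0⟩ 0 0) (.pos 87 .pm ⟨0, 123180681, 0, 0, 0, 0, 0, 0, 0, ⟨0, 0⟩, 0⟩ 0 0))) (.pos 87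 .pm ⟨0, 132413603, 0, 0, 0, 0, 0, 0, 0, ⟨0, 0⟩, 0⟩ 0 0)) (.cut .d 6765953 (.cut .s 11862016 (.pos 88 .pm ⟨0, 103698616, 0, 0, 0, 0, 0, 0, 0, ⟨0, 0⟩, 0⟩ 0 0) (.pos 88 .pm ⟨0, 124935952, 0, 0, 0, 0, 0, 0, 0, ⟨0, 0⟩, 0⟩ 0 0)) (.pos 88 .pm ⟨0, 146544473, 0, 0, 0, 0, 0, 0, 0, ⟨0, 0⟩, 0⟩ 0 0))) (.cut .v 6291456 (.pos 87 .pm ⟨0, 160123836, 0, 0, 0, 0, 0, 0, 0, ⟨0, 0⟩, 0⟩ 0 0) (.void 88 ⟨0, 100000, 0, 0, 0, 0, 0, 0, 0, ⟨0, 0⟩, 0⟩ 0 0))))))) (.cut .d 3608508 (.pos 3 .pm ⟨0, 0, 0, 0, 0, 0, 0, 0, 0, ⟨0, 0⟩, 0⟩ 0 0) (.cut .d 5412762 (.pos 3 .pm ⟨0, 0, 0, 0, 0, 0, 0, 0, 0, ⟨0, 0⟩, 0⟩ 0 0) (.cut .d 6314889 (.pos 3 .pm ⟨0, 121728010, 0, 0, 0, 0, 0, 0, 0, ⟨0, 0⟩, 0⟩ 0 0) (.pos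 3 .pm ⟨0, 194505953, 0, 0, 0, 0, 0, 0, 0, ⟨0, 0⟩, 0⟩ 0 0))))) (.cut .v 268435456 (.cut .d 3608508 (.cut .v 67108864 (.cut .d 1804254 (.cut .v 33554432 (.cut .d 902127 (.cut .v 25165824 (.cut .v 20971520 (.pos 21 .pp ⟨162455377, 0, 0, 0, 0, 0, 0, 0, 0, ⟨0, 0⟩, 0⟩ 0 0) (.pos 22 .pp ⟨297045930, 0, 0, 0, 0, 0, 0, 0, 0, ⟨0, 0⟩, 0⟩ 0 0)) (.pos 20 .pp ⟨503023522, 0, 0, 0, 0, 0, 0, 0, 0, ⟨0, 0⟩, 0⟩ 0 0)) (.pos 18 .pp ⟨0, 0, 0, 0, 0, 0, 0, 0, 0, ⟨0, 0⟩, 0⟩ 0 0)) (.cut .d 902127 (.cut .v 50331648 (.pos 62 .pp ⟨1215881128, 0, 0, 0, 0, 0, 0, 0, 0, ⟨0, 0⟩, 0⟩ 0 0) (.void 63 ⟨100000, 0, 0, 0, 0, 0, 0, 0, 0, ⟨0, 0⟩, 0⟩ 0 0)) (.cut .v 50331648 (.pos 62 .pp ⟨535746880, 0, 0,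 0, 0, 0, 0, 0, 0, ⟨0, 0⟩, 0⟩ 0 0) (.pos 63 .pp ⟨1437541030, 0, 0, 0, 0, 0, 0, 0, 0, ⟨0, 0⟩, 0⟩ 0 0)))) (.pos 58 .pp ⟨0, 0, 0, 0, 0, 0, 0, 0, 0, ⟨0, 0⟩, 0⟩ 0 0)) (.cut .v 134217728 (.cut .d 1804254 (.cut .v 100663296 (.cut .v 83886080 (.cut .d 902127 (.void 94 ⟨100000, 0, 0, 0, 0, 0, 0, 0, 0, ⟨0, 0⟩, 0⟩ 0 0) (.pos 94 .pp ⟨2749487030, 0, 0, 0, 0, 0, 0, 0, 0, ⟨0, 0⟩, 0⟩ 0 0)) (.void 95 ⟨39378, 60622, 0, 0, 0, 0, 0, 0, 0, ⟨0, 0⟩, 0⟩ 0 0)) (.void 76 ⟨39378, 60622, 0, 0, 0, 0, 0, 0, 0, ⟨0, 0⟩, 0⟩ 0 0)) (.pos 73 .pp ⟨0, 920057897, 0, 0, 0, 0, 0, 0, 0, ⟨0, 0⟩, 0⟩ 0 0)) (.void 74 ⟨89640, 0, 0, 10360, 0, 0, 0, 0, 0, ⟨0, 0⟩, 0⟩ 0 0))) (.pos 71 .pp ⟨0, 150821438, 0, 0,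 0, 0, 0, 0, 0, ⟨0, 0⟩, 0⟩ 0 0)) (.void 91 ⟨0, 0, 0, 100000, 0, 0, 0, 0, 0, ⟨0, 0⟩, 0⟩ 0 0)))),
    by decide +kernel⟩

def covers18 : cell.Covers table row18.1 :=
  ⟨(.cut .d 0 (.cut .v 16777216 (.cut .d (-8388608) (.void 1 ⟨0, 0, 0, 0, 0, 100000, 0, 0, 0, ⟨0, 0⟩, 0⟩ 0 0) (.cut .d (-4194304) (.void 1 ⟨0, 0, 0, 0, 0, 100000, 0, 0, 0, ⟨0, 0⟩, 0⟩ 0 0) (.cut .d (-2097152) (.void 1 ⟨0, 0, 0, 0, 0, 100000, 0, 0, 0, ⟨0, 0⟩, 0⟩ 0 0) (.cut .d (-1048576) (.void 1 ⟨0, 0, 0, 0, 0, 100000, 0, 0, 0, ⟨0, 0⟩, 0⟩ 0 0) (.cut .d (-524288) (.void 1 ⟨0, 0, 0, 0, 0, 100000, 0, 0, 0, ⟨0, 0⟩, 0⟩ 0 0) (.cut .d (-262144) (.void 1 ⟨0, 0, 0, 0, 0, 100000, 0, 0, 0, ⟨0, 0⟩, 0⟩ 0 0) (.cut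 .d (-131072) (.void 1 ⟨0, 0, 0, 0, 0, 100000, 0, 0, 0, ⟨0, 0⟩, 0⟩ 0 0) (.cut .v 8388608 (.cut .v 4194304 (.void 4 ⟨0, 0, 100000, 0, 0, 0, 0, 0, 0, ⟨0, 0⟩, 0⟩ 0 0) (.pos 5 .mm ⟨0, 0, 6086792, 0, 0, 218230092, 0, 0, 0, ⟨0, 0⟩, 0⟩ 0 0)) (.cut .s 12484608 (.pos 3 .mm ⟨0, 0, 0, 0, 0, 475056511, 0, 0, 0, ⟨0, 0⟩, 0⟩ 0 0) (.pos 3 .mm ⟨0, 0, 0, 0, 0, 538551814, 0, 0, 0, ⟨0, 0⟩, 0⟩ 0 0)))))))))) (.cut .v 268435456 (.cut .v 67108864 (.cut .v 33554432 (.cut .d (-8388608) (.void 18 ⟨100000, 0, 0, 0, 0, 0, 0, 0, 0, ⟨0, 0⟩, 0⟩ 0 0) (.cut .v 25165824 (.cut .d (-4194304) (.void 19 ⟨100000, 0, 0, 0, 0, 0, 0, 0, 0, ⟨0, 0⟩, 0⟩ 0 0) (.cut .v 20971520 (.cut .d (-2097152) (.void 21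 ⟨100000, 0, 0, 0, 0, 0, 0, 0, 0, ⟨0, 0⟩, 0⟩ 0 0) (.cut .d (-1048576) (.void 21 ⟨100000, 0, 0, 0, 0, 0, 0, 0, 0, ⟨0, 0⟩, 0⟩ 0 0) (.cut .d (-524288) (.void 21 ⟨100000, 0, 0, 0, 0, 0, 0, 0, 0, ⟨0, 0⟩, 0⟩ 0 0) (.cut .d (-262144) (.void 21 ⟨100000, 0, 0, 0, 0, 0, 0, 0, 0, ⟨0, 0⟩, 0⟩ 0 0) (.cut .d (-131072) (.void 21 ⟨0, 0, 0, 0, 0, 100000, 0, 0, 0, ⟨0, 0⟩, 0⟩ 0 0) (.cut .v 18874368 (.cut .v 17825792 (.cut .v 17301504 (.cut .d (-65536) (.cut .s 12484608 (.pos 27 .mp ⟨110111414, 0, 0, 0, 0, 342000131, 0, 0, 0, ⟨0, 0⟩, 0⟩ 0 0) (.pos 27 .mp ⟨123243380, 0, 0, 0, 0, 386411840, 0, 0, 0, ⟨0, 0⟩, 0⟩ 0 0)) (.cut .s 12484608 (.pos 27 .mp ⟨150620806, 0, 0, 0, 0, 225354453, 0,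 0, 0, ⟨0, 0⟩, 0⟩ 0 0) (.cut .s 12599296 (.pos 27 .mp ⟨158932155, 0, 0, 0, 0, 257140270, 0, 0, 0, ⟨0, 0⟩, 0⟩ 0 0) (.pos 27 .mp ⟨167589172, 0, 0, 0, 0, 275572626, 0, 0, 0, ⟨0, 0⟩, 0⟩ 0 0)))) (.pos 28 .mp ⟨343466939, 0, 0, 0, 0, 0, 0, 0, 0, ⟨0, 0⟩, 0⟩ 0 0)) (.pos 26 .mp ⟨364672459, 0, 0, 0, 0, 0, 0, 0, 0, ⟨0, 0⟩, 0⟩ 0 0)) (.void 24 ⟨100000, 0, 0, 0, 0, 0, 0, 0, 0, ⟨0, 0⟩, 0⟩ 0 0))))))) (.void 22 ⟨100000, 0, 0, 0, 0, 0, 0, 0, 0, ⟨0, 0⟩, 0⟩ 0 0))) (.void 20 ⟨100000, 0, 0, 0, 0, 0, 0, 0, 0, ⟨0, 0⟩, 0⟩ 0 0))) (.void 59 ⟨100000, 0, 0, 0, 0, 0, 0, 0, 0, ⟨0, 0⟩, 0⟩ 0 0)) (.void 72 ⟨100000, 0, 0, 0, 0, 0, 0, 0, 0, ⟨0, 0⟩, 0⟩ 0 0)) (.void 91 ⟨94865, 0, 0, 5135, 0, 0, 0,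 0, 0, ⟨0, 0⟩, 0⟩ 0 0))) (.cut .v 16777216 (.cut .v 8388608 (.cut .v 4194304 (.cut .v 2097152 (.cut .v 1048576 (.pos 96 .pm ⟨0, 0, 9945470, 0, 0, 0, 0, 0, 0, ⟨0, 0⟩, 0⟩ 0 0) (.pos 97 .pm ⟨0, 8018880, 0, 0, 0, 0, 0, 0, 0, ⟨0, 0⟩, 0⟩ 0 0)) (.cut .d 3095263 (.pos 84 .pm ⟨0, 0, 35552791, 0, 0, 0, 0, 0, 0, ⟨0, 0⟩, 0⟩ 0 0) (.cut .d 4642894 (.pos 84 .pm ⟨0, 0, 0, 0, 0, 0, 0, 0, 0, ⟨0, 0⟩, 0⟩ 0 0) (.cut .v 3145728 (.pos 98 .pm ⟨0, 77021763, 0, 0, 0, 0, 0, 0, 0, ⟨0, 0⟩, 0⟩ 0 0) (.cut .d 5416710 (.cut .s 12484608 (.pos 99 .pm ⟨0, 0, 0, 0, 0, 0, 0, 0, 0, ⟨0, 0⟩, 0⟩ 0 0) (.pos 99 .pm ⟨0, 94456575, 0, 0, 0, 0, 0, 0, 0, ⟨0, 0⟩, 0⟩ 0 0)) (.cut .s 12484608 (.pos 99 .pm ⟨0, 102941539,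 0, 0, 0, 0, 0, 0, 0, ⟨0, 0⟩, 0⟩ 0 0) (.pos 99 .pm ⟨0, 133989165, 0, 0, 0, 0, 0, 0, 0, ⟨0, 0⟩, 0⟩ 0 0))))))) (.cut .d 3095263 (.pos 5 .pm ⟨0, 0, 5278752, 0, 0, 0, 0, 0, 0, ⟨0, 0⟩, 0⟩ 0 0) (.cut .d 4642894 (.pos 5 .pm ⟨0, 0, 0, 0, 0, 0, 0, 0, 0, ⟨0, 0⟩, 0⟩ 0 0) (.cut .d 5416710 (.cut .v 6291456 (.cut .s 12484608 (.pos 87 .pm ⟨0, 0, 0, 0, 0, 0, 0, 0, 0, ⟨0, 0⟩, 0⟩ 0 0) (.cut .d 5029802 (.pos 87 .pm ⟨0, 0, 0, 0, 0, 0, 0, 0, 0, ⟨0, 0⟩, 0⟩ 0 0) (.cut .d 5223256 (.cut .s 12599296 (.pos 87 .pm ⟨0, 0, 0, 0, 0, 0, 0, 0, 0, ⟨0, 0⟩, 0⟩ 0 0) (.cut .v 5242880 (.cut .s 12656640 (.pos 102 .pm ⟨0, 117303893, 0, 0, 0, 0, 0, 0, 0, ⟨0, 0⟩, 0⟩ 0 0) (.pos 102 .pm ⟨0, 127515176, 0,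 0, 0, 0, 0, 0, 0, ⟨0, 0⟩, 0⟩ 0 0)) (.pos 103 .pm ⟨0, 130004911, 0, 0, 0, 0, 0, 0, 0, ⟨0, 0⟩, 0⟩ 0 0))) (.cut .v 5242880 (.cut .l 980822 (.cut .s 12599296 (.cut .s 12541952 (.pos 102 .pm ⟨0, 116480356, 0, 0, 0, 0, 0, 0, 0, ⟨0, 0⟩, 0⟩ 0 0) (.cut .d 5319983 (.pos 102 .pm ⟨0, 120228391, 0, 0, 0, 0, 0, 0, 0, ⟨0, 0⟩, 0⟩ 0 0) (.cut .s 12570624 (.pos 102 .pm ⟨0, 127826547, 0, 0, 0, 0, 0, 0, 0, ⟨0, 0⟩, 0⟩ 0 0) (.pos 102 .pm ⟨0, 133349282, 0, 0, 0, 0, 0, 0, 0, ⟨0, 0⟩, 0⟩ 0 0)))) (.cut .d 5319983 (.cut .s 12656640 (.pos 102 .pm ⟨0, 130416889, 0, 0, 0, 0, 0, 0, 0, ⟨0, 0⟩, 0⟩ 0 0) (.pos 102 .pm ⟨0, 218441843, 0, 0, 0, 0, 0, 0, 0, ⟨0, 0⟩, 0⟩ 0 0)) (.pos 102 .pm ⟨0, 234650871,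 0, 0, 0, 0, 0, 0, 0, ⟨0, 0⟩, 0⟩ 0 0))) (.pos 102 .pm ⟨0, 127863465, 0, 0, 0, 0, 0, 0, 0, ⟨0, 0⟩, 0⟩ 0 0)) (.cut .l 980822 (.cut .s 12599296 (.cut .d 5319983 (.pos 103 .pm ⟨0, 121890881, 0, 0, 0, 0, 0, 0, 0, ⟨0, 0⟩, 0⟩ 0 0) (.cut .v 5767168 (.cut .s 12541952 (.pos 104 .pm ⟨0, 125118254, 0, 0, 0, 0, 0, 0, 0, ⟨0, 0⟩, 0⟩ 0 0) (.pos 104 .pm ⟨0, 134918272, 0, 0, 0, 0, 0, 0, 0, ⟨0, 0⟩, 0⟩ 0 0)) (.pos 105 .pm ⟨0, 137646522, 0, 0, 0, 0, 0, 0, 0, ⟨0, 0⟩, 0⟩ 0 0))) (.cut .d 5319983 (.pos 103 .pm ⟨0, 142164632, 0, 0, 0, 0, 0, 0, 0, ⟨0, 0⟩, 0⟩ 0 0) (.void 103 ⟨0, 100000, 0, 0, 0, 0, 0, 0, 0, ⟨0, 0⟩, 0⟩ 0 0))) (.pos 103 .pm ⟨0, 135646859, 0, 0, 0, 0, 0, 0, 0, ⟨0, 0⟩, 0⟩ 0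 0)))))) (.cut .s 12484608 (.pos 88 .pm ⟨0, 0, 0, 0, 0, 0, 0, 0, 0, ⟨0, 0⟩, 0⟩ 0 0) (.cut .s 12599296 (.pos 88 .pm ⟨0, 132212421, 0, 0, 0, 0, 0, 0, 0, ⟨0, 0⟩, 0⟩ 0 0) (.pos 88 .pm ⟨0, 150842907, 0, 0, 0, 0, 0, 0, 0, ⟨0, 0⟩, 0⟩ 0 0)))) (.cut .s 12484608 (.cut .v 6291456 (.cut .d 5803618 (.cut .s 12369920 (.cut .d 5610164 (.pos 87 .pm ⟨0, 0, 0, 0, 0, 0, 0, 0, 0, ⟨0, 0⟩, 0⟩ 0 0) (.cut .l 980822 (.cut .v 5242880 (.cut .s 12312576 (.pos 102 .pm ⟨0, 108369922, 0, 0, 0, 0, 0, 0, 0, ⟨0, 0⟩, 0⟩ 0 0) (.pos 102 .pm ⟨0, 117164862, 0, 0, 0, 0, 0, 0, 0, ⟨0, 0⟩, 0⟩ 0 0)) (.cut .l 632372 (.cut .s 12312576 (.cut .v 5767168 (.cut .d 5706891 (.pos 104 .pm ⟨0, 0, 0, 0, 0, 0, 0,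 0, 0, ⟨0, 0⟩, 0⟩ 0 0) (.cut .s 12283904 (.pos 104 .pm ⟨0, 92504754, 0, 0, 0, 0, 0, 0, 0, ⟨0, 0⟩, 0⟩ 0 0) (.pos 104 .pm ⟨0, 118756117, 0, 0, 0, 0, 0, 0, 0, ⟨0, 0⟩, 0⟩ 0 0))) (.pos 105 .pm ⟨0, 118650688, 0, 0, 0, 0, 0, 0, 0, ⟨0, 0⟩, 0⟩ 0 0)) (.cut .v 5767168 (.cut .l 458147 (.cut .l 371034 (.cut .d 5706891 (.cut .v 5505024 (.pos 106 .pm ⟨0, 118267697, 0, 0, 0, 0, 0, 0, 0, ⟨0, 0⟩, 0⟩ 0 0) (.pos 107 .pm ⟨0, 120317039, 0, 0, 0, 0, 0, 0, 0, ⟨0, 0⟩, 0⟩ 0 0)) (.cut .s 12341248 (.pos 104 .pm ⟨0, 123770119, 0, 0, 0, 0, 0, 0, 0, ⟨0, 0⟩, 0⟩ 0 0) (.pos 104 .pm ⟨0, 129133384, 0, 0, 0, 0, 0, 0, 0, ⟨0, 0⟩, 0⟩ 0 0))) (.pos 104 .pm ⟨0, 122820604, 0, 0, 0, 0, 0, 0, 0, ⟨0, 0⟩,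 0⟩ 0 0)) (.pos 104 .pm ⟨0, 122537406, 0, 0, 0, 0, 0, 0, 0, ⟨0, 0⟩, 0⟩ 0 0)) (.pos 105 .pm ⟨0, 128042719, 0, 0, 0, 0, 0, 0, 0, ⟨0, 0⟩, 0⟩ 0 0))) (.pos 103 .pm ⟨0, 118454720, 0, 0, 0, 0, 0, 0, 0, ⟨0, 0⟩, 0⟩ 0 0))) (.pos 87 .pm ⟨0, 112958895, 0, 0, 0, 0, 0, 0, 0, ⟨0, 0⟩, 0⟩ 0 0))) (.cut .v 5242880 (.cut .v 4718592 (.pos 116 .pm ⟨0, 113437601, 0, 0, 0, 0, 0, 0, 0, ⟨0, 0⟩, 0⟩ 0 0) (.cut .l 980822 (.cut .l 632372 (.cut .d 5610164 (.cut .s 12427264 (.pos 117 .pm ⟨0, 114242684, 0, 0, 0, 0, 0, 0, 0, ⟨0, 0⟩, 0⟩ 0 0) (.cut .d 5513437 (.pos 117 .pm ⟨0, 119938042, 0, 0, 0, 0, 0, 0, 0, ⟨0, 0⟩, 0⟩ 0 0) (.pos 117 .pm ⟨0, 127142545, 0, 0, 0, 0, 0, 0, 0, ⟨0, 0⟩, 0⟩ 0 0))) (.cut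 .s 12427264 (.pos 117 .pm ⟨0, 125868212, 0, 0, 0, 0, 0, 0, 0, ⟨0, 0⟩, 0⟩ 0 0) (.void 117 ⟨0, 100000, 0, 0, 0, 0, 0, 0, 0, ⟨0, 0⟩, 0⟩ 0 0))) (.pos 117 .pm ⟨0, 123806533, 0, 0, 0, 0, 0, 0, 0, ⟨0, 0⟩, 0⟩ 0 0)) (.pos 117 .pm ⟨0, 123292865, 0, 0, 0, 0, 0, 0, 0, ⟨0, 0⟩, 0⟩ 0 0))) (.cut .l 980822 (.cut .d 5610164 (.cut .l 632372 (.cut .v 5767168 (.cut .l 458147 (.cut .s 12427264 (.cut .d 5513437 (.pos 104 .pm ⟨0, 0, 0, 0, 0, 0, 0, 0, 0, ⟨0, 0⟩, 0⟩ 0 0) (.cut .s 12398592 (.pos 104 .pm ⟨0, 111609531, 0, 0, 0, 0, 0, 0, 0, ⟨0, 0⟩, 0⟩ 0 0) (.cut .s 12412928 (.pos 104 .pm ⟨0, 122962804, 0, 0, 0, 0, 0, 0, 0, ⟨0, 0⟩, 0⟩ 0 0) (.pos 104 .pm ⟨0, 125118172, 0, 0, 0, 0, 0, 0, 0,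 ⟨0, 0⟩, 0⟩ 0 0)))) (.cut .d 5513437 (.cut .s 12455936 (.pos 104 .pm ⟨0, 97716069, 0, 0, 0, 0, 0, 0, 0, ⟨0, 0⟩, 0⟩ 0 0) (.cut .s 12470272 (.pos 104 .pm ⟨0, 125252016, 0, 0, 0, 0, 0, 0, 0, ⟨0, 0⟩, 0⟩ 0 0) (.pos 104 .pm ⟨0, 127727503, 0, 0, 0, 0, 0, 0, 0, ⟨0, 0⟩, 0⟩ 0 0))) (.cut .s 12455936 (.cut .d 5561800 (.pos 104 .pm ⟨0, 126945633, 0, 0, 0, 0, 0, 0, 0, ⟨0, 0⟩, 0⟩ 0 0) (.pos 104 .pm ⟨0, 130974841, 0, 0, 0, 0, 0, 0, 0, ⟨0, 0⟩, 0⟩ 0 0)) (.pos 104 .pm ⟨0, 134351686, 0, 0, 0, 0, 0, 0, 0, ⟨0, 0⟩, 0⟩ 0 0)))) (.pos 104 .pm ⟨0, 122537893, 0, 0, 0, 0, 0, 0, 0, ⟨0, 0⟩, 0⟩ 0 0)) (.cut .s 12427264 (.pos 105 .pm ⟨0, 126120105, 0, 0, 0, 0, 0, 0, 0, ⟨0, 0⟩, 0⟩ 0 0) (.pos 105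 .pm ⟨0, 135342781, 0, 0, 0, 0, 0, 0, 0, ⟨0, 0⟩, 0⟩ 0 0))) (.pos 103 .pm ⟨0, 123641455, 0, 0, 0, 0, 0, 0, 0, ⟨0, 0⟩, 0⟩ 0 0)) (.cut .s 12427264 (.cut .v 5767168 (.cut .d 5706891 (.cut .s 12398592 (.cut .d 5658527 (.pos 104 .pm ⟨0, 124441988, 0, 0, 0, 0, 0, 0, 0, ⟨0, 0⟩, 0⟩ 0 0) (.pos 104 .pm ⟨0, 129002764, 0, 0, 0, 0, 0, 0, 0, ⟨0, 0⟩, 0⟩ 0 0)) (.pos 104 .pm ⟨0, 131766922, 0, 0, 0, 0, 0, 0, 0, ⟨0, 0⟩, 0⟩ 0 0)) (.void 104 ⟨0, 100000, 0, 0, 0, 0, 0, 0, 0, ⟨0, 0⟩, 0⟩ 0 0)) (.pos 105 .pm ⟨0, 138300522, 0, 0, 0, 0, 0, 0, 0, ⟨0, 0⟩, 0⟩ 0 0)) (.void 103 ⟨0, 100000, 0, 0, 0, 0, 0, 0, 0, ⟨0, 0⟩, 0⟩ 0 0))) (.pos 103 .pm ⟨0, 131431236, 0, 0, 0, 0, 0, 0, 0, ⟨0, 0⟩, 0⟩ 0 0))))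 (.cut .s 12369920 (.cut .v 5242880 (.pos 102 .pm ⟨0, 127579296, 0, 0, 0, 0, 0, 0, 0, ⟨0, 0⟩, 0⟩ 0 0) (.cut .d 5997072 (.cut .s 12312576 (.cut .v 5767168 (.cut .s 12283904 (.cut .d 5900345 (.pos 104 .pm ⟨0, 121065474, 0, 0, 0, 0, 0, 0, 0, ⟨0, 0⟩, 0⟩ 0 0) (.void 104 ⟨0, 100000, 0, 0, 0, 0, 0, 0, 0, ⟨0, 0⟩, 0⟩ 0 0)) (.pos 104 .pm ⟨0, 129241910, 0, 0, 0, 0, 0, 0, 0, ⟨0, 0⟩, 0⟩ 0 0)) (.pos 105 .pm ⟨0, 130833564, 0, 0, 0, 0, 0, 0, 0, ⟨0, 0⟩, 0⟩ 0 0)) (.void 103 ⟨0, 100000, 0, 0, 0, 0, 0, 0, 0, ⟨0, 0⟩, 0⟩ 0 0)) (.void 103 ⟨0, 0, 0, 100000, 0, 0, 0, 0, 0, ⟨0, 0⟩, 0⟩ 0 0))) (.void 87 ⟨0, 0, 0, 100000, 0, 0, 0, 0, 0, ⟨0, 0⟩, 0⟩ 0 0))) (.cut .d 5803618 (.cut .s 12369920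 (.pos 88 .pm ⟨0, 127663628, 0, 0, 0, 0, 0, 0, 0, ⟨0, 0⟩, 0⟩ 0 0) (.pos 88 .pm ⟨0, 147688196, 0, 0, 0, 0, 0, 0, 0, ⟨0, 0⟩, 0⟩ 0 0)) (.pos 88 .pm ⟨0, 171081684, 0, 0, 0, 0, 0, 0, 0, ⟨0, 0⟩, 0⟩ 0 0))) (.cut .v 6291456 (.cut .d 5803618 (.cut .s 12599296 (.cut .d 5610164 (.cut .s 12541952 (.cut .d 5513437 (.cut .l 980822 (.cut .l 632372 (.cut .v 5242880 (.cut .s 12513280 (.pos 102 .pm ⟨0, 127020725, 0, 0, 0, 0, 0, 0, 0, ⟨0, 0⟩, 0⟩ 0 0) (.pos 102 .pm ⟨0, 132112510, 0, 0, 0, 0, 0, 0, 0, ⟨0, 0⟩, 0⟩ 0 0)) (.cut .v 5767168 (.cut .s 12513280 (.pos 104 .pm ⟨0, 131157758, 0, 0, 0, 0, 0, 0, 0, ⟨0, 0⟩, 0⟩ 0 0) (.pos 104 .pm ⟨0, 136640867, 0, 0, 0, 0, 0, 0, 0, ⟨0, 0⟩, 0⟩ 0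 0)) (.pos 105 .pm ⟨0, 141040843, 0, 0, 0, 0, 0, 0, 0, ⟨0, 0⟩, 0⟩ 0 0))) (.pos 87 .pm ⟨0, 127090096, 0, 0, 0, 0, 0, 0, 0, ⟨0, 0⟩, 0⟩ 0 0)) (.pos 87 .pm ⟨0, 124946890, 0, 0, 0, 0, 0, 0, 0, ⟨0, 0⟩, 0⟩ 0 0)) (.pos 87 .pm ⟨0, 409957405, 0, 0, 0, 0, 0, 0, 0, ⟨0, 0⟩, 0⟩ 0 0)) (.pos 87 .pm ⟨0, 401006680, 0, 0, 0, 0, 0, 0, 0, ⟨0, 0⟩, 0⟩ 0 0)) (.void 87 ⟨0, 0, 0, 100000, 0, 0, 0, 0, 0, ⟨0, 0⟩, 0⟩ 0 0)) (.void 87 ⟨0, 0, 0, 100000, 0, 0, 0, 0, 0, ⟨0, 0⟩, 0⟩ 0 0)) (.void 87 ⟨0, 0, 0, 100000, 0, 0, 0, 0, 0, ⟨0, 0⟩, 0⟩ 0 0)) (.pos 88 .pm ⟨0, 210066143, 0, 0, 0, 0, 0, 0, 0, ⟨0, 0⟩, 0⟩ 0 0))))))) (.cut .d 3095263 (.pos 3 .pm ⟨0, 0, 0, 0, 0, 0, 0, 0, 0, ⟨0, 0⟩, 0⟩ 0 0) (.cut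 .d 4642894 (.pos 3 .pm ⟨0, 0, 0, 0, 0, 0, 0, 0, 0, ⟨0, 0⟩, 0⟩ 0 0) (.cut .d 5416710 (.pos 3 .pm ⟨0, 144177282, 0, 0, 0, 0, 0, 0, 0, ⟨0, 0⟩, 0⟩ 0 0) (.pos 3 .pm ⟨0, 222508138, 0, 0, 0, 0, 0, 0, 0, ⟨0, 0⟩, 0⟩ 0 0))))) (.cut .v 268435456 (.cut .d 3095263 (.cut .v 67108864 (.cut .d 1547631 (.cut .v 33554432 (.cut .d 773815 (.cut .v 25165824 (.cut .v 20971520 (.pos 21 .pp ⟨202748016, 0, 0, 0, 0, 0, 0, 0, 0, ⟨0, 0⟩, 0⟩ 0 0) (.pos 22 .pp ⟨379746486, 0, 0, 0, 0, 0, 0, 0, 0, ⟨0, 0⟩, 0⟩ 0 0)) (.pos 20 .pp ⟨629389186, 0, 0, 0, 0, 0, 0, 0, 0, ⟨0, 0⟩, 0⟩ 0 0)) (.pos 18 .pp ⟨0, 0, 0, 0, 0, 0, 0, 0, 0, ⟨0, 0⟩, 0⟩ 0 0)) (.cut .d 773815 (.cut .v 50331648 (.pos 62 .pp ⟨1490480447,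 0, 0, 0, 0, 0, 0, 0, 0, ⟨0, 0⟩, 0⟩ 0 0) (.void 63 ⟨100000, 0, 0, 0, 0, 0, 0, 0, 0, ⟨0, 0⟩, 0⟩ 0 0)) (.cut .v 50331648 (.pos 62 .pp ⟨691453889, 0, 0, 0, 0, 0, 0, 0, 0, ⟨0, 0⟩, 0⟩ 0 0) (.pos 63 .pp ⟨1796707607, 0, 0, 0, 0, 0, 0, 0, 0, ⟨0, 0⟩, 0⟩ 0 0)))) (.pos 58 .pp ⟨0, 0, 0, 0, 0, 0, 0, 0, 0, ⟨0, 0⟩, 0⟩ 0 0)) (.cut .v 134217728 (.cut .d 1547631 (.cut .v 100663296 (.cut .v 83886080 (.cut .v 75497472 (.pos 112 .pp ⟨3330503259, 0, 0, 0, 0, 0, 0, 0, 0, ⟨0, 0⟩, 0⟩ 0 0) (.pos 113 .pp ⟨4124752609, 0, 0, 0, 0, 0, 0, 0, 0, ⟨0, 0⟩, 0⟩ 0 0)) (.void 95 ⟨38677, 61323, 0, 0, 0, 0, 0, 0, 0, ⟨0, 0⟩, 0⟩ 0 0)) (.void 76 ⟨38677, 61323, 0, 0, 0, 0, 0, 0, 0, ⟨0, 0⟩, 0⟩ 0 0)) (.pos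 73 .pp ⟨0, 1285030138, 0, 0, 0, 0, 0, 0, 0, ⟨0, 0⟩, 0⟩ 0 0)) (.void 74 ⟨89426, 0, 0, 10574, 0, 0, 0, 0, 0, ⟨0, 0⟩, 0⟩ 0 0))) (.pos 71 .pp ⟨0, 182845122, 0, 0, 0, 0, 0, 0, 0, ⟨0, 0⟩, 0⟩ 0 0)) (.void 91 ⟨0, 0, 0, 100000, 0, 0, 0, 0, 0, ⟨0, 0⟩, 0⟩ 0 0)))),
    by decide +kernel⟩

def covers19 : cell.Covers table row19.1 :=
  ⟨(.cut .d 0 (.cut .v 16777216 (.cut .d (-8388608) (.void 1 ⟨0, 0, 0, 0, 0, 100000, 0, 0, 0, ⟨0, 0⟩, 0⟩ 0 0) (.cut .d (-4194304) (.void 1 ⟨0, 0, 416, 0, 0, 97942, 0, 0, 0, ⟨0, 0⟩, 0⟩ 0 0) (.cut .d (-2097152) (.void 1 ⟨0, 0, 0, 0, 0, 100000, 0, 0, 0, ⟨0, 0⟩, 0⟩ 0 0) (.cut .d (-1048576) (.void 1 ⟨0, 0, 0, 0, 0, 100000, 0, 0, 0, ⟨0, 0⟩, 0⟩ 0 0)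 (.cut .d (-524288) (.void 1 ⟨0, 0, 0, 0, 0, 100000, 0, 0, 0, ⟨0, 0⟩, 0⟩ 0 0) (.cut .d (-262144) (.void 1 ⟨0, 0, 0, 0, 0, 100000, 0, 0, 0, ⟨0, 0⟩, 0⟩ 0 0) (.cut .d (-131072) (.void 1 ⟨0, 0, 0, 0, 0, 100000, 0, 0, 0, ⟨0, 0⟩, 0⟩ 0 0) (.cut .v 8388608 (.cut .v 4194304 (.void 4 ⟨0, 0, 100000, 0, 0, 0, 0, 0, 0, ⟨0, 0⟩, 0⟩ 0 0) (.pos 5 .mm ⟨0, 0, 10793461, 0, 0, 300146473, 0, 0, 0, ⟨0, 0⟩, 0⟩ 0 0)) (.cut .d (-65536) (.pos 3 .mm ⟨0, 0, 0, 0, 0, 757989388, 0, 0, 0, ⟨0, 0⟩, 0⟩ 0 0) (.cut .s 12976128 (.pos 3 .mm ⟨0, 0, 0, 0, 0, 615922913, 0, 0, 0, ⟨0, 0⟩, 0⟩ 0 0) (.cut .s 13107200 (.pos 3 .mm ⟨0, 0, 0, 0, 0, 687638353, 0, 0, 0, ⟨0, 0⟩, 0⟩ 0 0) (.pos 3 .mm ⟨0, 0, 0, 0,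 0, 741662486, 0, 0, 0, ⟨0, 0⟩, 0⟩ 0 0)))))))))))) (.cut .v 268435456 (.cut .v 67108864 (.cut .v 33554432 (.cut .d (-8388608) (.void 18 ⟨100000, 0, 0, 0, 0, 0, 0, 0, 0, ⟨0, 0⟩, 0⟩ 0 0) (.cut .v 25165824 (.cut .d (-4194304) (.void 19 ⟨100000, 0, 0, 0, 0, 0, 0, 0, 0, ⟨0, 0⟩, 0⟩ 0 0) (.cut .v 20971520 (.cut .d (-2097152) (.void 21 ⟨100000, 0, 0, 0, 0, 0, 0, 0, 0, ⟨0, 0⟩, 0⟩ 0 0) (.cut .d (-1048576) (.void 21 ⟨100000, 0, 0, 0, 0, 0, 0, 0, 0, ⟨0, 0⟩, 0⟩ 0 0) (.cut .d (-524288) (.void 21 ⟨100000, 0, 0, 0, 0, 0, 0, 0, 0, ⟨0, 0⟩, 0⟩ 0 0) (.cut .d (-262144) (.void 21 ⟨100000, 0, 0, 0, 0, 0, 0, 0, 0, ⟨0, 0⟩, 0⟩ 0 0) (.cut .d (-131072) (.void 21 ⟨0, 0, 0, 0, 0, 100000,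 0, 0, 0, ⟨0, 0⟩, 0⟩ 0 0) (.cut .v 18874368 (.cut .v 17825792 (.cut .v 17301504 (.cut .d (-65536) (.cut .l 980822 (.void 27 ⟨0, 0, 0, 0, 0, 100000, 0, 0, 0, ⟨0, 0⟩, 0⟩ 0 0) (.cut .d (-98304) (.void 27 ⟨0, 0, 0, 0, 0, 100000, 0, 0, 0, ⟨0, 0⟩, 0⟩ 0 0) (.cut .s 12976128 (.pos 27 .mp ⟨136846400, 0, 0, 0, 0, 460926789, 0, 0, 0, ⟨0, 0⟩, 0⟩ 0 0) (.cut .s 13107200 (.pos 27 .mp ⟨154705817, 0, 0, 0, 0, 483117761, 0, 0, 0, ⟨0, 0⟩, 0⟩ 0 0) (.pos 27 .mp ⟨163703229, 0, 0, 0, 0, 524584269, 0, 0, 0, ⟨0, 0⟩, 0⟩ 0 0))))) (.cut .s 12976128 (.cut .s 12845056 (.pos 27 .mp ⟨178397709, 0, 0, 0, 0, 300734332, 0, 0, 0, ⟨0, 0⟩, 0⟩ 0 0) (.cut .s 12910592 (.pos 27 .mp ⟨183945907, 0, 0,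 0, 0, 322198953, 0, 0, 0, ⟨0, 0⟩, 0⟩ 0 0) (.pos 27 .mp ⟨189607500, 0, 0, 0, 0, 335244202, 0, 0, 0, ⟨0, 0⟩, 0⟩ 0 0))) (.cut .v 17039360 (.cut .s 13107200 (.cut .d (-32768) (.cut .l 980822 (.pos 29 .mp ⟨146153543, 0, 0, 0, 0, 482422047, 0, 0, 0, ⟨0, 0⟩, 0⟩ 0 0) (.pos 29 .mp ⟨176487756, 0, 0, 0, 0, 387767138, 0, 0, 0, ⟨0, 0⟩, 0⟩ 0 0)) (.pos 29 .mp ⟨172351814, 0, 0, 0, 0, 389870838, 0, 0, 0, ⟨0, 0⟩, 0⟩ 0 0)) (.cut .l 980822 (.cut .d (-32768) (.pos 29 .mp ⟨153780996, 0, 0, 0, 0, 528062887, 0, 0, 0, ⟨0, 0⟩, 0⟩ 0 0) (.cut .s 13172736 (.pos 29 .mp ⟨176911017, 0, 0, 0, 0, 430410423, 0, 0, 0, ⟨0, 0⟩, 0⟩ 0 0) (.pos 29 .mp ⟨181530513, 0, 0, 0, 0, 450821154, 0, 0, 0, ⟨0,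 0⟩, 0⟩ 0 0))) (.pos 29 .mp ⟨186746573, 0, 0, 0, 0, 413819728, 0, 0, 0, ⟨0, 0⟩, 0⟩ 0 0))) (.pos 30 .mp ⟨435327684, 0, 0, 0, 0, 0, 0, 0, 0, ⟨0, 0⟩, 0⟩ 0 0)))) (.pos 28 .mp ⟨450844021, 0, 0, 0, 0, 0, 0, 0, 0, ⟨0, 0⟩, 0⟩ 0 0)) (.pos 26 .mp ⟨478001430, 0, 0, 0, 0, 0, 0, 0, 0, ⟨0, 0⟩, 0⟩ 0 0)) (.void 24 ⟨100000, 0, 0, 0, 0, 0, 0, 0, 0, ⟨0, 0⟩, 0⟩ 0 0))))))) (.void 22 ⟨100000, 0, 0, 0, 0, 0, 0, 0, 0, ⟨0, 0⟩, 0⟩ 0 0))) (.void 20 ⟨100000, 0, 0, 0, 0, 0, 0, 0, 0, ⟨0, 0⟩, 0⟩ 0 0))) (.void 59 ⟨100000, 0, 0, 0, 0, 0, 0, 0, 0, ⟨0, 0⟩, 0⟩ 0 0)) (.void 72 ⟨100000, 0, 0, 0, 0, 0, 0, 0, 0, ⟨0, 0⟩, 0⟩ 0 0)) (.void 91 ⟨94665, 0, 0, 5335, 0, 0, 0, 0, 0, ⟨0, 0⟩, 0⟩ 0 0))) (.cut .v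 16777216 (.cut .v 8388608 (.cut .v 4194304 (.cut .v 2097152 (.cut .d 2680896 (.void 83 ⟨0, 0, 100000, 0, 0, 0, 0, 0, 0, ⟨0, 0⟩, 0⟩ 0 0) (.cut .v 1048576 (.pos 96 .pm ⟨0, 3879802, 0, 0, 0, 0, 0, 0, 0, ⟨0, 0⟩, 0⟩ 0 0) (.pos 97 .pm ⟨0, 45582041, 0, 0, 0, 0, 0, 0, 0, ⟨0, 0⟩, 0⟩ 0 0))) (.cut .d 2680896 (.pos 84 .pm ⟨0, 0, 48800172, 0, 0, 0, 0, 0, 0, ⟨0, 0⟩, 0⟩ 0 0) (.cut .d 4021344 (.pos 84 .pm ⟨0, 0, 0, 0, 0, 0, 0, 0, 0, ⟨0, 0⟩, 0⟩ 0 0) (.cut .d 4691568 (.cut .s 12976128 (.pos 84 .pm ⟨0, 0, 0, 0, 0, 0, 0, 0, 0, ⟨0, 0⟩, 0⟩ 0 0) (.cut .d 4356456 (.pos 84 .pm ⟨0, 91122030, 0, 0, 0, 0, 0, 0, 0, ⟨0, 0⟩, 0⟩ 0 0) (.pos 84 .pm ⟨0, 127706178, 0, 0, 0, 0, 0, 0, 0, ⟨0, 0⟩,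 0⟩ 0 0))) (.cut .s 12976128 (.cut .d 5026680 (.pos 84 .pm ⟨0, 116073114, 0, 0, 0, 0, 0, 0, 0, ⟨0, 0⟩, 0⟩ 0 0) (.pos 84 .pm ⟨0, 139617940, 0, 0, 0, 0, 0, 0, 0, ⟨0, 0⟩, 0⟩ 0 0)) (.pos 84 .pm ⟨0, 173863504, 0, 0, 0, 0, 0, 0, 0, ⟨0, 0⟩, 0⟩ 0 0)))))) (.cut .d 2680896 (.pos 5 .pm ⟨0, 0, 9664422, 0, 0, 0, 0, 0, 0, ⟨0, 0⟩, 0⟩ 0 0) (.cut .d 4021344 (.pos 5 .pm ⟨0, 0, 0, 0, 0, 0, 0, 0, 0, ⟨0, 0⟩, 0⟩ 0 0) (.cut .d 4691568 (.cut .v 6291456 (.cut .s 12976128 (.pos 87 .pm ⟨0, 94202011, 0, 0, 0, 0, 0, 0, 0, ⟨0, 0⟩, 0⟩ 0 0) (.cut .d 4356456 (.pos 87 .pm ⟨0, 110040948, 0, 0, 0, 0, 0, 0, 0, ⟨0, 0⟩, 0⟩ 0 0) (.cut .d 4524012 (.pos 87 .pm ⟨0, 134288793, 0, 0, 0, 0, 0, 0, 0, ⟨0,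 0⟩, 0⟩ 0 0) (.pos 87 .pm ⟨0, 155867436, 0, 0, 0, 0, 0, 0, 0, ⟨0, 0⟩, 0⟩ 0 0)))) (.pos 88 .pm ⟨0, 143258964, 0, 0, 0, 0, 0, 0, 0, ⟨0, 0⟩, 0⟩ 0 0)) (.cut .s 12976128 (.cut .v 6291456 (.cut .d 5026680 (.cut .s 12845056 (.cut .v 5242880 (.pos 102 .pm ⟨0, 119061226, 0, 0, 0, 0, 0, 0, 0, ⟨0, 0⟩, 0⟩ 0 0) (.pos 103 .pm ⟨0, 131596675, 0, 0, 0, 0, 0, 0, 0, ⟨0, 0⟩, 0⟩ 0 0)) (.cut .v 5242880 (.cut .d 4859124 (.pos 102 .pm ⟨0, 132926946, 0, 0, 0, 0, 0, 0, 0, ⟨0, 0⟩, 0⟩ 0 0) (.pos 102 .pm ⟨0, 153470730, 0, 0, 0, 0, 0, 0, 0, ⟨0, 0⟩, 0⟩ 0 0)) (.pos 103 .pm ⟨0, 158135942, 0, 0, 0, 0, 0, 0, 0, ⟨0, 0⟩, 0⟩ 0 0))) (.cut .s 12845056 (.cut .v 5242880 (.cut .d 5194236 (.pos 102 .pm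 ⟨0, 143230915, 0, 0, 0, 0, 0, 0, 0, ⟨0, 0⟩, 0⟩ 0 0) (.void 102 ⟨0, 100000, 0, 0, 0, 0, 0, 0, 0, ⟨0, 0⟩, 0⟩ 0 0)) (.pos 103 .pm ⟨0, 163334107, 0, 0, 0, 0, 0, 0, 0, ⟨0, 0⟩, 0⟩ 0 0)) (.void 87 ⟨0, 0, 0, 100000, 0, 0, 0, 0, 0, ⟨0, 0⟩, 0⟩ 0 0))) (.pos 88 .pm ⟨0, 187168616, 0, 0, 0, 0, 0, 0, 0, ⟨0, 0⟩, 0⟩ 0 0)) (.pos 5 .pm ⟨0, 321309222, 0, 0, 0, 0, 0, 0, 0, ⟨0, 0⟩, 0⟩ 0 0)))))) (.cut .d 2680896 (.pos 3 .pm ⟨0, 0, 0, 0, 0, 0, 0, 0, 0, ⟨0, 0⟩, 0⟩ 0 0) (.cut .d 4021344 (.pos 3 .pm ⟨0, 0, 0, 0, 0, 0, 0, 0, 0, ⟨0, 0⟩, 0⟩ 0 0) (.pos 3 .pm ⟨0, 239143084, 0, 0, 0, 0, 0, 0, 0, ⟨0, 0⟩, 0⟩ 0 0)))) (.cut .v 268435456 (.cut .d 2680896 (.cut .v 67108864 (.cut .d 1340448 (.cut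 .v 33554432 (.cut .d 670224 (.cut .v 25165824 (.cut .v 20971520 (.pos 21 .pp ⟨253062135, 0, 0, 0, 0, 0, 0, 0, 0, ⟨0, 0⟩, 0⟩ 0 0) (.pos 22 .pp ⟨476572821, 0, 0, 0, 0, 0, 0, 0, 0, ⟨0, 0⟩, 0⟩ 0 0)) (.pos 20 .pp ⟨786045358, 0, 0, 0, 0, 0, 0, 0, 0, ⟨0, 0⟩, 0⟩ 0 0)) (.pos 18 .pp ⟨0, 0, 0, 0, 0, 0, 0, 0, 0, ⟨0, 0⟩, 0⟩ 0 0)) (.cut .d 670224 (.cut .v 50331648 (.pos 62 .pp ⟨1846754380, 0, 0, 0, 0, 0, 0, 0, 0, ⟨0, 0⟩, 0⟩ 0 0) (.void 63 ⟨100000, 0, 0, 0, 0, 0, 0, 0, 0, ⟨0, 0⟩, 0⟩ 0 0)) (.cut .v 50331648 (.pos 62 .pp ⟨858500154, 0, 0, 0, 0, 0, 0, 0, 0, ⟨0, 0⟩, 0⟩ 0 0) (.pos 63 .pp ⟨2182011477, 0, 0, 0, 0, 0, 0, 0, 0, ⟨0, 0⟩, 0⟩ 0 0)))) (.pos 58 .pp ⟨0, 0, 0, 0, 0, 0, 0,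 0, 0, ⟨0, 0⟩, 0⟩ 0 0)) (.cut .v 134217728 (.cut .d 1340448 (.cut .v 100663296 (.cut .v 83886080 (.cut .v 75497472 (.pos 112 .pp ⟨4059174901, 0, 0, 0, 0, 0, 0, 0, 0, ⟨0, 0⟩, 0⟩ 0 0) (.pos 113 .pp ⟨5010117968, 0, 0, 0, 0, 0, 0, 0, 0, ⟨0, 0⟩, 0⟩ 0 0)) (.void 95 ⟨37862, 62138, 0, 0, 0, 0, 0, 0, 0, ⟨0, 0⟩, 0⟩ 0 0)) (.void 76 ⟨37862, 62138, 0, 0, 0, 0, 0, 0, 0, ⟨0, 0⟩, 0⟩ 0 0)) (.pos 73 .pp ⟨0, 1731782751, 0, 0, 0, 0, 0, 0, 0, ⟨0, 0⟩, 0⟩ 0 0)) (.void 74 ⟨89148, 0, 0, 10852, 0, 0, 0, 0, 0, ⟨0, 0⟩, 0⟩ 0 0))) (.pos 71 .pp ⟨0, 232639532, 0, 0, 0, 0, 0, 0, 0, ⟨0, 0⟩, 0⟩ 0 0)) (.void 91 ⟨0, 0, 0, 100000, 0, 0, 0, 0, 0, ⟨0, 0⟩, 0⟩ 0 0)))),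
    by decide +kernel⟩

def covers20 : cell.Covers table row20.1 :=
  ⟨(.cut .d 0 (.cut .v 16777216 (.cut .d (-8388608) (.void 1 ⟨0, 0, 0, 0, 0, 100000, 0, 0, 0, ⟨0, 0⟩, 0⟩ 0 0) (.cut .d (-4194304) (.void 1 ⟨0, 0, 0, 0, 0, 109813, 0, 0, 0, ⟨0, 0⟩, 0⟩ 0 0) (.cut .d (-2097152) (.void 1 ⟨0, 0, 0, 0, 0, 100000, 0, 0, 0, ⟨0, 0⟩, 0⟩ 0 0) (.cut .d (-1048576) (.void 1 ⟨0, 0, 0, 0, 0, 100000, 0, 0, 0, ⟨0, 0⟩, 0⟩ 0 0) (.cut .d (-524288) (.void 1 ⟨0, 0, 0, 0, 0, 100000, 0, 0, 0, ⟨0, 0⟩, 0⟩ 0 0) (.cut .d (-262144) (.void 1 ⟨0, 0, 0, 0, 0, 100000, 0, 0, 0, ⟨0, 0⟩, 0⟩ 0 0) (.cut .d (-131072) (.void 1 ⟨0, 0, 0, 0, 0, 100000, 0, 0, 0, ⟨0, 0⟩, 0⟩ 0 0) (.cut .v 8388608 (.cut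 .v 4194304 (.void 4 ⟨0, 0, 100000, 0, 0, 0, 0, 0, 0, ⟨0, 0⟩, 0⟩ 0 0) (.pos 5 .mm ⟨0, 0, 110456367, 0, 0, 321650910, 0, 0, 0, ⟨0, 0⟩, 0⟩ 0 0)) (.cut .d (-65536) (.pos 3 .mm ⟨0, 0, 0, 0, 0, 1046488512, 0, 0, 0, ⟨0, 0⟩, 0⟩ 0 0) (.cut .v 12582912 (.pos 6 .mm ⟨0, 0, 0, 0, 0, 546529627, 0, 0, 0, ⟨0, 0⟩, 0⟩ 0 0) (.cut .v 14680064 (.pos 10 .mm ⟨0, 0, 0, 0, 0, 772340797, 0, 0, 0, ⟨0, 0⟩, 0⟩ 0 0) (.cut .v 15728640 (.pos 12 .mm ⟨0, 0, 0, 0, 0, 833483767, 0, 0, 0, ⟨0, 0⟩, 0⟩ 0 0) (.cut .v 16252928 (.pos 14 .mm ⟨0, 0, 0, 0, 0, 865389479, 0, 0, 0, ⟨0, 0⟩, 0⟩ 0 0) (.cut .s 13500416 (.cut .s 13369344 (.pos 15 .mm ⟨0, 0, 0, 0, 0, 798132318, 0, 0, 0, ⟨0, 0⟩, 0⟩ 0 0) (.pos 15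 .mm ⟨0, 0, 0, 0, 0, 859944541, 0, 0, 0, ⟨0, 0⟩, 0⟩ 0 0)) (.cut .v 16515072 (.pos 16 .mm ⟨0, 0, 0, 0, 0, 938592912, 0, 0, 0, ⟨0, 0⟩, 0⟩ 0 0) (.cut .s 13631488 (.cut .s 13565952 (.pos 17 .mm ⟨0, 0, 0, 0, 0, 897812977, 0, 0, 0, ⟨0, 0⟩, 0⟩ 0 0) (.pos 17 .mm ⟨0, 0, 0, 0, 0, 932577487, 0, 0, 0, ⟨0, 0⟩, 0⟩ 0 0)) (.cut .s 13697024 (.pos 17 .mm ⟨0, 0, 0, 0, 0, 968642378, 0, 0, 0, ⟨0, 0⟩, 0⟩ 0 0) (.pos 17 .mm ⟨0, 0, 0, 0, 0, 1005989192, 0, 0, 0, ⟨0, 0⟩, 0⟩ 0 0)))))))))))))))))) (.cut .v 268435456 (.cut .v 67108864 (.cut .v 33554432 (.cut .d (-8388608) (.void 18 ⟨100000, 0, 0, 0, 0, 0, 0, 0, 0, ⟨0, 0⟩, 0⟩ 0 0) (.cut .v 25165824 (.cut .d (-4194304) (.void 19 ⟨100000, 0,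 0, 0, 0, 0, 0, 0, 0, ⟨0, 0⟩, 0⟩ 0 0) (.cut .d (-2097152) (.void 19 ⟨100000, 0, 0, 0, 0, 0, 0, 0, 0, ⟨0, 0⟩, 0⟩ 0 0) (.cut .v 20971520 (.cut .d (-1048576) (.void 21 ⟨100000, 0, 0, 0, 0, 0, 0, 0, 0, ⟨0, 0⟩, 0⟩ 0 0) (.cut .d (-524288) (.void 21 ⟨100000, 0, 0, 0, 0, 0, 0, 0, 0, ⟨0, 0⟩, 0⟩ 0 0) (.cut .d (-262144) (.void 21 ⟨100000, 0, 0, 0, 0, 0, 0, 0, 0, ⟨0, 0⟩, 0⟩ 0 0) (.cut .d (-131072) (.void 21 ⟨100000, 0, 0, 0, 0, 0, 0, 0, 0, ⟨0, 0⟩, 0⟩ 0 0) (.cut .v 18874368 (.cut .v 17825792 (.cut .v 17301504 (.cut .d (-65536) (.cut .v 17039360 (.cut .s 13500416 (.pos 29 .mp ⟨184021235, 0, 0, 0, 0, 616060558, 0, 0, 0, ⟨0, 0⟩, 0⟩ 0 0) (.cut .s 13631488 (.cut .s 13565952 (.pos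 29 .mp ⟨187612178, 0, 0, 0, 0, 644335394, 0, 0, 0, ⟨0, 0⟩, 0⟩ 0 0) (.void 29 ⟨0, 0, 0, 0, 0, 100000, 0, 0, 0, ⟨0, 0⟩, 0⟩ 0 0)) (.void 29 ⟨0, 0, 0, 0, 0, 100000, 0, 0, 0, ⟨0, 0⟩, 0⟩ 0 0))) (.pos 30 .mp ⟨690162315, 0, 0, 0, 0, 0, 0, 0, 0, ⟨0, 0⟩, 0⟩ 0 0)) (.cut .s 13500416 (.cut .v 17039360 (.cut .s 13369344 (.cut .d (-32768) (.cut .s 13303808 (.pos 29 .mp ⟨163365249, 0, 0, 0, 0, 538593093, 0, 0, 0, ⟨0, 0⟩, 0⟩ 0 0) (.cut .v 16908288 (.pos 60 .mp ⟨142504295, 0, 0, 0, 0, 595987678, 0, 0, 0, ⟨0, 0⟩, 0⟩ 0 0) (.pos 61 .mp ⟨222816881, 0, 0, 0, 0, 455161437, 0, 0, 0, ⟨0, 0⟩, 0⟩ 0 0))) (.cut .v 16908288 (.cut .s 13303808 (.pos 60 .mp ⟨153394684, 0, 0, 0, 0, 530370415,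 0, 0, 0, ⟨0, 0⟩, 0⟩ 0 0) (.cut .d (-16384) (.pos 60 .mp ⟨145757852, 0, 0, 0, 0, 579465767, 0, 0, 0, ⟨0, 0⟩, 0⟩ 0 0) (.pos 60 .mp ⟨173574201, 0, 0, 0, 0, 506413880, 0, 0, 0, ⟨0, 0⟩, 0⟩ 0 0))) (.pos 61 .mp ⟨467006950, 0, 0, 0, 0, 0, 0, 0, 0, ⟨0, 0⟩, 0⟩ 0 0))) (.cut .d (-32768) (.cut .l 980822 (.cut .s 13434880 (.pos 29 .mp ⟨170461362, 0, 0, 0, 0, 588001556, 0, 0, 0, ⟨0, 0⟩, 0⟩ 0 0) (.pos 29 .mp ⟨173918183, 0, 0, 0, 0, 611937489, 0, 0, 0, ⟨0, 0⟩, 0⟩ 0 0)) (.cut .v 16908288 (.pos 60 .mp ⟨0, 0, 0, 0, 0, 873597063, 0, 0, 0, ⟨0, 0⟩, 0⟩ 0 0) (.cut .s 13434880 (.cut .s 13402112 (.pos 61 .mp ⟨204393240, 0, 0, 0, 0, 501787088, 0, 0, 0, ⟨0, 0⟩, 0⟩ 0 0) (.pos 61 .mp ⟨207318549,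 0, 0, 0, 0, 510416255, 0, 0, 0, ⟨0, 0⟩, 0⟩ 0 0)) (.cut .d (-49152) (.cut .s 13467648 (.pos 61 .mp ⟨170680700, 0, 0, 0, 0, 599857511, 0, 0, 0, ⟨0, 0⟩, 0⟩ 0 0) (.cut .v 16973824 (.pos 77 .mp ⟨171239473, 0, 0, 0, 0, 609457230, 0, 0, 0, ⟨0, 0⟩, 0⟩ 0 0) (.pos 78 .mp ⟨210640416, 0, 0, 0, 0, 540955796, 0, 0, 0, ⟨0, 0⟩, 0⟩ 0 0))) (.pos 61 .mp ⟨197182896, 0, 0, 0, 0, 542118291, 0, 0, 0, ⟨0, 0⟩, 0⟩ 0 0))))) (.cut .l 980822 (.cut .v 16908288 (.cut .d (-16384) (.cut .s 13434880 (.cut .s 13402112 (.pos 60 .mp ⟨167671888, 0, 0, 0, 0, 559479428, 0, 0, 0, ⟨0, 0⟩, 0⟩ 0 0) (.pos 60 .mp ⟨163527037, 0, 0, 0, 0, 581338161, 0, 0, 0, ⟨0, 0⟩, 0⟩ 0 0)) (.cut .l 632372 (.cut .s 13467648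 (.pos 60 .mp ⟨170889620, 0, 0, 0, 0, 585121189, 0, 0, 0, ⟨0, 0⟩, 0⟩ 0 0) (.pos 60 .mp ⟨170098864, 0, 0, 0, 0, 602286592, 0, 0, 0, ⟨0, 0⟩, 0⟩ 0 0)) (.pos 60 .mp ⟨155942414, 0, 0, 0, 0, 610723573, 0, 0, 0, ⟨0, 0⟩, 0⟩ 0 0))) (.cut .d (-8192) (.cut .s 13434880 (.pos 60 .mp ⟨177315957, 0, 0, 0, 0, 536984573, 0, 0, 0, ⟨0, 0⟩, 0⟩ 0 0) (.cut .s 13467648 (.pos 60 .mp ⟨176131337, 0, 0, 0, 0, 563349053, 0, 0, 0, ⟨0, 0⟩, 0⟩ 0 0) (.pos 60 .mp ⟨179308148, 0, 0, 0, 0, 571540036, 0, 0, 0, ⟨0, 0⟩, 0⟩ 0 0))) (.pos 60 .mp ⟨173150056, 0, 0, 0, 0, 0, 0, 0, 0, ⟨0, 0⟩, 0⟩ 0 0))) (.pos 61 .mp ⟨500708016, 0, 0, 0, 0, 0, 0, 0, 0, ⟨0, 0⟩, 0⟩ 0 0)) (.pos 29 .mp ⟨0, 0, 0, 0, 0, 0, 0, 0,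 0, ⟨0, 0⟩, 0⟩ 0 0)))) (.pos 30 .mp ⟨503003166, 0, 0, 0, 0, 0, 0, 0, 0, ⟨0, 0⟩, 0⟩ 0 0)) (.cut .v 17039360 (.cut .s 13631488 (.cut .d (-32768) (.cut .l 980822 (.cut .s 13565952 (.cut .s 13533184 (.pos 29 .mp ⟨177933728, 0, 0, 0, 0, 622485625, 0, 0, 0, ⟨0, 0⟩, 0⟩ 0 0) (.pos 29 .mp ⟨179912170, 0, 0, 0, 0, 635632363, 0, 0, 0, ⟨0, 0⟩, 0⟩ 0 0)) (.pos 29 .mp ⟨181870523, 0, 0, 0, 0, 665011866, 0, 0, 0, ⟨0, 0⟩, 0⟩ 0 0)) (.cut .s 13565952 (.cut .v 16908288 (.pos 60 .mp ⟨0, 0, 0, 0, 0, 913184046, 0, 0, 0, ⟨0, 0⟩, 0⟩ 0 0) (.cut .d (-49152) (.cut .l 1329272 (.pos 61 .mp ⟨186069155, 0, 0, 0, 0, 626628368, 0, 0, 0, ⟨0, 0⟩, 0⟩ 0 0) (.cut .d (-57344) (.cut .s 13533184 (.pos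 61 .mp ⟨182974969, 0, 0, 0, 0, 609958328, 0, 0, 0, ⟨0, 0⟩, 0⟩ 0 0) (.cut .s 13549568 (.pos 61 .mp ⟨188194901, 0, 0, 0, 0, 609955749, 0, 0, 0, ⟨0, 0⟩, 0⟩ 0 0) (.pos 61 .mp ⟨188914849, 0, 0, 0, 0, 617164735, 0, 0, 0, ⟨0, 0⟩, 0⟩ 0 0))) (.cut .s 13533184 (.pos 61 .mp ⟨196584608, 0, 0, 0, 0, 569961164, 0, 0, 0, ⟨0, 0⟩, 0⟩ 0 0) (.pos 61 .mp ⟨199122079, 0, 0, 0, 0, 579859033, 0, 0, 0, ⟨0, 0⟩, 0⟩ 0 0)))) (.cut .s 13533184 (.pos 61 .mp ⟨199671916, 0, 0, 0, 0, 562525162, 0, 0, 0, ⟨0, 0⟩, 0⟩ 0 0) (.pos 61 .mp ⟨202156485, 0, 0, 0, 0, 573983642, 0, 0, 0, ⟨0, 0⟩, 0⟩ 0 0)))) (.cut .v 16908288 (.pos 60 .mp ⟨0, 0, 0, 0, 0, 946803903, 0, 0, 0, ⟨0, 0⟩, 0⟩ 0 0) (.cut .d (-49152)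 (.cut .l 1329272 (.pos 61 .mp ⟨190680110, 0, 0, 0, 0, 649712060, 0, 0, 0, ⟨0, 0⟩, 0⟩ 0 0) (.cut .s 13598720 (.cut .s 13582336 (.pos 61 .mp ⟨179282640, 0, 0, 0, 0, 642831583, 0, 0, 0, ⟨0, 0⟩, 0⟩ 0 0) (.pos 61 .mp ⟨180329159, 0, 0, 0, 0, 649686849, 0, 0, 0, ⟨0, 0⟩, 0⟩ 0 0)) (.pos 61 .mp ⟨181369059, 0, 0, 0, 0, 659961988, 0, 0, 0, ⟨0, 0⟩, 0⟩ 0 0))) (.cut .s 13598720 (.pos 61 .mp ⟨204636647, 0, 0, 0, 0, 586178528, 0, 0, 0, ⟨0, 0⟩, 0⟩ 0 0) (.pos 61 .mp ⟨207112445, 0, 0, 0, 0, 599122564, 0, 0, 0, ⟨0, 0⟩, 0⟩ 0 0)))))) (.cut .l 980822 (.cut .v 16908288 (.cut .d (-16384) (.cut .s 13565952 (.cut .l 632372 (.cut .s 13533184 (.pos 60 .mp ⟨169963121, 0, 0, 0, 0, 618733911,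 0, 0, 0, ⟨0, 0⟩, 0⟩ 0 0) (.pos 60 .mp ⟨171612358, 0, 0, 0, 0, 632171463, 0, 0, 0, ⟨0, 0⟩, 0⟩ 0 0)) (.cut .s 13533184 (.pos 60 .mp ⟨161464580, 0, 0, 0, 0, 625263336, 0, 0, 0, ⟨0, 0⟩, 0⟩ 0 0) (.pos 60 .mp ⟨162997790, 0, 0, 0, 0, 638518228, 0, 0, 0, ⟨0, 0⟩, 0⟩ 0 0))) (.cut .v 16842752 (.pos 68 .mp ⟨0, 0, 0, 0, 0, 961425386, 0, 0, 0, ⟨0, 0⟩, 0⟩ 0 0) (.cut .l 632372 (.cut .s 13598720 (.pos 69 .mp ⟨205377933, 0, 0, 0, 0, 586212309, 0, 0, 0, ⟨0, 0⟩, 0⟩ 0 0) (.pos 69 .mp ⟨207685719, 0, 0, 0, 0, 599592606, 0, 0, 0, ⟨0, 0⟩, 0⟩ 0 0)) (.pos 69 .mp ⟨195794352, 0, 0, 0, 0, 598647897, 0, 0, 0, ⟨0, 0⟩, 0⟩ 0 0)))) (.cut .d (-8192) (.cut .l 632372 (.cut .l 458147 (.cut .v 16842752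 (.cut .v 16809984 (.pos 85 .mp ⟨0, 0, 0, 0, 0, 910473686, 0, 0, 0, ⟨0, 0⟩, 0⟩ 0 0) (.cut .s 13565952 (.cut .s 13533184 (.pos 86 .mp ⟨171861850, 0, 0, 0, 0, 602297712, 0, 0, 0, ⟨0, 0⟩, 0⟩ 0 0) (.pos 86 .mp ⟨173475124, 0, 0, 0, 0, 615297997, 0, 0, 0, ⟨0, 0⟩, 0⟩ 0 0)) (.cut .s 13598720 (.pos 86 .mp ⟨175490673, 0, 0, 0, 0, 627958776, 0, 0, 0, ⟨0, 0⟩, 0⟩ 0 0) (.pos 86 .mp ⟨177030274, 0, 0, 0, 0, 641697604, 0, 0, 0, ⟨0, 0⟩, 0⟩ 0 0)))) (.pos 69 .mp ⟨528784353, 0, 0, 0, 0, 0, 0, 0, 0, ⟨0, 0⟩, 0⟩ 0 0)) (.pos 60 .mp ⟨182297074, 0, 0, 0, 0, 0, 0, 0, 0, ⟨0, 0⟩, 0⟩ 0 0)) (.pos 60 .mp ⟨0, 0, 0, 0, 0, 0, 0, 0, 0, ⟨0, 0⟩, 0⟩ 0 0)) (.pos 60 .mp ⟨179397222, 0, 0, 0, 0, 0, 0,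 0, 0, ⟨0, 0⟩, 0⟩ 0 0))) (.pos 61 .mp ⟨530745799, 0, 0, 0, 0, 0, 0, 0, 0, ⟨0, 0⟩, 0⟩ 0 0)) (.pos 29 .mp ⟨185725249, 0, 0, 0, 0, 0, 0, 0, 0, ⟨0, 0⟩, 0⟩ 0 0))) (.cut .d (-32768) (.cut .l 980822 (.pos 29 .mp ⟨185725249, 0, 0, 0, 0, 729572588, 0, 0, 0, ⟨0, 0⟩, 0⟩ 0 0) (.cut .v 16908288 (.pos 60 .mp ⟨0, 0, 0, 0, 0, 1003090600, 0, 0, 0, ⟨0, 0⟩, 0⟩ 0 0) (.cut .s 13697024 (.cut .s 13664256 (.cut .s 13647872 (.pos 61 .mp ⟨221756534, 0, 0, 0, 0, 595401497, 0, 0, 0, ⟨0, 0⟩, 0⟩ 0 0) (.pos 61 .mp ⟨224570982, 0, 0, 0, 0, 599604535, 0, 0, 0, ⟨0, 0⟩, 0⟩ 0 0)) (.pos 61 .mp ⟨231102979, 0, 0, 0, 0, 600703735, 0, 0, 0, ⟨0, 0⟩, 0⟩ 0 0)) (.pos 61 .mp ⟨237174098, 0, 0, 0, 0, 616244134,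 0, 0, 0, ⟨0, 0⟩, 0⟩ 0 0)))) (.cut .l 980822 (.cut .v 16908288 (.cut .d (-16384) (.cut .s 13697024 (.cut .s 13664256 (.pos 60 .mp ⟨164691496, 0, 0, 0, 0, 695196003, 0, 0, 0, ⟨0, 0⟩, 0⟩ 0 0) (.pos 60 .mp ⟨168570883, 0, 0, 0, 0, 707110935, 0, 0, 0, ⟨0, 0⟩, 0⟩ 0 0)) (.pos 60 .mp ⟨167312198, 0, 0, 0, 0, 739040903, 0, 0, 0, ⟨0, 0⟩, 0⟩ 0 0)) (.cut .s 13697024 (.cut .s 13664256 (.cut .d (-8192) (.pos 60 .mp ⟨184018324, 0, 0, 0, 0, 647587786, 0, 0, 0, ⟨0, 0⟩, 0⟩ 0 0) (.pos 60 .mp ⟨180901895, 0, 0, 0, 0, 0, 0, 0, 0, ⟨0, 0⟩, 0⟩ 0 0)) (.pos 60 .mp ⟨191717904, 0, 0, 0, 0, 639283327, 0, 0, 0, ⟨0, 0⟩, 0⟩ 0 0)) (.pos 60 .mp ⟨195165790, 0, 0, 0, 0, 655017814, 0, 0, 0, ⟨0, 0⟩,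 0⟩ 0 0))) (.pos 61 .mp ⟨567803449, 0, 0, 0, 0, 0, 0, 0, 0, ⟨0, 0⟩, 0⟩ 0 0)) (.pos 29 .mp ⟨193173693, 0, 0, 0, 0, 0, 0, 0, 0, ⟨0, 0⟩, 0⟩ 0 0)))) (.cut .s 13631488 (.pos 30 .mp ⟨553529778, 0, 0, 0, 0, 0, 0, 0, 0, ⟨0, 0⟩, 0⟩ 0 0) (.pos 30 .mp ⟨590866640, 0, 0, 0, 0, 0, 0, 0, 0, ⟨0, 0⟩, 0⟩ 0 0))))) (.pos 28 .mp ⟨593030569, 0, 0, 0, 0, 0, 0, 0, 0, ⟨0, 0⟩, 0⟩ 0 0)) (.pos 26 .mp ⟨630469350, 0, 0, 0, 0, 0, 0, 0, 0, ⟨0, 0⟩, 0⟩ 0 0)) (.void 24 ⟨100000, 0, 0, 0, 0, 0, 0, 0, 0, ⟨0, 0⟩, 0⟩ 0 0)))))) (.void 22 ⟨100000, 0, 0, 0, 0, 0, 0, 0, 0, ⟨0, 0⟩, 0⟩ 0 0)))) (.void 20 ⟨100000, 0, 0, 0, 0, 0, 0, 0, 0, ⟨0, 0⟩, 0⟩ 0 0))) (.void 59 ⟨100000, 0, 0, 0, 0, 0, 0, 0, 0, ⟨0, 0⟩,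 0⟩ 0 0)) (.void 72 ⟨100000, 0, 0, 0, 0, 0, 0, 0, 0, ⟨0, 0⟩, 0⟩ 0 0)) (.void 91 ⟨94465, 0, 0, 5535, 0, 0, 0, 0, 0, ⟨0, 0⟩, 0⟩ 0 0))) (.cut .v 16777216 (.cut .v 8388608 (.cut .v 4194304 (.cut .v 2097152 (.cut .d 2242500 (.void 83 ⟨0, 0, 100000, 0, 0, 0, 0, 0, 0, ⟨0, 0⟩, 0⟩ 0 0) (.cut .v 1048576 (.cut .v 524288 (.pos 122 .pm ⟨0, 0, 5928286, 0, 0, 0, 0, 0, 0, ⟨0, 0⟩, 0⟩ 0 0) (.pos 123 .pm ⟨0, 24285718, 0, 0, 0, 0, 0, 0, 0, ⟨0, 0⟩, 0⟩ 0 0)) (.cut .d 3363750 (.pos 97 .pm ⟨0, 0, 0, 0, 0, 0, 0, 0, 0, ⟨0, 0⟩, 0⟩ 0 0) (.pos 97 .pm ⟨0, 80697522, 0, 0, 0, 0, 0, 0, 0, ⟨0, 0⟩, 0⟩ 0 0)))) (.cut .d 2242500 (.pos 84 .pm ⟨0, 0, 86195563, 0, 0, 0, 0, 0, 0, ⟨0, 0⟩, 0⟩ 0 0) (.cut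 .d 3363750 (.pos 84 .pm ⟨0, 0, 0, 0, 0, 0, 0, 0, 0, ⟨0, 0⟩, 0⟩ 0 0) (.cut .d 3924375 (.pos 84 .pm ⟨0, 96334498, 0, 0, 0, 0, 0, 0, 0, ⟨0, 0⟩, 0⟩ 0 0) (.cut .s 13500416 (.cut .d 4204688 (.pos 84 .pm ⟨0, 119131870, 0, 0, 0, 0, 0, 0, 0, ⟨0, 0⟩, 0⟩ 0 0) (.pos 84 .pm ⟨0, 158376065, 0, 0, 0, 0, 0, 0, 0, ⟨0, 0⟩, 0⟩ 0 0)) (.pos 84 .pm ⟨0, 203883497, 0, 0, 0, 0, 0, 0, 0, ⟨0, 0⟩, 0⟩ 0 0)))))) (.cut .d 2242500 (.pos 5 .pm ⟨0, 0, 16215970, 0, 0, 0, 0, 0, 0, ⟨0, 0⟩, 0⟩ 0 0) (.cut .d 3363750 (.pos 5 .pm ⟨0, 0, 0, 0, 0, 0, 0, 0, 0, ⟨0, 0⟩, 0⟩ 0 0) (.cut .d 3924375 (.pos 5 .pm ⟨0, 127135228, 0, 0, 0, 0, 0, 0, 0, ⟨0, 0⟩, 0⟩ 0 0) (.cut .s 13500416 (.cut .d 4204688 (.pos 5 .pm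 ⟨0, 152907029, 0, 0, 0, 0, 0, 0, 0, ⟨0, 0⟩, 0⟩ 0 0) (.pos 5 .pm ⟨0, 205128597, 0, 0, 0, 0, 0, 0, 0, ⟨0, 0⟩, 0⟩ 0 0)) (.void 5 ⟨0, 100000, 0, 0, 0, 0, 0, 0, 0, ⟨0, 0⟩, 0⟩ 0 0)))))) (.cut .d 2242500 (.pos 3 .pm ⟨0, 0, 0, 0, 0, 0, 0, 0, 0, ⟨0, 0⟩, 0⟩ 0 0) (.cut .d 3363750 (.pos 3 .pm ⟨0, 0, 0, 0, 0, 0, 0, 0, 0, ⟨0, 0⟩, 0⟩ 0 0) (.pos 3 .pm ⟨0, 281260095, 0, 0, 0, 0, 0, 0, 0, ⟨0, 0⟩, 0⟩ 0 0)))) (.cut .v 268435456 (.cut .d 2242500 (.cut .v 67108864 (.cut .d 1121250 (.cut .v 33554432 (.cut .d 560625 (.cut .v 25165824 (.cut .v 20971520 (.pos 21 .pp ⟨293576158, 0, 0, 0, 0, 0, 0, 0, 0, ⟨0, 0⟩, 0⟩ 0 0) (.pos 22 .pp ⟨606597566, 0, 0, 0, 0, 0, 0, 0, 0, ⟨0, 0⟩, 0⟩ 0 0)) (.pos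 20 .pp ⟨986719552, 0, 0, 0, 0, 0, 0, 0, 0, ⟨0, 0⟩, 0⟩ 0 0)) (.pos 18 .pp ⟨0, 0, 0, 0, 0, 0, 0, 0, 0, ⟨0, 0⟩, 0⟩ 0 0)) (.cut .d 560625 (.cut .v 50331648 (.pos 62 .pp ⟨2296180959, 0, 0, 0, 0, 0, 0, 0, 0, ⟨0, 0⟩, 0⟩ 0 0) (.void 63 ⟨100000, 0, 0, 0, 0, 0, 0, 0, 0, ⟨0, 0⟩, 0⟩ 0 0)) (.cut .v 50331648 (.pos 62 .pp ⟨1098493022, 0, 0, 0, 0, 0, 0, 0, 0, ⟨0, 0⟩, 0⟩ 0 0) (.pos 63 .pp ⟨2728539700, 0, 0, 0, 0, 0, 0, 0, 0, ⟨0, 0⟩, 0⟩ 0 0)))) (.pos 58 .pp ⟨0, 0, 0, 0, 0, 0, 0, 0, 0, ⟨0, 0⟩, 0⟩ 0 0)) (.cut .v 134217728 (.cut .v 100663296 (.cut .d 1121250 (.cut .v 83886080 (.cut .d 560625 (.void 94 ⟨100000, 0, 0, 0, 0, 0, 0, 0, 0, ⟨0, 0⟩, 0⟩ 0 0) (.cut .d 840937 (.pos 94 .pp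 ⟨6028084589, 0, 0, 0, 0, 0, 0, 0, 0, ⟨0, 0⟩, 0⟩ 0 0) (.pos 94 .pp ⟨4362787998, 0, 0, 0, 0, 0, 0, 0, 0, ⟨0, 0⟩, 0⟩ 0 0))) (.void 95 ⟨37100, 62900, 0, 0, 0, 0, 0, 0, 0, ⟨0, 0⟩, 0⟩ 0 0)) (.pos 75 .pp ⟨0, 1561408856, 0, 0, 0, 0, 0, 0, 0, ⟨0, 0⟩, 0⟩ 0 0)) (.void 76 ⟨36360, 63640, 0, 0, 0, 0, 0, 0, 0, ⟨0, 0⟩, 0⟩ 0 0)) (.void 74 ⟨71327, 0, 0, 28673, 0, 0, 0, 0, 0, ⟨0, 0⟩, 0⟩ 0 0))) (.pos 71 .pp ⟨0, 267671988, 0, 0, 0, 0, 0, 0, 0, ⟨0, 0⟩, 0⟩ 0 0)) (.void 91 ⟨0, 0, 0, 100000, 0, 0, 0, 0, 0, ⟨0, 0⟩, 0⟩ 0 0)))),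
    by decide +kernel⟩

def covers21 : cell.Covers table row21.1 :=
  ⟨(.cut .d 0 (.cut .v 16777216 (.cut .v 8388608 (.pos 2 .mm ⟨0, 0, 3063329624, 0, 0, 0, 0, 0, 0, ⟨0, 0⟩, 0⟩ 0 0) (.cut .d (-8388608) (.void 3 ⟨100000, 0, 0, 0, 0, 0, 0, 0, 0, ⟨0, 0⟩, 0⟩ 0 0) (.cut .d (-4194304) (.void 3 ⟨100000, 0, 0, 0, 0, 0, 0, 0, 0, ⟨0, 0⟩, 0⟩ 0 0) (.cut .d (-2097152) (.void 3 ⟨100000, 0, 0, 0, 0, 0, 0, 0, 0, ⟨0, 0⟩, 0⟩ 0 0) (.cut .d (-1048576) (.void 3 ⟨0, 0, 0, 0, 0, 100000, 0, 0, 0, ⟨0, 0⟩, 0⟩ 0 0) (.cut .d (-524288) (.void 3 ⟨0, 0, 0, 0, 0, 100000, 0, 0, 0, ⟨0, 0⟩, 0⟩ 0 0) (.cut .d (-262144) (.void 3 ⟨0, 0, 0, 0, 0, 100000, 0, 0, 0, ⟨0, 0⟩, 0⟩ 0 0) (.cut .v 12582912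 (.pos 6 .mm ⟨0, 0, 0, 0, 0, 851033952, 0, 0, 0, ⟨0, 0⟩, 0⟩ 0 0) (.cut .d (-131072) (.void 7 ⟨0, 0, 0, 0, 0, 100000, 0, 0, 0, ⟨0, 0⟩, 0⟩ 0 0) (.cut .d (-65536) (.void 7 ⟨0, 0, 0, 0, 0, 100000, 0, 0, 0, ⟨0, 0⟩, 0⟩ 0 0) (.cut .v 14680064 (.pos 10 .mm ⟨0, 0, 0, 0, 0, 1020308437, 0, 0, 0, ⟨0, 0⟩, 0⟩ 0 0) (.cut .v 15728640 (.pos 12 .mm ⟨0, 0, 0, 0, 0, 1096125008, 0, 0, 0, ⟨0, 0⟩, 0⟩ 0 0) (.cut .v 16252928 (.pos 14 .mm ⟨0, 0, 0, 0, 0, 1135144074, 0, 0, 0, ⟨0, 0⟩, 0⟩ 0 0) (.cut .s 13959168 (.cut .s 13860864 (.pos 15 .mm ⟨0, 0, 0, 0, 0, 1066598339, 0, 0, 0, ⟨0, 0⟩, 0⟩ 0 0) (.cut .s 13910016 (.pos 15 .mm ⟨0, 0, 0, 0, 0, 1100994826, 0, 0, 0, ⟨0, 0⟩, 0⟩ 0 0) (.pos 15 .mm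 ⟨0, 0, 0, 0, 0, 1133508139, 0, 0, 0, ⟨0, 0⟩, 0⟩ 0 0))) (.cut .d (-32768) (.pos 15 .mm ⟨0, 0, 0, 0, 0, 1270888869, 0, 0, 0, ⟨0, 0⟩, 0⟩ 0 0) (.cut .s 14057472 (.pos 15 .mm ⟨0, 0, 0, 0, 0, 1178590755, 0, 0, 0, ⟨0, 0⟩, 0⟩ 0 0) (.pos 15 .mm ⟨0, 0, 0, 0, 0, 1248057475, 0, 0, 0, ⟨0, 0⟩, 0⟩ 0 0))))))))))))))))) (.cut .v 268435456 (.cut .v 67108864 (.cut .v 33554432 (.cut .d (-8388608) (.void 18 ⟨100000, 0, 0, 0, 0, 0, 0, 0, 0, ⟨0, 0⟩, 0⟩ 0 0) (.cut .d (-4194304) (.void 18 ⟨100000, 0, 0, 0, 0, 0, 0, 0, 0, ⟨0, 0⟩, 0⟩ 0 0) (.cut .v 25165824 (.cut .d (-2097152) (.void 19 ⟨100000, 0, 0, 0, 0, 0, 0, 0, 0, ⟨0, 0⟩, 0⟩ 0 0) (.cut .v 20971520 (.cut .d (-1048576) (.void 21 ⟨100000,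 0, 0, 0, 0, 0, 0, 0, 0, ⟨0, 0⟩, 0⟩ 0 0) (.cut .d (-524288) (.void 21 ⟨100000, 0, 0, 0, 0, 0, 0, 0, 0, ⟨0, 0⟩, 0⟩ 0 0) (.cut .d (-262144) (.void 21 ⟨100000, 0, 0, 0, 0, 0, 0, 0, 0, ⟨0, 0⟩, 0⟩ 0 0) (.cut .d (-131072) (.void 21 ⟨100000, 0, 0, 0, 0, 0, 0, 0, 0, ⟨0, 0⟩, 0⟩ 0 0) (.cut .d (-65536) (.void 21 ⟨0, 0, 0, 0, 0, 100000, 0, 0, 0, ⟨0, 0⟩, 0⟩ 0 0) (.cut .v 18874368 (.cut .v 17825792 (.cut .v 17301504 (.cut .s 13959168 (.cut .v 17039360 (.cut .d (-32768) (.cut .l 980822 (.pos 29 .mp ⟨199830676, 0, 0, 0, 0, 894364514, 0, 0, 0, ⟨0, 0⟩, 0⟩ 0 0) (.cut .s 13860864 (.cut .s 13811712 (.pos 29 .mp ⟨167814393, 0, 0, 0, 0, 794773870, 0, 0, 0, ⟨0, 0⟩, 0⟩ 0 0) (.cut .s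 13836288 (.pos 29 .mp ⟨170580922, 0, 0, 0, 0, 805262577, 0, 0, 0, ⟨0, 0⟩, 0⟩ 0 0) (.pos 29 .mp ⟨171900381, 0, 0, 0, 0, 816598637, 0, 0, 0, ⟨0, 0⟩, 0⟩ 0 0))) (.cut .v 16908288 (.pos 60 .mp ⟨0, 0, 0, 0, 0, 1151143526, 0, 0, 0, ⟨0, 0⟩, 0⟩ 0 0) (.cut .d (-49152) (.cut .s 13910016 (.pos 61 .mp ⟨199281572, 0, 0, 0, 0, 808584094, 0, 0, 0, ⟨0, 0⟩, 0⟩ 0 0) (.cut .d (-57344) (.void 61 ⟨0, 0, 0, 0, 0, 100000, 0, 0, 0, ⟨0, 0⟩, 0⟩ 0 0) (.cut .s 13934592 (.pos 61 .mp ⟨212722125, 0, 0, 0, 0, 786812990, 0, 0, 0, ⟨0, 0⟩, 0⟩ 0 0) (.cut .d (-53248) (.pos 61 .mp ⟨209775171, 0, 0, 0, 0, 822338349, 0, 0, 0, ⟨0, 0⟩, 0⟩ 0 0) (.pos 61 .mp ⟨203917976, 0, 0, 0, 0, 818784459, 0, 0, 0,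 ⟨0, 0⟩, 0⟩ 0 0))))) (.cut .v 16973824 (.cut .s 13910016 (.cut .s 13885440 (.pos 77 .mp ⟨225270989, 0, 0, 0, 0, 721475340, 0, 0, 0, ⟨0, 0⟩, 0⟩ 0 0) (.pos 77 .mp ⟨227282223, 0, 0, 0, 0, 731737211, 0, 0, 0, ⟨0, 0⟩, 0⟩ 0 0)) (.cut .s 13934592 (.cut .s 13922304 (.pos 77 .mp ⟨177486576, 0, 0, 0, 0, 836921132, 0, 0, 0, ⟨0, 0⟩, 0⟩ 0 0) (.pos 77 .mp ⟨178071490, 0, 0, 0, 0, 843491202, 0, 0, 0, ⟨0, 0⟩, 0⟩ 0 0)) (.cut .s 13946880 (.pos 77 .mp ⟨178644609, 0, 0, 0, 0, 850242028, 0, 0, 0, ⟨0, 0⟩, 0⟩ 0 0) (.pos 77 .mp ⟨179205798, 0, 0, 0, 0, 857174984, 0, 0, 0, ⟨0, 0⟩, 0⟩ 0 0)))) (.pos 78 .mp ⟨632792668, 0, 0, 0, 0, 0, 0, 0, 0, ⟨0, 0⟩, 0⟩ 0 0)))))) (.cut .l 980822 (.cut .v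 16908288 (.cut .d (-16384) (.cut .s 13860864 (.cut .s 13811712 (.pos 60 .mp ⟨190022143, 0, 0, 0, 0, 737075699, 0, 0, 0, ⟨0, 0⟩, 0⟩ 0 0) (.pos 60 .mp ⟨175789667, 0, 0, 0, 0, 790228077, 0, 0, 0, ⟨0, 0⟩, 0⟩ 0 0)) (.cut .s 13910016 (.cut .s 13885440 (.pos 60 .mp ⟨182572429, 0, 0, 0, 0, 794322734, 0, 0, 0, ⟨0, 0⟩, 0⟩ 0 0) (.pos 60 .mp ⟨179113694, 0, 0, 0, 0, 815619262, 0, 0, 0, ⟨0, 0⟩, 0⟩ 0 0)) (.cut .s 13934592 (.pos 60 .mp ⟨176610839, 0, 0, 0, 0, 835632960, 0, 0, 0, ⟨0, 0⟩, 0⟩ 0 0) (.cut .s 13946880 (.pos 60 .mp ⟨184410760, 0, 0, 0, 0, 830724045, 0, 0, 0, ⟨0, 0⟩, 0⟩ 0 0) (.pos 60 .mp ⟨184186610, 0, 0, 0, 0, 839195362, 0, 0, 0, ⟨0, 0⟩, 0⟩ 0 0))))) (.cut .d (-8192)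 (.cut .l 632372 (.cut .s 13860864 (.cut .s 13811712 (.pos 60 .mp ⟨192435599, 0, 0, 0, 0, 722139286, 0, 0, 0, ⟨0, 0⟩, 0⟩ 0 0) (.pos 60 .mp ⟨200358648, 0, 0, 0, 0, 729024440, 0, 0, 0, ⟨0, 0⟩, 0⟩ 0 0)) (.cut .l 458147 (.cut .d (-12288) (.pos 60 .mp ⟨188342008, 0, 0, 0, 0, 824738747, 0, 0, 0, ⟨0, 0⟩, 0⟩ 0 0) (.cut .s 13910016 (.pos 60 .mp ⟨197171880, 0, 0, 0, 0, 759872658, 0, 0, 0, ⟨0, 0⟩, 0⟩ 0 0) (.cut .s 13934592 (.pos 60 .mp ⟨197667339, 0, 0, 0, 0, 781162661, 0, 0, 0, ⟨0, 0⟩, 0⟩ 0 0) (.pos 60 .mp ⟨198752417, 0, 0, 0, 0, 793941645, 0, 0, 0, ⟨0, 0⟩, 0⟩ 0 0)))) (.pos 60 .mp ⟨198288403, 0, 0, 0, 0, 754602131, 0, 0, 0, ⟨0, 0⟩, 0⟩ 0 0))) (.pos 60 .mp ⟨0, 0, 0, 0, 0,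 0, 0, 0, 0, ⟨0, 0⟩, 0⟩ 0 0)) (.pos 60 .mp ⟨193367765, 0, 0, 0, 0, 0, 0, 0, 0, ⟨0, 0⟩, 0⟩ 0 0))) (.pos 61 .mp ⟨622565401, 0, 0, 0, 0, 16705486, 0, 0, 0, ⟨0, 0⟩, 0⟩ 0 0)) (.pos 29 .mp ⟨205278486, 0, 0, 0, 0, 689902007, 0, 0, 0, ⟨0, 0⟩, 0⟩ 0 0))) (.pos 30 .mp ⟨652759935, 0, 0, 0, 0, 0, 0, 0, 0, ⟨0, 0⟩, 0⟩ 0 0)) (.cut .v 17039360 (.cut .d (-32768) (.cut .l 980822 (.void 29 ⟨0, 0, 0, 0, 0, 100000, 0, 0, 0, ⟨0, 0⟩, 0⟩ 0 0) (.cut .s 14057472 (.cut .d (-49152) (.cut .d (-57344) (.void 29 ⟨0, 0, 0, 0, 0, 100000, 0, 0, 0, ⟨0, 0⟩, 0⟩ 0 0) (.cut .l 1329272 (.void 29 ⟨0, 0, 0, 0, 0, 100000, 0, 0, 0, ⟨0, 0⟩, 0⟩ 0 0) (.cut .s 14008320 (.cut .v 16908288 (.pos 60 .mp ⟨0, 0,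 0, 0, 0, 1208361436, 0, 0, 0, ⟨0, 0⟩, 0⟩ 0 0) (.cut .s 13983744 (.cut .d (-53248) (.pos 61 .mp ⟨211580678, 0, 0, 0, 0, 830407589, 0, 0, 0, ⟨0, 0⟩, 0⟩ 0 0) (.cut .s 13971456 (.pos 61 .mp ⟨209019892, 0, 0, 0, 0, 817219677, 0, 0, 0, ⟨0, 0⟩, 0⟩ 0 0) (.pos 61 .mp ⟨210195262, 0, 0, 0, 0, 822968272, 0, 0, 0, ⟨0, 0⟩, 0⟩ 0 0))) (.pos 61 .mp ⟨207223921, 0, 0, 0, 0, 847313524, 0, 0, 0, ⟨0, 0⟩, 0⟩ 0 0))) (.pos 29 .mp ⟨204707816, 0, 0, 0, 0, 877884733, 0, 0, 0, ⟨0, 0⟩, 0⟩ 0 0)))) (.cut .v 16908288 (.pos 60 .mp ⟨0, 0, 0, 0, 0, 1205790857, 0, 0, 0, ⟨0, 0⟩, 0⟩ 0 0) (.cut .s 14008320 (.cut .s 13983744 (.cut .s 13971456 (.pos 61 .mp ⟨223248256, 0, 0, 0, 0, 783064142, 0, 0, 0,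 ⟨0, 0⟩, 0⟩ 0 0) (.pos 61 .mp ⟨223763172, 0, 0, 0, 0, 790413468, 0, 0, 0, ⟨0, 0⟩, 0⟩ 0 0)) (.cut .l 1329272 (.pos 61 .mp ⟨237320815, 0, 0, 0, 0, 780430790, 0, 0, 0, ⟨0, 0⟩, 0⟩ 0 0) (.pos 61 .mp ⟨219293304, 0, 0, 0, 0, 806121369, 0, 0, 0, ⟨0, 0⟩, 0⟩ 0 0))) (.cut .s 14032896 (.pos 61 .mp ⟨237350617, 0, 0, 0, 0, 792815042, 0, 0, 0, ⟨0, 0⟩, 0⟩ 0 0) (.pos 61 .mp ⟨240631090, 0, 0, 0, 0, 804343144, 0, 0, 0, ⟨0, 0⟩, 0⟩ 0 0))))) (.cut .s 14106624 (.cut .s 14082048 (.cut .s 14069760 (.pos 29 .mp ⟨181684351, 0, 0, 0, 0, 941444137, 0, 0, 0, ⟨0, 0⟩, 0⟩ 0 0) (.pos 29 .mp ⟨182108422, 0, 0, 0, 0, 950192275, 0, 0, 0, ⟨0, 0⟩, 0⟩ 0 0)) (.pos 29 .mp ⟨182518910, 0, 0, 0, 0, 963975760,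 0, 0, 0, ⟨0, 0⟩, 0⟩ 0 0)) (.pos 29 .mp ⟨183298467, 0, 0, 0, 0, 991827193, 0, 0, 0, ⟨0, 0⟩, 0⟩ 0 0)))) (.cut .l 980822 (.cut .s 14057472 (.cut .v 16908288 (.cut .d (-16384) (.cut .s 14008320 (.cut .l 632372 (.pos 60 .mp ⟨191394433, 0, 0, 0, 0, 857834384, 0, 0, 0, ⟨0, 0⟩, 0⟩ 0 0) (.cut .s 13983744 (.pos 60 .mp ⟨177678084, 0, 0, 0, 0, 861056733, 0, 0, 0, ⟨0, 0⟩, 0⟩ 0 0) (.pos 60 .mp ⟨178479620, 0, 0, 0, 0, 876008965, 0, 0, 0, ⟨0, 0⟩, 0⟩ 0 0))) (.cut .s 14032896 (.pos 60 .mp ⟨179235295, 0, 0, 0, 0, 896761878, 0, 0, 0, ⟨0, 0⟩, 0⟩ 0 0) (.pos 60 .mp ⟨179944021, 0, 0, 0, 0, 913564874, 0, 0, 0, ⟨0, 0⟩, 0⟩ 0 0))) (.cut .d (-8192) (.cut .l 632372 (.cut .l 458147 (.cut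 .v 16842752 (.cut .s 14008320 (.cut .s 13983744 (.pos 68 .mp ⟨185258052, 0, 0, 0, 0, 839621106, 0, 0, 0, ⟨0, 0⟩, 0⟩ 0 0) (.pos 68 .mp ⟨186759865, 0, 0, 0, 0, 852998801, 0, 0, 0, ⟨0, 0⟩, 0⟩ 0 0)) (.pos 68 .mp ⟨186051427, 0, 0, 0, 0, 879549547, 0, 0, 0, ⟨0, 0⟩, 0⟩ 0 0)) (.pos 69 .mp ⟨516210994, 0, 0, 0, 0, 281964602, 0, 0, 0, ⟨0, 0⟩, 0⟩ 0 0)) (.pos 60 .mp ⟨202344484, 0, 0, 0, 0, 798729604, 0, 0, 0, ⟨0, 0⟩, 0⟩ 0 0)) (.pos 60 .mp ⟨0, 0, 0, 0, 0, 0, 0, 0, 0, ⟨0, 0⟩, 0⟩ 0 0)) (.pos 60 .mp ⟨196660454, 0, 0, 0, 0, 0, 0, 0, 0, ⟨0, 0⟩, 0⟩ 0 0))) (.pos 61 .mp ⟨522152882, 0, 0, 0, 0, 273794154, 0, 0, 0, ⟨0, 0⟩, 0⟩ 0 0)) (.cut .v 16908288 (.cut .d (-16384) (.cut .s 14106624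 (.cut .l 632372 (.pos 60 .mp ⟨195072708, 0, 0, 0, 0, 921800445, 0, 0, 0, ⟨0, 0⟩, 0⟩ 0 0) (.pos 60 .mp ⟨180604671, 0, 0, 0, 0, 930772156, 0, 0, 0, ⟨0, 0⟩, 0⟩ 0 0)) (.pos 60 .mp ⟨181777028, 0, 0, 0, 0, 979260229, 0, 0, 0, ⟨0, 0⟩, 0⟩ 0 0)) (.cut .s 14106624 (.cut .d (-8192) (.pos 60 .mp ⟨211692583, 0, 0, 0, 0, 859848461, 0, 0, 0, ⟨0, 0⟩, 0⟩ 0 0) (.pos 60 .mp ⟨198092193, 0, 0, 0, 0, 0, 0, 0, 0, ⟨0, 0⟩, 0⟩ 0 0)) (.pos 60 .mp ⟨213625395, 0, 0, 0, 0, 882102362, 0, 0, 0, ⟨0, 0⟩, 0⟩ 0 0))) (.pos 61 .mp ⟨722817837, 0, 0, 0, 0, 0, 0, 0, 0, ⟨0, 0⟩, 0⟩ 0 0))) (.pos 29 .mp ⟨211082825, 0, 0, 0, 0, 779815524, 0, 0, 0, ⟨0, 0⟩, 0⟩ 0 0))) (.pos 30 .mp ⟨711421204, 0, 0, 0, 0, 0,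 0, 0, 0, ⟨0, 0⟩, 0⟩ 0 0))) (.pos 28 .mp ⟨704447815, 0, 0, 0, 0, 0, 0, 0, 0, ⟨0, 0⟩, 0⟩ 0 0)) (.pos 26 .mp ⟨744436944, 0, 0, 0, 0, 0, 0, 0, 0, ⟨0, 0⟩, 0⟩ 0 0)) (.void 24 ⟨100000, 0, 0, 0, 0, 0, 0, 0, 0, ⟨0, 0⟩, 0⟩ 0 0))))))) (.void 22 ⟨100000, 0, 0, 0, 0, 0, 0, 0, 0, ⟨0, 0⟩, 0⟩ 0 0))) (.void 20 ⟨100000, 0, 0, 0, 0, 0, 0, 0, 0, ⟨0, 0⟩, 0⟩ 0 0)))) (.void 59 ⟨100000, 0, 0, 0, 0, 0, 0, 0, 0, ⟨0, 0⟩, 0⟩ 0 0)) (.void 72 ⟨100000, 0, 0, 0, 0, 0, 0, 0, 0, ⟨0, 0⟩, 0⟩ 0 0)) (.void 91 ⟨94316, 0, 0, 5684, 0, 0, 0, 0, 0, ⟨0, 0⟩, 0⟩ 0 0))) (.cut .v 16777216 (.cut .v 8388608 (.cut .v 4194304 (.cut .v 2097152 (.cut .d 1837506 (.void 83 ⟨0, 0, 100000, 0, 0, 0, 0, 0, 0, ⟨0, 0⟩,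 0⟩ 0 0) (.cut .v 1048576 (.cut .v 524288 (.pos 122 .pm ⟨0, 0, 4304241, 0, 0, 0, 0, 0, 0, ⟨0, 0⟩, 0⟩ 0 0) (.pos 123 .pm ⟨0, 26006184, 0, 0, 0, 0, 0, 0, 0, ⟨0, 0⟩, 0⟩ 0 0)) (.pos 97 .pm ⟨0, 54153850, 0, 0, 0, 0, 0, 0, 0, ⟨0, 0⟩, 0⟩ 0 0))) (.cut .d 1837506 (.pos 84 .pm ⟨0, 0, 133222448, 0, 0, 0, 0, 0, 0, ⟨0, 0⟩, 0⟩ 0 0) (.cut .d 2756259 (.pos 84 .pm ⟨0, 0, 0, 0, 0, 0, 0, 0, 0, ⟨0, 0⟩, 0⟩ 0 0) (.cut .d 3215635 (.pos 84 .pm ⟨0, 81154513, 0, 0, 0, 0, 0, 0, 0, ⟨0, 0⟩, 0⟩ 0 0) (.pos 84 .pm ⟨0, 152567992, 0, 0, 0, 0, 0, 0, 0, ⟨0, 0⟩, 0⟩ 0 0))))) (.cut .d 1837506 (.pos 5 .pm ⟨0, 0, 223274393, 0, 0, 0, 0, 0, 0, ⟨0, 0⟩, 0⟩ 0 0) (.cut .d 2756259 (.pos 5 .pm ⟨0, 0, 0, 0,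 0, 0, 0, 0, 0, ⟨0, 0⟩, 0⟩ 0 0) (.pos 5 .pm ⟨0, 177864488, 0, 0, 0, 0, 0, 0, 0, ⟨0, 0⟩, 0⟩ 0 0)))) (.cut .d 1837506 (.pos 3 .pm ⟨0, 0, 0, 0, 0, 0, 0, 0, 0, ⟨0, 0⟩, 0⟩ 0 0) (.pos 3 .pm ⟨0, 204628252, 0, 0, 0, 0, 0, 0, 0, ⟨0, 0⟩, 0⟩ 0 0))) (.cut .v 268435456 (.cut .d 1837506 (.cut .v 67108864 (.cut .d 918753 (.cut .v 33554432 (.cut .d 459376 (.cut .v 25165824 (.pos 19 .pp ⟨519628131, 0, 0, 0, 0, 0, 0, 0, 0, ⟨0, 0⟩, 0⟩ 0 0) (.pos 20 .pp ⟨1205983084, 0, 0, 0, 0, 0, 0, 0, 0, ⟨0, 0⟩, 0⟩ 0 0)) (.pos 18 .pp ⟨0, 0, 0, 0, 0, 0, 0, 0, 0, ⟨0, 0⟩, 0⟩ 0 0)) (.cut .d 459376 (.cut .v 50331648 (.pos 62 .pp ⟨2751255337, 0, 0, 0, 0, 0, 0, 0, 0, ⟨0, 0⟩, 0⟩ 0 0) (.void 63 ⟨100000,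 0, 0, 0, 0, 0, 0, 0, 0, ⟨0, 0⟩, 0⟩ 0 0)) (.cut .v 50331648 (.pos 62 .pp ⟨1399755907, 0, 0, 0, 0, 0, 0, 0, 0, ⟨0, 0⟩, 0⟩ 0 0) (.pos 63 .pp ⟨3390014917, 0, 0, 0, 0, 0, 0, 0, 0, ⟨0, 0⟩, 0⟩ 0 0)))) (.pos 58 .pp ⟨0, 0, 0, 0, 0, 0, 0, 0, 0, ⟨0, 0⟩, 0⟩ 0 0)) (.cut .v 134217728 (.cut .v 100663296 (.cut .d 918753 (.cut .d 459376 (.void 75 ⟨100000, 0, 0, 0, 0, 0, 0, 0, 0, ⟨0, 0⟩, 0⟩ 0 0) (.cut .v 83886080 (.cut .d 689064 (.pos 94 .pp ⟨7996351596, 0, 0, 0, 0, 0, 0, 0, 0, ⟨0, 0⟩, 0⟩ 0 0) (.pos 94 .pp ⟨5511883284, 0, 0, 0, 0, 0, 0, 0, 0, ⟨0, 0⟩, 0⟩ 0 0)) (.pos 95 .pp ⟨9352208571, 4284126741, 0, 0, 0, 0, 0, 0, 0, ⟨0, 0⟩, 0⟩ 0 0))) (.pos 75 .pp ⟨0, 2257574545, 0, 0, 0, 0,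 0, 0, 0, ⟨0, 0⟩, 0⟩ 0 0)) (.void 76 ⟨35972, 64028, 0, 0, 0, 0, 0, 0, 0, ⟨0, 0⟩, 0⟩ 0 0)) (.void 74 ⟨0, 0, 0, 100000, 0, 0, 0, 0, 0, ⟨0, 0⟩, 0⟩ 0 0))) (.pos 71 .pp ⟨0, 240138901, 0, 0, 0, 0, 0, 0, 0, ⟨0, 0⟩, 0⟩ 0 0)) (.void 91 ⟨0, 0, 0, 100000, 0, 0, 0, 0, 0, ⟨0, 0⟩, 0⟩ 0 0)))),
    by decide +kernel⟩

def covers22 : cell.Covers table row22.1 :=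
  ⟨(.cut .d 0 (.cut .v 16777216 (.cut .v 8388608 (.void 2 ⟨0, 0, 100000, 0, 0, 0, 0, 0, 0, ⟨0, 0⟩, 0⟩ 0 0) (.cut .d (-8388608) (.void 3 ⟨100000, 0, 0, 0, 0, 0, 0, 0, 0, ⟨0, 0⟩, 0⟩ 0 0) (.cut .d (-4194304) (.void 3 ⟨100000, 0, 0, 0, 0, 0, 0, 0, 0, ⟨0, 0⟩, 0⟩ 0 0) (.cut .d (-2097152) (.void 3 ⟨100000, 0, 0, 0, 0, 0, 0, 0, 0, ⟨0, 0⟩, 0⟩ 0 0) (.cut .d (-1048576) (.void 3 ⟨0, 0, 0, 0, 0, 100000, 0, 0, 0, ⟨0, 0⟩, 0⟩ 0 0) (.cut .d (-524288) (.void 3 ⟨0, 0, 0, 0, 0, 100000, 0, 0, 0, ⟨0, 0⟩, 0⟩ 0 0) (.cut .d (-262144) (.void 3 ⟨0, 0, 0, 0, 0, 100000, 0, 0, 0, ⟨0, 0⟩, 0⟩ 0 0) (.cut .d (-131072) (.void 3 ⟨0, 0, 0, 0, 0, 100000, 0, 0, 0, ⟨0, 0⟩, 0⟩ 0 0) (.cut .d (-65536)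 (.void 3 ⟨0, 0, 0, 0, 0, 100000, 0, 0, 0, ⟨0, 0⟩, 0⟩ 0 0) (.cut .v 12582912 (.pos 6 .mm ⟨0, 0, 0, 0, 0, 792972217, 0, 0, 0, ⟨0, 0⟩, 0⟩ 0 0) (.cut .v 14680064 (.pos 10 .mm ⟨0, 0, 0, 0, 0, 1259855629, 0, 0, 0, ⟨0, 0⟩, 0⟩ 0 0) (.cut .v 15728640 (.pos 12 .mm ⟨0, 0, 0, 0, 0, 1371957218, 0, 0, 0, ⟨0, 0⟩, 0⟩ 0 0) (.cut .d (-32768) (.cut .s 14319616 (.pos 13 .mm ⟨0, 0, 0, 0, 0, 1436261008, 0, 0, 0, ⟨0, 0⟩, 0⟩ 0 0) (.pos 13 .mm ⟨0, 0, 0, 0, 0, 1569958642, 0, 0, 0, ⟨0, 0⟩, 0⟩ 0 0)) (.cut .l 980822 (.cut .v 16252928 (.pos 14 .mm ⟨0, 0, 0, 0, 0, 1398699745, 0, 0, 0, ⟨0, 0⟩, 0⟩ 0 0) (.cut .v 16515072 (.pos 16 .mm ⟨0, 0, 0, 0, 0, 1418976860, 0, 0, 0, ⟨0, 0⟩, 0⟩ 0 0) (.cut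 .s 14319616 (.cut .s 14237696 (.pos 17 .mm ⟨0, 0, 0, 0, 0, 1324288998, 0, 0, 0, ⟨0, 0⟩, 0⟩ 0 0) (.pos 17 .mm ⟨0, 0, 0, 0, 0, 1390339561, 0, 0, 0, ⟨0, 0⟩, 0⟩ 0 0)) (.cut .s 14401536 (.pos 17 .mm ⟨0, 0, 0, 0, 0, 1460855830, 0, 0, 0, ⟨0, 0⟩, 0⟩ 0 0) (.pos 17 .mm ⟨0, 0, 0, 0, 0, 1535763120, 0, 0, 0, ⟨0, 0⟩, 0⟩ 0 0))))) (.pos 13 .mm ⟨0, 0, 0, 0, 0, 1343091485, 0, 0, 0, ⟨0, 0⟩, 0⟩ 0 0))))))))))))))) (.cut .v 268435456 (.cut .v 67108864 (.cut .v 33554432 (.cut .d (-8388608) (.void 18 ⟨100000, 0, 0, 0, 0, 0, 0, 0, 0, ⟨0, 0⟩, 0⟩ 0 0) (.cut .d (-4194304) (.void 18 ⟨100000, 0, 0, 0, 0, 0, 0, 0, 0, ⟨0, 0⟩, 0⟩ 0 0) (.cut .v 25165824 (.cut .d (-2097152) (.void 19 ⟨100000,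 0, 0, 0, 0, 0, 0, 0, 0, ⟨0, 0⟩, 0⟩ 0 0) (.cut .v 20971520 (.cut .d (-1048576) (.void 21 ⟨100000, 0, 0, 0, 0, 0, 0, 0, 0, ⟨0, 0⟩, 0⟩ 0 0) (.cut .d (-524288) (.void 21 ⟨100000, 0, 0, 0, 0, 0, 0, 0, 0, ⟨0, 0⟩, 0⟩ 0 0) (.cut .d (-262144) (.void 21 ⟨100000, 0, 0, 0, 0, 0, 0, 0, 0, ⟨0, 0⟩, 0⟩ 0 0) (.cut .d (-131072) (.void 21 ⟨100000, 0, 0, 0, 0, 0, 0, 0, 0, ⟨0, 0⟩, 0⟩ 0 0) (.cut .d (-65536) (.void 21 ⟨0, 0, 0, 0, 0, 100000, 0, 0, 0, ⟨0, 0⟩, 0⟩ 0 0) (.cut .v 18874368 (.cut .v 17825792 (.cut .v 17301504 (.cut .d (-32768) (.cut .v 17039360 (.cut .d (-49152) (.pos 29 .mp ⟨213266663, 0, 0, 0, 0, 1515884591, 0, 0, 0, ⟨0, 0⟩, 0⟩ 0 0) (.cut .l 980822 (.void 29 ⟨0, 0, 0,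 0, 0, 100000, 0, 0, 0, ⟨0, 0⟩, 0⟩ 0 0) (.cut .s 14319616 (.cut .s 14237696 (.pos 29 .mp ⟨184672608, 0, 0, 0, 0, 1060472144, 0, 0, 0, ⟨0, 0⟩, 0⟩ 0 0) (.cut .l 1329272 (.pos 29 .mp ⟨205652828, 0, 0, 0, 0, 1093576379, 0, 0, 0, ⟨0, 0⟩, 0⟩ 0 0) (.cut .v 16908288 (.pos 60 .mp ⟨0, 0, 0, 0, 0, 1423983413, 0, 0, 0, ⟨0, 0⟩, 0⟩ 0 0) (.cut .d (-40960) (.cut .s 14278656 (.pos 61 .mp ⟨226991287, 0, 0, 0, 0, 1014499240, 0, 0, 0, ⟨0, 0⟩, 0⟩ 0 0) (.cut .d (-45056) (.pos 61 .mp ⟨220195170, 0, 0, 0, 0, 1078590022, 0, 0, 0, ⟨0, 0⟩, 0⟩ 0 0) (.cut .v 16973824 (.pos 77 .mp ⟨208517756, 0, 0, 0, 0, 1073211588, 0, 0, 0, ⟨0, 0⟩, 0⟩ 0 0) (.pos 78 .mp ⟨256164276, 0, 0, 0, 0, 984782678,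 0, 0, 0, ⟨0, 0⟩, 0⟩ 0 0)))) (.cut .s 14278656 (.pos 61 .mp ⟨227030312, 0, 0, 0, 0, 992080240, 0, 0, 0, ⟨0, 0⟩, 0⟩ 0 0) (.pos 61 .mp ⟨229495406, 0, 0, 0, 0, 1014690572, 0, 0, 0, ⟨0, 0⟩, 0⟩ 0 0)))))) (.cut .s 14401536 (.cut .v 16908288 (.pos 60 .mp ⟨0, 0, 0, 0, 0, 1500598094, 0, 0, 0, ⟨0, 0⟩, 0⟩ 0 0) (.cut .s 14360576 (.cut .l 1329272 (.pos 61 .mp ⟨212560490, 0, 0, 0, 0, 1115008352, 0, 0, 0, ⟨0, 0⟩, 0⟩ 0 0) (.cut .d (-40960) (.cut .d (-45056) (.pos 61 .mp ⟨221377352, 0, 0, 0, 0, 1097980838, 0, 0, 0, ⟨0, 0⟩, 0⟩ 0 0) (.cut .s 14340096 (.pos 61 .mp ⟨212919045, 0, 0, 0, 0, 1090328674, 0, 0, 0, ⟨0, 0⟩, 0⟩ 0 0) (.pos 61 .mp ⟨214456633, 0, 0, 0, 0, 1103947362, 0, 0,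 0, ⟨0, 0⟩, 0⟩ 0 0))) (.pos 61 .mp ⟨231797275, 0, 0, 0, 0, 1040078173, 0, 0, 0, ⟨0, 0⟩, 0⟩ 0 0))) (.cut .s 14381056 (.cut .d (-40960) (.pos 61 .mp ⟨214849918, 0, 0, 0, 0, 1126767037, 0, 0, 0, ⟨0, 0⟩, 0⟩ 0 0) (.pos 61 .mp ⟨243286422, 0, 0, 0, 0, 1054683017, 0, 0, 0, ⟨0, 0⟩, 0⟩ 0 0)) (.pos 61 .mp ⟨197778024, 0, 0, 0, 0, 1175230040, 0, 0, 0, ⟨0, 0⟩, 0⟩ 0 0)))) (.cut .s 14442496 (.cut .s 14422016 (.pos 29 .mp ⟨193592990, 0, 0, 0, 0, 1202864533, 0, 0, 0, ⟨0, 0⟩, 0⟩ 0 0) (.pos 29 .mp ⟨193942299, 0, 0, 0, 0, 1222906870, 0, 0, 0, ⟨0, 0⟩, 0⟩ 0 0)) (.pos 29 .mp ⟨194224220, 0, 0, 0, 0, 1253520672, 0, 0, 0, ⟨0, 0⟩, 0⟩ 0 0)))))) (.pos 30 .mp ⟨875867388, 0, 0, 0, 0, 0, 0,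 0, 0, ⟨0, 0⟩, 0⟩ 0 0)) (.cut .v 17039360 (.cut .s 14319616 (.cut .s 14237696 (.cut .v 16908288 (.cut .l 980822 (.cut .d (-16384) (.pos 60 .mp ⟨182729151, 0, 0, 0, 0, 1044714025, 0, 0, 0, ⟨0, 0⟩, 0⟩ 0 0) (.cut .s 14196736 (.pos 60 .mp ⟨215290554, 0, 0, 0, 0, 922959413, 0, 0, 0, ⟨0, 0⟩, 0⟩ 0 0) (.cut .d (-8192) (.pos 60 .mp ⟨216840085, 0, 0, 0, 0, 961883207, 0, 0, 0, ⟨0, 0⟩, 0⟩ 0 0) (.pos 60 .mp ⟨201408117, 0, 0, 0, 0, 962506694, 0, 0, 0, ⟨0, 0⟩, 0⟩ 0 0)))) (.pos 60 .mp ⟨154461412, 0, 0, 0, 0, 1047630359, 0, 0, 0, ⟨0, 0⟩, 0⟩ 0 0)) (.pos 61 .mp ⟨512776936, 0, 0, 0, 0, 420160353, 0, 0, 0, ⟨0, 0⟩, 0⟩ 0 0)) (.cut .l 980822 (.cut .d (-16384) (.cut .v 16908288 (.cut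 .s 14278656 (.pos 60 .mp ⟨185034837, 0, 0, 0, 0, 1072517257, 0, 0, 0, ⟨0, 0⟩, 0⟩ 0 0) (.cut .s 14299136 (.pos 60 .mp ⟨185879078, 0, 0, 0, 0, 1090232425, 0, 0, 0, ⟨0, 0⟩, 0⟩ 0 0) (.pos 60 .mp ⟨186220010, 0, 0, 0, 0, 1106090904, 0, 0, 0, ⟨0, 0⟩, 0⟩ 0 0))) (.pos 61 .mp ⟨817320779, 0, 0, 0, 0, 0, 0, 0, 0, ⟨0, 0⟩, 0⟩ 0 0)) (.cut .l 632372 (.cut .v 16908288 (.cut .d (-8192) (.cut .s 14278656 (.cut .s 14258176 (.pos 60 .mp ⟨211681698, 0, 0, 0, 0, 994907991, 0, 0, 0, ⟨0, 0⟩, 0⟩ 0 0) (.pos 60 .mp ⟨217630164, 0, 0, 0, 0, 996799080, 0, 0, 0, ⟨0, 0⟩, 0⟩ 0 0)) (.cut .s 14299136 (.pos 60 .mp ⟨218911905, 0, 0, 0, 0, 1009655909, 0, 0, 0, ⟨0, 0⟩, 0⟩ 0 0) (.cut .v 16842752 (.pos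 68 .mp ⟨188428445, 0, 0, 0, 0, 1087137077, 0, 0, 0, ⟨0, 0⟩, 0⟩ 0 0) (.pos 69 .mp ⟨332823322, 0, 0, 0, 0, 823930875, 0, 0, 0, ⟨0, 0⟩, 0⟩ 0 0)))) (.pos 60 .mp ⟨202795546, 0, 0, 0, 0, 994910690, 0, 0, 0, ⟨0, 0⟩, 0⟩ 0 0)) (.pos 61 .mp ⟨795607920, 0, 0, 0, 0, 0, 0, 0, 0, ⟨0, 0⟩, 0⟩ 0 0)) (.pos 29 .mp ⟨207458937, 0, 0, 0, 0, 0, 0, 0, 0, ⟨0, 0⟩, 0⟩ 0 0))) (.cut .d (-16384) (.cut .s 14278656 (.pos 29 .mp ⟨222489177, 0, 0, 0, 0, 976134340, 0, 0, 0, ⟨0, 0⟩, 0⟩ 0 0) (.cut .v 16908288 (.pos 60 .mp ⟨155577362, 0, 0, 0, 0, 1140027423, 0, 0, 0, ⟨0, 0⟩, 0⟩ 0 0) (.pos 61 .mp ⟨229192989, 0, 0, 0, 0, 1006007951, 0, 0, 0, ⟨0, 0⟩, 0⟩ 0 0))) (.pos 29 .mp ⟨0, 0, 0, 0, 0, 0, 0, 0,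 0, ⟨0, 0⟩, 0⟩ 0 0)))) (.cut .l 980822 (.cut .d (-16384) (.cut .l 632372 (.pos 29 .mp ⟨207458937, 0, 0, 0, 0, 1224495459, 0, 0, 0, ⟨0, 0⟩, 0⟩ 0 0) (.cut .v 16908288 (.cut .s 14401536 (.cut .s 14360576 (.cut .s 14340096 (.pos 60 .mp ⟨186505174, 0, 0, 0, 0, 1119718853, 0, 0, 0, ⟨0, 0⟩, 0⟩ 0 0) (.pos 60 .mp ⟨186733286, 0, 0, 0, 0, 1136930895, 0, 0, 0, ⟨0, 0⟩, 0⟩ 0 0)) (.pos 60 .mp ⟨186903020, 0, 0, 0, 0, 1164849454, 0, 0, 0, ⟨0, 0⟩, 0⟩ 0 0)) (.cut .s 14442496 (.pos 60 .mp ⟨187061811, 0, 0, 0, 0, 1202213004, 0, 0, 0, ⟨0, 0⟩, 0⟩ 0 0) (.pos 60 .mp ⟨186969977, 0, 0, 0, 0, 1242268607, 0, 0, 0, ⟨0, 0⟩, 0⟩ 0 0))) (.pos 61 .mp ⟨850862476, 0, 0, 0, 0, 0, 0, 0, 0, ⟨0, 0⟩,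 0⟩ 0 0))) (.cut .l 632372 (.cut .v 16908288 (.cut .d (-8192) (.cut .s 14401536 (.cut .s 14360576 (.cut .d (-12288) (.pos 60 .mp ⟨194615406, 0, 0, 0, 0, 1116513833, 0, 0, 0, ⟨0, 0⟩, 0⟩ 0 0) (.cut .s 14340096 (.pos 60 .mp ⟨211567093, 0, 0, 0, 0, 1054906868, 0, 0, 0, ⟨0, 0⟩, 0⟩ 0 0) (.pos 60 .mp ⟨211935223, 0, 0, 0, 0, 1071556351, 0, 0, 0, ⟨0, 0⟩, 0⟩ 0 0))) (.cut .s 14381056 (.pos 60 .mp ⟨186344338, 0, 0, 0, 0, 1151116295, 0, 0, 0, ⟨0, 0⟩, 0⟩ 0 0) (.pos 60 .mp ⟨187077824, 0, 0, 0, 0, 1168456679, 0, 0, 0, ⟨0, 0⟩, 0⟩ 0 0))) (.cut .s 14442496 (.pos 60 .mp ⟨186173389, 0, 0, 0, 0, 1198382846, 0, 0, 0, ⟨0, 0⟩, 0⟩ 0 0) (.pos 60 .mp ⟨185758671, 0, 0, 0, 0, 1240449315,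 0, 0, 0, ⟨0, 0⟩, 0⟩ 0 0))) (.cut .s 14401536 (.pos 60 .mp ⟨203459385, 0, 0, 0, 0, 1052484341, 0, 0, 0, ⟨0, 0⟩, 0⟩ 0 0) (.pos 60 .mp ⟨203459385, 0, 0, 0, 0, 1119453549, 0, 0, 0, ⟨0, 0⟩, 0⟩ 0 0))) (.pos 61 .mp ⟨829308785, 0, 0, 0, 0, 0, 0, 0, 0, ⟨0, 0⟩, 0⟩ 0 0)) (.pos 29 .mp ⟨209373621, 0, 0, 0, 0, 681242687, 0, 0, 0, ⟨0, 0⟩, 0⟩ 0 0))) (.cut .s 14401536 (.cut .d (-16384) (.cut .d (-24576) (.cut .v 16908288 (.pos 60 .mp ⟨17394873, 0, 0, 0, 0, 1440776724, 0, 0, 0, ⟨0, 0⟩, 0⟩ 0 0) (.cut .s 14360576 (.pos 61 .mp ⟨231151982, 0, 0, 0, 0, 1036483329, 0, 0, 0, ⟨0, 0⟩, 0⟩ 0 0) (.pos 61 .mp ⟨232946475, 0, 0, 0, 0, 1067520345, 0, 0, 0, ⟨0, 0⟩, 0⟩ 0 0))) (.pos 29 .mp ⟨209838274,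 0, 0, 0, 0, 0, 0, 0, 0, ⟨0, 0⟩, 0⟩ 0 0)) (.pos 29 .mp ⟨0, 0, 0, 0, 0, 0, 0, 0, 0, ⟨0, 0⟩, 0⟩ 0 0)) (.pos 29 .mp ⟨231031870, 0, 0, 0, 0, 1086660730, 0, 0, 0, ⟨0, 0⟩, 0⟩ 0 0)))) (.pos 30 .mp ⟨795319141, 0, 0, 0, 0, 0, 0, 0, 0, ⟨0, 0⟩, 0⟩ 0 0))) (.pos 28 .mp ⟨859313110, 0, 0, 0, 0, 0, 0, 0, 0, ⟨0, 0⟩, 0⟩ 0 0)) (.pos 26 .mp ⟨907505982, 0, 0, 0, 0, 0, 0, 0, 0, ⟨0, 0⟩, 0⟩ 0 0)) (.void 24 ⟨100000, 0, 0, 0, 0, 0, 0, 0, 0, ⟨0, 0⟩, 0⟩ 0 0))))))) (.void 22 ⟨100000, 0, 0, 0, 0, 0, 0, 0, 0, ⟨0, 0⟩, 0⟩ 0 0))) (.void 20 ⟨100000, 0, 0, 0, 0, 0, 0, 0, 0, ⟨0, 0⟩, 0⟩ 0 0)))) (.void 59 ⟨100000, 0, 0, 0, 0, 0, 0, 0, 0, ⟨0, 0⟩, 0⟩ 0 0)) (.void 72 ⟨100000, 0, 0, 0, 0, 0, 0, 0, 0,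 ⟨0, 0⟩, 0⟩ 0 0)) (.void 91 ⟨94192, 0, 0, 5808, 0, 0, 0, 0, 0, ⟨0, 0⟩, 0⟩ 0 0))) (.cut .v 16777216 (.cut .v 8388608 (.cut .v 4194304 (.cut .v 2097152 (.cut .d 1553447 (.void 83 ⟨0, 0, 100000, 0, 0, 0, 0, 0, 0, ⟨0, 0⟩, 0⟩ 0 0) (.cut .v 1048576 (.cut .v 524288 (.pos 122 .pm ⟨0, 0, 3413257, 0, 0, 0, 0, 0, 0, ⟨0, 0⟩, 0⟩ 0 0) (.pos 123 .pm ⟨0, 25532501, 0, 0, 0, 0, 0, 0, 0, ⟨0, 0⟩, 0⟩ 0 0)) (.pos 97 .pm ⟨0, 48885437, 0, 0, 0, 0, 0, 0, 0, ⟨0, 0⟩, 0⟩ 0 0))) (.cut .d 1553447 (.pos 84 .pm ⟨0, 0, 202950724, 0, 0, 0, 0, 0, 0, ⟨0, 0⟩, 0⟩ 0 0) (.pos 84 .pm ⟨0, 71792146, 0, 0, 0, 0, 0, 0, 0, ⟨0, 0⟩, 0⟩ 0 0))) (.cut .d 1553447 (.pos 5 .pm ⟨0, 0, 305345825, 0, 0, 0, 0, 0, 0,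 ⟨0, 0⟩, 0⟩ 0 0) (.pos 5 .pm ⟨0, 116497986, 0, 0, 0, 0, 0, 0, 0, ⟨0, 0⟩, 0⟩ 0 0))) (.pos 3 .pm ⟨0, 0, 1668947, 0, 0, 0, 0, 0, 0, ⟨0, 0⟩, 0⟩ 0 0)) (.cut .v 268435456 (.cut .d 1553447 (.cut .v 67108864 (.cut .d 776723 (.cut .v 33554432 (.cut .v 25165824 (.pos 19 .pp ⟨564881222, 0, 0, 0, 0, 0, 0, 0, 0, ⟨0, 0⟩, 0⟩ 0 0) (.pos 20 .pp ⟨1219105234, 0, 0, 0, 0, 0, 0, 0, 0, ⟨0, 0⟩, 0⟩ 0 0)) (.cut .d 388361 (.cut .v 50331648 (.pos 62 .pp ⟨3197314096, 0, 0, 0, 0, 0, 0, 0, 0, ⟨0, 0⟩, 0⟩ 0 0) (.void 63 ⟨100000, 0, 0, 0, 0, 0, 0, 0, 0, ⟨0, 0⟩, 0⟩ 0 0)) (.cut .v 50331648 (.pos 62 .pp ⟨1684874326, 0, 0, 0, 0, 0, 0, 0, 0, ⟨0, 0⟩, 0⟩ 0 0) (.pos 63 .pp ⟨4024629554, 0, 0, 0, 0, 0,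 0, 0, 0, ⟨0, 0⟩, 0⟩ 0 0)))) (.pos 58 .pp ⟨0, 0, 0, 0, 0, 0, 0, 0, 0, ⟨0, 0⟩, 0⟩ 0 0)) (.cut .v 134217728 (.cut .v 100663296 (.cut .d 776723 (.cut .d 388361 (.void 75 ⟨100000, 0, 0, 0, 0, 0, 0, 0, 0, ⟨0, 0⟩, 0⟩ 0 0) (.cut .v 83886080 (.cut .d 582542 (.pos 94 .pp ⟨10072397829, 0, 0, 0, 0, 0, 0, 0, 0, ⟨0, 0⟩, 0⟩ 0 0) (.cut .d 679632 (.pos 94 .pp ⟨7447697974, 0, 0, 0, 0, 0, 0, 0, 0, ⟨0, 0⟩, 0⟩ 0 0) (.pos 94 .pp ⟨6240777406, 0, 0, 0, 0, 0, 0, 0, 0, ⟨0, 0⟩, 0⟩ 0 0))) (.cut .d 582542 (.void 95 ⟨100000, 0, 0, 0, 0, 0, 0, 0, 0, ⟨0, 0⟩, 0⟩ 0 0) (.pos 95 .pp ⟨9290589895, 3123453033, 0, 0, 0, 0, 0, 0, 0, ⟨0, 0⟩, 0⟩ 0 0)))) (.pos 75 .pp ⟨0, 3001493144, 0, 0, 0, 0, 0, 0,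 0, ⟨0, 0⟩, 0⟩ 0 0)) (.void 76 ⟨35632, 64368, 0, 0, 0, 0, 0, 0, 0, ⟨0, 0⟩, 0⟩ 0 0)) (.void 74 ⟨0, 0, 0, 100000, 0, 0, 0, 0, 0, ⟨0, 0⟩, 0⟩ 0 0))) (.pos 71 .pp ⟨0, 190640357, 0, 0, 0, 0, 0, 0, 0, ⟨0, 0⟩, 0⟩ 0 0)) (.void 91 ⟨0, 0, 0, 100000, 0, 0, 0, 0, 0, ⟨0, 0⟩, 0⟩ 0 0)))),
    by decide +kernel⟩

def covers23 : cell.Covers table row23.1 :=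
  ⟨(.cut .d 0 (.cut .v 16777216 (.cut .v 8388608 (.void 2 ⟨0, 0, 100000, 0, 0, 0, 0, 0, 0, ⟨0, 0⟩, 0⟩ 0 0) (.cut .d (-8388608) (.void 3 ⟨100000, 0, 0, 0, 0, 0, 0, 0, 0, ⟨0, 0⟩, 0⟩ 0 0) (.cut .d (-4194304) (.void 3 ⟨100000, 0, 0, 0, 0, 0, 0, 0, 0, ⟨0, 0⟩, 0⟩ 0 0) (.cut .d (-2097152) (.void 3 ⟨100000, 0, 0, 0, 0, 0, 0, 0, 0, ⟨0, 0⟩, 0⟩ 0 0) (.cut .d (-1048576) (.void 3 ⟨80897, 0, 19103, 0, 0, 0, 0, 0, 0, ⟨0, 0⟩, 0⟩ 0 0) (.cut .d (-524288) (.void 3 ⟨0, 0, 0, 0, 0, 100000, 0, 0, 0, ⟨0, 0⟩, 0⟩ 0 0) (.cut .d (-262144) (.void 3 ⟨0, 0, 0, 0, 0, 100000, 0, 0, 0, ⟨0, 0⟩, 0⟩ 0 0) (.cut .d (-131072) (.void 3 ⟨0, 0, 0, 0, 0, 100000, 0, 0, 0, ⟨0, 0⟩, 0⟩ 0 0) (.cut .d (-65536)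 (.void 3 ⟨0, 0, 0, 0, 0, 100000, 0, 0, 0, ⟨0, 0⟩, 0⟩ 0 0) (.cut .v 12582912 (.cut .d (-32768) (.pos 6 .mm ⟨0, 0, 2917902, 0, 0, 942484208, 0, 0, 0, ⟨0, 0⟩, 0⟩ 0 0) (.pos 6 .mm ⟨0, 0, 8352098, 0, 0, 803616652, 0, 0, 0, ⟨0, 0⟩, 0⟩ 0 0)) (.pos 7 .mm ⟨0, 0, 0, 0, 0, 1569734372, 0, 0, 0, ⟨0, 0⟩, 0⟩ 0 0))))))))))) (.cut .v 268435456 (.cut .v 67108864 (.cut .v 33554432 (.cut .d (-8388608) (.void 18 ⟨100000, 0, 0, 0, 0, 0, 0, 0, 0, ⟨0, 0⟩, 0⟩ 0 0) (.cut .d (-4194304) (.void 18 ⟨100000, 0, 0, 0, 0, 0, 0, 0, 0, ⟨0, 0⟩, 0⟩ 0 0) (.cut .v 25165824 (.cut .d (-2097152) (.void 19 ⟨100000, 0, 0, 0, 0, 0, 0, 0, 0, ⟨0, 0⟩, 0⟩ 0 0) (.cut .v 20971520 (.cut .d (-1048576) (.void 21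 ⟨100000, 0, 0, 0, 0, 0, 0, 0, 0, ⟨0, 0⟩, 0⟩ 0 0) (.cut .d (-524288) (.void 21 ⟨100000, 0, 0, 0, 0, 0, 0, 0, 0, ⟨0, 0⟩, 0⟩ 0 0) (.cut .d (-262144) (.void 21 ⟨100000, 0, 0, 0, 0, 0, 0, 0, 0, ⟨0, 0⟩, 0⟩ 0 0) (.cut .d (-131072) (.void 21 ⟨100000, 0, 0, 0, 0, 0, 0, 0, 0, ⟨0, 0⟩, 0⟩ 0 0) (.cut .d (-65536) (.void 21 ⟨100000, 0, 0, 0, 0, 0, 0, 0, 0, ⟨0, 0⟩, 0⟩ 0 0) (.cut .v 18874368 (.cut .v 17825792 (.cut .v 17301504 (.cut .d (-32768) (.pos 27 .mp ⟨204255724, 0, 0, 0, 0, 1294977414, 0, 0, 0, ⟨0, 0⟩, 0⟩ 0 0) (.cut .d (-16384) (.pos 27 .mp ⟨270630143, 0, 0, 0, 0, 1108511900, 0, 0, 0, ⟨0, 0⟩, 0⟩ 0 0) (.pos 27 .mp ⟨237906092, 0, 0, 0, 0, 1139016807, 0, 0, 0, ⟨0, 0⟩, 0⟩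 0 0))) (.pos 28 .mp ⟨947512254, 0, 0, 0, 0, 0, 0, 0, 0, ⟨0, 0⟩, 0⟩ 0 0)) (.pos 26 .mp ⟨984582936, 0, 0, 0, 0, 0, 0, 0, 0, ⟨0, 0⟩, 0⟩ 0 0)) (.void 24 ⟨100000, 0, 0, 0, 0, 0, 0, 0, 0, ⟨0, 0⟩, 0⟩ 0 0))))))) (.void 22 ⟨100000, 0, 0, 0, 0, 0, 0, 0, 0, ⟨0, 0⟩, 0⟩ 0 0))) (.void 20 ⟨100000, 0, 0, 0, 0, 0, 0, 0, 0, ⟨0, 0⟩, 0⟩ 0 0)))) (.void 59 ⟨100000, 0, 0, 0, 0, 0, 0, 0, 0, ⟨0, 0⟩, 0⟩ 0 0)) (.void 72 ⟨100000, 0, 0, 0, 0, 0, 0, 0, 0, ⟨0, 0⟩, 0⟩ 0 0)) (.void 91 ⟨80481, 0, 0, 6045, 0, 0, 0, 0, 0, ⟨0, 0⟩, 0⟩ 0 0))) (.cut .v 16777216 (.cut .v 8388608 (.cut .v 4194304 (.cut .v 2097152 (.cut .v 1048576 (.cut .v 524288 (.pos 122 .pm ⟨0, 0, 15911517, 0, 0, 0, 0, 0, 0, ⟨0, 0⟩,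 0⟩ 0 0) (.pos 123 .pm ⟨0, 0, 13622984, 0, 0, 0, 0, 0, 0, ⟨0, 0⟩, 0⟩ 0 0)) (.pos 97 .pm ⟨0, 0, 13334105, 0, 0, 0, 0, 0, 0, ⟨0, 0⟩, 0⟩ 0 0)) (.cut .d 1328514 (.pos 84 .pm ⟨0, 0, 269744360, 0, 0, 0, 0, 0, 0, ⟨0, 0⟩, 0⟩ 0 0) (.pos 84 .pm ⟨0, 59826302, 0, 0, 0, 0, 0, 0, 0, ⟨0, 0⟩, 0⟩ 0 0))) (.cut .d 1328514 (.pos 5 .pm ⟨0, 0, 394605616, 0, 0, 0, 0, 0, 0, ⟨0, 0⟩, 0⟩ 0 0) (.pos 5 .pm ⟨0, 103119525, 0, 0, 0, 0, 0, 0, 0, ⟨0, 0⟩, 0⟩ 0 0))) (.pos 3 .pm ⟨0, 0, 2140851, 0, 0, 0, 0, 0, 0, ⟨0, 0⟩, 0⟩ 0 0)) (.cut .v 268435456 (.cut .d 1328514 (.cut .v 67108864 (.cut .d 664257 (.cut .v 33554432 (.cut .v 25165824 (.pos 19 .pp ⟨569737589, 0, 0, 0, 0, 0, 0, 0, 0, ⟨0, 0⟩, 0⟩ 0 0)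 (.pos 20 .pp ⟨1390651289, 0, 0, 0, 0, 0, 0, 0, 0, ⟨0, 0⟩, 0⟩ 0 0)) (.cut .d 332128 (.pos 59 .pp ⟨6085745822, 0, 0, 0, 0, 0, 0, 0, 0, ⟨0, 0⟩, 0⟩ 0 0) (.cut .v 50331648 (.pos 62 .pp ⟨1976737105, 0, 0, 0, 0, 0, 0, 0, 0, ⟨0, 0⟩, 0⟩ 0 0) (.pos 63 .pp ⟨4602752140, 0, 0, 0, 0, 0, 0, 0, 0, ⟨0, 0⟩, 0⟩ 0 0)))) (.pos 58 .pp ⟨0, 0, 0, 0, 0, 0, 0, 0, 0, ⟨0, 0⟩, 0⟩ 0 0)) (.cut .v 134217728 (.cut .v 100663296 (.cut .d 664257 (.cut .d 332128 (.void 75 ⟨100000, 0, 0, 0, 0, 0, 0, 0, 0, ⟨0, 0⟩, 0⟩ 0 0) (.cut .d 498192 (.pos 75 .pp ⟨18171315808, 0, 0, 0, 0, 0, 0, 0, 0, ⟨0, 0⟩, 0⟩ 0 0) (.cut .v 83886080 (.pos 94 .pp ⟨7795142255, 0, 0, 0, 0, 0, 0, 0, 0, ⟨0, 0⟩, 0⟩ 0 0) (.cut .d 581224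 (.pos 95 .pp ⟨11597076381, 3662590624, 0, 0, 0, 0, 0, 0, 0, ⟨0, 0⟩, 0⟩ 0 0) (.pos 95 .pp ⟨9536855328, 3071844927, 0, 0, 0, 0, 0, 0, 0, ⟨0, 0⟩, 0⟩ 0 0))))) (.pos 75 .pp ⟨0, 3849118496, 0, 0, 0, 0, 0, 0, 0, ⟨0, 0⟩, 0⟩ 0 0)) (.void 76 ⟨35267, 64733, 0, 0, 0, 0, 0, 0, 0, ⟨0, 0⟩, 0⟩ 0 0)) (.void 74 ⟨0, 0, 0, 100000, 0, 0, 0, 0, 0, ⟨0, 0⟩, 0⟩ 0 0))) (.pos 71 .pp ⟨0, 95728404, 0, 0, 0, 0, 0, 0, 0, ⟨0, 0⟩, 0⟩ 0 0)) (.void 91 ⟨0, 0, 0, 100000, 0, 0, 0, 0, 0, ⟨0, 0⟩, 0⟩ 0 0)))),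
    by decide +kernel⟩

def covers24 : cell.Covers table row24.1 :=
  ⟨(.cut .d 0 (.cut .v 16777216 (.cut .v 8388608 (.void 2 ⟨0, 0, 100000, 0, 0, 0, 0, 0, 0, ⟨0, 0⟩, 0⟩ 0 0) (.cut .d (-8388608) (.void 3 ⟨100000, 0, 0, 0, 0, 0, 0, 0, 0, ⟨0, 0⟩, 0⟩ 0 0) (.cut .d (-4194304) (.void 3 ⟨100000, 0, 0, 0, 0, 0, 0, 0, 0, ⟨0, 0⟩, 0⟩ 0 0) (.cut .v 12582912 (.cut .d (-2097152) (.void 6 ⟨100000, 0, 0, 0, 0, 0, 0, 0, 0, ⟨0, 0⟩, 0⟩ 0 0) (.cut .d (-1048576) (.void 6 ⟨100000, 0, 0, 0, 0, 0, 0, 0, 0, ⟨0, 0⟩, 0⟩ 0 0) (.cut .v 10485760 (.cut .d (-524288) (.void 8 ⟨0, 0, 0, 0, 0, 100000, 0, 0, 0, ⟨0, 0⟩, 0⟩ 0 0) (.cut .v 9437184 (.pos 130 .mm ⟨0, 0, 38216893, 0, 0, 1339578970,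 0, 0, 0, ⟨0, 0⟩, 0⟩ 0 0) (.pos 131 .mm ⟨0, 0, 0, 0, 0, 1529898615, 0, 0, 0, ⟨0, 0⟩, 0⟩ 0 0))) (.pos 9 .mm ⟨0, 0, 0, 0, 0, 2182562043, 0, 0, 0, ⟨0, 0⟩, 0⟩ 0 0)))) (.pos 7 .mm ⟨0, 0, 0, 0, 0, 5386867274, 0, 0, 0, ⟨0, 0⟩, 0⟩ 0 0))))) (.cut .v 268435456 (.cut .v 67108864 (.cut .v 33554432 (.cut .d (-8388608) (.void 18 ⟨100000, 0, 0, 0, 0, 0, 0, 0, 0, ⟨0, 0⟩, 0⟩ 0 0) (.cut .d (-4194304) (.void 18 ⟨100000, 0, 0, 0, 0, 0, 0, 0, 0, ⟨0, 0⟩, 0⟩ 0 0) (.cut .v 25165824 (.cut .d (-2097152) (.void 19 ⟨100000, 0, 0, 0, 0, 0, 0, 0, 0, ⟨0, 0⟩, 0⟩ 0 0) (.pos 19 .mp ⟨547826031, 0, 0, 0, 0, 5228116122, 0, 0, 0, ⟨0, 0⟩, 0⟩ 0 0)) (.void 20 ⟨100000, 0, 0, 0, 0, 0, 0, 0, 0, ⟨0, 0⟩,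 0⟩ 0 0)))) (.void 59 ⟨100000, 0, 0, 0, 0, 0, 0, 0, 0, ⟨0, 0⟩, 0⟩ 0 0)) (.void 72 ⟨100000, 0, 0, 0, 0, 0, 0, 0, 0, ⟨0, 0⟩, 0⟩ 0 0)) (.void 91 ⟨63277, 0, 0, 4601, 0, 0, 0, 0, 0, ⟨0, 0⟩, 0⟩ 0 0))) (.cut .v 16777216 (.cut .v 8388608 (.cut .v 4194304 (.cut .v 2097152 (.cut .v 1048576 (.cut .v 524288 (.cut .v 262144 (.pos 132 .pm ⟨0, 0, 18522800, 0, 0, 0, 0, 0, 0, ⟨0, 0⟩, 0⟩ 0 0) (.pos 133 .pm ⟨0, 0, 21233949, 0, 0, 0, 0, 0, 0, ⟨0, 0⟩, 0⟩ 0 0)) (.pos 123 .pm ⟨0, 0, 26154594, 0, 0, 0, 0, 0, 0, ⟨0, 0⟩, 0⟩ 0 0)) (.pos 97 .pm ⟨0, 0, 36816010, 0, 0, 0, 0, 0, 0, ⟨0, 0⟩, 0⟩ 0 0)) (.pos 84 .pm ⟨0, 0, 52070287, 0, 0, 0, 0, 0, 0, ⟨0, 0⟩, 0⟩ 0 0)) (.pos 5 .pm ⟨0, 0, 98010621,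 0, 0, 0, 0, 0, 0, ⟨0, 0⟩, 0⟩ 0 0)) (.pos 3 .pm ⟨0, 0, 17139697, 0, 0, 0, 0, 0, 0, ⟨0, 0⟩, 0⟩ 0 0)) (.cut .v 268435456 (.cut .d 1113533 (.cut .v 67108864 (.cut .d 556766 (.cut .v 33554432 (.cut .v 25165824 (.pos 19 .pp ⟨547826031, 0, 0, 0, 0, 0, 0, 0, 0, ⟨0, 0⟩, 0⟩ 0 0) (.pos 20 .pp ⟨1644097179, 0, 0, 0, 0, 0, 0, 0, 0, ⟨0, 0⟩, 0⟩ 0 0)) (.cut .v 50331648 (.cut .d 278383 (.pos 62 .pp ⟨4269731069, 0, 0, 0, 0, 0, 0, 0, 0, ⟨0, 0⟩, 0⟩ 0 0) (.pos 62 .pp ⟨2307196314, 0, 0, 0, 0, 0, 0, 0, 0, ⟨0, 0⟩, 0⟩ 0 0)) (.pos 63 .pp ⟨6714408060, 0, 0, 0, 0, 0, 0, 0, 0, ⟨0, 0⟩, 0⟩ 0 0))) (.pos 58 .pp ⟨0, 0, 0, 0, 0, 0, 0, 0, 0, ⟨0, 0⟩, 0⟩ 0 0)) (.cut .v 134217728 (.cut .v 100663296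 (.cut .d 556766 (.cut .d 278383 (.void 75 ⟨100000, 0, 0, 0, 0, 0, 0, 0, 0, ⟨0, 0⟩, 0⟩ 0 0) (.cut .v 83886080 (.pos 94 .pp ⟨9938414910, 0, 0, 0, 0, 0, 0, 0, 0, ⟨0, 0⟩, 0⟩ 0 0) (.cut .d 417574 (.void 95 ⟨100000, 0, 0, 0, 0, 0, 0, 0, 0, ⟨0, 0⟩, 0⟩ 0 0) (.pos 95 .pp ⟨12566040299, 5442259877, 0, 0, 0, 0, 0, 0, 0, ⟨0, 0⟩, 0⟩ 0 0)))) (.pos 75 .pp ⟨0, 4931705325, 0, 0, 0, 0, 0, 0, 0, ⟨0, 0⟩, 0⟩ 0 0)) (.void 76 ⟨88294, 0, 0, 11706, 0, 0, 0, 0, 0, ⟨0, 0⟩, 0⟩ 0 0)) (.void 74 ⟨0, 0, 0, 100000, 0, 0, 0, 0, 0, ⟨0, 0⟩, 0⟩ 0 0))) (.pos 71 .pp ⟨0, 0, 0, 0, 0, 0, 0, 0, 0, ⟨0, 0⟩, 0⟩ 0 0)) (.void 91 ⟨0, 0, 0, 100000, 0, 0, 0, 0, 0, ⟨0, 0⟩, 0⟩ 0 0)))),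
    by decide +kernel⟩

def covers25 : cell.Covers table row25.1 :=
  ⟨(.cut .d 0 (.cut .v 16777216 (.cut .v 8388608 (.void 2 ⟨0, 0, 100000, 0, 0, 0, 0, 0, 0, ⟨0, 0⟩, 0⟩ 0 0) (.cut .d (-8388608) (.void 3 ⟨100000, 0, 0, 0, 0, 0, 0, 0, 0, ⟨0, 0⟩, 0⟩ 0 0) (.cut .d (-4194304) (.void 3 ⟨100000, 0, 0, 0, 0, 0, 0, 0, 0, ⟨0, 0⟩, 0⟩ 0 0) (.cut .v 12582912 (.cut .d (-2097152) (.void 6 ⟨100000, 0, 0, 0, 0, 0, 0, 0, 0, ⟨0, 0⟩, 0⟩ 0 0) (.cut .d (-1048576) (.void 6 ⟨100000, 0, 0, 0, 0, 0, 0, 0, 0, ⟨0, 0⟩, 0⟩ 0 0) (.cut .v 10485760 (.cut .d (-524288) (.void 8 ⟨0, 0, 0, 0, 0, 100000, 0, 0, 0, ⟨0, 0⟩, 0⟩ 0 0) (.cut .v 9437184 (.pos 130 .mm ⟨0, 0, 60892002, 0, 0, 1577801503,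 0, 0, 0, ⟨0, 0⟩, 0⟩ 0 0) (.pos 131 .mm ⟨0, 0, 0, 0, 0, 1815716335, 0, 0, 0, ⟨0, 0⟩, 0⟩ 0 0))) (.pos 9 .mm ⟨0, 0, 0, 0, 0, 2598323823, 0, 0, 0, ⟨0, 0⟩, 0⟩ 0 0)))) (.pos 7 .mm ⟨0, 0, 0, 0, 0, 6510388735, 0, 0, 0, ⟨0, 0⟩, 0⟩ 0 0))))) (.cut .v 268435456 (.cut .v 67108864 (.cut .v 33554432 (.cut .d (-8388608) (.void 18 ⟨100000, 0, 0, 0, 0, 0, 0, 0, 0, ⟨0, 0⟩, 0⟩ 0 0) (.cut .d (-4194304) (.void 18 ⟨100000, 0, 0, 0, 0, 0, 0, 0, 0, ⟨0, 0⟩, 0⟩ 0 0) (.cut .v 25165824 (.pos 19 .mp ⟨490280777, 0, 0, 0, 0, 9415329403, 0, 0, 0, ⟨0, 0⟩, 0⟩ 0 0) (.void 20 ⟨100000, 0, 0, 0, 0, 0, 0, 0, 0, ⟨0, 0⟩, 0⟩ 0 0)))) (.void 59 ⟨100000, 0, 0, 0, 0, 0, 0, 0, 0, ⟨0, 0⟩, 0⟩ 0 0)) (.void 72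 ⟨100000, 0, 0, 0, 0, 0, 0, 0, 0, ⟨0, 0⟩, 0⟩ 0 0)) (.void 91 ⟨28, 0, 0, 6612, 0, 91807, 0, 0, 0, ⟨0, 0⟩, 0⟩ 0 0))) (.cut .v 16777216 (.cut .v 8388608 (.cut .v 4194304 (.cut .v 2097152 (.cut .v 1048576 (.cut .v 524288 (.cut .v 262144 (.pos 132 .pm ⟨0, 0, 20863620, 0, 0, 0, 0, 0, 0, ⟨0, 0⟩, 0⟩ 0 0) (.pos 133 .pm ⟨0, 0, 28967949, 0, 0, 0, 0, 0, 0, ⟨0, 0⟩, 0⟩ 0 0)) (.pos 123 .pm ⟨0, 0, 41569298, 0, 0, 0, 0, 0, 0, ⟨0, 0⟩, 0⟩ 0 0)) (.pos 97 .pm ⟨0, 0, 60709614, 0, 0, 0, 0, 0, 0, ⟨0, 0⟩, 0⟩ 0 0)) (.pos 84 .pm ⟨0, 0, 92866092, 0, 0, 0, 0, 0, 0, ⟨0, 0⟩, 0⟩ 0 0)) (.pos 5 .pm ⟨0, 0, 200191427, 0, 0, 0, 0, 0, 0, ⟨0, 0⟩, 0⟩ 0 0)) (.pos 3 .pm ⟨0, 0, 36247144, 0, 0, 0, 0, 0,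 0, ⟨0, 0⟩, 0⟩ 0 0)) (.cut .v 268435456 (.cut .d 948278 (.cut .v 67108864 (.cut .d 474139 (.cut .v 33554432 (.pos 18 .pp ⟨1120401462, 0, 0, 0, 0, 0, 0, 0, 0, ⟨0, 0⟩, 0⟩ 0 0) (.cut .v 50331648 (.pos 62 .pp ⟨3800935044, 0, 0, 0, 0, 0, 0, 0, 0, ⟨0, 0⟩, 0⟩ 0 0) (.pos 63 .pp ⟨7594651641, 0, 0, 0, 0, 0, 0, 0, 0, ⟨0, 0⟩, 0⟩ 0 0))) (.pos 58 .pp ⟨0, 0, 0, 0, 0, 0, 0, 0, 0, ⟨0, 0⟩, 0⟩ 0 0)) (.cut .v 134217728 (.cut .v 100663296 (.cut .d 474139 (.cut .v 83886080 (.pos 94 .pp ⟨12091240412, 0, 0, 0, 0, 0, 0, 0, 0, ⟨0, 0⟩, 0⟩ 0 0) (.cut .d 237069 (.void 95 ⟨100000, 0, 0, 0, 0, 0, 0, 0, 0, ⟨0, 0⟩, 0⟩ 0 0) (.cut .d 355604 (.void 95 ⟨100000, 0, 0, 0, 0, 0, 0, 0, 0, ⟨0, 0⟩, 0⟩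 0 0) (.pos 95 .pp ⟨14519067760, 6814045385, 0, 0, 0, 0, 0, 0, 0, ⟨0, 0⟩, 0⟩ 0 0)))) (.pos 75 .pp ⟨0, 6142303023, 0, 0, 0, 0, 0, 0, 0, ⟨0, 0⟩, 0⟩ 0 0)) (.void 76 ⟨88207, 0, 0, 11793, 0, 0, 0, 0, 0, ⟨0, 0⟩, 0⟩ 0 0)) (.void 74 ⟨0, 0, 0, 100000, 0, 0, 0, 0, 0, ⟨0, 0⟩, 0⟩ 0 0))) (.pos 71 .pp ⟨0, 1707897097, 0, 0, 0, 0, 0, 0, 0, ⟨0, 0⟩, 0⟩ 0 0)) (.void 91 ⟨0, 0, 0, 100000, 0, 0, 0, 0, 0, ⟨0, 0⟩, 0⟩ 0 0)))),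
    by decide +kernel⟩

def covers26 : cell.Covers table row26.1 :=
  ⟨(.cut .d 0 (.cut .v 16777216 (.cut .v 8388608 (.void 2 ⟨0, 0, 100000, 0, 0, 0, 0, 0, 0, ⟨0, 0⟩, 0⟩ 0 0) (.cut .d (-8388608) (.void 3 ⟨100000, 0, 0, 0, 0, 0, 0, 0, 0, ⟨0, 0⟩, 0⟩ 0 0) (.cut .d (-4194304) (.void 3 ⟨100000, 0, 0, 0, 0, 0, 0, 0, 0, ⟨0, 0⟩, 0⟩ 0 0) (.cut .d (-2097152) (.void 3 ⟨100000, 0, 0, 0, 0, 0, 0, 0, 0, ⟨0, 0⟩, 0⟩ 0 0) (.cut .v 12582912 (.cut .d (-1048576) (.void 6 ⟨100000, 0, 0, 0, 0, 0, 0, 0, 0, ⟨0, 0⟩, 0⟩ 0 0) (.cut .v 10485760 (.cut .d (-524288) (.void 8 ⟨75155, 0, 24845, 0, 0, 0, 0, 0, 0, ⟨0, 0⟩, 0⟩ 0 0) (.cut .v 9437184 (.cut .s 15400960 (.pos 130 .mm ⟨0, 0, 81777610,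 0, 0, 1776763261, 0, 0, 0, ⟨0, 0⟩, 0⟩ 0 0) (.cut .v 8912896 (.pos 134 .mm ⟨0, 0, 113646473, 0, 0, 1890017050, 0, 0, 0, ⟨0, 0⟩, 0⟩ 0 0) (.pos 135 .mm ⟨0, 0, 0, 0, 0, 2113727532, 0, 0, 0, ⟨0, 0⟩, 0⟩ 0 0))) (.pos 131 .mm ⟨0, 0, 0, 0, 0, 2347809945, 0, 0, 0, ⟨0, 0⟩, 0⟩ 0 0))) (.pos 9 .mm ⟨0, 0, 0, 0, 0, 3374244899, 0, 0, 0, ⟨0, 0⟩, 0⟩ 0 0))) (.pos 7 .mm ⟨0, 0, 0, 0, 0, 5984641904, 0, 0, 0, ⟨0, 0⟩, 0⟩ 0 0)))))) (.cut .v 268435456 (.cut .v 67108864 (.cut .v 33554432 (.cut .d (-8388608) (.void 18 ⟨100000, 0, 0, 0, 0, 0, 0, 0, 0, ⟨0, 0⟩, 0⟩ 0 0) (.cut .d (-4194304) (.void 18 ⟨100000, 0, 0, 0, 0, 0, 0, 0, 0, ⟨0, 0⟩, 0⟩ 0 0) (.pos 18 .mp ⟨1205781880, 0, 0, 0, 0, 16543968015,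 0, 0, 0, ⟨0, 0⟩, 0⟩ 0 0))) (.void 59 ⟨100000, 0, 0, 0, 0, 0, 0, 0, 0, ⟨0, 0⟩, 0⟩ 0 0)) (.void 72 ⟨100000, 0, 0, 0, 0, 0, 0, 0, 0, ⟨0, 0⟩, 0⟩ 0 0)) (.void 91 ⟨91556, 0, 0, 7023, 0, 0, 0, 0, 0, ⟨0, 0⟩, 0⟩ 0 0))) (.cut .v 16777216 (.cut .v 8388608 (.cut .v 4194304 (.cut .v 2097152 (.cut .v 1048576 (.cut .v 524288 (.cut .v 262144 (.pos 132 .pm ⟨0, 0, 24103276, 0, 0, 0, 0, 0, 0, ⟨0, 0⟩, 0⟩ 0 0) (.pos 133 .pm ⟨0, 0, 38980866, 0, 0, 0, 0, 0, 0, ⟨0, 0⟩, 0⟩ 0 0)) (.pos 123 .pm ⟨0, 0, 57103677, 0, 0, 0, 0, 0, 0, ⟨0, 0⟩, 0⟩ 0 0)) (.pos 97 .pm ⟨0, 0, 86106903, 0, 0, 0, 0, 0, 0, ⟨0, 0⟩, 0⟩ 0 0)) (.pos 84 .pm ⟨0, 0, 140938742, 0, 0, 0, 0, 0, 0, ⟨0, 0⟩, 0⟩ 0 0)) (.pos 5 .pm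 ⟨0, 0, 307642911, 0, 0, 0, 0, 0, 0, ⟨0, 0⟩, 0⟩ 0 0)) (.pos 3 .pm ⟨0, 0, 58487146, 0, 0, 0, 0, 0, 0, ⟨0, 0⟩, 0⟩ 0 0)) (.cut .v 268435456 (.cut .v 67108864 (.cut .d 828061 (.cut .v 33554432 (.pos 18 .pp ⟨1065057944, 0, 0, 0, 0, 0, 0, 0, 0, ⟨0, 0⟩, 0⟩ 0 0) (.cut .d 414030 (.cut .v 50331648 (.pos 62 .pp ⟨4297050290, 0, 0, 0, 0, 0, 0, 0, 0, ⟨0, 0⟩, 0⟩ 0 0) (.pos 63 .pp ⟨8743691327, 0, 0, 0, 0, 0, 0, 0, 0, ⟨0, 0⟩, 0⟩ 0 0)) (.pos 59 .pp ⟨0, 0, 0, 0, 0, 0, 0, 0, 0, ⟨0, 0⟩, 0⟩ 0 0))) (.pos 58 .pp ⟨0, 0, 0, 0, 0, 0, 0, 0, 0, ⟨0, 0⟩, 0⟩ 0 0)) (.cut .v 134217728 (.cut .v 100663296 (.cut .d 828061 (.cut .d 414030 (.cut .v 83886080 (.pos 94 .pp ⟨14007768807, 0, 0, 0, 0, 0,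 0, 0, 0, ⟨0, 0⟩, 0⟩ 0 0) (.cut .d 207015 (.void 95 ⟨100000, 0, 0, 0, 0, 0, 0, 0, 0, ⟨0, 0⟩, 0⟩ 0 0) (.cut .d 310522 (.pos 95 .pp ⟨167772160000, 0, 0, 0, 0, 0, 0, 0, 0, ⟨0, 0⟩, 0⟩ 0 0) (.pos 95 .pp ⟨16548432372, 8160601021, 0, 0, 0, 0, 0, 0, 0, ⟨0, 0⟩, 0⟩ 0 0)))) (.pos 75 .pp ⟨0, 7386151311, 0, 0, 0, 0, 0, 0, 0, ⟨0, 0⟩, 0⟩ 0 0)) (.void 75 ⟨0, 0, 0, 100000, 0, 0, 0, 0, 0, ⟨0, 0⟩, 0⟩ 0 0)) (.void 76 ⟨70190, 0, 0, 11323, 0, 0, 0, 0, 0, ⟨0, 0⟩, 0⟩ 0 0)) (.void 74 ⟨0, 0, 0, 100000, 0, 0, 0, 0, 0, ⟨0, 0⟩, 0⟩ 0 0))) (.void 91 ⟨0, 0, 0, 100000, 0, 0, 0, 0, 0, ⟨0, 0⟩, 0⟩ 0 0)))),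
    by decide +kernel⟩

def covers27 : cell.Covers table row27.1 :=
  ⟨(.cut .d 0 (.cut .v 16777216 (.cut .v 8388608 (.void 2 ⟨0, 0, 100000, 0, 0, 0, 0, 0, 0, ⟨0, 0⟩, 0⟩ 0 0) (.cut .d (-8388608) (.void 3 ⟨100000, 0, 0, 0, 0, 0, 0, 0, 0, ⟨0, 0⟩, 0⟩ 0 0) (.cut .d (-4194304) (.void 3 ⟨100000, 0, 0, 0, 0, 0, 0, 0, 0, ⟨0, 0⟩, 0⟩ 0 0) (.cut .d (-2097152) (.void 3 ⟨100000, 0, 0, 0, 0, 0, 0, 0, 0, ⟨0, 0⟩, 0⟩ 0 0) (.cut .v 12582912 (.cut .d (-1048576) (.void 6 ⟨100000, 0, 0, 0, 0, 0, 0, 0, 0, ⟨0, 0⟩, 0⟩ 0 0) (.cut .v 10485760 (.cut .d (-524288) (.void 8 ⟨100000, 0, 0, 0, 0, 0, 0, 0, 0, ⟨0, 0⟩, 0⟩ 0 0) (.cut .v 9437184 (.cut .v 8912896 (.cut .s 15654912 (.pos 134 .mm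 ⟨0, 0, 135303531, 0, 0, 2167092624, 0, 0, 0, ⟨0, 0⟩, 0⟩ 0 0) (.pos 134 .mm ⟨0, 0, 181853996, 0, 0, 2505564356, 0, 0, 0, ⟨0, 0⟩, 0⟩ 0 0)) (.pos 135 .mm ⟨0, 0, 0, 0, 0, 2831907178, 0, 0, 0, ⟨0, 0⟩, 0⟩ 0 0)) (.pos 131 .mm ⟨0, 0, 0, 0, 0, 3144356586, 0, 0, 0, ⟨0, 0⟩, 0⟩ 0 0))) (.pos 9 .mm ⟨0, 0, 0, 0, 0, 4528543344, 0, 0, 0, ⟨0, 0⟩, 0⟩ 0 0))) (.pos 7 .mm ⟨0, 0, 0, 0, 0, 8053432012, 0, 0, 0, ⟨0, 0⟩, 0⟩ 0 0)))))) (.cut .d (-8388608) (.void 90 ⟨100000, 0, 0, 0, 0, 0, 0, 0, 0, ⟨0, 0⟩, 0⟩ 0 0) (.cut .v 268435456 (.cut .v 67108864 (.cut .v 33554432 (.cut .d (-4194304) (.void 18 ⟨100000, 0, 0, 0, 0, 0, 0, 0, 0, ⟨0, 0⟩, 0⟩ 0 0) (.pos 18 .mp ⟨1104678903, 0, 0, 0, 0, 22994267690,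 0, 0, 0, ⟨0, 0⟩, 0⟩ 0 0)) (.pos 59 .mp ⟨167772160000, 0, 0, 0, 0, 0, 0, 0, 0, ⟨0, 0⟩, 0⟩ 0 0)) (.void 72 ⟨100000, 0, 0, 0, 0, 0, 0, 0, 0, ⟨0, 0⟩, 0⟩ 0 0)) (.void 91 ⟨90846, 0, 0, 9154, 0, 0, 0, 0, 0, ⟨0, 0⟩, 0⟩ 0 0)))) (.cut .v 16777216 (.cut .v 8388608 (.cut .v 4194304 (.cut .v 2097152 (.cut .v 1048576 (.cut .v 524288 (.cut .v 262144 (.pos 132 .pm ⟨0, 0, 31394422, 0, 0, 0, 0, 0, 0, ⟨0, 0⟩, 0⟩ 0 0) (.pos 133 .pm ⟨0, 0, 56810922, 0, 0, 0, 0, 0, 0, ⟨0, 0⟩, 0⟩ 0 0)) (.pos 123 .pm ⟨0, 0, 87242547, 0, 0, 0, 0, 0, 0, ⟨0, 0⟩, 0⟩ 0 0)) (.pos 97 .pm ⟨0, 0, 141595540, 0, 0, 0, 0, 0, 0, ⟨0, 0⟩, 0⟩ 0 0)) (.pos 84 .pm ⟨0, 0, 249464295, 0, 0, 0, 0, 0, 0, ⟨0, 0⟩, 0⟩ 0 0))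 (.pos 5 .pm ⟨0, 0, 529724724, 0, 0, 0, 0, 0, 0, ⟨0, 0⟩, 0⟩ 0 0)) (.pos 3 .pm ⟨0, 0, 101734998, 0, 0, 0, 0, 0, 0, ⟨0, 0⟩, 0⟩ 0 0)) (.cut .v 268435456 (.cut .v 67108864 (.cut .v 33554432 (.pos 18 .pp ⟨909226374, 0, 0, 0, 0, 0, 0, 0, 0, ⟨0, 0⟩, 0⟩ 0 0) (.cut .d 672505 (.cut .d 336252 (.cut .v 50331648 (.pos 62 .pp ⟨5155273060, 0, 0, 0, 0, 0, 0, 0, 0, ⟨0, 0⟩, 0⟩ 0 0) (.pos 63 .pp ⟨10605380064, 0, 0, 0, 0, 0, 0, 0, 0, ⟨0, 0⟩, 0⟩ 0 0)) (.pos 59 .pp ⟨0, 0, 0, 0, 0, 0, 0, 0, 0, ⟨0, 0⟩, 0⟩ 0 0)) (.pos 59 .pp ⟨0, 0, 0, 0, 0, 0, 0, 0, 0, ⟨0, 0⟩, 0⟩ 0 0))) (.cut .v 134217728 (.cut .v 100663296 (.cut .d 672505 (.cut .d 336252 (.cut .v 83886080 (.pos 94 .pp ⟨16888352506,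 0, 0, 0, 0, 0, 0, 0, 0, ⟨0, 0⟩, 0⟩ 0 0) (.cut .d 168126 (.void 95 ⟨100000, 0, 0, 0, 0, 0, 0, 0, 0, ⟨0, 0⟩, 0⟩ 0 0) (.cut .d 252189 (.pos 95 .pp ⟨167772160000, 0, 0, 0, 0, 0, 0, 0, 0, ⟨0, 0⟩, 0⟩ 0 0) (.cut .v 92274688 (.cut .v 88080384 (.pos 138 .pp ⟨18032133994, 4544422531, 0, 0, 0, 0, 0, 0, 0, ⟨0, 0⟩, 0⟩ 0 0) (.void 139 ⟨32028, 67972, 0, 0, 0, 0, 0, 0, 0, ⟨0, 0⟩, 0⟩ 0 0)) (.void 129 ⟨27826, 72174, 0, 0, 0, 0, 0, 0, 0, ⟨0, 0⟩, 0⟩ 0 0))))) (.pos 75 .pp ⟨0, 9815238120, 0, 0, 0, 0, 0, 0, 0, ⟨0, 0⟩, 0⟩ 0 0)) (.void 75 ⟨0, 0, 0, 100000, 0, 0, 0, 0, 0, ⟨0, 0⟩, 0⟩ 0 0)) (.pos 76 .pp ⟨149242491235, 0, 0, 18529668765, 0, 0, 0, 0, 0, ⟨0, 0⟩, 0⟩ 0 0)) (.void 74 ⟨0, 0,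 0, 100000, 0, 0, 0, 0, 0, ⟨0, 0⟩, 0⟩ 0 0))) (.void 91 ⟨0, 0, 0, 100000, 0, 0, 0, 0, 0, ⟨0, 0⟩, 0⟩ 0 0)))),
    by decide +kernel⟩

def covers28 : cell.Covers table row28.1 :=
  ⟨(.cut .d 0 (.cut .v 16777216 (.cut .v 8388608 (.pos 2 .mm ⟨0, 0, 167772160000, 0, 0, 0, 0, 0, 0, ⟨0, 0⟩, 0⟩ 0 0) (.cut .d (-8388608) (.void 3 ⟨100000, 0, 0, 0, 0, 0, 0, 0, 0, ⟨0, 0⟩, 0⟩ 0 0) (.cut .d (-4194304) (.void 3 ⟨100000, 0, 0, 0, 0, 0, 0, 0, 0, ⟨0, 0⟩, 0⟩ 0 0) (.cut .d (-2097152) (.void 3 ⟨100000, 0, 0, 0, 0, 0, 0, 0, 0, ⟨0, 0⟩, 0⟩ 0 0) (.cut .v 12582912 (.cut .d (-1048576) (.void 6 ⟨100000, 0, 0, 0, 0, 0, 0, 0, 0, ⟨0, 0⟩, 0⟩ 0 0) (.cut .v 10485760 (.cut .d (-524288) (.void 8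 ⟨100000, 0, 0, 0, 0, 0, 0, 0, 0, ⟨0, 0⟩, 0⟩ 0 0) (.cut .v 9437184 (.cut .s 15876096 (.cut .d (-262144) (.void 130 ⟨0, 0, 0, 0, 0, 100000, 0, 0, 0, ⟨0, 0⟩, 0⟩ 0 0) (.pos 130 .mm ⟨0, 0, 201932132, 0, 0, 2758612647, 0, 0, 0, ⟨0, 0⟩, 0⟩ 0 0)) (.pos 130 .mm ⟨0, 0, 249000245, 0, 0, 3565623356, 0, 0, 0, ⟨0, 0⟩, 0⟩ 0 0)) (.pos 131 .mm ⟨0, 0, 0, 0, 0, 4202437274, 0, 0, 0, ⟨0, 0⟩, 0⟩ 0 0))) (.pos 9 .mm ⟨0, 0, 0, 0, 0, 6053812022, 0, 0, 0, ⟨0, 0⟩, 0⟩ 0 0))) (.pos 7 .mm ⟨0, 0, 0, 0, 0, 10758194468, 0, 0, 0, ⟨0, 0⟩, 0⟩ 0 0)))))) (.cut .v 268435456 (.cut .v 67108864 (.cut .v 33554432 (.cut .d (-8388608) (.void 18 ⟨100000, 0, 0, 0, 0, 0, 0, 0, 0, ⟨0, 0⟩, 0⟩ 0 0) (.pos 18 .mp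 ⟨880168848, 0, 0, 0, 0, 51563266712, 0, 0, 0, ⟨0, 0⟩, 0⟩ 0 0)) (.void 59 ⟨100000, 0, 0, 0, 0, 0, 0, 0, 0, ⟨0, 0⟩, 0⟩ 0 0)) (.void 72 ⟨100000, 0, 0, 0, 0, 0, 0, 0, 0, ⟨0, 0⟩, 0⟩ 0 0)) (.void 91 ⟨93632, 0, 0, 6368, 0, 0, 0, 0, 0, ⟨0, 0⟩, 0⟩ 0 0))) (.cut .v 16777216 (.cut .v 8388608 (.cut .v 4194304 (.cut .v 2097152 (.cut .v 1048576 (.cut .v 524288 (.cut .v 262144 (.cut .v 131072 (.pos 140 .pm ⟨0, 0, 29900962, 0, 0, 0, 0, 0, 0, ⟨0, 0⟩, 0⟩ 0 0) (.pos 141 .pm ⟨0, 0, 52801449, 0, 0, 0, 0, 0, 0, ⟨0, 0⟩, 0⟩ 0 0)) (.pos 133 .pm ⟨0, 0, 82211223, 0, 0, 0, 0, 0, 0, ⟨0, 0⟩, 0⟩ 0 0)) (.pos 123 .pm ⟨0, 0, 134845360, 0, 0, 0, 0, 0, 0, ⟨0, 0⟩, 0⟩ 0 0)) (.pos 97 .pm ⟨0, 0, 231673320,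 0, 0, 0, 0, 0, 0, ⟨0, 0⟩, 0⟩ 0 0)) (.pos 84 .pm ⟨0, 0, 411771416, 0, 0, 0, 0, 0, 0, ⟨0, 0⟩, 0⟩ 0 0)) (.pos 5 .pm ⟨0, 0, 885617464, 0, 0, 0, 0, 0, 0, ⟨0, 0⟩, 0⟩ 0 0)) (.pos 3 .pm ⟨0, 0, 153769419, 0, 0, 0, 0, 0, 0, ⟨0, 0⟩, 0⟩ 0 0)) (.cut .v 268435456 (.cut .v 67108864 (.cut .v 33554432 (.pos 18 .pp ⟨880168848, 0, 0, 0, 0, 0, 0, 0, 0, ⟨0, 0⟩, 0⟩ 0 0) (.cut .d 531367 (.cut .v 50331648 (.pos 62 .pp ⟨5173520281, 0, 0, 0, 0, 0, 0, 0, 0, ⟨0, 0⟩, 0⟩ 0 0) (.cut .d 265683 (.pos 63 .pp ⟨13180880287, 0, 0, 0, 0, 0, 0, 0, 0, ⟨0, 0⟩, 0⟩ 0 0) (.pos 63 .pp ⟨0, 0, 0, 0, 0, 0, 0, 0, 0, ⟨0, 0⟩, 0⟩ 0 0))) (.pos 59 .pp ⟨0, 0, 0, 0, 0, 0, 0, 0, 0, ⟨0, 0⟩, 0⟩ 0 0))) (.cut .v 134217728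 (.cut .v 100663296 (.cut .d 531367 (.cut .l 980822 (.cut .d 265683 (.cut .v 83886080 (.pos 94 .pp ⟨20583462594, 0, 0, 0, 0, 0, 0, 0, 0, ⟨0, 0⟩, 0⟩ 0 0) (.cut .v 92274688 (.cut .v 88080384 (.cut .d 132841 (.void 138 ⟨100000, 0, 0, 0, 0, 0, 0, 0, 0, ⟨0, 0⟩, 0⟩ 0 0) (.cut .d 199262 (.pos 138 .pp ⟨167772160000, 0, 0, 0, 0, 0, 0, 0, 0, ⟨0, 0⟩, 0⟩ 0 0) (.pos 138 .pp ⟨22859347433, 7419955209, 0, 0, 0, 0, 0, 0, 0, ⟨0, 0⟩, 0⟩ 0 0))) (.void 139 ⟨34254, 65746, 0, 0, 0, 0, 0, 0, 0, ⟨0, 0⟩, 0⟩ 0 0)) (.void 129 ⟨34254, 65746, 0, 0, 0, 0, 0, 0, 0, ⟨0, 0⟩, 0⟩ 0 0))) (.cut .v 83886080 (.pos 94 .pp ⟨0, 0, 0, 0, 0, 0, 0, 0, 0, ⟨0, 0⟩, 0⟩ 0 0) (.pos 95 .pp ⟨0, 17232639260, 0, 0,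 0, 0, 0, 0, 0, ⟨0, 0⟩, 0⟩ 0 0))) (.pos 75 .pp ⟨18661960928, 0, 0, 0, 0, 0, 0, 0, 0, ⟨0, 0⟩, 0⟩ 0 0)) (.void 75 ⟨0, 0, 0, 100000, 0, 0, 0, 0, 0, ⟨0, 0⟩, 0⟩ 0 0)) (.void 76 ⟨87694, 0, 0, 12306, 0, 0, 0, 0, 0, ⟨0, 0⟩, 0⟩ 0 0)) (.void 74 ⟨0, 0, 0, 100000, 0, 0, 0, 0, 0, ⟨0, 0⟩, 0⟩ 0 0))) (.void 91 ⟨0, 0, 0, 100000, 0, 0, 0, 0, 0, ⟨0, 0⟩, 0⟩ 0 0)))),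
    by decide +kernel⟩

def covers29 : cell.Covers table row29.1 :=
  ⟨(.cut .d 0 (.cut .v 16777216 (.cut .v 8388608 (.void 2 ⟨0, 0, 100000, 0, 0, 0, 0, 0, 0, ⟨0, 0⟩, 0⟩ 0 0) (.cut .d (-8388608) (.void 3 ⟨100000, 0, 0, 0, 0, 0, 0, 0, 0, ⟨0, 0⟩, 0⟩ 0 0) (.cut .d (-4194304) (.void 3 ⟨100000, 0, 0, 0, 0, 0, 0, 0, 0, ⟨0, 0⟩, 0⟩ 0 0) (.cut .d (-2097152) (.void 3 ⟨100000, 0, 0, 0, 0, 0, 0, 0, 0, ⟨0, 0⟩, 0⟩ 0 0) (.cut .v 12582912 (.cut .d (-1048576) (.void 6 ⟨100000, 0, 0, 0, 0, 0, 0, 0, 0, ⟨0, 0⟩, 0⟩ 0 0) (.cut .v 10485760 (.cut .d (-524288) (.void 8 ⟨100000, 0, 0, 0, 0, 0, 0, 0, 0, ⟨0, 0⟩, 0⟩ 0 0) (.cut .s 16056320 (.pos 8 .mm ⟨0, 0, 292774613, 0, 0, 4602308588,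 0, 0, 0, ⟨0, 0⟩, 0⟩ 0 0) (.pos 8 .mm ⟨0, 0, 366787905, 0, 0, 5399791022, 0, 0, 0, ⟨0, 0⟩, 0⟩ 0 0))) (.pos 9 .mm ⟨0, 0, 0, 0, 0, 8196869948, 0, 0, 0, ⟨0, 0⟩, 0⟩ 0 0))) (.pos 7 .mm ⟨0, 0, 0, 0, 0, 14510306568, 0, 0, 0, ⟨0, 0⟩, 0⟩ 0 0)))))) (.cut .v 268435456 (.cut .v 67108864 (.cut .v 33554432 (.cut .d (-8388608) (.void 18 ⟨100000, 0, 0, 0, 0, 0, 0, 0, 0, ⟨0, 0⟩, 0⟩ 0 0) (.pos 18 .mp ⟨504042477, 0, 0, 0, 0, 70138421797, 0, 0, 0, ⟨0, 0⟩, 0⟩ 0 0)) (.void 59 ⟨100000, 0, 0, 0, 0, 0, 0, 0, 0, ⟨0, 0⟩, 0⟩ 0 0)) (.void 72 ⟨100000, 0, 0, 0, 0, 0, 0, 0, 0, ⟨0, 0⟩, 0⟩ 0 0)) (.void 91 ⟨96713, 0, 0, 5557, 0, 0, 0, 0, 0, ⟨0, 0⟩, 0⟩ 0 0))) (.cut .v 16777216 (.cut .v 8388608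 (.cut .v 4194304 (.cut .v 2097152 (.cut .v 1048576 (.cut .v 524288 (.cut .v 262144 (.cut .v 131072 (.pos 140 .pm ⟨0, 0, 38192587, 0, 0, 0, 0, 0, 0, ⟨0, 0⟩, 0⟩ 0 0) (.pos 141 .pm ⟨0, 0, 72835037, 0, 0, 0, 0, 0, 0, ⟨0, 0⟩, 0⟩ 0 0)) (.pos 133 .pm ⟨0, 0, 119793848, 0, 0, 0, 0, 0, 0, ⟨0, 0⟩, 0⟩ 0 0)) (.pos 123 .pm ⟨0, 0, 205347996, 0, 0, 0, 0, 0, 0, ⟨0, 0⟩, 0⟩ 0 0)) (.pos 97 .pm ⟨0, 0, 353055439, 0, 0, 0, 0, 0, 0, ⟨0, 0⟩, 0⟩ 0 0)) (.pos 84 .pm ⟨0, 0, 645887292, 0, 0, 0, 0, 0, 0, ⟨0, 0⟩, 0⟩ 0 0)) (.pos 5 .pm ⟨0, 0, 1382503019, 0, 0, 0, 0, 0, 0, ⟨0, 0⟩, 0⟩ 0 0)) (.pos 3 .pm ⟨0, 0, 237613451, 0, 0, 0, 0, 0, 0, ⟨0, 0⟩, 0⟩ 0 0)) (.cut .v 268435456 (.cut .v 67108864 (.cut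 .v 33554432 (.pos 18 .pp ⟨504042477, 0, 0, 0, 0, 0, 0, 0, 0, ⟨0, 0⟩, 0⟩ 0 0) (.cut .v 50331648 (.pos 62 .pp ⟨5128947653, 0, 0, 0, 0, 0, 0, 0, 0, ⟨0, 0⟩, 0⟩ 0 0) (.cut .d 421582 (.cut .d 210791 (.pos 63 .pp ⟨16588731867, 0, 0, 0, 0, 0, 0, 0, 0, ⟨0, 0⟩, 0⟩ 0 0) (.pos 63 .pp ⟨0, 0, 0, 0, 0, 0, 0, 0, 0, ⟨0, 0⟩, 0⟩ 0 0)) (.pos 63 .pp ⟨0, 0, 0, 0, 0, 0, 0, 0, 0, ⟨0, 0⟩, 0⟩ 0 0)))) (.cut .v 134217728 (.cut .v 100663296 (.cut .d 421582 (.cut .l 980822 (.cut .d 210791 (.cut .v 83886080 (.pos 94 .pp ⟨25584959990, 0, 0, 0, 0, 0, 0, 0, 0, ⟨0, 0⟩, 0⟩ 0 0) (.cut .v 92274688 (.cut .v 88080384 (.cut .d 105395 (.void 138 ⟨100000, 0, 0, 0, 0, 0, 0, 0, 0, ⟨0, 0⟩, 0⟩ 0 0) (.cut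 .d 158093 (.pos 138 .pp ⟨89899204371, 0, 0, 0, 0, 0, 0, 0, 0, ⟨0, 0⟩, 0⟩ 0 0) (.cut .s 16056320 (.pos 138 .pp ⟨28893796630, 11290832075, 0, 0, 0, 0, 0, 0, 0, ⟨0, 0⟩, 0⟩ 0 0) (.pos 138 .pp ⟨30489605281, 11308534436, 0, 0, 0, 0, 0, 0, 0, ⟨0, 0⟩, 0⟩ 0 0)))) (.pos 139 .pp ⟨75650429475, 92121730525, 0, 0, 0, 0, 0, 0, 0, ⟨0, 0⟩, 0⟩ 0 0)) (.void 129 ⟨34061, 65939, 0, 0, 0, 0, 0, 0, 0, ⟨0, 0⟩, 0⟩ 0 0))) (.cut .v 83886080 (.pos 94 .pp ⟨0, 0, 0, 0, 0, 0, 0, 0, 0, ⟨0, 0⟩, 0⟩ 0 0) (.pos 95 .pp ⟨0, 24176283384, 0, 0, 0, 0, 0, 0, 0, ⟨0, 0⟩, 0⟩ 0 0))) (.pos 75 .pp ⟨23667524775, 0, 0, 0, 0, 0, 0, 0, 0, ⟨0, 0⟩, 0⟩ 0 0)) (.void 75 ⟨0, 0, 0, 100000, 0, 0, 0, 0, 0, ⟨0, 0⟩, 0⟩ 0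 0)) (.void 76 ⟨87652, 0, 0, 12348, 0, 0, 0, 0, 0, ⟨0, 0⟩, 0⟩ 0 0)) (.void 74 ⟨0, 0, 0, 100000, 0, 0, 0, 0, 0, ⟨0, 0⟩, 0⟩ 0 0))) (.void 91 ⟨0, 0, 0, 100000, 0, 0, 0, 0, 0, ⟨0, 0⟩, 0⟩ 0 0)))),
    by decide +kernel⟩

def covers30 : cell.Covers table row30.1 :=
  ⟨(.cut .d 0 (.cut .v 16777216 (.cut .v 8388608 (.void 2 ⟨0, 0, 136585, 0, 0, 0, 0, 0, 0, ⟨0, 0⟩, 0⟩ 0 0) (.cut .d (-8388608) (.pos 3 .mm ⟨96839877110, 0, 0, 0, 0, 70932282890, 0, 0, 0, ⟨0, 0⟩, 0⟩ 0 0) (.cut .d (-4194304) (.void 3 ⟨100000, 0, 0, 0, 0, 0, 0, 0, 0, ⟨0, 0⟩, 0⟩ 0 0) (.cut .d (-2097152) (.void 3 ⟨100000, 0, 0, 0, 0, 0, 0, 0, 0, ⟨0, 0⟩, 0⟩ 0 0) (.cut .v 12582912 (.pos 6 .mm ⟨0, 0, 440162754,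 0, 0, 14171789360, 0, 0, 0, ⟨0, 0⟩, 0⟩ 0 0) (.pos 7 .mm ⟨0, 0, 0, 0, 0, 19624183410, 0, 0, 0, ⟨0, 0⟩, 0⟩ 0 0)))))) (.cut .v 268435456 (.cut .v 67108864 (.cut .v 33554432 (.pos 18 .mp ⟨0, 0, 0, 0, 0, 165936995057, 0, 0, 0, ⟨0, 0⟩, 0⟩ 0 0) (.void 59 ⟨100000, 0, 0, 0, 0, 0, 0, 0, 0, ⟨0, 0⟩, 0⟩ 0 0)) (.void 72 ⟨100000, 0, 0, 0, 0, 0, 0, 0, 0, ⟨0, 0⟩, 0⟩ 0 0)) (.void 91 ⟨28, 0, 0, 6515, 0, 92236, 0, 0, 0, ⟨0, 0⟩, 0⟩ 0 0))) (.cut .v 16777216 (.cut .v 8388608 (.cut .v 4194304 (.cut .v 2097152 (.cut .v 1048576 (.cut .v 524288 (.cut .v 262144 (.cut .v 131072 (.cut .v 65536 (.pos 146 .pm ⟨0, 0, 33655031, 0, 0, 0, 0, 0, 0, ⟨0, 0⟩, 0⟩ 0 0) (.pos 147 .pm ⟨0, 0, 62672391,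 0, 0, 0, 0, 0, 0, ⟨0, 0⟩, 0⟩ 0 0)) (.pos 141 .pm ⟨0, 0, 102517738, 0, 0, 0, 0, 0, 0, ⟨0, 0⟩, 0⟩ 0 0)) (.pos 133 .pm ⟨0, 0, 175449314, 0, 0, 0, 0, 0, 0, ⟨0, 0⟩, 0⟩ 0 0)) (.pos 123 .pm ⟨0, 0, 303329148, 0, 0, 0, 0, 0, 0, ⟨0, 0⟩, 0⟩ 0 0)) (.pos 97 .pm ⟨0, 0, 532890455, 0, 0, 0, 0, 0, 0, ⟨0, 0⟩, 0⟩ 0 0)) (.pos 84 .pm ⟨0, 0, 985354366, 0, 0, 0, 0, 0, 0, ⟨0, 0⟩, 0⟩ 0 0)) (.pos 5 .pm ⟨0, 0, 2140929116, 0, 0, 0, 0, 0, 0, ⟨0, 0⟩, 0⟩ 0 0)) (.pos 3 .pm ⟨0, 0, 385715543, 0, 0, 0, 0, 0, 0, ⟨0, 0⟩, 0⟩ 0 0)) (.cut .v 268435456 (.cut .v 67108864 (.cut .v 33554432 (.pos 18 .pp ⟨0, 0, 0, 0, 0, 0, 0, 0, 0, ⟨0, 0⟩, 0⟩ 0 0) (.cut .v 50331648 (.pos 62 .pp ⟨7138261768, 0, 0, 0, 0,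 0, 0, 0, 0, ⟨0, 0⟩, 0⟩ 0 0) (.cut .d 332139 (.pos 63 .pp ⟨16669203561, 0, 0, 0, 0, 0, 0, 0, 0, ⟨0, 0⟩, 0⟩ 0 0) (.pos 63 .pp ⟨0, 0, 0, 0, 0, 0, 0, 0, 0, ⟨0, 0⟩, 0⟩ 0 0)))) (.cut .v 134217728 (.cut .v 100663296 (.cut .d 332139 (.cut .l 980822 (.cut .d 166069 (.cut .v 83886080 (.pos 94 .pp ⟨32688507705, 0, 0, 0, 0, 0, 0, 0, 0, ⟨0, 0⟩, 0⟩ 0 0) (.cut .v 92274688 (.cut .d 83034 (.void 128 ⟨100000, 0, 0, 0, 0, 0, 0, 0, 0, ⟨0, 0⟩, 0⟩ 0 0) (.cut .d 124551 (.pos 128 .pp ⟨139405756555, 0, 0, 0, 0, 0, 0, 0, 0, ⟨0, 0⟩, 0⟩ 0 0) (.cut .l 632372 (.cut .l 458147 (.cut .l 371034 (.cut .l 327478 (.cut .v 88080384 (.cut .v 85983232 (.pos 144 .pp ⟨28843213956, 0, 0, 0, 0, 0, 0,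 0, 0, ⟨0, 0⟩, 0⟩ 0 0) (.cut .v 87031808 (.pos 148 .pp ⟨29320831348, 0, 0, 0, 0, 0, 0, 0, 0, ⟨0, 0⟩, 0⟩ 0 0) (.cut .l 305700 (.cut .l 294811 (.cut .s 16203776 (.cut .d 145310 (.pos 149 .pp ⟨41714384955, 21198146210, 0, 0, 0, 0, 0, 0, 0, ⟨0, 0⟩, 0⟩ 0 0) (.pos 149 .pp ⟨38160085075, 19088218167, 0, 0, 0, 0, 0, 0, 0, ⟨0, 0⟩, 0⟩ 0 0)) (.cut .d 145310 (.pos 149 .pp ⟨45185492239, 23569293283, 0, 0, 0, 0, 0, 0, 0, ⟨0, 0⟩, 0⟩ 0 0) (.pos 149 .pp ⟨0, 36647116846, 0, 0, 0, 0, 0, 0, 0, ⟨0, 0⟩, 0⟩ 0 0))) (.pos 149 .pp ⟨39890411034, 19656649750, 0, 0, 0, 0, 0, 0, 0, ⟨0, 0⟩, 0⟩ 0 0)) (.pos 149 .pp ⟨39808054405, 19496191118, 0, 0, 0, 0, 0, 0, 0, ⟨0, 0⟩, 0⟩ 0 0)))) (.cut .s 16203776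 (.void 139 ⟨33917, 66083, 0, 0, 0, 0, 0, 0, 0, ⟨0, 0⟩, 0⟩ 0 0) (.pos 139 .pp ⟨78478250404, 89293909596, 0, 0, 0, 0, 0, 0, 0, ⟨0, 0⟩, 0⟩ 0 0))) (.pos 128 .pp ⟨41161207948, 23775058067, 0, 0, 0, 0, 0, 0, 0, ⟨0, 0⟩, 0⟩ 0 0)) (.pos 128 .pp ⟨40960347127, 22346939696, 0, 0, 0, 0, 0, 0, 0, ⟨0, 0⟩, 0⟩ 0 0)) (.pos 128 .pp ⟨40556108172, 19501456289, 0, 0, 0, 0, 0, 0, 0, ⟨0, 0⟩, 0⟩ 0 0)) (.pos 128 .pp ⟨39261307106, 15335876538, 0, 0, 0, 0, 0, 0, 0, ⟨0, 0⟩, 0⟩ 0 0)))) (.void 129 ⟨87804, 0, 0, 12196, 0, 0, 0, 0, 0, ⟨0, 0⟩, 0⟩ 0 0))) (.cut .v 83886080 (.pos 94 .pp ⟨0, 0, 0, 0, 0, 0, 0, 0, 0, ⟨0, 0⟩, 0⟩ 0 0) (.pos 95 .pp ⟨0, 34536293712, 0, 0, 0, 0, 0, 0, 0, ⟨0, 0⟩, 0⟩ 0 0)))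 (.pos 75 .pp ⟨30965898537, 0, 0, 0, 0, 0, 0, 0, 0, ⟨0, 0⟩, 0⟩ 0 0)) (.void 75 ⟨0, 0, 0, 100000, 0, 0, 0, 0, 0, ⟨0, 0⟩, 0⟩ 0 0)) (.void 76 ⟨87621, 0, 0, 12379, 0, 0, 0, 0, 0, ⟨0, 0⟩, 0⟩ 0 0)) (.void 74 ⟨0, 0, 0, 100000, 0, 0, 0, 0, 0, ⟨0, 0⟩, 0⟩ 0 0))) (.void 91 ⟨0, 0, 0, 100000, 0, 0, 0, 0, 0, ⟨0, 0⟩, 0⟩ 0 0)))),
    by decide +kernel⟩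

def covers31 : cell.Covers table row31.1 :=
  ⟨(.cut .d 0 (.cut .v 16777216 (.cut .v 8388608 (.pos 2 .mm ⟨0, 0, 167772160000, 0, 0, 0, 0, 0, 0, ⟨0, 0⟩, 0⟩ 0 0) (.cut .d (-8388608) (.pos 3 .mm ⟨28508954163, 0, 0, 0, 0, 139263205837, 0, 0, 0, ⟨0, 0⟩, 0⟩ 0 0) (.cut .d (-4194304) (.void 3 ⟨100000, 0, 0, 0, 0, 0, 0, 0, 0, ⟨0, 0⟩, 0⟩ 0 0) (.pos 3 .mm ⟨0, 0, 623891049, 0, 0, 36874725599, 0, 0, 0, ⟨0, 0⟩, 0⟩ 0 0)))) (.cut .v 4294967296 (.cut .v 268435456 (.cut .v 67108864 (.cut .d (-8388608) (.void 58 ⟨100000, 0, 0, 0, 0, 0, 0, 0, 0, ⟨0, 0⟩, 0⟩ 0 0) (.cut .v 33554432 (.pos 18 .mp ⟨0, 0, 0, 0, 0, 123033290198, 0, 0, 0, ⟨0, 0⟩, 0⟩ 0 0) (.void 59 ⟨100000, 0, 0, 0, 0,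 0, 0, 0, 0, ⟨0, 0⟩, 0⟩ 0 0))) (.void 72 ⟨100000, 0, 0, 0, 0, 0, 0, 0, 0, ⟨0, 0⟩, 0⟩ 0 0)) (.void 91 ⟨0, 0, 3841, 6667, 0, 89493, 0, 0, 0, ⟨0, 0⟩, 0⟩ 0 0)) (.void 156 ⟨93485, 0, 0, 6515, 0, 0, 0, 0, 0, ⟨0, 0⟩, 0⟩ 0 0))) (.cut .v 16777216 (.cut .v 8388608 (.cut .v 4194304 (.cut .v 2097152 (.cut .v 1048576 (.cut .v 524288 (.cut .v 262144 (.cut .v 131072 (.cut .v 65536 (.pos 146 .pm ⟨0, 0, 39294592, 0, 0, 0, 0, 0, 0, ⟨0, 0⟩, 0⟩ 0 0) (.pos 147 .pm ⟨0, 0, 77270209, 0, 0, 0, 0, 0, 0, ⟨0, 0⟩, 0⟩ 0 0)) (.pos 141 .pm ⟨0, 0, 123690004, 0, 0, 0, 0, 0, 0, ⟨0, 0⟩, 0⟩ 0 0)) (.pos 133 .pm ⟨0, 0, 197833016, 0, 0, 0, 0, 0, 0, ⟨0, 0⟩, 0⟩ 0 0)) (.pos 123 .pm ⟨0, 0, 349022639, 0,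 0, 0, 0, 0, 0, ⟨0, 0⟩, 0⟩ 0 0)) (.pos 97 .pm ⟨0, 0, 637956689, 0, 0, 0, 0, 0, 0, ⟨0, 0⟩, 0⟩ 0 0)) (.pos 84 .pm ⟨0, 0, 1266399627, 0, 0, 0, 0, 0, 0, ⟨0, 0⟩, 0⟩ 0 0)) (.pos 5 .pm ⟨0, 0, 3246161657, 0, 0, 0, 0, 0, 0, ⟨0, 0⟩, 0⟩ 0 0)) (.pos 3 .pm ⟨0, 0, 623891049, 0, 0, 0, 0, 0, 0, ⟨0, 0⟩, 0⟩ 0 0)) (.cut .v 4294967296 (.cut .v 268435456 (.cut .v 67108864 (.cut .v 33554432 (.pos 18 .pp ⟨0, 0, 0, 0, 0, 0, 0, 0, 0, ⟨0, 0⟩, 0⟩ 0 0) (.cut .v 50331648 (.pos 62 .pp ⟨9991924075, 0, 0, 0, 0, 0, 0, 0, 0, ⟨0, 0⟩, 0⟩ 0 0) (.pos 63 .pp ⟨17305359515, 0, 0, 0, 0, 0, 0, 0, 0, ⟨0, 0⟩, 0⟩ 0 0))) (.cut .v 134217728 (.cut .v 100663296 (.cut .d 261881 (.cut .l 980822 (.cut .d 130940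 (.cut .v 83886080 (.pos 94 .pp ⟨34171355636, 0, 0, 0, 0, 0, 0, 0, 0, ⟨0, 0⟩, 0⟩ 0 0) (.cut .v 92274688 (.cut .d 65470 (.void 128 ⟨100000, 0, 0, 0, 0, 0, 0, 0, 0, ⟨0, 0⟩, 0⟩ 0 0) (.cut .v 88080384 (.pos 138 .pp ⟨48637577663, 25474226703, 0, 0, 0, 0, 0, 0, 0, ⟨0, 0⟩, 0⟩ 0 0) (.pos 139 .pp ⟨80378182199, 87393977801, 0, 0, 0, 0, 0, 0, 0, ⟨0, 0⟩, 0⟩ 0 0))) (.void 129 ⟨87726, 0, 0, 12274, 0, 0, 0, 0, 0, ⟨0, 0⟩, 0⟩ 0 0))) (.cut .v 83886080 (.pos 94 .pp ⟨0, 0, 0, 0, 0, 0, 0, 0, 0, ⟨0, 0⟩, 0⟩ 0 0) (.pos 95 .pp ⟨0, 49732328630, 0, 0, 0, 0, 0, 0, 0, ⟨0, 0⟩, 0⟩ 0 0))) (.pos 75 .pp ⟨38646203874, 0, 0, 0, 0, 0, 0, 0, 0, ⟨0, 0⟩, 0⟩ 0 0)) (.void 75 ⟨0, 0, 0, 100000, 0, 0, 0,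 0, 0, ⟨0, 0⟩, 0⟩ 0 0)) (.void 76 ⟨87601, 0, 0, 12399, 0, 0, 0, 0, 0, ⟨0, 0⟩, 0⟩ 0 0)) (.void 74 ⟨0, 0, 0, 100000, 0, 0, 0, 0, 0, ⟨0, 0⟩, 0⟩ 0 0))) (.void 91 ⟨0, 0, 0, 100000, 0, 0, 0, 0, 0, ⟨0, 0⟩, 0⟩ 0 0)) (.void 156 ⟨0, 0, 0, 100000, 0, 0, 0, 0, 0, ⟨0, 0⟩, 0⟩ 0 0)))),
    by decide +kernel⟩

def covers32 : cell.Covers table row32.1 :=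
  ⟨(.cut .d 0 (.cut .v 16777216 (.cut .v 8388608 (.pos 2 .mm ⟨0, 0, 167772160000, 0, 0, 0, 0, 0, 0, ⟨0, 0⟩, 0⟩ 0 0) (.pos 3 .mm ⟨0, 0, 3134682521, 0, 0, 136766766267, 0, 0, 0, ⟨0, 0⟩, 0⟩ 0 0)) (.cut .v 4294967296 (.cut .v 268435456 (.cut .v 67108864 (.cut .d (-8388608) (.void 58 ⟨100000, 0, 0, 0, 0, 0, 0, 0, 0, ⟨0, 0⟩, 0⟩ 0 0) (.cut .d (-4194304) (.void 58 ⟨100000, 0, 0, 0, 0, 0, 0, 0, 0, ⟨0, 0⟩, 0⟩ 0 0) (.pos 58 .mp ⟨57774860751, 0, 0, 0, 0, 109997299249, 0, 0, 0, ⟨0, 0⟩, 0⟩ 0 0))) (.void 72 ⟨100000, 0, 0, 0, 0, 0, 0, 0, 0, ⟨0, 0⟩, 0⟩ 0 0)) (.void 91 ⟨93455, 0, 0, 6545, 0, 0, 0, 0, 0, ⟨0, 0⟩, 0⟩ 0 0)) (.void 156 ⟨93455, 0, 0, 6545, 0, 0, 0, 0, 0, ⟨0, 0⟩, 0⟩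 0 0))) (.cut .v 16777216 (.cut .v 8388608 (.cut .v 4194304 (.cut .v 2097152 (.cut .v 1048576 (.cut .v 524288 (.cut .v 262144 (.cut .v 131072 (.cut .v 65536 (.pos 146 .pm ⟨0, 0, 49991792, 0, 0, 0, 0, 0, 0, ⟨0, 0⟩, 0⟩ 0 0) (.pos 147 .pm ⟨0, 0, 106051797, 0, 0, 0, 0, 0, 0, ⟨0, 0⟩, 0⟩ 0 0)) (.pos 141 .pm ⟨0, 0, 182698038, 0, 0, 0, 0, 0, 0, ⟨0, 0⟩, 0⟩ 0 0)) (.pos 133 .pm ⟨0, 0, 312126729, 0, 0, 0, 0, 0, 0, ⟨0, 0⟩, 0⟩ 0 0)) (.pos 123 .pm ⟨0, 0, 541495873, 0, 0, 0, 0, 0, 0, ⟨0, 0⟩, 0⟩ 0 0)) (.pos 97 .pm ⟨0, 0, 964390455, 0, 0, 0, 0, 0, 0, ⟨0, 0⟩, 0⟩ 0 0)) (.pos 84 .pm ⟨0, 0, 1793040373, 0, 0, 0, 0, 0, 0, ⟨0, 0⟩, 0⟩ 0 0)) (.pos 5 .pm ⟨0, 0, 3664875891, 0, 0, 0, 0, 0,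 0, ⟨0, 0⟩, 0⟩ 0 0)) (.pos 3 .pm ⟨0, 0, 2161988590, 0, 0, 0, 0, 0, 0, ⟨0, 0⟩, 0⟩ 0 0)) (.cut .v 4294967296 (.cut .v 268435456 (.cut .v 67108864 (.pos 58 .pp ⟨5402531622, 0, 0, 0, 0, 0, 0, 0, 0, ⟨0, 0⟩, 0⟩ 0 0) (.cut .v 134217728 (.cut .v 100663296 (.cut .v 83886080 (.pos 94 .pp ⟨35236550469, 0, 0, 0, 0, 0, 0, 0, 0, ⟨0, 0⟩, 0⟩ 0 0) (.pos 95 .pp ⟨92093824344, 73733064746, 0, 1945270910, 0, 0, 0, 0, 0, ⟨0, 0⟩, 0⟩ 0 0)) (.void 76 ⟨87580, 0, 0, 12420, 0, 0, 0, 0, 0, ⟨0, 0⟩, 0⟩ 0 0)) (.void 74 ⟨0, 0, 0, 100000, 0, 0, 0, 0, 0, ⟨0, 0⟩, 0⟩ 0 0))) (.void 91 ⟨0, 0, 0, 100000, 0, 0, 0, 0, 0, ⟨0, 0⟩, 0⟩ 0 0)) (.void 156 ⟨0, 0, 0, 100000, 0, 0, 0, 0, 0, ⟨0, 0⟩, 0⟩ 0 0)))),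
    by decide +kernel⟩

def covers33 : cell.Covers table row33.1 :=
  ⟨(.cut .d 0 (.cut .v 16777216 (.cut .v 8388608 (.pos 2 .mm ⟨0, 0, 167772160000, 0, 0, 0, 0, 0, 0, ⟨0, 0⟩, 0⟩ 0 0) (.cut .d (-8388608) (.void 3 ⟨100058, 0, 0, 0, 0, 0, 0, 0, 0, ⟨0, 0⟩, 0⟩ 0 0) (.pos 3 .mm ⟨0, 0, 3041619658, 0, 0, 102317530791, 0, 0, 0, ⟨0, 0⟩, 0⟩ 0 0))) (.cut .v 4294967296 (.cut .v 268435456 (.cut .v 67108864 (.cut .d (-8388608) (.void 58 ⟨100000, 0, 0, 0, 0, 0, 0, 0, 0, ⟨0, 0⟩, 0⟩ 0 0) (.cut .d (-4194304) (.void 58 ⟨100000, 0, 0, 0, 0, 0, 0, 0, 0, ⟨0, 0⟩, 0⟩ 0 0) (.pos 58 .mp ⟨147317145092, 0, 0, 0, 0, 20455014908, 0, 0, 0, ⟨0, 0⟩, 0⟩ 0 0))) (.void 72 ⟨100000, 0, 0, 0, 0,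 0, 0, 0, 0, ⟨0, 0⟩, 0⟩ 0 0)) (.void 91 ⟨0, 0, 0, 6703, 0, 92715, 0, 0, 0, ⟨0, 0⟩, 0⟩ 0 0)) (.void 156 ⟨93431, 0, 0, 6569, 0, 0, 0, 0, 0, ⟨0, 0⟩, 0⟩ 0 0))) (.cut .v 16777216 (.cut .v 8388608 (.cut .v 4194304 (.cut .v 2097152 (.cut .v 1048576 (.cut .v 524288 (.cut .v 262144 (.cut .v 131072 (.cut .v 65536 (.cut .v 32768 (.pos 157 .pm ⟨0, 0, 41885465, 0, 0, 0, 0, 0, 0, ⟨0, 0⟩, 0⟩ 0 0) (.pos 158 .pm ⟨0, 0, 86144329, 0, 0, 0, 0, 0, 0, ⟨0, 0⟩, 0⟩ 0 0)) (.pos 147 .pm ⟨0, 0, 147535424, 0, 0, 0, 0, 0, 0, ⟨0, 0⟩, 0⟩ 0 0)) (.pos 141 .pm ⟨0, 0, 256748328, 0, 0, 0, 0, 0, 0, ⟨0, 0⟩, 0⟩ 0 0)) (.pos 133 .pm ⟨0, 0, 447652506, 0, 0, 0, 0, 0, 0, ⟨0, 0⟩, 0⟩ 0 0)) (.pos 123 .pm ⟨0,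 0, 788883504, 0, 0, 0, 0, 0, 0, ⟨0, 0⟩, 0⟩ 0 0)) (.pos 97 .pm ⟨0, 0, 1412714329, 0, 0, 0, 0, 0, 0, ⟨0, 0⟩, 0⟩ 0 0)) (.pos 84 .pm ⟨0, 0, 2645907873, 0, 0, 0, 0, 0, 0, ⟨0, 0⟩, 0⟩ 0 0)) (.pos 5 .pm ⟨0, 0, 5538765695, 0, 0, 0, 0, 0, 0, ⟨0, 0⟩, 0⟩ 0 0)) (.pos 3 .pm ⟨0, 0, 3041619658, 0, 0, 0, 0, 0, 0, ⟨0, 0⟩, 0⟩ 0 0)) (.cut .v 4294967296 (.cut .v 268435456 (.cut .v 67108864 (.pos 58 .pp ⟨8087761720, 0, 0, 0, 0, 0, 0, 0, 0, ⟨0, 0⟩, 0⟩ 0 0) (.cut .v 134217728 (.cut .v 100663296 (.cut .v 83886080 (.pos 94 .pp ⟨49043551955, 0, 0, 0, 0, 0, 0, 0, 0, ⟨0, 0⟩, 0⟩ 0 0) (.pos 95 .pp ⟨128625283446, 31099337243, 0, 8047539311, 0, 0, 0, 0, 0, ⟨0, 0⟩, 0⟩ 0 0)) (.void 76 ⟨87564,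 0, 0, 12436, 0, 0, 0, 0, 0, ⟨0, 0⟩, 0⟩ 0 0)) (.void 74 ⟨0, 0, 0, 100000, 0, 0, 0, 0, 0, ⟨0, 0⟩, 0⟩ 0 0))) (.void 91 ⟨0, 0, 0, 100000, 0, 0, 0, 0, 0, ⟨0, 0⟩, 0⟩ 0 0)) (.void 156 ⟨0, 0, 0, 100000, 0, 0, 0, 0, 0, ⟨0, 0⟩, 0⟩ 0 0)))),
    by decide +kernel⟩

def covers34 : cell.Covers table row34.1 :=
  ⟨(.cut .d 0 (.cut .v 16777216 (.cut .d (-8388608) (.void 1 ⟨0, 0, 0, 0, 0, 121068, 0, 0, 0, ⟨0, 0⟩, 0⟩ 0 0) (.cut .v 8388608 (.void 2 ⟨0, 0, 100000, 0, 0, 0, 0, 0, 0, ⟨0, 0⟩, 0⟩ 0 0) (.pos 3 .mm ⟨0, 0, 4277506576, 0, 0, 131517842204, 0, 0, 0, ⟨0, 0⟩, 0⟩ 0 0))) (.cut .v 4294967296 (.cut .v 268435456 (.cut .v 67108864 (.cut .d (-8388608) (.void 58 ⟨100000, 0, 0, 0,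 0, 0, 0, 0, 0, ⟨0, 0⟩, 0⟩ 0 0) (.cut .v 33554432 (.cut .d (-4194304) (.void 18 ⟨100000, 0, 0, 0, 0, 0, 0, 0, 0, ⟨0, 0⟩, 0⟩ 0 0) (.pos 18 .mp ⟨11751871837, 0, 0, 0, 0, 156020288163, 0, 0, 0, ⟨0, 0⟩, 0⟩ 0 0)) (.void 59 ⟨100000, 0, 0, 0, 0, 0, 0, 0, 0, ⟨0, 0⟩, 0⟩ 0 0))) (.void 72 ⟨100000, 0, 0, 0, 0, 0, 0, 0, 0, ⟨0, 0⟩, 0⟩ 0 0)) (.void 91 ⟨104674, 0, 0, 7335, 0, 0, 0, 0, 0, ⟨0, 0⟩, 0⟩ 0 0)) (.void 156 ⟨93412, 0, 0, 6588, 0, 0, 0, 0, 0, ⟨0, 0⟩, 0⟩ 0 0))) (.cut .v 16777216 (.cut .v 8388608 (.cut .v 4194304 (.cut .v 2097152 (.cut .v 1048576 (.cut .v 524288 (.cut .v 262144 (.cut .v 131072 (.cut .v 65536 (.cut .v 32768 (.pos 157 .pm ⟨0, 0, 52723363, 0, 0, 0, 0, 0, 0,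 ⟨0, 0⟩, 0⟩ 0 0) (.pos 158 .pm ⟨0, 0, 115527950, 0, 0, 0, 0, 0, 0, ⟨0, 0⟩, 0⟩ 0 0)) (.pos 147 .pm ⟨0, 0, 202819595, 0, 0, 0, 0, 0, 0, ⟨0, 0⟩, 0⟩ 0 0)) (.pos 141 .pm ⟨0, 0, 356655275, 0, 0, 0, 0, 0, 0, ⟨0, 0⟩, 0⟩ 0 0)) (.pos 133 .pm ⟨0, 0, 631576512, 0, 0, 0, 0, 0, 0, ⟨0, 0⟩, 0⟩ 0 0)) (.pos 123 .pm ⟨0, 0, 1122658752, 0, 0, 0, 0, 0, 0, ⟨0, 0⟩, 0⟩ 0 0)) (.pos 97 .pm ⟨0, 0, 2028762599, 0, 0, 0, 0, 0, 0, ⟨0, 0⟩, 0⟩ 0 0)) (.pos 84 .pm ⟨0, 0, 3835895101, 0, 0, 0, 0, 0, 0, ⟨0, 0⟩, 0⟩ 0 0)) (.pos 5 .pm ⟨0, 0, 8264574385, 0, 0, 0, 0, 0, 0, ⟨0, 0⟩, 0⟩ 0 0)) (.pos 3 .pm ⟨0, 0, 4277506576, 0, 0, 0, 0, 0, 0, ⟨0, 0⟩, 0⟩ 0 0)) (.cut .v 4294967296 (.cut .v 268435456 (.cut .v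 67108864 (.pos 58 .pp ⟨12833953373, 0, 0, 0, 0, 0, 0, 0, 0, ⟨0, 0⟩, 0⟩ 0 0) (.cut .v 134217728 (.cut .v 100663296 (.cut .v 83886080 (.pos 94 .pp ⟨68616219327, 0, 0, 0, 0, 0, 0, 0, 0, ⟨0, 0⟩, 0⟩ 0 0) (.pos 95 .pp ⟨157031598505, 0, 0, 10740561495, 0, 0, 0, 0, 0, ⟨0, 0⟩, 0⟩ 0 0)) (.void 76 ⟨87553, 0, 0, 12447, 0, 0, 0, 0, 0, ⟨0, 0⟩, 0⟩ 0 0)) (.void 74 ⟨0, 0, 0, 100000, 0, 0, 0, 0, 0, ⟨0, 0⟩, 0⟩ 0 0))) (.void 91 ⟨0, 0, 0, 100000, 0, 0, 0, 0, 0, ⟨0, 0⟩, 0⟩ 0 0)) (.void 156 ⟨0, 0, 0, 100000, 0, 0, 0, 0, 0, ⟨0, 0⟩, 0⟩ 0 0)))),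
    by decide +kernel⟩

def covers35 : cell.Covers table row35.1 :=
  ⟨(.cut .d 0 (.cut .v 16777216 (.cut .d (-8388608) (.void 1 ⟨0, 0, 0, 6126, 0, 88884, 0, 4514, 0, ⟨(-1), 10947662⟩, 0⟩ 0 127) (.cut .v 8388608 (.pos 2 .mm ⟨0, 0, 167772160000, 0, 0, 0, 0, 0, 0, ⟨0, 0⟩, 0⟩ 0 0) (.cut .v 12582912 (.pos 6 .mm ⟨0, 0, 6153169443, 0, 0, 134169160570, 0, 0, 0, ⟨0, 0⟩, 0⟩ 0 0) (.pos 7 .mm ⟨39939323323, 0, 0, 0, 0, 127832836677, 0, 0, 0, ⟨0, 0⟩, 0⟩ 0 0)))) (.cut .v 4294967296 (.cut .v 268435456 (.cut .v 67108864 (.cut .d (-8388608) (.void 58 ⟨100000, 0, 0, 0, 0, 0, 0, 0, 0, ⟨0, 0⟩, 0⟩ 0 0) (.cut .d (-4194304) (.void 58 ⟨100000, 0, 0, 0, 0, 0, 0, 0, 0, ⟨0, 0⟩, 0⟩ 0 0)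 (.cut .v 33554432 (.pos 18 .mp ⟨107953970237, 0, 0, 0, 0, 59818189763, 0, 0, 0, ⟨0, 0⟩, 0⟩ 0 0) (.void 59 ⟨100000, 0, 0, 0, 0, 0, 0, 0, 0, ⟨0, 0⟩, 0⟩ 0 0)))) (.void 72 ⟨100000, 0, 0, 0, 0, 0, 0, 0, 0, ⟨0, 0⟩, 0⟩ 0 0)) (.void 91 ⟨0, 0, 4009, 6667, 0, 89324, 0, 0, 0, ⟨0, 0⟩, 0⟩ 0 0)) (.void 156 ⟨93394, 0, 0, 6606, 0, 0, 0, 0, 0, ⟨0, 0⟩, 0⟩ 0 0))) (.cut .v 16777216 (.cut .v 8388608 (.cut .v 4194304 (.cut .v 2097152 (.cut .v 1048576 (.cut .v 524288 (.cut .v 262144 (.cut .v 131072 (.cut .v 65536 (.cut .v 32768 (.cut .v 16384 (.pos 159 .pm ⟨0, 0, 44481589, 0, 0, 0, 0, 0, 0, ⟨0, 0⟩, 0⟩ 0 0) (.pos 160 .pm ⟨0, 0, 94827281, 0, 0, 0, 0, 0, 0, ⟨0, 0⟩, 0⟩ 0 0)) (.pos 158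 .pm ⟨0, 0, 165614977, 0, 0, 0, 0, 0, 0, ⟨0, 0⟩, 0⟩ 0 0)) (.pos 147 .pm ⟨0, 0, 293013636, 0, 0, 0, 0, 0, 0, ⟨0, 0⟩, 0⟩ 0 0)) (.pos 141 .pm ⟨0, 0, 519442295, 0, 0, 0, 0, 0, 0, ⟨0, 0⟩, 0⟩ 0 0)) (.pos 133 .pm ⟨0, 0, 927358701, 0, 0, 0, 0, 0, 0, ⟨0, 0⟩, 0⟩ 0 0)) (.pos 123 .pm ⟨0, 0, 1662592977, 0, 0, 0, 0, 0, 0, ⟨0, 0⟩, 0⟩ 0 0)) (.pos 97 .pm ⟨0, 0, 3008513722, 0, 0, 0, 0, 0, 0, ⟨0, 0⟩, 0⟩ 0 0)) (.pos 84 .pm ⟨0, 0, 5631797406, 0, 0, 0, 0, 0, 0, ⟨0, 0⟩, 0⟩ 0 0)) (.pos 5 .pm ⟨0, 0, 11843005635, 0, 0, 0, 0, 0, 0, ⟨0, 0⟩, 0⟩ 0 0)) (.pos 3 .pm ⟨0, 0, 5869362738, 0, 0, 0, 0, 0, 0, ⟨0, 0⟩, 0⟩ 0 0)) (.cut .v 4294967296 (.cut .v 268435456 (.cut .v 67108864 (.pos 58 .pp ⟨19020680746,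 0, 0, 0, 0, 0, 0, 0, 0, ⟨0, 0⟩, 0⟩ 0 0) (.cut .v 134217728 (.cut .v 100663296 (.cut .d 107866 (.cut .d 53933 (.cut .d 26966 (.void 75 ⟨100000, 0, 0, 0, 0, 0, 0, 0, 0, ⟨0, 0⟩, 0⟩ 0 0) (.pos 75 .pp ⟨157025049991, 0, 0, 10747110009, 0, 0, 0, 0, 0, ⟨0, 0⟩, 0⟩ 0 0)) (.pos 75 .pp ⟨0, 131477159357, 0, 0, 0, 0, 0, 0, 0, ⟨0, 0⟩, 0⟩ 0 0)) (.void 75 ⟨0, 0, 0, 100000, 0, 0, 0, 0, 0, ⟨0, 0⟩, 0⟩ 0 0)) (.void 76 ⟨87537, 0, 0, 12463, 0, 0, 0, 0, 0, ⟨0, 0⟩, 0⟩ 0 0)) (.void 74 ⟨0, 0, 0, 100000, 0, 0, 0, 0, 0, ⟨0, 0⟩, 0⟩ 0 0))) (.void 91 ⟨0, 0, 0, 100000, 0, 0, 0, 0, 0, ⟨0, 0⟩, 0⟩ 0 0)) (.void 156 ⟨0, 0, 0, 100000, 0, 0, 0, 0, 0, ⟨0, 0⟩, 0⟩ 0 0)))),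
    by decide +kernel⟩

def covers36 : cell.Covers table row36.1 :=
  ⟨(.cut .d 0 (.cut .v 16777216 (.cut .d (-8388608) (.void 1 ⟨0, 0, 99922, 0, 0, 0, 0, 0, 0, ⟨0, 0⟩, 0⟩ 0 0) (.cut .v 8388608 (.void 2 ⟨0, 0, 100482, 0, 0, 0, 0, 0, 0, ⟨0, 0⟩, 0⟩ 0 0) (.cut .d (-4194304) (.void 3 ⟨100000, 0, 0, 0, 0, 0, 0, 0, 0, ⟨0, 0⟩, 0⟩ 0 0) (.pos 3 .mm ⟨0, 0, 8745176608, 0, 0, 156217444670, 0, 0, 0, ⟨0, 0⟩, 0⟩ 0 0)))) (.cut .v 4294967296 (.cut .v 268435456 (.cut .v 67108864 (.cut .d (-8388608) (.void 58 ⟨100000, 0, 0, 0, 0, 0, 0, 0, 0, ⟨0, 0⟩, 0⟩ 0 0) (.cut .d (-4194304) (.void 58 ⟨100000, 0, 0, 0, 0, 0, 0, 0, 0, ⟨0, 0⟩, 0⟩ 0 0) (.cut .v 33554432 (.cut .d (-2097152) (.void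 18 ⟨100000, 0, 0, 0, 0, 0, 0, 0, 0, ⟨0, 0⟩, 0⟩ 0 0) (.pos 18 .mp ⟨93732676737, 0, 0, 0, 0, 74039483263, 0, 0, 0, ⟨0, 0⟩, 0⟩ 0 0)) (.void 59 ⟨100000, 0, 0, 0, 0, 0, 0, 0, 0, ⟨0, 0⟩, 0⟩ 0 0)))) (.void 72 ⟨100000, 0, 0, 0, 0, 0, 0, 0, 0, ⟨0, 0⟩, 0⟩ 0 0)) (.void 91 ⟨93434, 0, 0, 6566, 0, 0, 0, 0, 0, ⟨0, 0⟩, 0⟩ 0 0)) (.void 156 ⟨93382, 0, 0, 6618, 0, 0, 0, 0, 0, ⟨0, 0⟩, 0⟩ 0 0))) (.cut .v 16777216 (.cut .v 8388608 (.cut .v 4194304 (.cut .v 2097152 (.cut .v 1048576 (.cut .v 524288 (.cut .v 262144 (.cut .v 131072 (.cut .v 65536 (.cut .v 32768 (.cut .v 16384 (.pos 159 .pm ⟨0, 0, 57528481, 0, 0, 0, 0, 0, 0, ⟨0, 0⟩, 0⟩ 0 0) (.pos 160 .pm ⟨0, 0, 130519855, 0, 0, 0, 0,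 0, 0, ⟨0, 0⟩, 0⟩ 0 0)) (.pos 158 .pm ⟨0, 0, 233137406, 0, 0, 0, 0, 0, 0, ⟨0, 0⟩, 0⟩ 0 0)) (.pos 147 .pm ⟨0, 0, 418206143, 0, 0, 0, 0, 0, 0, ⟨0, 0⟩, 0⟩ 0 0)) (.pos 141 .pm ⟨0, 0, 752540682, 0, 0, 0, 0, 0, 0, ⟨0, 0⟩, 0⟩ 0 0)) (.pos 133 .pm ⟨0, 0, 1358657990, 0, 0, 0, 0, 0, 0, ⟨0, 0⟩, 0⟩ 0 0)) (.pos 123 .pm ⟨0, 0, 2441747605, 0, 0, 0, 0, 0, 0, ⟨0, 0⟩, 0⟩ 0 0)) (.pos 97 .pm ⟨0, 0, 4471058392, 0, 0, 0, 0, 0, 0, ⟨0, 0⟩, 0⟩ 0 0)) (.pos 84 .pm ⟨0, 0, 8486479905, 0, 0, 0, 0, 0, 0, ⟨0, 0⟩, 0⟩ 0 0)) (.pos 5 .pm ⟨0, 0, 18588321590, 0, 0, 0, 0, 0, 0, ⟨0, 0⟩, 0⟩ 0 0)) (.pos 3 .pm ⟨0, 0, 8745176608, 0, 0, 0, 0, 0, 0, ⟨0, 0⟩, 0⟩ 0 0)) (.cut .v 4294967296 (.cut .v 268435456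 (.cut .v 67108864 (.pos 58 .pp ⟨29766752796, 0, 0, 0, 0, 0, 0, 0, 0, ⟨0, 0⟩, 0⟩ 0 0) (.cut .v 134217728 (.cut .v 100663296 (.cut .d 82729 (.cut .d 41364 (.cut .d 20682 (.void 75 ⟨100000, 0, 0, 0, 0, 0, 0, 0, 0, ⟨0, 0⟩, 0⟩ 0 0) (.cut .d 31023 (.cut .v 83886080 (.pos 94 .pp ⟨167772160000, 0, 0, 0, 0, 0, 0, 0, 0, ⟨0, 0⟩, 0⟩ 0 0) (.cut .v 92274688 (.pos 128 .pp ⟨167772160000, 0, 0, 0, 0, 0, 0, 0, 0, ⟨0, 0⟩, 0⟩ 0 0) (.void 129 ⟨87569, 0, 0, 12431, 0, 0, 0, 0, 0, ⟨0, 0⟩, 0⟩ 0 0))) (.pos 75 .pp ⟨154534426035, 0, 0, 13237733965, 0, 0, 0, 0, 0, ⟨0, 0⟩, 0⟩ 0 0))) (.pos 75 .pp ⟨0, 164585082239, 0, 3187077761, 0, 0, 0, 0, 0, ⟨0, 0⟩, 0⟩ 0 0)) (.void 75 ⟨0, 0, 0, 100000,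 0, 0, 0, 0, 0, ⟨0, 0⟩, 0⟩ 0 0)) (.void 76 ⟨87532, 0, 0, 12468, 0, 0, 0, 0, 0, ⟨0, 0⟩, 0⟩ 0 0)) (.void 74 ⟨0, 0, 0, 100000, 0, 0, 0, 0, 0, ⟨0, 0⟩, 0⟩ 0 0))) (.void 91 ⟨0, 0, 0, 100000, 0, 0, 0, 0, 0, ⟨0, 0⟩, 0⟩ 0 0)) (.void 156 ⟨0, 0, 0, 100000, 0, 0, 0, 0, 0, ⟨0, 0⟩, 0⟩ 0 0)))),
    by decide +kernel⟩

def covers37 : cell.Covers table row37.1 :=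
  ⟨(.cut .d 0 (.cut .v 16777216 (.cut .d (-8388608) (.void 1 ⟨0, 0, 0, 0, 0, 100000, 0, 0, 0, ⟨0, 0⟩, 0⟩ 0 0) (.cut .d (-4194304) (.void 1 ⟨0, 0, 0, 0, 0, 100000, 0, 0, 0, ⟨0, 0⟩, 0⟩ 0 0) (.cut .v 8388608 (.void 2 ⟨0, 0, 100000, 0, 0, 0, 0, 0, 0, ⟨0, 0⟩, 0⟩ 0 0) (.cut .v 12582912 (.pos 6 .mm ⟨0, 0, 12855523288, 0, 0, 134491776796, 0, 0, 0, ⟨0, 0⟩, 0⟩ 0 0) (.pos 7 .mm ⟨38794808673, 0, 0, 0, 0, 128977351327, 0, 0, 0, ⟨0, 0⟩, 0⟩ 0 0))))) (.cut .v 4294967296 (.cut .v 268435456 (.cut .v 67108864 (.cut .d (-8388608) (.void 58 ⟨100000, 0, 0, 0, 0, 0, 0, 0, 0, ⟨0, 0⟩, 0⟩ 0 0) (.cut .d (-4194304) (.void 58 ⟨100000, 0, 0, 0, 0, 0, 0, 0, 0, ⟨0, 0⟩, 0⟩ 0 0) (.cut .v 33554432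 (.cut .d (-2097152) (.void 18 ⟨100000, 0, 0, 0, 0, 0, 0, 0, 0, ⟨0, 0⟩, 0⟩ 0 0) (.pos 18 .mp ⟨152186176917, 0, 0, 0, 0, 15585983083, 0, 0, 0, ⟨0, 0⟩, 0⟩ 0 0)) (.void 59 ⟨100000, 0, 0, 0, 0, 0, 0, 0, 0, ⟨0, 0⟩, 0⟩ 0 0)))) (.void 72 ⟨100000, 0, 0, 0, 0, 0, 0, 0, 0, ⟨0, 0⟩, 0⟩ 0 0)) (.void 91 ⟨93374, 0, 0, 6626, 0, 0, 0, 0, 0, ⟨0, 0⟩, 0⟩ 0 0)) (.void 156 ⟨93376, 0, 0, 6624, 0, 0, 0, 0, 0, ⟨0, 0⟩, 0⟩ 0 0))) (.cut .v 16777216 (.cut .v 8388608 (.cut .v 4194304 (.cut .v 2097152 (.cut .v 1048576 (.cut .v 524288 (.cut .v 262144 (.cut .v 131072 (.cut .v 65536 (.cut .v 32768 (.cut .v 16384 (.pos 159 .pm ⟨0, 0, 69382772, 0, 0, 0, 0, 0, 0, ⟨0, 0⟩, 0⟩ 0 0) (.pos 160 .pm ⟨0,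 0, 162320282, 0, 0, 0, 0, 0, 0, ⟨0, 0⟩, 0⟩ 0 0)) (.pos 158 .pm ⟨0, 0, 292554254, 0, 0, 0, 0, 0, 0, ⟨0, 0⟩, 0⟩ 0 0)) (.pos 147 .pm ⟨0, 0, 533129020, 0, 0, 0, 0, 0, 0, ⟨0, 0⟩, 0⟩ 0 0)) (.pos 141 .pm ⟨0, 0, 969241286, 0, 0, 0, 0, 0, 0, ⟨0, 0⟩, 0⟩ 0 0)) (.pos 133 .pm ⟨0, 0, 1762826716, 0, 0, 0, 0, 0, 0, ⟨0, 0⟩, 0⟩ 0 0)) (.pos 123 .pm ⟨0, 0, 3180457009, 0, 0, 0, 0, 0, 0, ⟨0, 0⟩, 0⟩ 0 0)) (.pos 97 .pm ⟨0, 0, 5927711764, 0, 0, 0, 0, 0, 0, ⟨0, 0⟩, 0⟩ 0 0)) (.pos 84 .pm ⟨0, 0, 11520963520, 0, 0, 0, 0, 0, 0, ⟨0, 0⟩, 0⟩ 0 0)) (.pos 5 .pm ⟨0, 0, 27098309006, 0, 0, 0, 0, 0, 0, ⟨0, 0⟩, 0⟩ 0 0)) (.pos 3 .pm ⟨0, 0, 12267589333, 0, 0, 0, 0, 0, 0, ⟨0, 0⟩, 0⟩ 0 0)) (.cut .v 4294967296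 (.cut .v 268435456 (.cut .v 67108864 (.pos 58 .pp ⟨42748194241, 0, 0, 0, 0, 0, 0, 0, 0, ⟨0, 0⟩, 0⟩ 0 0) (.cut .v 134217728 (.cut .v 100663296 (.cut .d 66053 (.cut .d 33026 (.cut .d 16513 (.void 75 ⟨100000, 0, 0, 0, 0, 0, 0, 0, 0, ⟨0, 0⟩, 0⟩ 0 0) (.cut .v 83886080 (.pos 94 .pp ⟨167772160000, 0, 0, 0, 0, 0, 0, 0, 0, ⟨0, 0⟩, 0⟩ 0 0) (.cut .d 24769 (.void 95 ⟨100000, 0, 0, 0, 0, 0, 0, 0, 0, ⟨0, 0⟩, 0⟩ 0 0) (.pos 95 .pp ⟨139499837121, 0, 0, 28272322879, 0, 0, 0, 0, 0, ⟨0, 0⟩, 0⟩ 0 0)))) (.pos 75 .pp ⟨0, 156936330237, 0, 10835829763, 0, 0, 0, 0, 0, ⟨0, 0⟩, 0⟩ 0 0)) (.void 75 ⟨0, 0, 0, 100000, 0, 0, 0, 0, 0, ⟨0, 0⟩, 0⟩ 0 0)) (.void 76 ⟨87532, 0, 0, 12468, 0, 0, 0,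 0, 0, ⟨0, 0⟩, 0⟩ 0 0)) (.void 74 ⟨0, 0, 0, 100000, 0, 0, 0, 0, 0, ⟨0, 0⟩, 0⟩ 0 0))) (.void 91 ⟨0, 0, 0, 100000, 0, 0, 0, 0, 0, ⟨0, 0⟩, 0⟩ 0 0)) (.void 156 ⟨0, 0, 0, 100000, 0, 0, 0, 0, 0, ⟨0, 0⟩, 0⟩ 0 0)))),
    by decide +kernel⟩

def covers38 : cell.Covers table row38.1 :=
  ⟨(.cut .d 0 (.cut .v 16777216 (.cut .d (-8388608) (.void 1 ⟨0, 0, 0, 0, 0, 100000, 0, 0, 0, ⟨0, 0⟩, 0⟩ 0 0) (.cut .v 8388608 (.cut .d (-4194304) (.void 2 ⟨0, 0, 0, 0, 0, 99996, 0, 0, 0, ⟨0, 0⟩, 0⟩ 0 0) (.void 2 ⟨0, 0, 100000, 0, 0, 0, 0, 0, 0, ⟨0, 0⟩, 0⟩ 0 0)) (.cut .d (-4194304) (.void 3 ⟨100000, 0, 0, 0, 0, 0, 0, 0, 0, ⟨0, 0⟩, 0⟩ 0 0) (.cut .d (-2097152) (.void 3 ⟨100000, 0, 0, 0, 0,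 0, 0, 0, 0, ⟨0, 0⟩, 0⟩ 0 0) (.cut .v 12582912 (.pos 6 .mm ⟨15607557731, 0, 20726390690, 0, 0, 131438211579, 0, 0, 0, ⟨0, 0⟩, 0⟩ 0 0) (.pos 7 .mm ⟨84900957727, 0, 0, 0, 0, 82871202273, 0, 0, 0, ⟨0, 0⟩, 0⟩ 0 0)))))) (.cut .v 4294967296 (.cut .v 268435456 (.cut .v 67108864 (.cut .d (-8388608) (.void 58 ⟨100000, 0, 0, 0, 0, 0, 0, 0, 0, ⟨0, 0⟩, 0⟩ 0 0) (.cut .d (-4194304) (.void 58 ⟨100000, 0, 0, 0, 0, 0, 0, 0, 0, ⟨0, 0⟩, 0⟩ 0 0) (.cut .v 33554432 (.cut .d (-2097152) (.void 18 ⟨100000, 0, 0, 0, 0, 0, 0, 0, 0, ⟨0, 0⟩, 0⟩ 0 0) (.cut .d (-1048576) (.void 18 ⟨100000, 0, 0, 0, 0, 0, 0, 0, 0, ⟨0, 0⟩, 0⟩ 0 0) (.cut .v 25165824 (.pos 19 .mp ⟨154215962062, 0, 0, 0, 0, 13556197938,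 0, 0, 0, ⟨0, 0⟩, 0⟩ 0 0) (.void 20 ⟨100000, 0, 0, 0, 0, 0, 0, 0, 0, ⟨0, 0⟩, 0⟩ 0 0)))) (.void 59 ⟨100000, 0, 0, 0, 0, 0, 0, 0, 0, ⟨0, 0⟩, 0⟩ 0 0)))) (.void 72 ⟨100000, 0, 0, 0, 0, 0, 0, 0, 0, ⟨0, 0⟩, 0⟩ 0 0)) (.void 91 ⟨93364, 0, 0, 6636, 0, 0, 0, 0, 0, ⟨0, 0⟩, 0⟩ 0 0)) (.void 156 ⟨93540, 0, 0, 6684, 0, 0, 0, 0, 0, ⟨0, 0⟩, 0⟩ 0 0))) (.cut .v 16777216 (.cut .v 8388608 (.cut .v 4194304 (.cut .v 2097152 (.cut .v 1048576 (.cut .v 524288 (.cut .v 262144 (.cut .v 131072 (.cut .v 65536 (.cut .v 32768 (.cut .v 16384 (.cut .v 8192 (.pos 161 .pm ⟨0, 0, 59117213, 0, 0, 0, 0, 0, 0, ⟨0, 0⟩, 0⟩ 0 0) (.pos 162 .pm ⟨0, 0, 137024739, 0, 0, 0, 0, 0, 0, ⟨0, 0⟩, 0⟩ 0 0)) (.pos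 160 .pm ⟨0, 0, 247073374, 0, 0, 0, 0, 0, 0, ⟨0, 0⟩, 0⟩ 0 0)) (.pos 158 .pm ⟨0, 0, 441761020, 0, 0, 0, 0, 0, 0, ⟨0, 0⟩, 0⟩ 0 0)) (.pos 147 .pm ⟨0, 0, 799628013, 0, 0, 0, 0, 0, 0, ⟨0, 0⟩, 0⟩ 0 0)) (.pos 141 .pm ⟨0, 0, 1451419081, 0, 0, 0, 0, 0, 0, ⟨0, 0⟩, 0⟩ 0 0)) (.pos 133 .pm ⟨0, 0, 2629979896, 0, 0, 0, 0, 0, 0, ⟨0, 0⟩, 0⟩ 0 0)) (.pos 123 .pm ⟨0, 0, 4761567200, 0, 0, 0, 0, 0, 0, ⟨0, 0⟩, 0⟩ 0 0)) (.pos 97 .pm ⟨0, 0, 8772968938, 0, 0, 0, 0, 0, 0, ⟨0, 0⟩, 0⟩ 0 0)) (.pos 84 .pm ⟨0, 0, 16252783412, 0, 0, 0, 0, 0, 0, ⟨0, 0⟩, 0⟩ 0 0)) (.pos 5 .pm ⟨0, 0, 32273888922, 0, 0, 0, 0, 0, 0, ⟨0, 0⟩, 0⟩ 0 0)) (.pos 3 .pm ⟨0, 0, 15017516830, 0, 0, 0, 0, 0, 0, ⟨0, 0⟩, 0⟩ 0 0))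 (.cut .v 4294967296 (.cut .v 268435456 (.cut .v 67108864 (.pos 58 .pp ⟨56483170804, 0, 0, 0, 0, 0, 0, 0, 0, ⟨0, 0⟩, 0⟩ 0 0) (.cut .v 134217728 (.cut .v 100663296 (.cut .d 57740 (.cut .d 28870 (.cut .d 14435 (.void 75 ⟨100000, 0, 0, 0, 0, 0, 0, 0, 0, ⟨0, 0⟩, 0⟩ 0 0) (.cut .v 83886080 (.pos 94 .pp ⟨167772160000, 0, 0, 0, 0, 0, 0, 0, 0, ⟨0, 0⟩, 0⟩ 0 0) (.cut .v 92274688 (.cut .d 21652 (.cut .d 18043 (.void 128 ⟨100000, 0, 0, 0, 0, 0, 0, 0, 0, ⟨0, 0⟩, 0⟩ 0 0) (.pos 128 .pp ⟨167772160000, 0, 0, 0, 0, 0, 0, 0, 0, ⟨0, 0⟩, 0⟩ 0 0)) (.pos 128 .pp ⟨167772160000, 0, 0, 0, 0, 0, 0, 0, 0, ⟨0, 0⟩, 0⟩ 0 0)) (.void 129 ⟨87539, 0, 0, 12461, 0, 0, 0, 0, 0, ⟨0, 0⟩, 0⟩ 0 0))))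 (.pos 75 .pp ⟨0, 150629783171, 0, 17142376829, 0, 0, 0, 0, 0, ⟨0, 0⟩, 0⟩ 0 0)) (.void 75 ⟨0, 0, 0, 100000, 0, 0, 0, 0, 0, ⟨0, 0⟩, 0⟩ 0 0)) (.void 76 ⟨87031, 0, 0, 12969, 0, 0, 0, 0, 0, ⟨0, 0⟩, 0⟩ 0 0)) (.void 74 ⟨87031, 0, 0, 12969, 0, 0, 0, 0, 0, ⟨0, 0⟩, 0⟩ 0 0))) (.void 91 ⟨87031, 0, 0, 12969, 0, 0, 0, 0, 0, ⟨0, 0⟩, 0⟩ 0 0)) (.void 156 ⟨87031, 0, 0, 12969, 0, 0, 0, 0, 0, ⟨0, 0⟩, 0⟩ 0 0)))),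
    by decide +kernel⟩

def covers39 : cell.Covers table row39.1 :=
  ⟨(.cut .d 0 (.cut .v 16777216 (.cut .d (-8388608) (.void 1 ⟨0, 0, 0, 0, 0, 100000, 0, 0, 0, ⟨0, 0⟩, 0⟩ 0 0) (.cut .d (-4194304) (.void 1 ⟨0, 0, 0, 0, 0, 1000000000, 0, 0, 0, ⟨0, 0⟩, 0⟩ 0 0) (.cut .d (-2097152) (.void 1 ⟨0, 0, 0, 0, 0, 100000, 0, 0, 0, ⟨0, 0⟩, 0⟩ 0 0) (.cut .v 8388608 (.void 2 ⟨0, 0, 100000, 0, 0, 0, 0, 0, 0, ⟨0, 0⟩, 0⟩ 0 0) (.cut .d (-1048576) (.void 3 ⟨100000, 0, 0, 0, 0, 0, 0, 0, 0, ⟨0, 0⟩, 0⟩ 0 0) (.cut .v 12582912 (.pos 6 .mm ⟨53187940019, 0, 43199156742, 0, 0, 71385063240, 0, 0, 0, ⟨0, 0⟩, 0⟩ 0 0) (.pos 7 .mm ⟨129723055977, 0, 0, 0, 0, 38049104023, 0, 0, 0, ⟨0, 0⟩, 0⟩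 0 0))))))) (.cut .v 4294967296 (.cut .v 268435456 (.cut .v 67108864 (.cut .d (-8388608) (.void 58 ⟨100000, 0, 0, 0, 0, 0, 0, 0, 0, ⟨0, 0⟩, 0⟩ 0 0) (.cut .d (-4194304) (.void 58 ⟨100000, 0, 0, 0, 0, 0, 0, 0, 0, ⟨0, 0⟩, 0⟩ 0 0) (.cut .d (-2097152) (.void 58 ⟨100000, 0, 0, 0, 0, 0, 0, 0, 0, ⟨0, 0⟩, 0⟩ 0 0) (.cut .v 33554432 (.cut .d (-1048576) (.void 18 ⟨100000, 0, 0, 0, 0, 0, 0, 0, 0, ⟨0, 0⟩, 0⟩ 0 0) (.cut .d (-524288) (.void 18 ⟨100000, 0, 0, 0, 0, 0, 0, 0, 0, ⟨0, 0⟩, 0⟩ 0 0) (.cut .v 25165824 (.cut .v 20971520 (.pos 21 .mp ⟨167772160000, 0, 0, 0, 0, 0, 0, 0, 0, ⟨0, 0⟩, 0⟩ 0 0) (.void 22 ⟨100000, 0, 0, 0, 0, 0, 0, 0, 0, ⟨0, 0⟩, 0⟩ 0 0)) (.void 20 ⟨100000, 0,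 0, 0, 0, 0, 0, 0, 0, ⟨0, 0⟩, 0⟩ 0 0)))) (.void 59 ⟨100000, 0, 0, 0, 0, 0, 0, 0, 0, ⟨0, 0⟩, 0⟩ 0 0))))) (.void 72 ⟨100000, 0, 0, 0, 0, 0, 0, 0, 0, ⟨0, 0⟩, 0⟩ 0 0)) (.void 91 ⟨93358, 0, 0, 6642, 0, 0, 0, 0, 0, ⟨0, 0⟩, 0⟩ 0 0)) (.void 156 ⟨93248, 0, 0, 6752, 0, 0, 0, 0, 0, ⟨0, 0⟩, 0⟩ 0 0))) (.cut .v 16777216 (.cut .v 8388608 (.cut .v 4194304 (.cut .v 2097152 (.cut .v 1048576 (.cut .v 524288 (.cut .v 262144 (.cut .v 131072 (.cut .v 65536 (.cut .v 32768 (.cut .v 16384 (.cut .v 8192 (.cut .v 4096 (.pos 163 .pm ⟨0, 0, 48921808, 0, 0, 0, 0, 0, 0, ⟨0, 0⟩, 0⟩ 0 0) (.pos 164 .pm ⟨0, 0, 109078693, 0, 0, 0, 0, 0, 0, ⟨0, 0⟩, 0⟩ 0 0)) (.pos 162 .pm ⟨0, 0, 194856369, 0, 0,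 0, 0, 0, 0, ⟨0, 0⟩, 0⟩ 0 0)) (.pos 160 .pm ⟨0, 0, 357481991, 0, 0, 0, 0, 0, 0, ⟨0, 0⟩, 0⟩ 0 0)) (.pos 158 .pm ⟨0, 0, 656437103, 0, 0, 0, 0, 0, 0, ⟨0, 0⟩, 0⟩ 0 0)) (.pos 147 .pm ⟨0, 0, 1205201606, 0, 0, 0, 0, 0, 0, ⟨0, 0⟩, 0⟩ 0 0)) (.pos 141 .pm ⟨0, 0, 2211893259, 0, 0, 0, 0, 0, 0, ⟨0, 0⟩, 0⟩ 0 0)) (.pos 133 .pm ⟨0, 0, 4050891126, 0, 0, 0, 0, 0, 0, ⟨0, 0⟩, 0⟩ 0 0)) (.pos 123 .pm ⟨0, 0, 7345047303, 0, 0, 0, 0, 0, 0, ⟨0, 0⟩, 0⟩ 0 0)) (.pos 97 .pm ⟨0, 0, 13643535540, 0, 0, 0, 0, 0, 0, ⟨0, 0⟩, 0⟩ 0 0)) (.pos 84 .pm ⟨0, 0, 26068438974, 0, 0, 0, 0, 0, 0, ⟨0, 0⟩, 0⟩ 0 0)) (.pos 5 .pm ⟨0, 0, 58546407285, 0, 0, 0, 0, 0, 0, ⟨0, 0⟩, 0⟩ 0 0)) (.pos 3 .pm ⟨0, 0, 24979866280,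 0, 0, 0, 0, 0, 0, ⟨0, 0⟩, 0⟩ 0 0)) (.cut .v 4294967296 (.cut .v 268435456 (.cut .v 67108864 (.pos 58 .pp ⟨97182194313, 0, 0, 0, 0, 0, 0, 0, 0, ⟨0, 0⟩, 0⟩ 0 0) (.cut .v 134217728 (.cut .v 100663296 (.cut .d 41162 (.cut .d 20581 (.cut .d 10290 (.void 75 ⟨1000000000, 0, 0, 0, 0, 0, 0, 0, 0, ⟨0, 0⟩, 0⟩ 0 0) (.cut .v 83886080 (.pos 94 .pp ⟨167772160000, 0, 0, 0, 0, 0, 0, 0, 0, ⟨0, 0⟩, 0⟩ 0 0) (.cut .v 92274688 (.cut .d 15435 (.cut .d 12862 (.void 128 ⟨1000000000, 0, 0, 0, 0, 0, 0, 0, 0, ⟨0, 0⟩, 0⟩ 0 0) (.cut .d 14148 (.void 128 ⟨100000, 0, 0, 0, 0, 0, 0, 0, 0, ⟨0, 0⟩, 0⟩ 0 0) (.cut .s 16703488 (.void 128 ⟨100000, 0, 0, 0, 0, 0, 0, 0, 0, ⟨0, 0⟩, 0⟩ 0 0) (.cut .s 16707584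 (.void 128 ⟨100000, 0, 0, 0, 0, 0, 0, 0, 0, ⟨0, 0⟩, 0⟩ 0 0) (.pos 128 .pp ⟨167772160000, 0, 0, 0, 0, 0, 0, 0, 0, ⟨0, 0⟩, 0⟩ 0 0))))) (.pos 128 .pp ⟨167772160000, 0, 0, 0, 0, 0, 0, 0, 0, ⟨0, 0⟩, 0⟩ 0 0)) (.void 129 ⟨87533, 0, 0, 12467, 0, 0, 0, 0, 0, ⟨0, 0⟩, 0⟩ 0 0)))) (.pos 75 .pp ⟨0, 127693603483, 0, 40078556517, 0, 0, 0, 0, 0, ⟨0, 0⟩, 0⟩ 0 0)) (.void 75 ⟨0, 0, 0, 100000, 0, 0, 0, 0, 0, ⟨0, 0⟩, 0⟩ 0 0)) (.void 76 ⟨87516, 0, 0, 12484, 0, 0, 0, 0, 0, ⟨0, 0⟩, 0⟩ 0 0)) (.void 74 ⟨0, 0, 0, 100000, 0, 0, 0, 0, 0, ⟨0, 0⟩, 0⟩ 0 0))) (.void 91 ⟨0, 0, 0, 100000, 0, 0, 0, 0, 0, ⟨0, 0⟩, 0⟩ 0 0)) (.void 156 ⟨0, 0, 0, 100000, 0, 0, 0, 0, 0, ⟨0, 0⟩, 0⟩ 0 0)))),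
    by decide +kernel⟩

def covers40 : cell.Covers table row40.1 :=
  ⟨(.cut .d 0 (.cut .v 16777216 (.cut .d (-8388608) (.void 1 ⟨0, 0, 0, 0, 0, 1000000000, 0, 0, 0, ⟨0, 0⟩, 0⟩ 0 0) (.cut .d (-4194304) (.void 1 ⟨0, 0, 0, 0, 0, 155570, 0, 0, 0, ⟨0, 0⟩, 0⟩ 0 0) (.cut .d (-2097152) (.void 1 ⟨0, 0, 0, 0, 0, 1000000000, 0, 0, 0, ⟨0, 0⟩, 0⟩ 0 0) (.cut .d (-1048576) (.void 1 ⟨0, 0, 0, 0, 0, 1000000000, 0, 0, 0, ⟨0, 0⟩, 0⟩ 0 0) (.cut .v 8388608 (.void 2 ⟨0, 0, 100000, 0, 0, 0, 0, 0, 0, ⟨0, 0⟩, 0⟩ 0 0) (.cut .d (-524288) (.void 3 ⟨1000000000, 0, 0, 0, 0, 0, 0, 0, 0, ⟨0, 0⟩, 0⟩ 0 0) (.cut .d (-262144) (.void 3 ⟨1000000000, 0, 0, 0, 0, 0, 0, 0, 0, ⟨0, 0⟩, 0⟩ 0 0) (.pos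 3 .mm ⟨96110853628, 0, 60993957984, 0, 0, 10667348388, 0, 0, 0, ⟨0, 0⟩, 0⟩ 0 0)))))))) (.cut .v 4294967296 (.cut .d (-8388608) (.void 90 ⟨1000000000, 0, 0, 0, 0, 0, 0, 0, 0, ⟨0, 0⟩, 0⟩ 0 0) (.cut .v 268435456 (.cut .v 67108864 (.cut .d (-4194304) (.void 58 ⟨1000000000, 0, 0, 0, 0, 0, 0, 0, 0, ⟨0, 0⟩, 0⟩ 0 0) (.cut .d (-2097152) (.void 58 ⟨1000000000, 0, 0, 0, 0, 0, 0, 0, 0, ⟨0, 0⟩, 0⟩ 0 0) (.cut .v 33554432 (.cut .d (-1048576) (.void 18 ⟨1000000000, 0, 0, 0, 0, 0, 0, 0, 0, ⟨0, 0⟩, 0⟩ 0 0) (.cut .d (-524288) (.void 18 ⟨1000000000, 0, 0, 0, 0, 0, 0, 0, 0, ⟨0, 0⟩, 0⟩ 0 0) (.cut .d (-262144) (.void 18 ⟨1000000000, 0, 0, 0, 0, 0, 0, 0, 0, ⟨0, 0⟩, 0⟩ 0 0) (.cut .v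 25165824 (.cut .v 20971520 (.pos 21 .mp ⟨161865869351, 0, 0, 0, 0, 5906290649, 0, 0, 0, ⟨0, 0⟩, 0⟩ 0 0) (.void 22 ⟨964795764, 0, 0, 0, 0, 35204236, 0, 0, 0, ⟨0, 0⟩, 0⟩ 0 0)) (.void 20 ⟨964795764, 0, 0, 0, 0, 35204236, 0, 0, 0, ⟨0, 0⟩, 0⟩ 0 0))))) (.void 59 ⟨964795764, 0, 0, 0, 0, 35204236, 0, 0, 0, ⟨0, 0⟩, 0⟩ 0 0)))) (.void 72 ⟨964795764, 0, 0, 0, 0, 35204236, 0, 0, 0, ⟨0, 0⟩, 0⟩ 0 0)) (.void 91 ⟨964795764, 0, 0, 0, 0, 35204236, 0, 0, 0, ⟨0, 0⟩, 0⟩ 0 0))) (.void 156 ⟨93352, 0, 0, 6648, 0, 0, 0, 0, 0, ⟨0, 0⟩, 0⟩ 0 0))) (.cut .v 16777216 (.cut .v 8388608 (.cut .v 4194304 (.cut .v 2097152 (.cut .v 1048576 (.cut .v 524288 (.cut .v 262144 (.cut .v 131072 (.cut .v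 65536 (.cut .v 32768 (.cut .v 16384 (.cut .v 8192 (.pos 161 .pm ⟨0, 0, 86523560, 0, 0, 0, 0, 0, 0, ⟨0, 0⟩, 0⟩ 0 0) (.pos 162 .pm ⟨0, 0, 209990076, 0, 0, 0, 0, 0, 0, ⟨0, 0⟩, 0⟩ 0 0)) (.pos 160 .pm ⟨0, 0, 383517515, 0, 0, 0, 0, 0, 0, ⟨0, 0⟩, 0⟩ 0 0)) (.pos 158 .pm ⟨0, 0, 707385594, 0, 0, 0, 0, 0, 0, ⟨0, 0⟩, 0⟩ 0 0)) (.pos 147 .pm ⟨0, 0, 1307726191, 0, 0, 0, 0, 0, 0, ⟨0, 0⟩, 0⟩ 0 0)) (.pos 141 .pm ⟨0, 0, 2414451057, 0, 0, 0, 0, 0, 0, ⟨0, 0⟩, 0⟩ 0 0)) (.pos 133 .pm ⟨0, 0, 4453146213, 0, 0, 0, 0, 0, 0, ⟨0, 0⟩, 0⟩ 0 0)) (.pos 123 .pm ⟨0, 0, 8254466268, 0, 0, 0, 0, 0, 0, ⟨0, 0⟩, 0⟩ 0 0)) (.pos 97 .pm ⟨0, 0, 15809056115, 0, 0, 0, 0, 0, 0, ⟨0, 0⟩, 0⟩ 0 0)) (.pos 84 .pm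 ⟨0, 0, 32062841556, 0, 0, 0, 0, 0, 0, ⟨0, 0⟩, 0⟩ 0 0)) (.pos 5 .pm ⟨0, 0, 83686852107, 0, 0, 0, 0, 0, 0, ⟨0, 0⟩, 0⟩ 0 0)) (.pos 3 .pm ⟨0, 0, 34987309076, 0, 0, 0, 0, 0, 0, ⟨0, 0⟩, 0⟩ 0 0)) (.cut .v 4294967296 (.cut .v 268435456 (.cut .v 67108864 (.pos 58 .pp ⟨132110271387, 0, 0, 0, 0, 0, 0, 0, 0, ⟨0, 0⟩, 0⟩ 0 0) (.cut .v 134217728 (.cut .v 100663296 (.cut .s 16719872 (.cut .s 16715776 (.cut .s 16713728 (.cut .d 32898 (.cut .d 16449 (.cut .d 8224 (.void 75 ⟨100000, 0, 0, 0, 0, 0, 0, 0, 0, ⟨0, 0⟩, 0⟩ 0 0) (.cut .s 16712704 (.cut .d 12336 (.void 75 ⟨100000, 0, 0, 0, 0, 0, 0, 0, 0, ⟨0, 0⟩, 0⟩ 0 0) (.cut .v 83886080 (.pos 94 .pp ⟨167772160000, 0, 0, 0, 0, 0, 0, 0,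 0, ⟨0, 0⟩, 0⟩ 0 0) (.cut .d 14392 (.void 95 ⟨100000, 0, 0, 0, 0, 0, 0, 0, 0, ⟨0, 0⟩, 0⟩ 0 0) (.pos 95 .pp ⟨74373175626, 0, 0, 93398984374, 0, 0, 0, 0, 0, ⟨0, 0⟩, 0⟩ 0 0)))) (.pos 75 .pp ⟨167772160000, 0, 0, 0, 0, 0, 0, 0, 0, ⟨0, 0⟩, 0⟩ 0 0))) (.pos 75 .pp ⟨0, 0, 0, 71530701906, 0, 0, 0, 0, 0, ⟨0, 0⟩, 0⟩ 0 0)) (.void 75 ⟨0, 0, 0, 100000, 0, 0, 0, 0, 0, ⟨0, 0⟩, 0⟩ 0 0)) (.pos 75 .pp ⟨167772160000, 0, 0, 0, 0, 0, 0, 0, 0, ⟨0, 0⟩, 0⟩ 0 0)) (.pos 75 .pp ⟨167772160000, 0, 0, 0, 0, 0, 0, 0, 0, ⟨0, 0⟩, 0⟩ 0 0)) (.pos 75 .pp ⟨167772160000, 0, 0, 0, 0, 0, 0, 0, 0, ⟨0, 0⟩, 0⟩ 0 0)) (.void 76 ⟨87511, 0, 0, 12489, 0, 0, 0, 0, 0, ⟨0, 0⟩, 0⟩ 0 0)) (.void 74 ⟨0, 0, 0, 100000,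 0, 0, 0, 0, 0, ⟨0, 0⟩, 0⟩ 0 0))) (.void 91 ⟨0, 0, 0, 100000, 0, 0, 0, 0, 0, ⟨0, 0⟩, 0⟩ 0 0)) (.void 156 ⟨0, 0, 0, 100000, 0, 0, 0, 0, 0, ⟨0, 0⟩, 0⟩ 0 0)))),
    by decide +kernel⟩

def covers41 : cell.Covers table row41.1 :=
  ⟨(.cut .d 0 (.cut .v 16777216 (.cut .d (-8388608) (.void 1 ⟨0, 0, 100000, 0, 0, 0, 0, 0, 0, ⟨0, 0⟩, 0⟩ 0 0) (.cut .d (-4194304) (.void 1 ⟨0, 0, 0, 0, 0, 100000, 0, 0, 0, ⟨0, 0⟩, 0⟩ 0 0) (.cut .d (-2097152) (.void 1 ⟨0, 0, 0, 0, 0, 100000, 0, 0, 0, ⟨0, 0⟩, 0⟩ 0 0) (.cut .d (-1048576) (.void 1 ⟨0, 0, 0, 0, 0, 100000, 0, 0, 0, ⟨0, 0⟩, 0⟩ 0 0) (.cut .d (-524288) (.void 1 ⟨0, 0, 0, 0, 0, 100000, 0, 0, 0, ⟨0, 0⟩, 0⟩ 0 0) (.cut .d (-262144) (.void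 1 ⟨0, 0, 0, 0, 0, 100000, 0, 0, 0, ⟨0, 0⟩, 0⟩ 0 0) (.cut .d (-131072) (.void 1 ⟨0, 0, 0, 0, 0, 100000, 0, 0, 0, ⟨0, 0⟩, 0⟩ 0 0) (.cut .d (-65536) (.void 1 ⟨0, 0, 100000, 0, 0, 0, 0, 0, 0, ⟨0, 0⟩, 0⟩ 0 0) (.cut .v 8388608 (.void 2 ⟨0, 0, 179512, 0, 0, 0, 0, 0, 0, ⟨0, 0⟩, 0⟩ 0 0) (.pos 3 .mm ⟨167772160000, 0, 0, 0, 0, 0, 0, 0, 0, ⟨0, 0⟩, 0⟩ 0 0)))))))))) (.cut .v 4294967296 (.cut .v 268435456 (.cut .d (-8388608) (.void 71 ⟨0, 0, 0, 0, 0, 1000000000, 0, 0, 0, ⟨0, 0⟩, 0⟩ 0 0) (.cut .v 67108864 (.cut .d (-4194304) (.void 58 ⟨1000000000, 0, 0, 0, 0, 0, 0, 0, 0, ⟨0, 0⟩, 0⟩ 0 0) (.cut .d (-2097152) (.void 58 ⟨1000000000, 0, 0, 0, 0, 0, 0, 0, 0, ⟨0, 0⟩, 0⟩ 0 0) (.cut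 .d (-1048576) (.void 58 ⟨1000000000, 0, 0, 0, 0, 0, 0, 0, 0, ⟨0, 0⟩, 0⟩ 0 0) (.cut .v 33554432 (.cut .d (-524288) (.void 18 ⟨1000000000, 0, 0, 0, 0, 0, 0, 0, 0, ⟨0, 0⟩, 0⟩ 0 0) (.cut .d (-262144) (.void 18 ⟨1000000000, 0, 0, 0, 0, 0, 0, 0, 0, ⟨0, 0⟩, 0⟩ 0 0) (.cut .d (-131072) (.void 18 ⟨1000000000, 0, 0, 0, 0, 0, 0, 0, 0, ⟨0, 0⟩, 0⟩ 0 0) (.cut .d (-65536) (.void 18 ⟨1000000000, 0, 0, 0, 0, 0, 0, 0, 0, ⟨0, 0⟩, 0⟩ 0 0) (.pos 18 .mp ⟨167772160000, 0, 0, 0, 0, 0, 0, 0, 0, ⟨0, 0⟩, 0⟩ 0 0))))) (.void 59 ⟨1000000000, 0, 0, 0, 0, 0, 0, 0, 0, ⟨0, 0⟩, 0⟩ 0 0))))) (.void 72 ⟨1000000000, 0, 0, 0, 0, 0, 0, 0, 0, ⟨0, 0⟩, 0⟩ 0 0))) (.void 91 ⟨93057, 0, 0, 6623, 0, 0, 0, 0,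 0, ⟨0, 0⟩, 0⟩ 0 0)) (.void 156 ⟨93057, 0, 0, 6623, 0, 0, 0, 0, 0, ⟨0, 0⟩, 0⟩ 0 0))) (.cut .v 16777216 (.cut .v 8388608 (.cut .d 24649 (.pos 2 .pm ⟨0, 0, 120663420430, 0, 0, 0, 0, 0, 0, ⟨0, 0⟩, 0⟩ 0 0) (.pos 2 .pm ⟨0, 0, 15172285, 0, 0, 0, 0, 0, 0, ⟨0, 0⟩, 0⟩ 0 0)) (.pos 3 .pm ⟨0, 0, 167772160000, 0, 0, 0, 0, 0, 0, ⟨0, 0⟩, 0⟩ 0 0)) (.cut .v 4294967296 (.cut .v 268435456 (.cut .v 67108864 (.pos 58 .pp ⟨0, 0, 0, 0, 0, 0, 0, 0, 0, ⟨0, 0⟩, 0⟩ 0 0) (.cut .s 16736256 (.pos 72 .pp ⟨0, 0, 0, 167772160000, 0, 0, 0, 0, 0, ⟨0, 0⟩, 0⟩ 0 0) (.cut .v 134217728 (.pos 73 .pp ⟨167772160000, 0, 0, 0, 0, 0, 0, 0, 0, ⟨0, 0⟩, 0⟩ 0 0) (.void 74 ⟨0, 0, 0, 100000, 0, 0, 0, 0, 0, ⟨0,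 0⟩, 0⟩ 0 0)))) (.void 91 ⟨0, 0, 0, 100000, 0, 0, 0, 0, 0, ⟨0, 0⟩, 0⟩ 0 0)) (.void 156 ⟨0, 0, 0, 100000, 0, 0, 0, 0, 0, ⟨0, 0⟩, 0⟩ 0 0)))),
    by decide +kernel⟩

def covers42 : cell.Covers table row42.1 :=
  ⟨(.cut .d 0 (.cut .v 16777216 (.cut .d (-8388608) (.void 1 ⟨0, 0, 100000, 0, 0, 0, 0, 0, 0, ⟨0, 0⟩, 0⟩ 0 0) (.cut .d (-4194304) (.void 1 ⟨0, 0, 0, 0, 0, 100000, 0, 0, 0, ⟨0, 0⟩, 0⟩ 0 0) (.cut .d (-2097152) (.void 1 ⟨0, 0, 0, 0, 0, 100000, 0, 0, 0, ⟨0, 0⟩, 0⟩ 0 0) (.cut .d (-1048576) (.void 1 ⟨0, 0, 949, 0, 0, 99051, 0, 0, 0, ⟨0, 0⟩, 0⟩ 0 0) (.cut .d (-524288) (.void 1 ⟨0, 0, 567, 0, 0, 99433, 0, 0, 0, ⟨0, 0⟩, 0⟩ 0 0) (.cut .d (-262144) (.void 1 ⟨0, 0, 376,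 0, 0, 99624, 0, 0, 0, ⟨0, 0⟩, 0⟩ 0 0) (.cut .d (-131072) (.void 1 ⟨0, 0, 195, 0, 0, 99805, 0, 0, 0, ⟨0, 0⟩, 0⟩ 0 0) (.cut .d (-65536) (.void 1 ⟨0, 0, 0, 0, 0, 100000, 0, 0, 0, ⟨0, 0⟩, 0⟩ 0 0) (.cut .d (-32768) (.void 1 ⟨0, 0, 208, 0, 0, 99792, 0, 0, 0, ⟨0, 0⟩, 0⟩ 0 0) (.cut .v 8388608 (.void 2 ⟨0, 0, 100000, 0, 0, 0, 0, 0, 0, ⟨0, 0⟩, 0⟩ 0 0) (.cut .d (-16384) (.void 3 ⟨100000, 0, 0, 0, 0, 0, 0, 0, 0, ⟨0, 0⟩, 0⟩ 0 0) (.pos 3 .mm ⟨167772160000, 0, 0, 0, 0, 0, 0, 0, 0, ⟨0, 0⟩, 0⟩ 0 0)))))))))))) (.cut .d (-8388608) (.void 155 ⟨100000, 0, 0, 0, 0, 0, 0, 0, 0, ⟨0, 0⟩, 0⟩ 0 0) (.cut .v 4294967296 (.cut .v 268435456 (.cut .v 67108864 (.cut .d (-4194304) (.void 58 ⟨100000,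 0, 0, 0, 0, 0, 0, 0, 0, ⟨0, 0⟩, 0⟩ 0 0) (.cut .d (-2097152) (.void 58 ⟨100000, 0, 0, 0, 0, 0, 0, 0, 0, ⟨0, 0⟩, 0⟩ 0 0) (.cut .d (-1048576) (.void 58 ⟨100000, 0, 0, 0, 0, 0, 0, 0, 0, ⟨0, 0⟩, 0⟩ 0 0) (.cut .v 33554432 (.cut .d (-524288) (.void 18 ⟨100000, 0, 0, 0, 0, 0, 0, 0, 0, ⟨0, 0⟩, 0⟩ 0 0) (.cut .d (-262144) (.void 18 ⟨100000, 0, 0, 0, 0, 0, 0, 0, 0, ⟨0, 0⟩, 0⟩ 0 0) (.cut .d (-131072) (.void 18 ⟨100000, 0, 0, 0, 0, 0, 0, 0, 0, ⟨0, 0⟩, 0⟩ 0 0) (.cut .d (-65536) (.void 18 ⟨100000, 0, 0, 0, 0, 0, 0, 0, 0, ⟨0, 0⟩, 0⟩ 0 0) (.cut .d (-32768) (.void 18 ⟨100000, 0, 0, 0, 0, 0, 0, 0, 0, ⟨0, 0⟩, 0⟩ 0 0) (.cut .d (-16384) (.void 18 ⟨100000, 0, 0, 0, 0, 0, 0, 0, 0, ⟨0,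 0⟩, 0⟩ 0 0) (.cut .d (-8192) (.void 18 ⟨100000, 0, 0, 0, 0, 0, 0, 0, 0, ⟨0, 0⟩, 0⟩ 0 0) (.pos 18 .mp ⟨167772160000, 0, 0, 0, 0, 0, 0, 0, 0, ⟨0, 0⟩, 0⟩ 0 0)))))))) (.void 59 ⟨100000, 0, 0, 0, 0, 0, 0, 0, 0, ⟨0, 0⟩, 0⟩ 0 0))))) (.void 72 ⟨100000, 0, 0, 0, 0, 0, 0, 0, 0, ⟨0, 0⟩, 0⟩ 0 0)) (.void 91 ⟨90336, 0, 0, 9664, 0, 0, 0, 0, 0, ⟨0, 0⟩, 0⟩ 0 0)) (.void 156 ⟨90621, 0, 0, 9673, 0, 0, 0, 0, 0, ⟨0, 0⟩, 0⟩ 0 0)))) (.cut .v 16777216 (.cut .v 8388608 (.cut .v 4194304 (.cut .v 2097152 (.cut .v 1048576 (.cut .v 524288 (.cut .v 262144 (.cut .v 131072 (.cut .v 65536 (.cut .v 32768 (.cut .v 16384 (.cut .v 8192 (.cut .v 4096 (.cut .v 2048 (.pos 165 .pm ⟨0, 0, 91478573, 0,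 0, 0, 0, 0, 0, ⟨0, 0⟩, 0⟩ 0 0) (.pos 166 .pm ⟨0, 0, 231546673, 0, 0, 0, 0, 0, 0, ⟨0, 0⟩, 0⟩ 0 0)) (.pos 164 .pm ⟨0, 0, 430750061, 0, 0, 0, 0, 0, 0, ⟨0, 0⟩, 0⟩ 0 0)) (.pos 162 .pm ⟨0, 0, 810046287, 0, 0, 0, 0, 0, 0, ⟨0, 0⟩, 0⟩ 0 0)) (.pos 160 .pm ⟨0, 0, 1528497050, 0, 0, 0, 0, 0, 0, ⟨0, 0⟩, 0⟩ 0 0)) (.pos 158 .pm ⟨0, 0, 2952148461, 0, 0, 0, 0, 0, 0, ⟨0, 0⟩, 0⟩ 0 0)) (.pos 147 .pm ⟨0, 0, 5844677019, 0, 0, 0, 0, 0, 0, ⟨0, 0⟩, 0⟩ 0 0)) (.pos 141 .pm ⟨0, 0, 11674228832, 0, 0, 0, 0, 0, 0, ⟨0, 0⟩, 0⟩ 0 0)) (.pos 133 .pm ⟨0, 0, 23333413657, 0, 0, 0, 0, 0, 0, ⟨0, 0⟩, 0⟩ 0 0)) (.pos 123 .pm ⟨0, 0, 46652108104, 0, 0, 0, 0, 0, 0, ⟨0, 0⟩, 0⟩ 0 0)) (.pos 97 .pm ⟨0, 0, 93290796188,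 0, 0, 0, 0, 0, 0, ⟨0, 0⟩, 0⟩ 0 0)) (.pos 84 .pm ⟨0, 0, 167772160000, 0, 0, 0, 0, 0, 0, ⟨0, 0⟩, 0⟩ 0 0)) (.pos 5 .pm ⟨0, 0, 167772160000, 0, 0, 0, 0, 0, 0, ⟨0, 0⟩, 0⟩ 0 0)) (.pos 3 .pm ⟨0, 0, 167772160000, 0, 0, 0, 0, 0, 0, ⟨0, 0⟩, 0⟩ 0 0)) (.cut .v 4294967296 (.cut .v 268435456 (.cut .v 67108864 (.pos 58 .pp ⟨0, 0, 0, 0, 0, 0, 0, 0, 0, ⟨0, 0⟩, 0⟩ 0 0) (.cut .v 134217728 (.cut .v 100663296 (.pos 75 .pp ⟨167772160000, 0, 0, 0, 0, 0, 0, 0, 0, ⟨0, 0⟩, 0⟩ 0 0) (.void 76 ⟨87503, 0, 0, 12497, 0, 0, 0, 0, 0, ⟨0, 0⟩, 0⟩ 0 0)) (.void 74 ⟨0, 0, 0, 100000, 0, 0, 0, 0, 0, ⟨0, 0⟩, 0⟩ 0 0))) (.void 91 ⟨0, 0, 0, 100000, 0, 0, 0, 0, 0, ⟨0, 0⟩, 0⟩ 0 0)) (.void 156 ⟨0, 0, 0, 100000,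 0, 0, 0, 0, 0, ⟨0, 0⟩, 0⟩ 0 0)))),
    by decide +kernel⟩

def covers43 : cell.Covers table row43.1 :=
  ⟨(.cut .d 0 (.cut .v 16777216 (.cut .d (-8388608) (.void 1 ⟨0, 0, 0, 0, 0, 100000, 0, 0, 0, ⟨0, 0⟩, 0⟩ 0 0) (.cut .d (-4194304) (.void 1 ⟨0, 0, 25275, 0, 0, 74725, 0, 0, 0, ⟨0, 0⟩, 0⟩ 0 0) (.cut .d (-2097152) (.void 1 ⟨0, 0, 1012, 0, 0, 98988, 0, 0, 0, ⟨0, 0⟩, 0⟩ 0 0) (.cut .d (-1048576) (.void 1 ⟨0, 0, 0, 0, 0, 100000, 0, 0, 0, ⟨0, 0⟩, 0⟩ 0 0) (.cut .d (-524288) (.void 1 ⟨0, 0, 0, 0, 0, 100000, 0, 0, 0, ⟨0, 0⟩, 0⟩ 0 0) (.cut .d (-262144) (.void 1 ⟨0, 0, 0, 0, 0, 100000, 0, 0, 0, ⟨0, 0⟩, 0⟩ 0 0) (.cut .d (-131072) (.void 1 ⟨0, 0, 165, 0, 0, 99835, 0, 0, 0,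 ⟨0, 0⟩, 0⟩ 0 0) (.cut .d (-65536) (.void 1 ⟨0, 0, 137, 0, 0, 99863, 0, 0, 0, ⟨0, 0⟩, 0⟩ 0 0) (.cut .d (-32768) (.void 1 ⟨0, 0, 0, 0, 0, 100000, 0, 0, 0, ⟨0, 0⟩, 0⟩ 0 0) (.cut .v 8388608 (.void 2 ⟨0, 0, 100000, 0, 0, 0, 0, 0, 0, ⟨0, 0⟩, 0⟩ 0 0) (.cut .d (-16384) (.void 3 ⟨100000, 0, 0, 0, 0, 0, 0, 0, 0, ⟨0, 0⟩, 0⟩ 0 0) (.pos 3 .mm ⟨167772160000, 0, 0, 0, 0, 0, 0, 0, 0, ⟨0, 0⟩, 0⟩ 0 0)))))))))))) (.cut .v 4294967296 (.cut .d (-8388608) (.void 90 ⟨69527, 5395, 0, 105, 0, 0, 0, 25078, 0, ⟨(-1), 10885828⟩, 0⟩ 0 128) (.cut .v 268435456 (.cut .d (-4194304) (.void 71 ⟨100000, 0, 0, 0, 0, 0, 0, 0, 0, ⟨0, 0⟩, 0⟩ 0 0) (.cut .v 67108864 (.cut .d (-2097152) (.void 58 ⟨100000,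 0, 0, 0, 0, 0, 0, 0, 0, ⟨0, 0⟩, 0⟩ 0 0) (.cut .d (-1048576) (.void 58 ⟨100000, 0, 0, 0, 0, 0, 0, 0, 0, ⟨0, 0⟩, 0⟩ 0 0) (.cut .d (-524288) (.void 58 ⟨100000, 0, 0, 0, 0, 0, 0, 0, 0, ⟨0, 0⟩, 0⟩ 0 0) (.cut .d (-262144) (.void 58 ⟨100000, 0, 0, 0, 0, 0, 0, 0, 0, ⟨0, 0⟩, 0⟩ 0 0) (.cut .d (-131072) (.void 58 ⟨100000, 0, 0, 0, 0, 0, 0, 0, 0, ⟨0, 0⟩, 0⟩ 0 0) (.cut .d (-65536) (.void 58 ⟨100000, 0, 0, 0, 0, 0, 0, 0, 0, ⟨0, 0⟩, 0⟩ 0 0) (.cut .d (-32768) (.void 58 ⟨100000, 0, 0, 0, 0, 0, 0, 0, 0, ⟨0, 0⟩, 0⟩ 0 0) (.cut .d (-16384) (.void 58 ⟨100000, 0, 0, 0, 0, 0, 0, 0, 0, ⟨0, 0⟩, 0⟩ 0 0) (.cut .d (-8192) (.void 58 ⟨100000, 0, 0, 0, 0, 0, 0, 0, 0, ⟨0, 0⟩, 0⟩ 0 0) (.pos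 58 .mp ⟨167772160000, 0, 0, 0, 0, 0, 0, 0, 0, ⟨0, 0⟩, 0⟩ 0 0)))))))))) (.void 72 ⟨100000, 0, 0, 0, 0, 0, 0, 0, 0, ⟨0, 0⟩, 0⟩ 0 0))) (.void 91 ⟨90331, 0, 0, 9669, 0, 0, 0, 0, 0, ⟨0, 0⟩, 0⟩ 0 0))) (.void 156 ⟨93281, 0, 0, 6654, 0, 0, 0, 0, 0, ⟨0, 0⟩, 0⟩ 0 0))) (.cut .v 16777216 (.cut .v 8388608 (.cut .v 4194304 (.cut .v 2097152 (.cut .v 1048576 (.cut .v 524288 (.cut .v 262144 (.cut .v 131072 (.cut .v 65536 (.cut .v 32768 (.cut .v 16384 (.cut .v 8192 (.cut .v 4096 (.cut .v 2048 (.cut .v 1024 (.pos 167 .pm ⟨0, 0, 46392035, 0, 0, 0, 0, 0, 0, ⟨0, 0⟩, 0⟩ 0 0) (.pos 168 .pm ⟨0, 0, 138628182, 0, 0, 0, 0, 0, 0, ⟨0, 0⟩, 0⟩ 0 0)) (.pos 166 .pm ⟨0, 0, 249101296, 0, 0, 0,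 0, 0, 0, ⟨0, 0⟩, 0⟩ 0 0)) (.pos 164 .pm ⟨0, 0, 455524651, 0, 0, 0, 0, 0, 0, ⟨0, 0⟩, 0⟩ 0 0)) (.pos 162 .pm ⟨0, 0, 837741761, 0, 0, 0, 0, 0, 0, ⟨0, 0⟩, 0⟩ 0 0)) (.pos 160 .pm ⟨0, 0, 1537803102, 0, 0, 0, 0, 0, 0, ⟨0, 0⟩, 0⟩ 0 0)) (.pos 158 .pm ⟨0, 0, 2915307490, 0, 0, 0, 0, 0, 0, ⟨0, 0⟩, 0⟩ 0 0)) (.pos 147 .pm ⟨0, 0, 5742971410, 0, 0, 0, 0, 0, 0, ⟨0, 0⟩, 0⟩ 0 0)) (.pos 141 .pm ⟨0, 0, 11470840935, 0, 0, 0, 0, 0, 0, ⟨0, 0⟩, 0⟩ 0 0)) (.pos 133 .pm ⟨0, 0, 22926661186, 0, 0, 0, 0, 0, 0, ⟨0, 0⟩, 0⟩ 0 0)) (.pos 123 .pm ⟨0, 0, 45838626485, 0, 0, 0, 0, 0, 0, ⟨0, 0⟩, 0⟩ 0 0)) (.pos 97 .pm ⟨0, 0, 91663856271, 0, 0, 0, 0, 0, 0, ⟨0, 0⟩, 0⟩ 0 0)) (.pos 84 .pm ⟨0, 0, 167772160000,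 0, 0, 0, 0, 0, 0, ⟨0, 0⟩, 0⟩ 0 0)) (.pos 5 .pm ⟨0, 0, 167772160000, 0, 0, 0, 0, 0, 0, ⟨0, 0⟩, 0⟩ 0 0)) (.pos 3 .pm ⟨0, 0, 167772160000, 0, 0, 0, 0, 0, 0, ⟨0, 0⟩, 0⟩ 0 0)) (.cut .v 4294967296 (.cut .v 268435456 (.cut .v 67108864 (.pos 58 .pp ⟨0, 0, 0, 0, 0, 0, 0, 0, 0, ⟨0, 0⟩, 0⟩ 0 0) (.cut .v 134217728 (.cut .v 100663296 (.pos 75 .pp ⟨167772160000, 0, 0, 0, 0, 0, 0, 0, 0, ⟨0, 0⟩, 0⟩ 0 0) (.void 76 ⟨87501, 0, 0, 12499, 0, 0, 0, 0, 0, ⟨0, 0⟩, 0⟩ 0 0)) (.void 74 ⟨0, 0, 0, 100000, 0, 0, 0, 0, 0, ⟨0, 0⟩, 0⟩ 0 0))) (.void 91 ⟨0, 0, 0, 100000, 0, 0, 0, 0, 0, ⟨0, 0⟩, 0⟩ 0 0)) (.void 156 ⟨0, 0, 0, 100000, 0, 0, 0, 0, 0, ⟨0, 0⟩, 0⟩ 0 0)))),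
    by decide +kernel⟩

def covers44 : cell.Covers table row44.1 :=
  ⟨(.cut .d 0 (.cut .v 16777216 (.cut .d (-8388608) (.void 1 ⟨0, 0, 0, 0, 0, 1000000000, 0, 0, 0, ⟨0, 0⟩, 0⟩ 0 0) (.cut .d (-4194304) (.void 1 ⟨0, 0, 100000, 0, 0, 0, 0, 0, 0, ⟨0, 0⟩, 0⟩ 0 0) (.cut .d (-2097152) (.void 1 ⟨0, 0, 100000, 0, 0, 0, 0, 0, 0, ⟨0, 0⟩, 0⟩ 0 0) (.cut .d (-1048576) (.void 1 ⟨0, 0, 100000, 0, 0, 0, 0, 0, 0, ⟨0, 0⟩, 0⟩ 0 0) (.cut .d (-524288) (.void 1 ⟨0, 0, 100000, 0, 0, 0, 0, 0, 0, ⟨0, 0⟩, 0⟩ 0 0) (.cut .d (-262144) (.void 1 ⟨0, 0, 100000, 0, 0, 0, 0, 0, 0, ⟨0, 0⟩, 0⟩ 0 0) (.cut .d (-131072) (.void 1 ⟨0, 0, 100000, 0, 0, 0, 0, 0, 0, ⟨0, 0⟩, 0⟩ 0 0) (.cut .d (-65536) (.void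 1 ⟨0, 0, 100000, 0, 0, 0, 0, 0, 0, ⟨0, 0⟩, 0⟩ 0 0) (.cut .d (-32768) (.void 1 ⟨0, 0, 0, 0, 0, 100000, 0, 0, 0, ⟨0, 0⟩, 0⟩ 0 0) (.cut .d (-16384) (.void 1 ⟨0, 0, 100000, 0, 0, 0, 0, 0, 0, ⟨0, 0⟩, 0⟩ 0 0) (.cut .v 8388608 (.void 2 ⟨0, 0, 100000, 0, 0, 0, 0, 0, 0, ⟨0, 0⟩, 0⟩ 0 0) (.pos 3 .mm ⟨167772160000, 0, 0, 0, 0, 0, 0, 0, 0, ⟨0, 0⟩, 0⟩ 0 0)))))))))))) (.cut .v 4294967296 (.cut .d (-8388608) (.void 90 ⟨1000000000, 0, 0, 0, 0, 0, 0, 0, 0, ⟨0, 0⟩, 0⟩ 0 0) (.cut .d (-4194304) (.void 90 ⟨1000000000, 0, 0, 0, 0, 0, 0, 0, 0, ⟨0, 0⟩, 0⟩ 0 0) (.cut .v 268435456 (.cut .v 67108864 (.cut .d (-2097152) (.void 58 ⟨1000000000, 0, 0, 0, 0, 0, 0, 0, 0, ⟨0, 0⟩, 0⟩ 0 0) (.cut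 .d (-1048576) (.void 58 ⟨1000000000, 0, 0, 0, 0, 0, 0, 0, 0, ⟨0, 0⟩, 0⟩ 0 0) (.cut .d (-524288) (.void 58 ⟨1000000000, 0, 0, 0, 0, 0, 0, 0, 0, ⟨0, 0⟩, 0⟩ 0 0) (.cut .d (-262144) (.void 58 ⟨1000000000, 0, 0, 0, 0, 0, 0, 0, 0, ⟨0, 0⟩, 0⟩ 0 0) (.cut .d (-131072) (.void 58 ⟨1000000000, 0, 0, 0, 0, 0, 0, 0, 0, ⟨0, 0⟩, 0⟩ 0 0) (.cut .d (-65536) (.void 58 ⟨1000000000, 0, 0, 0, 0, 0, 0, 0, 0, ⟨0, 0⟩, 0⟩ 0 0) (.cut .d (-32768) (.void 58 ⟨1000000000, 0, 0, 0, 0, 0, 0, 0, 0, ⟨0, 0⟩, 0⟩ 0 0) (.cut .d (-16384) (.void 58 ⟨1000000000, 0, 0, 0, 0, 0, 0, 0, 0, ⟨0, 0⟩, 0⟩ 0 0) (.cut .d (-8192) (.void 58 ⟨1000000000, 0, 0, 0, 0, 0, 0, 0, 0, ⟨0, 0⟩, 0⟩ 0 0) (.pos 58 .mp ⟨167772160000,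 0, 0, 0, 0, 0, 0, 0, 0, ⟨0, 0⟩, 0⟩ 0 0)))))))))) (.void 72 ⟨100000, 0, 0, 0, 0, 0, 0, 0, 0, ⟨0, 0⟩, 0⟩ 0 0)) (.void 91 ⟨89670, 0, 0, 10330, 0, 0, 0, 0, 0, ⟨0, 0⟩, 0⟩ 0 0)))) (.cut .d (-8388608) (.void 156 ⟨93336, 0, 0, 6664, 0, 0, 0, 0, 0, ⟨0, 0⟩, 0⟩ 0 0) (.void 156 ⟨93336, 0, 0, 6664, 0, 0, 0, 0, 0, ⟨0, 0⟩, 0⟩ 0 0)))) (.cut .v 16777216 (.cut .v 8388608 (.cut .v 4194304 (.cut .d 6150 (.pos 4 .pm ⟨0, 0, 167772160000, 0, 0, 0, 0, 0, 0, ⟨0, 0⟩, 0⟩ 0 0) (.pos 4 .pm ⟨0, 0, 15124505, 0, 0, 0, 0, 0, 0, ⟨0, 0⟩, 0⟩ 0 0)) (.pos 5 .pm ⟨0, 0, 167772160000, 0, 0, 0, 0, 0, 0, ⟨0, 0⟩, 0⟩ 0 0)) (.pos 3 .pm ⟨0, 0, 167772160000, 0, 0, 0, 0, 0, 0, ⟨0, 0⟩, 0⟩ 0 0)) (.cut .v 4294967296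 (.cut .v 268435456 (.cut .v 67108864 (.pos 58 .pp ⟨0, 0, 0, 0, 0, 0, 0, 0, 0, ⟨0, 0⟩, 0⟩ 0 0) (.cut .v 134217728 (.pos 73 .pp ⟨167772160000, 0, 0, 0, 0, 0, 0, 0, 0, ⟨0, 0⟩, 0⟩ 0 0) (.void 74 ⟨0, 0, 0, 100000, 0, 0, 0, 0, 0, ⟨0, 0⟩, 0⟩ 0 0))) (.void 91 ⟨0, 0, 0, 100000, 0, 0, 0, 0, 0, ⟨0, 0⟩, 0⟩ 0 0)) (.void 156 ⟨0, 0, 0, 100000, 0, 0, 0, 0, 0, ⟨0, 0⟩, 0⟩ 0 0)))),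
    by decide +kernel⟩

def covers45 : cell.Covers table row45.1 :=
  ⟨(.cut .d 0 (.cut .v 16777216 (.cut .d (-8388608) (.void 1 ⟨0, 0, 0, 0, 0, 100000, 0, 0, 0, ⟨0, 0⟩, 0⟩ 0 0) (.cut .d (-4194304) (.void 1 ⟨0, 0, 0, 0, 0, 100000, 0, 0, 0, ⟨0, 0⟩, 0⟩ 0 0) (.cut .d (-2097152) (.void 1 ⟨0, 0, 0, 0, 0, 100000, 0, 0, 0, ⟨0, 0⟩, 0⟩ 0 0) (.cut .d (-1048576) (.void 1 ⟨0, 0, 0, 0, 0, 100000, 0, 0, 0, ⟨0, 0⟩, 0⟩ 0 0) (.cut .d (-524288) (.void 1 ⟨0, 0, 0, 0, 0, 100000, 0, 0, 0, ⟨0, 0⟩, 0⟩ 0 0) (.cut .d (-262144) (.void 1 ⟨0, 0, 0, 0, 0, 100000, 0, 0, 0, ⟨0, 0⟩, 0⟩ 0 0) (.cut .d (-131072) (.void 1 ⟨0, 0, 0, 0, 0, 100000, 0, 0, 0, ⟨0, 0⟩, 0⟩ 0 0) (.cut .d (-65536) (.void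 1 ⟨0, 0, 0, 0, 0, 100000, 0, 0, 0, ⟨0, 0⟩, 0⟩ 0 0) (.cut .d (-32768) (.void 1 ⟨0, 0, 0, 0, 0, 100000, 0, 0, 0, ⟨0, 0⟩, 0⟩ 0 0) (.cut .d (-16384) (.void 1 ⟨0, 0, 0, 0, 0, 100000, 0, 0, 0, ⟨0, 0⟩, 0⟩ 0 0) (.cut .d (-8192) (.void 1 ⟨0, 0, 0, 0, 0, 1000000000, 0, 0, 0, ⟨0, 0⟩, 0⟩ 0 0) (.cut .d (-4096) (.void 1 ⟨0, 0, 0, 0, 0, 1000000000, 0, 0, 0, ⟨0, 0⟩, 0⟩ 0 0) (.cut .v 8388608 (.void 2 ⟨0, 0, 1000000000, 0, 0, 0, 0, 0, 0, ⟨0, 0⟩, 0⟩ 0 0) (.pos 3 .mm ⟨167772160000, 0, 0, 0, 0, 0, 0, 0, 0, ⟨0, 0⟩, 0⟩ 0 0)))))))))))))) (.cut .v 4294967296 (.cut .d (-8388608) (.void 90 ⟨100000, 0, 5819, 4893, 0, 0, 0, 0, 0, ⟨0, 0⟩, 0⟩ 0 0) (.cut .v 268435456 (.cut .v 67108864 (.cut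 .d (-4194304) (.void 58 ⟨1000000000, 0, 0, 0, 0, 0, 0, 0, 0, ⟨0, 0⟩, 0⟩ 0 0) (.cut .d (-2097152) (.void 58 ⟨1000000000, 0, 0, 0, 0, 0, 0, 0, 0, ⟨0, 0⟩, 0⟩ 0 0) (.cut .d (-1048576) (.void 58 ⟨1000000000, 0, 0, 0, 0, 0, 0, 0, 0, ⟨0, 0⟩, 0⟩ 0 0) (.cut .d (-524288) (.void 58 ⟨1000000000, 0, 0, 0, 0, 0, 0, 0, 0, ⟨0, 0⟩, 0⟩ 0 0) (.cut .d (-262144) (.void 58 ⟨1000000000, 0, 0, 0, 0, 0, 0, 0, 0, ⟨0, 0⟩, 0⟩ 0 0) (.cut .d (-131072) (.void 58 ⟨1000000000, 0, 0, 0, 0, 0, 0, 0, 0, ⟨0, 0⟩, 0⟩ 0 0) (.cut .d (-65536) (.void 58 ⟨1000000000, 0, 0, 0, 0, 0, 0, 0, 0, ⟨0, 0⟩, 0⟩ 0 0) (.cut .d (-32768) (.void 58 ⟨1000000000, 0, 0, 0, 0, 0, 0, 0, 0, ⟨0, 0⟩, 0⟩ 0 0) (.cut .d (-16384)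 (.void 58 ⟨1000000000, 0, 0, 0, 0, 0, 0, 0, 0, ⟨0, 0⟩, 0⟩ 0 0) (.cut .d (-8192) (.void 58 ⟨1000000000, 0, 0, 0, 0, 0, 0, 0, 0, ⟨0, 0⟩, 0⟩ 0 0) (.cut .d (-4096) (.void 58 ⟨1000000000, 0, 0, 0, 0, 0, 0, 0, 0, ⟨0, 0⟩, 0⟩ 0 0) (.pos 58 .mp ⟨167772160000, 0, 0, 0, 0, 0, 0, 0, 0, ⟨0, 0⟩, 0⟩ 0 0)))))))))))) (.void 72 ⟨1000000000, 0, 0, 0, 0, 0, 0, 0, 0, ⟨0, 0⟩, 0⟩ 0 0)) (.void 91 ⟨1000000000, 0, 0, 0, 0, 0, 0, 0, 0, ⟨0, 0⟩, 0⟩ 0 0))) (.void 156 ⟨93390, 0, 0, 6610, 0, 0, 0, 0, 0, ⟨0, 0⟩, 0⟩ 0 0))) (.cut .v 16777216 (.cut .v 8388608 (.cut .v 4194304 (.cut .v 2097152 (.cut .v 1048576 (.cut .v 524288 (.cut .d 4099 (.cut .d 2049 (.void 122 ⟨0, 0, 677517880, 0, 0, 0, 0,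 0, 0, ⟨0, 0⟩, 0⟩ 0 0) (.pos 122 .pm ⟨0, 0, 74320681244, 0, 0, 0, 0, 0, 0, ⟨0, 0⟩, 0⟩ 0 0)) (.pos 122 .pm ⟨0, 0, 0, 2379669, 0, 0, 0, 0, 0, ⟨0, 0⟩, 0⟩ 0 0)) (.pos 123 .pm ⟨0, 0, 167772160000, 0, 0, 0, 0, 0, 0, ⟨0, 0⟩, 0⟩ 0 0)) (.pos 97 .pm ⟨0, 0, 167772160000, 0, 0, 0, 0, 0, 0, ⟨0, 0⟩, 0⟩ 0 0)) (.pos 84 .pm ⟨0, 0, 167772160000, 0, 0, 0, 0, 0, 0, ⟨0, 0⟩, 0⟩ 0 0)) (.pos 5 .pm ⟨0, 0, 167772160000, 0, 0, 0, 0, 0, 0, ⟨0, 0⟩, 0⟩ 0 0)) (.pos 3 .pm ⟨0, 0, 167772160000, 0, 0, 0, 0, 0, 0, ⟨0, 0⟩, 0⟩ 0 0)) (.cut .v 4294967296 (.cut .v 268435456 (.cut .v 67108864 (.pos 58 .pp ⟨0, 0, 0, 0, 0, 0, 0, 0, 0, ⟨0, 0⟩, 0⟩ 0 0) (.cut .v 134217728 (.pos 73 .pp ⟨17317397584, 0, 0,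 150454762416, 0, 0, 0, 0, 0, ⟨0, 0⟩, 0⟩ 0 0) (.void 74 ⟨103219733, 0, 0, 896780267, 0, 0, 0, 0, 0, ⟨0, 0⟩, 0⟩ 0 0))) (.void 91 ⟨103219733, 0, 0, 896780267, 0, 0, 0, 0, 0, ⟨0, 0⟩, 0⟩ 0 0)) (.void 156 ⟨103219733, 0, 0, 896780267, 0, 0, 0, 0, 0, ⟨0, 0⟩, 0⟩ 0 0)))),
    by decide +kernel⟩

end Vale.Agent.P237.Petty.Cor.Grid.N13.Low
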