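import Vale.Agent.P237.Petty.Cor.Grid.N13.MidCert

/-!
# P237: a cell in dimension 13, subdivisions
-/

namespace Vale.Agent.P237.Petty.Cor.Grid.N13.Mid

def covers0 : cell.Covers table row0.1 :=
  ⟨(.cut .d 0 (.cut .v 16777216 (.cut .v 8388608 (.cut .v 4194304 (.pos 4 .mm ⟨0, 0, 40522216, 0, 0, 0, 0, 0, 0, ⟨0, 0⟩, 0⟩ 0 0) (.pos 5 .mm ⟨0, 0, 0, 0, 0, 0, 0, 0, 0, ⟨0, 0⟩, 0⟩ 0 0)) (.cut .d (-8388608) (.pos 3 .mm ⟨0, 0, 0, 0, 0, 0, 0, 0, 0, ⟨0, 0⟩, 0⟩ 0 0) (.cut .v 12582912 (.pos 6 .mm ⟨0, 0, 0, 0, 0, 0, 0, 0, 0, ⟨0, 0⟩, 0⟩ 0 0) (.cut .d (-4194304) (.pos 7 .mm ⟨0, 0, 0, 0, 0, 0, 0, 0, 0, ⟨0, 0⟩, 0⟩ 0 0) (.cut .d (-2097152) (.pos 7 .mm ⟨0, 0, 0, 0, 0, 0, 0,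 0, 0, ⟨0, 0⟩, 0⟩ 0 0) (.pos 7 .mm ⟨0, 0, 0, 0, 0, 0, 0, 0, 0, ⟨0, 0⟩, 0⟩ 0 0)))))) (.cut .v 33554432 (.cut .v 25165824 (.cut .v 20971520 (.cut .v 18874368 (.cut .v 17825792 (.pos 19 .mp ⟨0, 0, 0, 0, 0, 0, 0, 0, 0, ⟨0, 0⟩, 0⟩ 0 0) (.pos 20 .mp ⟨0, 0, 0, 0, 0, 0, 0, 0, 0, ⟨0, 0⟩, 0⟩ 0 0)) (.pos 18 .mp ⟨627886, 0, 0, 0, 0, 0, 0, 0, 0, ⟨0, 0⟩, 0⟩ 0 0)) (.pos 16 .mp ⟨710010, 0, 0, 0, 0, 0, 0, 0, 0, ⟨0, 0⟩, 0⟩ 0 0)) (.pos 14 .mp ⟨878299, 0, 0, 0, 0, 0, 0, 0, 0, ⟨0, 0⟩, 0⟩ 0 0)) (.void 12 ⟨100000, 0, 0, 0, 0, 0, 0, 0, 0, ⟨0, 0⟩, 0⟩ 0 0))) (.cut .v 16777216 (.cut .v 8388608 (.cut .v 4194304 (.pos 4 .pm ⟨0, 0, 40964817, 0, 0, 0, 0, 0, 0, ⟨0, 0⟩, 0⟩ 0 0) (.pos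 5 .pm ⟨0, 0, 0, 0, 2277459, 0, 0, 0, 0, ⟨0, 0⟩, 0⟩ 0 0)) (.pos 3 .pm ⟨0, 0, 0, 0, 719697, 0, 0, 0, 0, ⟨0, 0⟩, 0⟩ 0 0)) (.cut .v 33554432 (.cut .v 25165824 (.cut .d 8439548 (.cut .v 20971520 (.cut .d 4219774 (.cut .v 18874368 (.cut .d 2109887 (.cut .l 6001081 (.cut .v 17825792 (.cut .d 1054943 (.pos 19 .pp ⟨0, 0, 0, 0, 0, 0, 0, 0, 0, ⟨0, 0⟩, 0⟩ 0 0) (.pos 19 .pp ⟨0, 0, 0, 0, 0, 0, 0, 0, 0, ⟨0, 0⟩, 0⟩ 0 0)) (.cut .d 1054943 (.pos 20 .pp ⟨0, 0, 0, 0, 0, 0, 0, 0, 0, ⟨0, 0⟩, 0⟩ 0 0) (.pos 20 .pp ⟨0, 0, 0, 0, 0, 0, 0, 0, 0, ⟨0, 0⟩, 0⟩ 0 0))) (.pos 17 .pp ⟨0, 0, 0, 0, 0, 0, 0, 0, 0, ⟨0, 0⟩, 0⟩ 0 0)) (.pos 17 .pp ⟨0, 0, 0, 0, 0, 0, 0, 0, 0, ⟨0, 0⟩, 0⟩ 0 0)) (.cut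 .d 2109887 (.pos 18 .pp ⟨627886, 0, 0, 0, 0, 0, 0, 0, 0, ⟨0, 0⟩, 0⟩ 0 0) (.pos 18 .pp ⟨627886, 0, 0, 0, 0, 0, 0, 0, 0, ⟨0, 0⟩, 0⟩ 0 0))) (.pos 15 .pp ⟨0, 0, 0, 0, 0, 0, 0, 0, 0, ⟨0, 0⟩, 0⟩ 0 0)) (.cut .d 4219774 (.pos 16 .pp ⟨710010, 0, 0, 0, 0, 0, 0, 0, 0, ⟨0, 0⟩, 0⟩ 0 0) (.pos 16 .pp ⟨741811, 0, 0, 0, 0, 0, 0, 0, 0, ⟨0, 0⟩, 0⟩ 0 0))) (.pos 13 .pp ⟨0, 0, 0, 0, 0, 0, 228958, 0, 0, ⟨0, 0⟩, 0⟩ 0 0)) (.cut .d 8439548 (.pos 14 .pp ⟨878299, 0, 0, 0, 0, 0, 0, 0, 0, ⟨0, 0⟩, 0⟩ 0 0) (.cut .d 12659322 (.pos 14 .pp ⟨4650697, 0, 0, 0, 0, 0, 2454615, 0, 0, ⟨0, 0⟩, 0⟩ 0 0) (.cut .v 29360128 (.pos 29 .pp ⟨1051349, 0, 0, 0, 0, 0, 0, 0, 0, ⟨0, 0⟩, 0⟩ 0 0) (.cut .d 14769209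 (.pos 30 .pp ⟨28598402, 0, 0, 0, 0, 0, 2795507, 0, 0, ⟨0, 0⟩, 0⟩ 0 0) (.pos 30 .pp ⟨33439802, 0, 0, 0, 0, 0, 3965127, 0, 12253845, ⟨0, 0⟩, 22947581⟩ 0 0)))))) (.cut .v 50331648 (.cut .v 41943040 (.cut .v 37748736 (.cut .s 851968 (.void 37 ⟨95020, 0, 0, 0, 0, 0, 0, 0, 4980, ⟨0, 0⟩, 24435601⟩ 0 0) (.cut .s 1277952 (.pos 37 .pp ⟨79613059, 0, 0, 0, 0, 0, 0, 13362700, 0, ⟨52938, 15648388⟩, 0⟩ 13 40) (.cut .d 8439548 (.pos 37 .pp ⟨58031438, 0, 0, 0, 0, 0, 0, 0, 0, ⟨0, 0⟩, 0⟩ 0 0) (.cut .d 12659322 (.pos 37 .pp ⟨51041007, 0, 0, 0, 0, 0, 0, 0, 0, ⟨0, 0⟩, 0⟩ 0 0) (.cut .v 35651584 (.pos 39 .pp ⟨40783572, 0, 0, 0, 0, 0, 0, 30870230, 0, ⟨286360, 14044483⟩, 0⟩ 34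 53) (.cut .v 36700160 (.cut .d 14769209 (.pos 41 .pp ⟨57348071, 0, 0, 0, 0, 0, 0, 0, 0, ⟨0, 0⟩, 0⟩ 0 0) (.pos 41 .pp ⟨47383433, 0, 0, 0, 0, 0, 2734063, 38971133, 0, ⟨309167, 13934320⟩, 0⟩ 36 53)) (.pos 42 .pp ⟨0, 0, 0, 0, 0, 0, 29884490, 15600596, 0, ⟨286360, 14044483⟩, 0⟩ 34 53))))))) (.void 38 ⟨0, 0, 0, 0, 0, 0, 100000, 0, 0, ⟨0, 0⟩, 0⟩ 0 0)) (.void 36 ⟨0, 0, 0, 0, 0, 0, 100000, 0, 0, ⟨0, 0⟩, 0⟩ 0 0)) (.void 34 ⟨0, 0, 0, 0, 0, 0, 100000, 0, 0, ⟨0, 0⟩, 0⟩ 0 0))))),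
    by decide +kernel⟩

def covers1 : cell.Covers table row1.1 :=
  ⟨(.cut .d 0 (.cut .v 16777216 (.cut .v 8388608 (.cut .v 4194304 (.void 4 ⟨0, 0, 50000, 0, 50000, 0, 0, 0, 0, ⟨0, 0⟩, 0⟩ 0 0) (.pos 5 .mm ⟨0, 0, 0, 0, 0, 295163, 0, 0, 0, ⟨0, 0⟩, 0⟩ 0 0)) (.cut .d (-8388608) (.pos 3 .mm ⟨0, 0, 0, 0, 0, 217366, 0, 0, 0, ⟨0, 0⟩, 0⟩ 0 0) (.cut .v 12582912 (.pos 6 .mm ⟨0, 0, 0, 0, 0, 351234, 0, 0, 0, ⟨0, 0⟩, 0⟩ 0 0) (.cut .v 14680064 (.pos 8 .mm ⟨0, 0, 0, 0, 0, 0, 0, 0, 0, ⟨0, 0⟩, 0⟩ 0 0) (.cut .d (-4194304) (.pos 9 .mm ⟨0, 0, 0, 0, 0, 299199, 0, 0, 0, ⟨0, 0⟩, 0⟩ 0 0) (.cut .v 15728640 (.pos 45 .mm ⟨0, 0, 0, 0, 0, 329706, 0, 0, 0, ⟨0, 0⟩, 0⟩ 0 0) (.pos 46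 .mm ⟨0, 0, 0, 0, 0, 82172, 0, 0, 0, ⟨0, 0⟩, 0⟩ 0 0))))))) (.cut .v 33554432 (.cut .v 25165824 (.cut .v 20971520 (.cut .v 18874368 (.cut .v 17825792 (.pos 19 .mp ⟨0, 0, 0, 0, 0, 0, 0, 0, 0, ⟨0, 0⟩, 0⟩ 0 0) (.pos 20 .mp ⟨0, 0, 0, 0, 0, 0, 0, 0, 0, ⟨0, 0⟩, 0⟩ 0 0)) (.pos 18 .mp ⟨794023, 0, 0, 0, 0, 0, 0, 0, 0, ⟨0, 0⟩, 0⟩ 0 0)) (.pos 16 .mp ⟨897876, 0, 0, 0, 0, 0, 0, 0, 0, ⟨0, 0⟩, 0⟩ 0 0)) (.pos 14 .mp ⟨1110695, 0, 0, 0, 0, 0, 0, 0, 0, ⟨0, 0⟩, 0⟩ 0 0)) (.void 12 ⟨100000, 0, 0, 0, 0, 0, 0, 0, 0, ⟨0, 0⟩, 0⟩ 0 0))) (.cut .v 16777216 (.cut .v 8388608 (.void 2 ⟨0, 0, 0, 0, 100000, 0, 0, 0, 0, ⟨0, 0⟩, 0⟩ 0 0) (.cut .v 12582912 (.void 6 ⟨0, 0, 0, 0, 100000, 0, 0,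 0, 0, ⟨0, 0⟩, 0⟩ 0 0) (.cut .v 14680064 (.pos 8 .pm ⟨0, 0, 0, 0, 0, 0, 0, 0, 0, ⟨0, 0⟩, 0⟩ 0 0) (.cut .s 2359296 (.pos 9 .pm ⟨0, 0, 0, 0, 0, 0, 0, 0, 411166, ⟨0, 0⟩, 16226390⟩ 0 0) (.cut .s 2686976 (.pos 9 .pm ⟨0, 0, 0, 0, 0, 0, 0, 0, 410281, ⟨0, 0⟩, 16226390⟩ 0 0) (.cut .s 2850816 (.pos 9 .pm ⟨0, 0, 0, 0, 0, 0, 0, 0, 406247, ⟨0, 0⟩, 16226390⟩ 0 0) (.cut .d 13738520 (.cut .d 6869260 (.cut .d 3434630 (.cut .d 1717315 (.pos 9 .pm ⟨0, 0, 0, 0, 0, 0, 0, 0, 0, ⟨0, 0⟩, 0⟩ 0 0) (.pos 9 .pm ⟨0, 0, 0, 0, 0, 0, 0, 0, 855128, ⟨0, 0⟩, 16226390⟩ 0 0)) (.void 9 ⟨0, 0, 0, 0, 100000, 0, 0, 0, 0, ⟨0, 0⟩, 0⟩ 0 0)) (.void 9 ⟨0, 0, 0, 0, 100000, 0, 0, 0, 0, ⟨0, 0⟩, 0⟩ 0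 0)) (.void 9 ⟨0, 0, 0, 0, 0, 0, 0, 0, 100000, ⟨0, 0⟩, 16226390⟩ 0 0)))))))) (.cut .v 33554432 (.cut .d 13738520 (.cut .v 25165824 (.cut .d 6869260 (.cut .v 20971520 (.cut .d 3434630 (.cut .v 18874368 (.cut .d 1717315 (.cut .v 17825792 (.cut .d 858657 (.pos 19 .pp ⟨0, 0, 0, 0, 0, 0, 0, 0, 0, ⟨0, 0⟩, 0⟩ 0 0) (.pos 19 .pp ⟨0, 0, 0, 0, 0, 0, 0, 0, 0, ⟨0, 0⟩, 0⟩ 0 0)) (.pos 20 .pp ⟨0, 0, 0, 0, 0, 0, 0, 0, 0, ⟨0, 0⟩, 0⟩ 0 0)) (.pos 17 .pp ⟨0, 0, 0, 0, 147905, 0, 0, 0, 820037, ⟨0, 0⟩, 17278579⟩ 0 0)) (.pos 18 .pp ⟨794023, 0, 0, 0, 0, 0, 0, 0, 0, ⟨0, 0⟩, 0⟩ 0 0)) (.pos 15 .pp ⟨0, 0, 0, 0, 2054581, 0, 0, 0, 814469, ⟨0, 0⟩, 17739746⟩ 0 0)) (.pos 16 .pp ⟨897876,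 0, 0, 0, 0, 0, 0, 0, 0, ⟨0, 0⟩, 0⟩ 0 0)) (.pos 13 .pp ⟨0, 0, 0, 0, 12991539, 0, 0, 0, 847573, ⟨0, 0⟩, 18567042⟩ 0 0)) (.cut .d 6869260 (.pos 14 .pp ⟨1110695, 0, 0, 0, 0, 0, 0, 0, 0, ⟨0, 0⟩, 0⟩ 0 0) (.pos 14 .pp ⟨0, 0, 0, 0, 0, 0, 0, 0, 964494, ⟨0, 0⟩, 22080058⟩ 0 0))) (.pos 11 .pp ⟨0, 0, 0, 0, 0, 0, 0, 0, 5967592, ⟨0, 0⟩, 19951585⟩ 0 0)) (.cut .v 50331648 (.cut .d 13738520 (.pos 33 .pp ⟨18919737, 0, 0, 0, 0, 0, 9655622, 0, 0, ⟨0, 0⟩, 0⟩ 0 0) (.cut .l 6001081 (.void 33 ⟨0, 0, 0, 0, 0, 0, 51697, 0, 48303, ⟨0, 0⟩, 26257762⟩ 0 0) (.cut .v 41943040 (.cut .d 20607780 (.cut .l 8162761 (.pos 35 .pp ⟨0, 0, 0, 0, 0, 0, 27503688, 0, 757102, ⟨0, 0⟩, 25087789⟩ 0 0)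 (.cut .v 37748736 (.cut .d 17173150 (.cut .v 35651584 (.pos 39 .pp ⟨726861, 0, 0, 0, 0, 0, 0, 1009484, 0, ⟨970148, 10417244⟩, 0⟩ 47 94) (.cut .v 36700160 (.pos 41 .pp ⟨0, 0, 0, 0, 0, 0, 0, 16029403, 0, ⟨970148, 10417244⟩, 0⟩ 47 94) (.cut .s 2359296 (.pos 42 .pp ⟨0, 0, 0, 0, 0, 0, 22940048, 14001288, 0, ⟨693112, 11926203⟩, 0⟩ 47 73) (.pos 42 .pp ⟨0, 0, 0, 0, 0, 0, 0, 1803631, 0, ⟨1441371, 9133912⟩, 0⟩ 65 94)))) (.pos 37 .pp ⟨0, 0, 0, 0, 0, 0, 8851521, 50244998, 0, ⟨1229029, 9424419⟩, 0⟩ 52 103)) (.cut .d 17173150 (.pos 38 .pp ⟨0, 0, 0, 0, 0, 0, 29295638, 0, 0, ⟨0, 0⟩, 0⟩ 0 0) (.cut .s 2359296 (.cut .s 2031616 (.pos 38 .pp ⟨0, 0, 0, 0, 0, 0, 24110699, 83424622,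 0, ⟨746139, 11801728⟩, 0⟩ 52 70) (.pos 38 .pp ⟨0, 0, 0, 0, 0, 0, 28054515, 26608877, 0, ⟨1131434, 10301035⟩, 0⟩ 62 81)) (.pos 38 .pp ⟨0, 0, 0, 0, 0, 0, 27883602, 0, 3306846, ⟨0, 0⟩, 25837502⟩ 0 0))))) (.pos 35 .pp ⟨0, 0, 0, 0, 0, 0, 0, 0, 273936847, ⟨0, 0⟩, 25087789⟩ 0 0)) (.cut .v 46137344 (.cut .s 2359296 (.void 51 ⟨0, 0, 0, 0, 0, 0, 100000, 0, 0, ⟨0, 0⟩, 0⟩ 0 0) (.cut .d 20607780 (.pos 51 .pp ⟨0, 0, 0, 0, 0, 0, 40772796, 0, 0, ⟨0, 0⟩, 0⟩ 0 0) (.cut .v 44040192 (.pos 53 .pp ⟨0, 0, 0, 0, 0, 0, 40118951, 0, 7679236, ⟨0, 0⟩, 26852655⟩ 0 0) (.cut .d 24042410 (.pos 54 .pp ⟨0, 0, 0, 0, 0, 0, 49792452, 0, 5032707, ⟨0, 0⟩, 27500171⟩ 0 0) (.void 54 ⟨0, 0, 0,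 0, 0, 0, 0, 0, 100000, ⟨0, 0⟩, 27500171⟩ 0 0))))) (.void 52 ⟨0, 0, 0, 0, 0, 0, 100000, 0, 0, ⟨0, 0⟩, 0⟩ 0 0))))) (.void 34 ⟨0, 0, 0, 0, 0, 0, 100000, 0, 0, ⟨0, 0⟩, 0⟩ 0 0))))),
    by decide +kernel⟩

def covers2 : cell.Covers table row2.1 :=
  ⟨(.cut .d 0 (.cut .v 16777216 (.cut .v 8388608 (.cut .v 4194304 (.void 4 ⟨0, 0, 100000, 0, 0, 0, 0, 0, 0, ⟨0, 0⟩, 0⟩ 0 0) (.pos 5 .mm ⟨0, 0, 0, 0, 0, 183947, 0, 0, 0, ⟨0, 0⟩, 0⟩ 0 0)) (.cut .v 12582912 (.pos 6 .mm ⟨0, 0, 0, 0, 0, 458624, 0, 0, 0, ⟨0, 0⟩, 0⟩ 0 0) (.cut .d (-8388608) (.pos 7 .mm ⟨0, 0, 0, 0, 0, 306578, 0, 0, 0, ⟨0, 0⟩, 0⟩ 0 0) (.cut .v 14680064 (.pos 8 .mm ⟨0, 0, 0, 0, 0, 321907, 0, 0, 0, ⟨0, 0⟩,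 0⟩ 0 0) (.cut .v 15728640 (.pos 45 .mm ⟨0, 0, 0, 0, 0, 361081, 0, 0, 0, ⟨0, 0⟩, 0⟩ 0 0) (.pos 46 .mm ⟨0, 0, 0, 0, 0, 270351, 0, 0, 0, ⟨0, 0⟩, 0⟩ 0 0)))))) (.cut .v 33554432 (.cut .v 25165824 (.cut .v 20971520 (.cut .v 18874368 (.pos 17 .mp ⟨0, 0, 0, 0, 0, 0, 0, 0, 0, ⟨0, 0⟩, 0⟩ 0 0) (.pos 18 .mp ⟨1124078, 0, 0, 0, 0, 0, 0, 0, 0, ⟨0, 0⟩, 0⟩ 0 0)) (.pos 16 .mp ⟨1406287, 0, 0, 0, 0, 0, 0, 0, 0, ⟨0, 0⟩, 0⟩ 0 0)) (.pos 14 .mp ⟨1739611, 0, 0, 0, 0, 0, 0, 0, 0, ⟨0, 0⟩, 0⟩ 0 0)) (.void 12 ⟨100000, 0, 0, 0, 0, 0, 0, 0, 0, ⟨0, 0⟩, 0⟩ 0 0))) (.cut .v 16777216 (.cut .v 8388608 (.void 2 ⟨0, 0, 0, 0, 100000, 0, 0, 0, 0, ⟨0, 0⟩, 0⟩ 0 0) (.cut .v 12582912 (.void 6 ⟨0,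 0, 0, 0, 100000, 0, 0, 0, 0, ⟨0, 0⟩, 0⟩ 0 0) (.cut .v 14680064 (.pos 8 .pm ⟨0, 0, 0, 0, 0, 0, 0, 0, 0, ⟨0, 0⟩, 0⟩ 0 0) (.cut .v 15728640 (.pos 45 .pm ⟨0, 0, 0, 0, 0, 0, 0, 0, 0, ⟨0, 0⟩, 0⟩ 0 0) (.cut .v 16252928 (.pos 57 .pm ⟨0, 0, 0, 0, 0, 0, 0, 0, 15685, ⟨0, 0⟩, 16378180⟩ 0 0) (.cut .d 38295820 (.cut .d 19147910 (.cut .d 9573955 (.cut .d 4786977 (.cut .d 2393488 (.pos 58 .pm ⟨0, 0, 0, 0, 0, 0, 0, 0, 0, ⟨0, 0⟩, 0⟩ 0 0) (.pos 58 .pm ⟨0, 0, 0, 0, 0, 0, 0, 0, 347435, ⟨0, 0⟩, 16644579⟩ 0 0)) (.void 58 ⟨0, 0, 0, 0, 100000, 0, 0, 0, 0, ⟨0, 0⟩, 0⟩ 0 0)) (.void 58 ⟨0, 0, 0, 0, 100000, 0, 0, 0, 0, ⟨0, 0⟩, 0⟩ 0 0)) (.void 58 ⟨0, 0, 0, 0, 0, 0, 0, 0, 100000, ⟨0,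 0⟩, 16644579⟩ 0 0)) (.void 58 ⟨0, 0, 0, 0, 0, 0, 0, 0, 100000, ⟨0, 0⟩, 16644579⟩ 0 0))))))) (.cut .d 38295820 (.cut .v 33554432 (.cut .d 19147910 (.cut .v 25165824 (.cut .d 9573955 (.cut .v 20971520 (.cut .d 4786977 (.cut .v 18874368 (.cut .d 2393488 (.cut .d 1196744 (.cut .v 17825792 (.pos 19 .pp ⟨0, 0, 0, 0, 0, 0, 0, 0, 0, ⟨0, 0⟩, 0⟩ 0 0) (.pos 20 .pp ⟨0, 0, 0, 0, 0, 0, 0, 0, 0, ⟨0, 0⟩, 0⟩ 0 0)) (.pos 17 .pp ⟨0, 0, 0, 0, 0, 0, 0, 0, 0, ⟨0, 0⟩, 0⟩ 0 0)) (.pos 17 .pp ⟨0, 0, 0, 0, 0, 0, 0, 0, 370631, ⟨0, 0⟩, 17278579⟩ 0 0)) (.pos 18 .pp ⟨0, 0, 0, 0, 0, 0, 0, 739106, 0, ⟨699637, 11850937⟩, 0⟩ 46 75)) (.pos 15 .pp ⟨0, 0, 0, 0, 0, 0, 0, 0, 339265, ⟨0, 0⟩,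 17739746⟩ 0 0)) (.pos 16 .pp ⟨0, 0, 0, 0, 0, 0, 0, 0, 793866, ⟨0, 0⟩, 19632256⟩ 0 0)) (.pos 13 .pp ⟨0, 0, 0, 0, 9600923, 0, 0, 0, 359331, ⟨0, 0⟩, 18567042⟩ 0 0)) (.cut .d 9573955 (.pos 14 .pp ⟨1739611, 0, 0, 0, 0, 0, 0, 0, 0, ⟨0, 0⟩, 0⟩ 0 0) (.pos 14 .pp ⟨0, 0, 0, 0, 0, 0, 0, 0, 772035, ⟨0, 0⟩, 22080058⟩ 0 0))) (.void 11 ⟨0, 0, 0, 0, 0, 0, 0, 0, 100000, ⟨0, 0⟩, 19951585⟩ 0 0)) (.cut .d 19147910 (.cut .v 50331648 (.cut .v 41943040 (.pos 35 .pp ⟨2433402, 0, 0, 0, 0, 0, 0, 0, 0, ⟨0, 0⟩, 0⟩ 0 0) (.pos 36 .pp ⟨0, 0, 0, 0, 0, 0, 26854198, 0, 0, ⟨0, 0⟩, 0⟩ 0 0)) (.pos 34 .pp ⟨0, 49358002, 0, 0, 0, 0, 57667493, 0, 0, ⟨0, 0⟩, 0⟩ 0 0)) (.cut .v 50331648 (.cut .v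 41943040 (.pos 35 .pp ⟨0, 0, 0, 0, 0, 0, 0, 0, 4425899, ⟨0, 0⟩, 25087789⟩ 0 0) (.cut .d 28721865 (.cut .d 23934887 (.cut .s 3407872 (.cut .l 6001081 (.void 36 ⟨0, 0, 0, 0, 0, 0, 56452, 0, 43548, ⟨0, 0⟩, 27764203⟩ 0 0) (.cut .l 8162761 (.void 36 ⟨0, 0, 0, 0, 0, 0, 57973, 0, 42027, ⟨0, 0⟩, 27764203⟩ 0 0) (.cut .l 9243601 (.pos 36 .pp ⟨0, 0, 0, 0, 0, 0, 45561906, 0, 3916020, ⟨0, 0⟩, 27764203⟩ 0 0) (.cut .l 9784021 (.pos 36 .pp ⟨0, 0, 0, 0, 0, 0, 45133545, 0, 3916020, ⟨0, 0⟩, 27764203⟩ 0 0) (.cut .v 46137344 (.cut .s 3211264 (.cut .d 21541398 (.pos 51 .pp ⟨0, 0, 0, 0, 0, 0, 34562942, 0, 0, ⟨0, 0⟩, 0⟩ 0 0) (.cut .d 22738142 (.pos 51 .pp ⟨0, 2214006, 0, 0,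 0, 0, 37214026, 0, 3947897, ⟨0, 0⟩, 27166774⟩ 0 0) (.void 51 ⟨0, 38182, 0, 0, 0, 0, 0, 0, 61818, ⟨0, 0⟩, 27166774⟩ 0 0))) (.pos 51 .pp ⟨0, 8724284, 0, 0, 0, 0, 718092, 0, 0, ⟨0, 0⟩, 0⟩ 0 0)) (.cut .d 21541398 (.pos 52 .pp ⟨0, 8400271, 0, 0, 0, 0, 39212618, 0, 0, ⟨0, 0⟩, 0⟩ 0 0) (.pos 52 .pp ⟨0, 22385900, 0, 0, 0, 0, 46098164, 0, 0, ⟨0, 0⟩, 0⟩ 0 0))))))) (.pos 36 .pp ⟨0, 29174608, 0, 0, 0, 0, 654311, 0, 0, ⟨0, 0⟩, 0⟩ 0 0)) (.void 36 ⟨0, 52193, 0, 0, 0, 0, 2486, 0, 45322, ⟨0, 0⟩, 27764203⟩ 0 0)) (.void 36 ⟨0, 1934, 0, 0, 0, 0, 0, 0, 98066, ⟨0, 0⟩, 27764203⟩ 0 0))) (.void 34 ⟨0, 77050, 0, 0, 0, 0, 22950, 0, 0, ⟨0, 0⟩, 0⟩ 0 0)))) (.void 10 ⟨0, 54678, 0, 0,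 0, 0, 0, 0, 45322, ⟨0, 0⟩, 23726566⟩ 0 0)))),
    by decide +kernel⟩

def covers3 : cell.Covers table row3.1 :=
  ⟨(.cut .d 0 (.cut .v 16777216 (.cut .v 8388608 (.cut .v 4194304 (.void 4 ⟨0, 0, 100000, 0, 0, 0, 0, 0, 0, ⟨0, 0⟩, 0⟩ 0 0) (.pos 5 .mm ⟨0, 0, 0, 0, 0, 230230, 0, 0, 0, ⟨0, 0⟩, 0⟩ 0 0)) (.cut .v 12582912 (.pos 6 .mm ⟨0, 0, 0, 0, 0, 275907, 0, 0, 0, ⟨0, 0⟩, 0⟩ 0 0) (.cut .d (-8388608) (.pos 7 .mm ⟨0, 0, 0, 0, 0, 383716, 0, 0, 0, ⟨0, 0⟩, 0⟩ 0 0) (.cut .v 14680064 (.pos 8 .mm ⟨0, 0, 0, 0, 0, 311803, 0, 0, 0, ⟨0, 0⟩, 0⟩ 0 0) (.cut .v 15728640 (.pos 45 .mm ⟨0, 0, 0, 0, 0, 331990, 0, 0, 0, ⟨0, 0⟩, 0⟩ 0 0) (.pos 46 .mm ⟨0, 0, 0, 0, 0, 187267, 0, 0,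 0, ⟨0, 0⟩, 0⟩ 0 0)))))) (.cut .v 33554432 (.cut .v 25165824 (.cut .v 20971520 (.pos 15 .mp ⟨0, 0, 0, 0, 0, 0, 0, 0, 0, ⟨0, 0⟩, 0⟩ 0 0) (.pos 16 .mp ⟨767084, 0, 0, 0, 0, 0, 0, 0, 0, ⟨0, 0⟩, 0⟩ 0 0)) (.pos 14 .mp ⟨948902, 0, 0, 0, 0, 0, 0, 0, 0, ⟨0, 0⟩, 0⟩ 0 0)) (.void 12 ⟨100000, 0, 0, 0, 0, 0, 0, 0, 0, ⟨0, 0⟩, 0⟩ 0 0))) (.cut .v 16777216 (.cut .v 8388608 (.void 2 ⟨0, 0, 0, 0, 100000, 0, 0, 0, 0, ⟨0, 0⟩, 0⟩ 0 0) (.cut .v 12582912 (.pos 6 .pm ⟨0, 0, 0, 0, 0, 0, 0, 0, 348868, ⟨0, 0⟩, 13128881⟩ 0 0) (.cut .v 14680064 (.pos 8 .pm ⟨0, 0, 0, 0, 0, 0, 0, 0, 0, ⟨0, 0⟩, 0⟩ 0 0) (.cut .v 15728640 (.pos 45 .pm ⟨0, 0, 0, 0, 0, 0, 0, 0, 0, ⟨0, 0⟩, 0⟩ 0 0) (.cut .v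 16252928 (.pos 57 .pm ⟨0, 0, 0, 0, 0, 0, 0, 0, 59094, ⟨0, 0⟩, 16378180⟩ 0 0) (.cut .d 28636973 (.cut .d 14318486 (.cut .d 7159243 (.cut .d 3579621 (.cut .d 1789810 (.pos 58 .pm ⟨0, 0, 0, 0, 0, 0, 0, 0, 0, ⟨0, 0⟩, 0⟩ 0 0) (.pos 58 .pm ⟨0, 0, 0, 0, 0, 0, 0, 0, 0, ⟨0, 0⟩, 0⟩ 0 0)) (.pos 58 .pm ⟨0, 0, 0, 0, 0, 0, 0, 0, 319374, ⟨0, 0⟩, 16644579⟩ 0 0)) (.void 58 ⟨0, 0, 0, 0, 100000, 0, 0, 0, 0, ⟨0, 0⟩, 0⟩ 0 0)) (.void 58 ⟨0, 0, 0, 0, 0, 0, 0, 0, 100000, ⟨0, 0⟩, 16644579⟩ 0 0)) (.void 58 ⟨0, 0, 0, 0, 0, 0, 0, 0, 100000, ⟨0, 0⟩, 16644579⟩ 0 0))))))) (.cut .d 28636973 (.cut .v 33554432 (.cut .d 14318486 (.cut .v 25165824 (.cut .v 20971520 (.cut .d 7159243 (.cut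 .d 3579621 (.cut .d 1789810 (.cut .v 18874368 (.pos 17 .pp ⟨0, 0, 0, 0, 0, 0, 0, 0, 0, ⟨0, 0⟩, 0⟩ 0 0) (.pos 18 .pp ⟨0, 0, 0, 0, 0, 0, 0, 0, 0, ⟨0, 0⟩, 0⟩ 0 0)) (.pos 15 .pp ⟨0, 0, 0, 0, 0, 0, 0, 0, 0, ⟨0, 0⟩, 0⟩ 0 0)) (.pos 15 .pp ⟨0, 0, 0, 0, 0, 0, 0, 0, 305923, ⟨0, 0⟩, 17739746⟩ 0 0)) (.pos 15 .pp ⟨0, 0, 0, 0, 0, 0, 0, 0, 311864, ⟨0, 0⟩, 17739746⟩ 0 0)) (.pos 16 .pp ⟨0, 0, 0, 0, 0, 0, 0, 0, 328985, ⟨0, 0⟩, 19632256⟩ 0 0)) (.pos 14 .pp ⟨0, 0, 0, 0, 0, 0, 0, 0, 319938, ⟨0, 0⟩, 22080058⟩ 0 0)) (.pos 11 .pp ⟨0, 0, 0, 0, 0, 0, 0, 0, 14245560, ⟨0, 0⟩, 19951585⟩ 0 0)) (.cut .v 50331648 (.cut .d 14318486 (.pos 33 .pp ⟨0, 0, 0, 0, 0, 0, 0, 0, 309865, ⟨0, 0⟩,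 26257762⟩ 0 0) (.pos 33 .pp ⟨0, 13554909, 0, 0, 0, 0, 0, 0, 590849, ⟨0, 0⟩, 26257762⟩ 0 0)) (.pos 34 .pp ⟨0, 56962451, 0, 0, 0, 0, 586926, 0, 0, ⟨0, 0⟩, 0⟩ 0 0))) (.void 10 ⟨0, 64477, 0, 0, 0, 0, 0, 0, 35523, ⟨0, 0⟩, 23726566⟩ 0 0)))),
    by decide +kernel⟩

def covers4 : cell.Covers table row4.1 :=
  ⟨(.cut .d 0 (.cut .v 16777216 (.cut .v 8388608 (.cut .v 4194304 (.void 4 ⟨0, 0, 100000, 0, 0, 0, 0, 0, 0, ⟨0, 0⟩, 0⟩ 0 0) (.pos 5 .mm ⟨0, 0, 0, 0, 0, 1620287, 0, 0, 0, ⟨0, 0⟩, 0⟩ 0 0)) (.cut .v 12582912 (.pos 6 .mm ⟨0, 0, 0, 0, 0, 344924, 0, 0, 0, ⟨0, 0⟩, 0⟩ 0 0) (.cut .v 14680064 (.pos 8 .mm ⟨0, 0, 0, 0, 0, 402412, 0, 0, 0, ⟨0, 0⟩, 0⟩ 0 0) (.cut .v 15728640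 (.cut .d (-8388608) (.pos 45 .mm ⟨0, 0, 0, 0, 0, 6507047, 0, 0, 0, ⟨0, 0⟩, 0⟩ 0 0) (.pos 45 .mm ⟨0, 0, 0, 0, 0, 284417, 0, 0, 0, ⟨0, 0⟩, 0⟩ 0 0)) (.pos 46 .mm ⟨0, 0, 0, 0, 0, 177629, 0, 0, 0, ⟨0, 0⟩, 0⟩ 0 0))))) (.cut .v 67108864 (.cut .v 33554432 (.cut .v 25165824 (.pos 13 .mp ⟨649822, 0, 0, 0, 0, 0, 0, 0, 0, ⟨0, 0⟩, 0⟩ 0 0) (.pos 14 .mp ⟨1090700, 0, 0, 0, 0, 0, 0, 0, 0, ⟨0, 0⟩, 0⟩ 0 0)) (.void 12 ⟨100000, 0, 0, 0, 0, 0, 0, 0, 0, ⟨0, 0⟩, 0⟩ 0 0)) (.void 67 ⟨100000, 0, 0, 0, 0, 0, 0, 0, 0, ⟨0, 0⟩, 0⟩ 0 0))) (.cut .v 16777216 (.cut .v 8388608 (.void 2 ⟨0, 0, 0, 0, 100000, 0, 0, 0, 0, ⟨0, 0⟩, 0⟩ 0 0) (.cut .v 12582912 (.pos 6 .pm ⟨0, 0, 0, 0, 0, 0, 0, 0,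 0, ⟨0, 0⟩, 0⟩ 0 0) (.cut .v 14680064 (.pos 8 .pm ⟨0, 0, 0, 0, 0, 0, 0, 0, 0, ⟨0, 0⟩, 0⟩ 0 0) (.cut .v 15728640 (.pos 45 .pm ⟨0, 0, 0, 0, 0, 0, 0, 0, 0, ⟨0, 0⟩, 0⟩ 0 0) (.cut .d 22734344 (.cut .v 16252928 (.pos 57 .pm ⟨0, 0, 0, 0, 0, 0, 0, 0, 67433, ⟨0, 0⟩, 16378180⟩ 0 0) (.cut .d 11367172 (.cut .d 5683586 (.pos 58 .pm ⟨0, 0, 0, 0, 0, 0, 0, 0, 111699, ⟨0, 0⟩, 16644579⟩ 0 0) (.pos 58 .pm ⟨0, 0, 0, 0, 0, 0, 0, 0, 260599, ⟨0, 0⟩, 16644579⟩ 0 0)) (.void 58 ⟨0, 0, 0, 0, 0, 0, 0, 0, 100000, ⟨0, 0⟩, 16644579⟩ 0 0))) (.void 46 ⟨0, 0, 0, 0, 0, 0, 0, 0, 100000, ⟨0, 0⟩, 16508694⟩ 0 0)))))) (.cut .v 67108864 (.cut .d 22734344 (.cut .v 33554432 (.cut .v 25165824 (.cut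 .v 20971520 (.cut .d 11367172 (.cut .d 5683586 (.cut .d 2841793 (.pos 15 .pp ⟨0, 0, 0, 0, 0, 0, 0, 0, 0, ⟨0, 0⟩, 0⟩ 0 0) (.pos 15 .pp ⟨0, 0, 0, 0, 0, 0, 0, 0, 0, ⟨0, 0⟩, 0⟩ 0 0)) (.pos 15 .pp ⟨0, 0, 0, 0, 0, 0, 0, 0, 255800, ⟨0, 0⟩, 17739746⟩ 0 0)) (.pos 15 .pp ⟨0, 0, 0, 0, 0, 0, 0, 0, 5290853, ⟨0, 0⟩, 17739746⟩ 0 0)) (.pos 16 .pp ⟨0, 0, 0, 0, 0, 0, 0, 0, 1668367, ⟨0, 0⟩, 19632256⟩ 0 0)) (.pos 14 .pp ⟨0, 0, 0, 0, 0, 0, 0, 0, 293748, ⟨0, 0⟩, 22080058⟩ 0 0)) (.pos 12 .pp ⟨0, 11846051, 0, 0, 0, 0, 575376, 0, 0, ⟨0, 0⟩, 0⟩ 0 0)) (.void 10 ⟨0, 72281, 0, 0, 0, 0, 0, 0, 27719, ⟨0, 0⟩, 23726566⟩ 0 0)) (.pos 67 .pp ⟨471184095, 790309263, 0, 0, 0, 0, 0, 0, 0, ⟨0,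 0⟩, 0⟩ 0 0)))),
    by decide +kernel⟩

def covers5 : cell.Covers table row5.1 :=
  ⟨(.cut .d 0 (.cut .v 16777216 (.cut .d (-8388608) (.void 1 ⟨0, 0, 0, 0, 0, 100000, 0, 0, 0, ⟨0, 0⟩, 0⟩ 0 0) (.cut .v 8388608 (.cut .v 4194304 (.void 4 ⟨0, 0, 100000, 0, 0, 0, 0, 0, 0, ⟨0, 0⟩, 0⟩ 0 0) (.pos 5 .mm ⟨0, 0, 0, 0, 384459, 693409, 0, 0, 0, ⟨0, 0⟩, 0⟩ 0 0)) (.cut .v 12582912 (.pos 6 .mm ⟨0, 0, 0, 0, 0, 121755, 0, 0, 0, ⟨0, 0⟩, 0⟩ 0 0) (.cut .v 14680064 (.pos 8 .mm ⟨0, 0, 0, 0, 0, 234973, 0, 0, 0, ⟨0, 0⟩, 0⟩ 0 0) (.cut .v 15728640 (.pos 45 .mm ⟨0, 0, 0, 0, 0, 129539, 0, 0, 0, ⟨0, 0⟩, 0⟩ 0 0) (.pos 46 .mm ⟨0, 0, 0, 0, 0, 48570, 0, 0, 0, ⟨0, 0⟩, 0⟩ 0 0)))))) (.cut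 .v 67108864 (.cut .v 33554432 (.cut .v 25165824 (.cut .d (-8388608) (.void 13 ⟨0, 0, 0, 0, 0, 100000, 0, 0, 0, ⟨0, 0⟩, 0⟩ 0 0) (.pos 13 .mp ⟨0, 0, 0, 0, 0, 305841, 0, 0, 0, ⟨0, 0⟩, 0⟩ 0 0)) (.pos 14 .mp ⟨12747287, 0, 0, 0, 0, 0, 0, 0, 0, ⟨0, 0⟩, 0⟩ 0 0)) (.void 12 ⟨100000, 0, 0, 0, 0, 0, 0, 0, 0, ⟨0, 0⟩, 0⟩ 0 0)) (.void 67 ⟨100000, 0, 0, 0, 0, 0, 0, 0, 0, ⟨0, 0⟩, 0⟩ 0 0))) (.cut .v 16777216 (.cut .v 8388608 (.void 2 ⟨0, 0, 0, 0, 100000, 0, 0, 0, 0, ⟨0, 0⟩, 0⟩ 0 0) (.cut .d 18454939 (.cut .v 12582912 (.pos 6 .pm ⟨0, 0, 0, 0, 0, 0, 0, 0, 0, ⟨0, 0⟩, 0⟩ 0 0) (.cut .d 9227469 (.cut .v 14680064 (.pos 8 .pm ⟨0, 0, 0, 0, 0, 0, 0, 0, 0, ⟨0, 0⟩, 0⟩ 0 0) (.cut .v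 15728640 (.pos 45 .pm ⟨0, 0, 0, 0, 0, 0, 0, 0, 21537, ⟨0, 0⟩, 15966684⟩ 0 0) (.pos 46 .pm ⟨0, 0, 0, 0, 0, 0, 0, 0, 64364, ⟨0, 0⟩, 16508694⟩ 0 0))) (.pos 7 .pm ⟨0, 0, 0, 0, 0, 0, 0, 0, 598849, ⟨0, 0⟩, 15612959⟩ 0 0))) (.void 3 ⟨0, 0, 0, 0, 0, 0, 0, 0, 100000, ⟨0, 0⟩, 14107901⟩ 0 0))) (.cut .v 67108864 (.cut .v 33554432 (.cut .d 18454939 (.cut .v 25165824 (.cut .v 20971520 (.cut .d 9227469 (.pos 15 .pp ⟨0, 0, 0, 0, 0, 0, 0, 0, 175622, ⟨0, 0⟩, 17739746⟩ 0 0) (.pos 15 .pp ⟨0, 0, 0, 0, 0, 0, 0, 0, 1308963, ⟨0, 0⟩, 17739746⟩ 0 0)) (.pos 16 .pp ⟨0, 0, 0, 0, 0, 0, 0, 0, 1428521, ⟨0, 0⟩, 19632256⟩ 0 0)) (.pos 14 .pp ⟨0, 0, 0, 0, 0, 0, 0, 0, 2202385, ⟨0, 0⟩, 22080058⟩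 0 0)) (.pos 11 .pp ⟨0, 0, 0, 0, 0, 0, 0, 0, 14007815, ⟨0, 0⟩, 19951585⟩ 0 0)) (.cut .d 18454939 (.pos 12 .pp ⟨0, 0, 0, 0, 0, 0, 0, 0, 244963, ⟨0, 0⟩, 28215802⟩ 0 0) (.pos 12 .pp ⟨0, 39384323, 0, 0, 0, 0, 0, 0, 214530, ⟨0, 0⟩, 28215802⟩ 0 0))) (.pos 67 .pp ⟨263972883, 455185802, 0, 0, 0, 0, 0, 0, 0, ⟨0, 0⟩, 0⟩ 0 0)))),
    by decide +kernel⟩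

def covers6 : cell.Covers table row6.1 :=
  ⟨(.cut .d 0 (.cut .v 16777216 (.cut .d (-8388608) (.void 1 ⟨0, 0, 0, 0, 0, 100000, 0, 0, 0, ⟨0, 0⟩, 0⟩ 0 0) (.cut .v 8388608 (.cut .v 4194304 (.void 4 ⟨0, 0, 100000, 0, 0, 0, 0, 0, 0, ⟨0, 0⟩, 0⟩ 0 0) (.pos 5 .mm ⟨0, 0, 0, 0, 0, 251625, 0, 0, 879229, ⟨0, 0⟩, 9975792⟩ 0 0)) (.cut .v 12582912 (.pos 6 .mm ⟨0, 0, 0, 0, 0, 0, 0, 0, 0, ⟨0, 0⟩, 0⟩ 0 0) (.cut .d (-4194304) (.pos 7 .mm ⟨0, 0, 0, 0, 0, 2225109, 0, 0, 0, ⟨0, 0⟩, 0⟩ 0 0) (.cut .v 14680064 (.pos 8 .mm ⟨0, 0, 0, 0, 0, 513849, 0, 0, 0, ⟨0, 0⟩, 0⟩ 0 0) (.cut .v 15728640 (.cut .s 6422528 (.pos 45 .mm ⟨0, 0, 0, 0, 0, 386449, 0, 0, 0, ⟨0, 0⟩, 0⟩ 0 0) (.pos 45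 .mm ⟨0, 0, 0, 0, 0, 952355, 0, 0, 0, ⟨0, 0⟩, 0⟩ 0 0)) (.pos 46 .mm ⟨0, 0, 0, 0, 0, 1083757, 0, 0, 0, ⟨0, 0⟩, 0⟩ 0 0))))))) (.cut .v 67108864 (.cut .v 33554432 (.cut .d (-8388608) (.void 11 ⟨0, 0, 0, 0, 0, 100000, 0, 0, 0, ⟨0, 0⟩, 0⟩ 0 0) (.cut .v 25165824 (.cut .d (-4194304) (.pos 13 .mp ⟨0, 0, 0, 0, 0, 4851725, 0, 0, 0, ⟨0, 0⟩, 0⟩ 0 0) (.pos 13 .mp ⟨2093485, 0, 0, 0, 0, 0, 0, 0, 0, ⟨0, 0⟩, 0⟩ 0 0)) (.pos 14 .mp ⟨17231016, 0, 0, 0, 0, 0, 0, 0, 0, ⟨0, 0⟩, 0⟩ 0 0))) (.void 12 ⟨100000, 0, 0, 0, 0, 0, 0, 0, 0, ⟨0, 0⟩, 0⟩ 0 0)) (.void 67 ⟨100000, 0, 0, 0, 0, 0, 0, 0, 0, ⟨0, 0⟩, 0⟩ 0 0))) (.cut .v 16777216 (.cut .v 8388608 (.cut .v 4194304 (.void 4 ⟨0, 0, 50000,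 0, 50000, 0, 0, 0, 0, ⟨0, 0⟩, 0⟩ 0 0) (.pos 5 .pm ⟨0, 0, 0, 0, 0, 0, 0, 0, 1043331, ⟨0, 0⟩, 9975792⟩ 0 0)) (.cut .d 14953607 (.cut .v 12582912 (.pos 6 .pm ⟨0, 0, 0, 0, 0, 0, 0, 0, 217096, ⟨0, 0⟩, 13128881⟩ 0 0) (.cut .d 7476803 (.cut .v 14680064 (.cut .d 3738401 (.pos 8 .pm ⟨0, 0, 0, 0, 0, 0, 0, 0, 157253, ⟨0, 0⟩, 15100357⟩ 0 0) (.pos 8 .pm ⟨0, 0, 0, 0, 0, 0, 0, 0, 614597, ⟨0, 0⟩, 15100357⟩ 0 0)) (.cut .d 3738401 (.cut .l 6001081 (.cut .l 3839401 (.cut .v 15728640 (.cut .s 6422528 (.cut .s 6225920 (.pos 45 .pm ⟨0, 0, 0, 0, 0, 0, 0, 0, 59056, ⟨0, 0⟩, 15966684⟩ 0 0) (.pos 45 .pm ⟨0, 0, 0, 0, 0, 0, 0, 0, 0, ⟨0, 0⟩, 0⟩ 0 0)) (.pos 45 .pm ⟨0, 0, 0, 0, 0, 0,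 0, 0, 0, ⟨0, 0⟩, 0⟩ 0 0)) (.cut .s 6422528 (.pos 46 .pm ⟨0, 0, 0, 0, 0, 0, 0, 0, 0, ⟨0, 0⟩, 0⟩ 0 0) (.pos 46 .pm ⟨0, 0, 0, 0, 0, 0, 0, 0, 0, ⟨0, 0⟩, 0⟩ 0 0))) (.pos 9 .pm ⟨0, 0, 0, 0, 0, 0, 0, 0, 0, ⟨0, 0⟩, 0⟩ 0 0)) (.pos 9 .pm ⟨0, 0, 0, 0, 0, 0, 0, 0, 0, ⟨0, 0⟩, 0⟩ 0 0)) (.cut .v 15728640 (.cut .s 6422528 (.pos 45 .pm ⟨0, 0, 0, 0, 0, 0, 0, 0, 321994, ⟨0, 0⟩, 15966684⟩ 0 0) (.cut .v 15204352 (.pos 64 .pm ⟨0, 0, 0, 0, 0, 0, 0, 0, 348875, ⟨0, 0⟩, 15831932⟩ 0 0) (.pos 65 .pm ⟨0, 0, 0, 0, 0, 0, 0, 0, 361597, ⟨0, 0⟩, 16107373⟩ 0 0))) (.cut .s 6422528 (.pos 46 .pm ⟨0, 0, 0, 0, 0, 0, 0, 0, 306191, ⟨0, 0⟩, 16508694⟩ 0 0) (.pos 46 .pm ⟨0, 0, 0, 0, 0, 0, 0, 0,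 367319, ⟨0, 0⟩, 16508694⟩ 0 0))))) (.cut .v 14680064 (.pos 8 .pm ⟨0, 0, 0, 0, 0, 0, 0, 0, 636255, ⟨0, 0⟩, 15100357⟩ 0 0) (.cut .s 6422528 (.cut .d 11215205 (.pos 9 .pm ⟨0, 0, 0, 0, 0, 0, 0, 0, 631034, ⟨0, 0⟩, 16226390⟩ 0 0) (.pos 9 .pm ⟨0, 0, 0, 0, 0, 0, 0, 0, 1382035, ⟨0, 0⟩, 16226390⟩ 0 0)) (.cut .d 11215205 (.pos 9 .pm ⟨0, 0, 0, 0, 0, 0, 0, 0, 745745, ⟨0, 0⟩, 16226390⟩ 0 0) (.pos 9 .pm ⟨0, 0, 0, 0, 0, 0, 0, 0, 1847443, ⟨0, 0⟩, 16226390⟩ 0 0)))))) (.void 3 ⟨0, 0, 0, 0, 0, 0, 0, 0, 100000, ⟨0, 0⟩, 14107901⟩ 0 0))) (.cut .v 67108864 (.cut .v 33554432 (.cut .d 14953607 (.cut .v 25165824 (.cut .v 20971520 (.cut .d 7476803 (.pos 15 .pp ⟨0, 0, 0, 0, 0, 0,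 0, 0, 355503, ⟨0, 0⟩, 17739746⟩ 0 0) (.cut .l 6001081 (.pos 15 .pp ⟨0, 0, 0, 0, 0, 0, 0, 0, 1647723, ⟨0, 0⟩, 17739746⟩ 0 0) (.cut .s 6422528 (.cut .v 18874368 (.cut .d 11215205 (.pos 17 .pp ⟨0, 0, 0, 0, 0, 0, 0, 0, 554337, ⟨0, 0⟩, 17278579⟩ 0 0) (.pos 17 .pp ⟨0, 0, 0, 0, 0, 0, 0, 0, 1447076, ⟨0, 0⟩, 17278579⟩ 0 0)) (.pos 18 .pp ⟨0, 0, 0, 0, 0, 0, 0, 0, 1502180, ⟨0, 0⟩, 18269873⟩ 0 0)) (.cut .d 11215205 (.pos 15 .pp ⟨0, 0, 0, 0, 0, 0, 0, 0, 621743, ⟨0, 0⟩, 17739746⟩ 0 0) (.cut .v 18874368 (.pos 17 .pp ⟨0, 0, 0, 0, 0, 0, 0, 0, 1677978, ⟨0, 0⟩, 17278579⟩ 0 0) (.pos 18 .pp ⟨0, 0, 0, 0, 0, 0, 0, 0, 1924005, ⟨0, 0⟩, 18269873⟩ 0 0)))))) (.pos 16 .pp ⟨0, 0, 0,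 0, 0, 0, 0, 0, 1335770, ⟨0, 0⟩, 19632256⟩ 0 0)) (.pos 14 .pp ⟨0, 0, 0, 0, 0, 0, 0, 0, 486330, ⟨0, 0⟩, 22080058⟩ 0 0)) (.cut .v 25165824 (.pos 13 .pp ⟨0, 0, 0, 0, 0, 0, 0, 0, 7771590, ⟨0, 0⟩, 18567042⟩ 0 0) (.pos 14 .pp ⟨0, 1460811, 0, 0, 0, 0, 0, 0, 7569103, ⟨0, 0⟩, 22080058⟩ 0 0))) (.pos 12 .pp ⟨0, 14813138, 0, 0, 0, 0, 0, 0, 434052, ⟨0, 0⟩, 28215802⟩ 0 0)) (.pos 67 .pp ⟨114502446, 185371631, 0, 0, 0, 0, 0, 0, 0, ⟨0, 0⟩, 0⟩ 0 0)))),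
    by decide +kernel⟩

def covers7 : cell.Covers table row7.1 :=
  ⟨(.cut .d 0 (.cut .v 16777216 (.cut .d (-8388608) (.void 1 ⟨0, 0, 0, 0, 0, 100000, 0, 0, 0, ⟨0, 0⟩, 0⟩ 0 0) (.cut .d (-4194304) (.void 1 ⟨0, 0, 0, 0, 0, 100000, 0, 0, 0, ⟨0, 0⟩, 0⟩ 0 0) (.cut .v 8388608 (.cut .v 4194304 (.void 4 ⟨0, 0, 100000, 0, 0, 0, 0, 0, 0, ⟨0, 0⟩, 0⟩ 0 0) (.pos 5 .mm ⟨0, 0, 0, 0, 0, 0, 0, 0, 0, ⟨0, 0⟩, 0⟩ 0 0)) (.cut .v 12582912 (.pos 6 .mm ⟨0, 0, 0, 0, 0, 471817, 0, 0, 0, ⟨0, 0⟩, 0⟩ 0 0) (.cut .v 14680064 (.cut .s 7176192 (.pos 8 .mm ⟨0, 0, 0, 0, 0, 1288516, 0, 0, 0, ⟨0, 0⟩, 0⟩ 0 0) (.cut .s 7356416 (.pos 8 .mm ⟨0, 0, 0, 0, 0, 1839916, 0, 0, 0, ⟨0, 0⟩, 0⟩ 0 0) (.pos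 8 .mm ⟨0, 0, 0, 0, 0, 2506348, 0, 0, 0, ⟨0, 0⟩, 0⟩ 0 0))) (.cut .d (-2097152) (.cut .d (-3145728) (.pos 9 .mm ⟨0, 0, 0, 0, 0, 5677497, 0, 0, 0, ⟨0, 0⟩, 0⟩ 0 0) (.pos 9 .mm ⟨0, 0, 0, 0, 0, 4185728, 0, 0, 0, ⟨0, 0⟩, 0⟩ 0 0)) (.cut .l 6001081 (.cut .d (-1048576) (.pos 9 .mm ⟨0, 0, 0, 0, 0, 3610284, 0, 0, 0, ⟨0, 0⟩, 0⟩ 0 0) (.cut .v 15728640 (.cut .d (-524288) (.pos 45 .mm ⟨0, 0, 0, 0, 0, 3049155, 0, 0, 0, ⟨0, 0⟩, 0⟩ 0 0) (.pos 45 .mm ⟨0, 0, 0, 0, 0, 849133, 0, 0, 0, ⟨0, 0⟩, 0⟩ 0 0)) (.pos 46 .mm ⟨0, 0, 0, 0, 0, 2432128, 0, 0, 0, ⟨0, 0⟩, 0⟩ 0 0))) (.pos 9 .mm ⟨0, 0, 0, 0, 0, 1729010, 0, 0, 0, ⟨0, 0⟩, 0⟩ 0 0)))))))) (.cut .v 67108864 (.cut .v 33554432 (.cut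 .d (-8388608) (.void 11 ⟨0, 0, 0, 0, 0, 100000, 0, 0, 0, ⟨0, 0⟩, 0⟩ 0 0) (.cut .d (-4194304) (.void 11 ⟨0, 0, 0, 0, 0, 100000, 0, 0, 0, ⟨0, 0⟩, 0⟩ 0 0) (.cut .v 25165824 (.cut .v 20971520 (.cut .d (-2097152) (.cut .d (-3145728) (.pos 15 .mp ⟨0, 0, 0, 0, 0, 7960462, 0, 0, 0, ⟨0, 0⟩, 0⟩ 0 0) (.pos 15 .mp ⟨0, 0, 0, 0, 0, 5233282, 0, 0, 0, ⟨0, 0⟩, 0⟩ 0 0)) (.pos 15 .mp ⟨0, 0, 0, 0, 0, 3630798, 0, 0, 0, ⟨0, 0⟩, 0⟩ 0 0)) (.pos 16 .mp ⟨13997289, 0, 0, 0, 0, 0, 0, 0, 0, ⟨0, 0⟩, 0⟩ 0 0)) (.pos 14 .mp ⟨25967978, 0, 0, 0, 0, 0, 0, 0, 0, ⟨0, 0⟩, 0⟩ 0 0)))) (.void 12 ⟨100000, 0, 0, 0, 0, 0, 0, 0, 0, ⟨0, 0⟩, 0⟩ 0 0)) (.void 67 ⟨100000, 0, 0, 0, 0, 0, 0, 0, 0, ⟨0, 0⟩,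 0⟩ 0 0))) (.cut .v 16777216 (.cut .v 8388608 (.cut .v 4194304 (.void 4 ⟨0, 0, 50000, 0, 50000, 0, 0, 0, 0, ⟨0, 0⟩, 0⟩ 0 0) (.pos 5 .pm ⟨0, 0, 0, 0, 0, 0, 0, 0, 1131823, ⟨0, 0⟩, 9975792⟩ 0 0)) (.cut .d 12260274 (.cut .v 12582912 (.pos 6 .pm ⟨0, 0, 0, 0, 0, 0, 0, 0, 239827, ⟨0, 0⟩, 13128881⟩ 0 0) (.cut .d 6130137 (.cut .v 14680064 (.pos 8 .pm ⟨0, 0, 0, 0, 0, 0, 0, 0, 54468, ⟨0, 0⟩, 15100357⟩ 0 0) (.cut .d 3065068 (.cut .v 15728640 (.pos 45 .pm ⟨0, 0, 0, 0, 0, 0, 0, 0, 0, ⟨0, 0⟩, 0⟩ 0 0) (.pos 46 .pm ⟨0, 0, 0, 0, 0, 0, 0, 0, 0, ⟨0, 0⟩, 0⟩ 0 0)) (.pos 9 .pm ⟨0, 0, 0, 0, 0, 0, 0, 0, 224326, ⟨0, 0⟩, 16226390⟩ 0 0))) (.cut .v 14680064 (.pos 8 .pm ⟨0, 0, 0, 0,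 0, 0, 0, 0, 856057, ⟨0, 0⟩, 15100357⟩ 0 0) (.pos 9 .pm ⟨0, 0, 0, 0, 0, 0, 0, 0, 856519, ⟨0, 0⟩, 16226390⟩ 0 0)))) (.pos 3 .pm ⟨0, 0, 0, 0, 0, 0, 0, 0, 3475509, ⟨0, 0⟩, 14107901⟩ 0 0))) (.cut .v 67108864 (.cut .v 33554432 (.cut .v 25165824 (.cut .d 12260274 (.cut .d 6130137 (.pos 13 .pp ⟨0, 0, 0, 0, 0, 0, 0, 0, 0, ⟨0, 0⟩, 0⟩ 0 0) (.pos 13 .pp ⟨0, 0, 0, 0, 0, 0, 0, 0, 841358, ⟨0, 0⟩, 18567042⟩ 0 0)) (.cut .v 20971520 (.pos 15 .pp ⟨0, 0, 0, 0, 0, 0, 0, 0, 3540891, ⟨0, 0⟩, 17739746⟩ 0 0) (.pos 16 .pp ⟨0, 0, 0, 0, 0, 0, 0, 0, 4027318, ⟨0, 0⟩, 19632256⟩ 0 0))) (.pos 14 .pp ⟨0, 3026563, 0, 0, 0, 0, 0, 0, 826543, ⟨0, 0⟩, 22080058⟩ 0 0)) (.pos 12 .pp ⟨0, 3249688,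 0, 0, 0, 0, 0, 0, 0, ⟨0, 0⟩, 0⟩ 0 0)) (.pos 67 .pp ⟨331812220, 405727929, 0, 0, 0, 0, 0, 0, 0, ⟨0, 0⟩, 0⟩ 0 0)))),
    by decide +kernel⟩

def covers8 : cell.Covers table row8.1 :=
  ⟨(.cut .d 0 (.cut .v 16777216 (.cut .d (-8388608) (.void 1 ⟨0, 0, 0, 0, 0, 100000, 0, 0, 0, ⟨0, 0⟩, 0⟩ 0 0) (.cut .d (-4194304) (.void 1 ⟨0, 0, 0, 0, 0, 100000, 0, 0, 0, ⟨0, 0⟩, 0⟩ 0 0) (.cut .v 8388608 (.cut .v 4194304 (.void 4 ⟨0, 0, 100000, 0, 0, 0, 0, 0, 0, ⟨0, 0⟩, 0⟩ 0 0) (.pos 5 .mm ⟨0, 0, 0, 0, 0, 0, 0, 0, 0, ⟨0, 0⟩, 0⟩ 0 0)) (.cut .v 12582912 (.pos 6 .mm ⟨0, 0, 0, 0, 0, 2635800, 0, 0, 0, ⟨0, 0⟩, 0⟩ 0 0) (.cut .d (-2097152) (.cut .d (-3145728) (.pos 7 .mm ⟨0, 0, 0,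 0, 0, 10148295, 0, 0, 0, ⟨0, 0⟩, 0⟩ 0 0) (.cut .l 6001081 (.void 7 ⟨0, 0, 0, 0, 0, 100000, 0, 0, 0, ⟨0, 0⟩, 0⟩ 0 0) (.cut .s 7798784 (.cut .s 7667712 (.pos 7 .mm ⟨0, 0, 0, 0, 0, 4567449, 0, 0, 0, ⟨0, 0⟩, 0⟩ 0 0) (.pos 7 .mm ⟨0, 0, 0, 0, 0, 6047858, 0, 0, 0, ⟨0, 0⟩, 0⟩ 0 0)) (.pos 7 .mm ⟨0, 0, 0, 0, 0, 8710674, 0, 0, 0, ⟨0, 0⟩, 0⟩ 0 0)))) (.cut .l 6001081 (.cut .v 14680064 (.cut .s 7798784 (.pos 8 .mm ⟨0, 0, 0, 0, 0, 3474778, 0, 0, 0, ⟨0, 0⟩, 0⟩ 0 0) (.cut .s 7929856 (.pos 8 .mm ⟨0, 0, 0, 0, 0, 4475186, 0, 0, 0, ⟨0, 0⟩, 0⟩ 0 0) (.pos 8 .mm ⟨0, 0, 0, 0, 0, 5513963, 0, 0, 0, ⟨0, 0⟩, 0⟩ 0 0))) (.cut .s 7798784 (.cut .d (-1048576) (.cut .s 7667712 (.pos 9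 .mm ⟨0, 0, 0, 0, 0, 4740352, 0, 0, 0, ⟨0, 0⟩, 0⟩ 0 0) (.pos 9 .mm ⟨0, 0, 0, 0, 0, 5923850, 0, 0, 0, ⟨0, 0⟩, 0⟩ 0 0)) (.cut .v 15728640 (.cut .d (-524288) (.pos 45 .mm ⟨0, 0, 0, 0, 0, 4526892, 0, 0, 0, ⟨0, 0⟩, 0⟩ 0 0) (.pos 45 .mm ⟨0, 0, 0, 0, 0, 2992318, 0, 0, 0, ⟨0, 0⟩, 0⟩ 0 0)) (.pos 46 .mm ⟨0, 0, 0, 0, 0, 4508951, 0, 0, 0, ⟨0, 0⟩, 0⟩ 0 0))) (.cut .d (-1048576) (.cut .s 7929856 (.pos 9 .mm ⟨0, 0, 0, 0, 0, 7462488, 0, 0, 0, ⟨0, 0⟩, 0⟩ 0 0) (.pos 9 .mm ⟨0, 0, 0, 0, 0, 9222066, 0, 0, 0, ⟨0, 0⟩, 0⟩ 0 0)) (.cut .l 3839401 (.cut .l 2758561 (.cut .d (-524288) (.cut .v 15728640 (.pos 45 .mm ⟨0, 0, 0, 0, 0, 7307785, 0, 0, 0, ⟨0, 0⟩, 0⟩ 0 0) (.pos 46 .mm ⟨0,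 0, 0, 0, 0, 7925045, 0, 0, 0, ⟨0, 0⟩, 0⟩ 0 0)) (.cut .v 15728640 (.cut .d (-262144) (.pos 45 .mm ⟨0, 0, 0, 0, 0, 5116224, 0, 0, 0, ⟨0, 0⟩, 0⟩ 0 0) (.pos 45 .mm ⟨0, 0, 0, 0, 0, 0, 0, 0, 0, ⟨0, 0⟩, 0⟩ 0 0)) (.pos 46 .mm ⟨0, 0, 0, 0, 0, 5538176, 0, 0, 0, ⟨0, 0⟩, 0⟩ 0 0))) (.pos 9 .mm ⟨0, 0, 0, 0, 0, 5004698, 0, 0, 0, ⟨0, 0⟩, 0⟩ 0 0)) (.pos 9 .mm ⟨0, 0, 0, 0, 0, 0, 0, 0, 0, ⟨0, 0⟩, 0⟩ 0 0))))) (.cut .s 7798784 (.pos 7 .mm ⟨0, 0, 0, 0, 0, 2037641, 0, 0, 0, ⟨0, 0⟩, 0⟩ 0 0) (.pos 7 .mm ⟨0, 0, 0, 0, 0, 4045842, 0, 0, 0, ⟨0, 0⟩, 0⟩ 0 0)))))))) (.cut .v 67108864 (.cut .v 33554432 (.cut .d (-8388608) (.void 11 ⟨0, 0, 0, 0, 0, 100000, 0, 0, 0, ⟨0, 0⟩, 0⟩ 0 0) (.cut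 .d (-4194304) (.void 11 ⟨0, 0, 0, 0, 0, 100000, 0, 0, 0, ⟨0, 0⟩, 0⟩ 0 0) (.cut .v 25165824 (.cut .v 20971520 (.cut .d (-2097152) (.cut .v 18874368 (.cut .l 6001081 (.void 17 ⟨0, 0, 0, 0, 0, 100000, 0, 0, 0, ⟨0, 0⟩, 0⟩ 0 0) (.cut .d (-3145728) (.cut .s 7798784 (.pos 17 .mp ⟨0, 0, 0, 0, 0, 9990760, 0, 0, 0, ⟨0, 0⟩, 0⟩ 0 0) (.void 17 ⟨0, 0, 0, 0, 0, 100000, 0, 0, 0, ⟨0, 0⟩, 0⟩ 0 0)) (.cut .s 7798784 (.pos 17 .mp ⟨0, 0, 0, 0, 0, 6561207, 0, 0, 0, ⟨0, 0⟩, 0⟩ 0 0) (.cut .d (-2621440) (.pos 17 .mp ⟨0, 0, 0, 0, 0, 12041568, 0, 0, 0, ⟨0, 0⟩, 0⟩ 0 0) (.pos 17 .mp ⟨1031048, 0, 0, 0, 0, 8660299, 0, 0, 0, ⟨0, 0⟩, 0⟩ 0 0))))) (.pos 18 .mp ⟨17491067, 0, 0, 0, 0, 0,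 0, 0, 0, ⟨0, 0⟩, 0⟩ 0 0)) (.cut .v 18874368 (.cut .l 6001081 (.cut .s 7798784 (.pos 17 .mp ⟨0, 0, 0, 0, 0, 5961626, 0, 0, 0, ⟨0, 0⟩, 0⟩ 0 0) (.cut .d (-1048576) (.pos 17 .mp ⟨0, 0, 0, 0, 0, 10065075, 0, 0, 0, ⟨0, 0⟩, 0⟩ 0 0) (.pos 17 .mp ⟨0, 0, 0, 0, 0, 7987984, 0, 0, 0, ⟨0, 0⟩, 0⟩ 0 0))) (.pos 17 .mp ⟨0, 0, 0, 0, 0, 5460269, 0, 0, 0, ⟨0, 0⟩, 0⟩ 0 0)) (.pos 18 .mp ⟨10508349, 0, 0, 0, 0, 0, 0, 0, 0, ⟨0, 0⟩, 0⟩ 0 0))) (.pos 16 .mp ⟨20564879, 0, 0, 0, 0, 0, 0, 0, 0, ⟨0, 0⟩, 0⟩ 0 0)) (.pos 14 .mp ⟨38678073, 0, 0, 0, 0, 0, 0, 0, 0, ⟨0, 0⟩, 0⟩ 0 0)))) (.void 12 ⟨100000, 0, 0, 0, 0, 0, 0, 0, 0, ⟨0, 0⟩, 0⟩ 0 0)) (.void 67 ⟨100000, 0, 0, 0, 0, 0, 0, 0, 0, ⟨0,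 0⟩, 0⟩ 0 0))) (.cut .v 16777216 (.cut .v 8388608 (.cut .v 4194304 (.void 4 ⟨0, 0, 50000, 0, 50000, 0, 0, 0, 0, ⟨0, 0⟩, 0⟩ 0 0) (.pos 5 .pm ⟨0, 0, 0, 0, 0, 0, 0, 0, 982262, ⟨0, 0⟩, 9975792⟩ 0 0)) (.cut .v 12582912 (.pos 6 .pm ⟨0, 0, 0, 0, 0, 0, 0, 0, 0, ⟨0, 0⟩, 0⟩ 0 0) (.cut .d 10285164 (.cut .v 14680064 (.pos 8 .pm ⟨0, 0, 0, 0, 0, 0, 0, 0, 0, ⟨0, 0⟩, 0⟩ 0 0) (.pos 9 .pm ⟨0, 0, 0, 0, 0, 0, 0, 0, 0, ⟨0, 0⟩, 0⟩ 0 0)) (.pos 7 .pm ⟨0, 0, 0, 0, 0, 0, 0, 0, 989759, ⟨0, 0⟩, 15612959⟩ 0 0)))) (.cut .v 67108864 (.cut .v 33554432 (.cut .v 25165824 (.pos 13 .pp ⟨0, 0, 0, 0, 0, 0, 0, 0, 207812, ⟨0, 0⟩, 18567042⟩ 0 0) (.pos 14 .pp ⟨3501453, 0, 0, 0, 0, 0, 0, 0, 0,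 ⟨0, 0⟩, 0⟩ 0 0)) (.pos 12 .pp ⟨13488034, 0, 0, 0, 0, 0, 0, 0, 0, ⟨0, 0⟩, 0⟩ 0 0)) (.cut .v 134217728 (.pos 70 .pp ⟨250265327, 194100572, 0, 0, 0, 0, 0, 0, 0, ⟨0, 0⟩, 0⟩ 0 0) (.void 71 ⟨0, 100000, 0, 0, 0, 0, 0, 0, 0, ⟨0, 0⟩, 0⟩ 0 0))))),
    by decide +kernel⟩

def covers9 : cell.Covers table row9.1 :=
  ⟨(.cut .d 0 (.cut .v 16777216 (.cut .d (-8388608) (.void 1 ⟨0, 0, 0, 0, 0, 100000, 0, 0, 0, ⟨0, 0⟩, 0⟩ 0 0) (.cut .d (-4194304) (.void 1 ⟨0, 0, 0, 0, 0, 100000, 0, 0, 0, ⟨0, 0⟩, 0⟩ 0 0) (.cut .v 8388608 (.cut .v 4194304 (.void 4 ⟨0, 0, 100000, 0, 0, 0, 0, 0, 0, ⟨0, 0⟩, 0⟩ 0 0) (.pos 5 .mm ⟨0, 0, 0, 0, 0, 655803, 0, 0, 0, ⟨0, 0⟩, 0⟩ 0 0)) (.cut .v 12582912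 (.pos 6 .mm ⟨0, 0, 0, 0, 0, 7492566, 0, 0, 0, ⟨0, 0⟩, 0⟩ 0 0) (.cut .d (-2097152) (.cut .s 8323072 (.pos 7 .mm ⟨0, 0, 0, 0, 0, 14420167, 0, 0, 0, ⟨0, 0⟩, 0⟩ 0 0) (.pos 7 .mm ⟨0, 0, 0, 0, 0, 20429560, 0, 0, 0, ⟨0, 0⟩, 0⟩ 0 0)) (.cut .s 8323072 (.cut .v 14680064 (.cut .s 8192000 (.pos 8 .mm ⟨0, 0, 0, 0, 0, 6811500, 0, 0, 0, ⟨0, 0⟩, 0⟩ 0 0) (.pos 8 .mm ⟨0, 0, 0, 0, 0, 8307930, 0, 0, 0, ⟨0, 0⟩, 0⟩ 0 0)) (.cut .l 6001081 (.cut .d (-1048576) (.pos 9 .mm ⟨0, 0, 0, 0, 0, 13044831, 0, 0, 0, ⟨0, 0⟩, 0⟩ 0 0) (.cut .l 3839401 (.cut .d (-524288) (.cut .s 8192000 (.pos 9 .mm ⟨0, 0, 0, 0, 0, 10100166, 0, 0, 0, ⟨0, 0⟩, 0⟩ 0 0) (.pos 9 .mm ⟨0, 0, 0, 0, 0, 12253981, 0,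 0, 0, ⟨0, 0⟩, 0⟩ 0 0)) (.cut .d (-262144) (.cut .v 15728640 (.pos 45 .mm ⟨0, 0, 0, 0, 0, 8944377, 0, 0, 0, ⟨0, 0⟩, 0⟩ 0 0) (.pos 46 .mm ⟨0, 0, 0, 0, 0, 10121902, 0, 0, 0, ⟨0, 0⟩, 0⟩ 0 0)) (.pos 9 .mm ⟨0, 0, 0, 0, 0, 0, 0, 0, 0, ⟨0, 0⟩, 0⟩ 0 0))) (.pos 9 .mm ⟨0, 0, 0, 0, 0, 6754477, 0, 0, 0, ⟨0, 0⟩, 0⟩ 0 0))) (.pos 9 .mm ⟨0, 0, 0, 0, 0, 8715123, 0, 0, 0, ⟨0, 0⟩, 0⟩ 0 0))) (.cut .v 14680064 (.cut .s 8454144 (.pos 8 .mm ⟨0, 0, 0, 0, 0, 10067241, 0, 0, 0, ⟨0, 0⟩, 0⟩ 0 0) (.pos 8 .mm ⟨0, 0, 0, 0, 0, 12077465, 0, 0, 0, ⟨0, 0⟩, 0⟩ 0 0)) (.cut .d (-1048576) (.cut .l 6001081 (.pos 9 .mm ⟨0, 0, 0, 0, 0, 18941271, 0, 0, 0, ⟨0, 0⟩, 0⟩ 0 0) (.pos 9 .mm ⟨0, 0, 0, 0,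 0, 15481357, 0, 0, 0, ⟨0, 0⟩, 0⟩ 0 0)) (.cut .l 6001081 (.cut .l 3839401 (.cut .d (-524288) (.cut .s 8454144 (.pos 9 .mm ⟨0, 0, 0, 0, 0, 15034909, 0, 0, 0, ⟨0, 0⟩, 0⟩ 0 0) (.pos 9 .mm ⟨0, 0, 0, 0, 0, 18204078, 0, 0, 0, ⟨0, 0⟩, 0⟩ 0 0)) (.cut .d (-262144) (.cut .v 15728640 (.pos 45 .mm ⟨0, 0, 0, 0, 0, 13213860, 0, 0, 0, ⟨0, 0⟩, 0⟩ 0 0) (.cut .s 8454144 (.pos 46 .mm ⟨0, 0, 0, 0, 0, 12978928, 0, 0, 0, ⟨0, 0⟩, 0⟩ 0 0) (.pos 46 .mm ⟨0, 0, 0, 0, 0, 16094306, 0, 0, 0, ⟨0, 0⟩, 0⟩ 0 0))) (.pos 9 .mm ⟨0, 0, 0, 0, 0, 0, 0, 0, 0, ⟨0, 0⟩, 0⟩ 0 0))) (.pos 9 .mm ⟨0, 0, 0, 0, 0, 11358371, 0, 0, 0, ⟨0, 0⟩, 0⟩ 0 0)) (.pos 9 .mm ⟨0, 0, 0, 0, 0, 0, 0, 0, 0, ⟨0, 0⟩, 0⟩ 0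 0)))))))))) (.cut .v 268435456 (.cut .v 67108864 (.cut .v 33554432 (.cut .d (-8388608) (.void 11 ⟨0, 0, 0, 0, 0, 100000, 0, 0, 0, ⟨0, 0⟩, 0⟩ 0 0) (.cut .d (-4194304) (.void 11 ⟨0, 0, 0, 0, 0, 100000, 0, 0, 0, ⟨0, 0⟩, 0⟩ 0 0) (.cut .v 25165824 (.cut .d (-2097152) (.cut .v 20971520 (.cut .d (-3145728) (.void 15 ⟨0, 0, 0, 0, 0, 100000, 0, 0, 0, ⟨0, 0⟩, 0⟩ 0 0) (.cut .v 18874368 (.cut .l 6001081 (.void 17 ⟨0, 0, 0, 0, 0, 100000, 0, 0, 0, ⟨0, 0⟩, 0⟩ 0 0) (.cut .s 8323072 (.cut .v 17825792 (.cut .s 8192000 (.pos 19 .mp ⟨0, 0, 0, 0, 0, 13427775, 0, 0, 0, ⟨0, 0⟩, 0⟩ 0 0) (.pos 19 .mp ⟨0, 0, 0, 0, 0, 16372160, 0, 0, 0, ⟨0, 0⟩, 0⟩ 0 0)) (.pos 20 .mp ⟨16623528,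 0, 0, 0, 0, 601139, 0, 0, 0, ⟨0, 0⟩, 0⟩ 0 0)) (.cut .v 17825792 (.cut .s 8454144 (.pos 19 .mp ⟨1163952, 0, 0, 0, 0, 18707203, 0, 0, 0, ⟨0, 0⟩, 0⟩ 0 0) (.pos 19 .mp ⟨4227066, 0, 0, 0, 0, 19646719, 0, 0, 0, ⟨0, 0⟩, 0⟩ 0 0)) (.pos 20 .mp ⟨24991389, 0, 0, 0, 0, 0, 0, 0, 0, ⟨0, 0⟩, 0⟩ 0 0)))) (.pos 18 .mp ⟨27633013, 0, 0, 0, 0, 0, 0, 0, 0, ⟨0, 0⟩, 0⟩ 0 0))) (.void 16 ⟨100000, 0, 0, 0, 0, 0, 0, 0, 0, ⟨0, 0⟩, 0⟩ 0 0)) (.cut .v 20971520 (.cut .s 8323072 (.cut .v 18874368 (.cut .l 6001081 (.cut .v 17825792 (.cut .d (-1048576) (.pos 19 .mp ⟨0, 0, 0, 0, 0, 14855132, 0, 0, 0, ⟨0, 0⟩, 0⟩ 0 0) (.cut .s 8192000 (.pos 19 .mp ⟨0, 0, 0, 0, 0, 10716415, 0, 0, 0, ⟨0, 0⟩,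 0⟩ 0 0) (.pos 19 .mp ⟨0, 0, 0, 0, 0, 12834427, 0, 0, 0, ⟨0, 0⟩, 0⟩ 0 0))) (.pos 20 .mp ⟨15443657, 0, 0, 0, 0, 0, 0, 0, 0, ⟨0, 0⟩, 0⟩ 0 0)) (.pos 17 .mp ⟨4503739, 0, 0, 0, 0, 6633954, 0, 0, 0, ⟨0, 0⟩, 0⟩ 0 0)) (.pos 18 .mp ⟨16632431, 0, 0, 0, 0, 0, 0, 0, 0, ⟨0, 0⟩, 0⟩ 0 0)) (.cut .v 18874368 (.cut .d (-1048576) (.cut .v 17825792 (.cut .l 6001081 (.cut .s 8454144 (.pos 19 .mp ⟨0, 0, 0, 0, 0, 18630858, 0, 0, 0, ⟨0, 0⟩, 0⟩ 0 0) (.pos 19 .mp ⟨0, 0, 0, 0, 0, 22109962, 0, 0, 0, ⟨0, 0⟩, 0⟩ 0 0)) (.cut .s 8454144 (.pos 19 .mp ⟨9331405, 0, 0, 0, 0, 6673976, 0, 0, 0, ⟨0, 0⟩, 0⟩ 0 0) (.pos 19 .mp ⟨13739809, 0, 0, 0, 0, 5091766, 0, 0, 0, ⟨0, 0⟩, 0⟩ 0 0))) (.pos 20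 .mp ⟨20866325, 0, 0, 0, 0, 0, 0, 0, 0, ⟨0, 0⟩, 0⟩ 0 0)) (.cut .l 6001081 (.cut .l 3839401 (.cut .v 17825792 (.cut .s 8454144 (.pos 19 .mp ⟨406429, 0, 0, 0, 0, 15083121, 0, 0, 0, ⟨0, 0⟩, 0⟩ 0 0) (.cut .d (-524288) (.pos 19 .mp ⟨0, 0, 0, 0, 0, 20319528, 0, 0, 0, ⟨0, 0⟩, 0⟩ 0 0) (.pos 19 .mp ⟨0, 0, 0, 0, 0, 16729076, 0, 0, 0, ⟨0, 0⟩, 0⟩ 0 0))) (.pos 20 .mp ⟨19843062, 0, 0, 0, 0, 0, 0, 0, 0, ⟨0, 0⟩, 0⟩ 0 0)) (.pos 17 .mp ⟨5303921, 0, 0, 0, 0, 8882789, 0, 0, 0, ⟨0, 0⟩, 0⟩ 0 0)) (.pos 17 .mp ⟨0, 0, 0, 0, 0, 0, 0, 0, 0, ⟨0, 0⟩, 0⟩ 0 0))) (.pos 18 .mp ⟨22543766, 0, 0, 0, 0, 0, 0, 0, 0, ⟨0, 0⟩, 0⟩ 0 0))) (.pos 16 .mp ⟨26642376, 0, 0, 0, 0, 0, 0, 0, 0, ⟨0, 0⟩,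 0⟩ 0 0))) (.pos 14 .mp ⟨79000730, 0, 0, 0, 0, 0, 0, 0, 0, ⟨0, 0⟩, 0⟩ 0 0)))) (.void 12 ⟨100000, 0, 0, 0, 0, 0, 0, 0, 0, ⟨0, 0⟩, 0⟩ 0 0)) (.void 67 ⟨100000, 0, 0, 0, 0, 0, 0, 0, 0, ⟨0, 0⟩, 0⟩ 0 0)) (.void 74 ⟨66150, 33850, 0, 0, 0, 0, 0, 0, 0, ⟨0, 0⟩, 0⟩ 0 0))) (.cut .v 16777216 (.cut .v 8388608 (.cut .v 4194304 (.void 4 ⟨0, 0, 50000, 0, 50000, 0, 0, 0, 0, ⟨0, 0⟩, 0⟩ 0 0) (.pos 5 .pm ⟨0, 0, 0, 0, 0, 0, 0, 0, 558810, ⟨0, 0⟩, 9975792⟩ 0 0)) (.cut .v 12582912 (.pos 6 .pm ⟨0, 0, 0, 0, 0, 0, 0, 0, 0, ⟨0, 0⟩, 0⟩ 0 0) (.pos 7 .pm ⟨0, 0, 0, 0, 0, 0, 0, 0, 0, ⟨0, 0⟩, 0⟩ 0 0))) (.cut .v 268435456 (.cut .v 67108864 (.cut .d 9070610 (.cut .v 33554432 (.cut .v 25165824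 (.pos 13 .pp ⟨300837, 0, 0, 0, 0, 0, 0, 0, 0, ⟨0, 0⟩, 0⟩ 0 0) (.pos 14 .pp ⟨20305977, 0, 0, 0, 0, 0, 0, 0, 0, ⟨0, 0⟩, 0⟩ 0 0)) (.cut .v 50331648 (.pos 33 .pp ⟨45406953, 0, 0, 0, 0, 0, 0, 0, 0, ⟨0, 0⟩, 0⟩ 0 0) (.pos 34 .pp ⟨150222403, 0, 0, 0, 0, 0, 0, 0, 0, ⟨0, 0⟩, 0⟩ 0 0))) (.pos 10 .pp ⟨0, 0, 0, 0, 0, 0, 0, 0, 0, ⟨0, 0⟩, 0⟩ 0 0)) (.cut .v 134217728 (.cut .d 9070610 (.pos 70 .pp ⟨553669729, 328576669, 0, 0, 0, 0, 0, 0, 0, ⟨0, 0⟩, 0⟩ 0 0) (.void 70 ⟨0, 100000, 0, 0, 0, 0, 0, 0, 0, ⟨0, 0⟩, 0⟩ 0 0)) (.void 71 ⟨0, 100000, 0, 0, 0, 0, 0, 0, 0, ⟨0, 0⟩, 0⟩ 0 0))) (.void 74 ⟨0, 0, 0, 100000, 0, 0, 0, 0, 0, ⟨0, 0⟩, 0⟩ 0 0)))),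
    by decide +kernel⟩

def covers10 : cell.Covers table row10.1 :=
  ⟨(.cut .d 0 (.cut .v 16777216 (.cut .d (-8388608) (.void 1 ⟨0, 0, 0, 0, 0, 100000, 0, 0, 0, ⟨0, 0⟩, 0⟩ 0 0) (.cut .d (-4194304) (.void 1 ⟨0, 0, 0, 0, 0, 100000, 0, 0, 0, ⟨0, 0⟩, 0⟩ 0 0) (.cut .v 8388608 (.cut .v 4194304 (.void 4 ⟨0, 0, 100000, 0, 0, 0, 0, 0, 0, ⟨0, 0⟩, 0⟩ 0 0) (.pos 5 .mm ⟨0, 0, 0, 0, 0, 4535333, 0, 0, 0, ⟨0, 0⟩, 0⟩ 0 0)) (.cut .v 12582912 (.pos 6 .mm ⟨0, 0, 0, 0, 0, 15522021, 0, 0, 0, ⟨0, 0⟩, 0⟩ 0 0) (.cut .d (-2097152) (.cut .s 8814592 (.pos 7 .mm ⟨0, 0, 0, 0, 0, 27105985, 0, 0, 0, ⟨0, 0⟩, 0⟩ 0 0) (.pos 7 .mm ⟨0, 0, 0, 0, 0, 36100365, 0, 0, 0, ⟨0, 0⟩, 0⟩ 0 0)) (.cut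 .d (-1048576) (.cut .v 14680064 (.pos 8 .mm ⟨0, 0, 0, 0, 0, 21745452, 0, 0, 0, ⟨0, 0⟩, 0⟩ 0 0) (.cut .s 8814592 (.cut .l 6001081 (.pos 9 .mm ⟨0, 0, 0, 0, 0, 25143894, 0, 0, 0, ⟨0, 0⟩, 0⟩ 0 0) (.pos 9 .mm ⟨0, 0, 0, 0, 0, 21627594, 0, 0, 0, ⟨0, 0⟩, 0⟩ 0 0)) (.cut .s 8929280 (.pos 9 .mm ⟨0, 0, 0, 0, 0, 28765285, 0, 0, 0, ⟨0, 0⟩, 0⟩ 0 0) (.pos 9 .mm ⟨0, 0, 0, 0, 0, 32728421, 0, 0, 0, ⟨0, 0⟩, 0⟩ 0 0)))) (.cut .l 6001081 (.cut .v 14680064 (.cut .d (-524288) (.pos 8 .mm ⟨0, 0, 0, 0, 0, 19497591, 0, 0, 0, ⟨0, 0⟩, 0⟩ 0 0) (.pos 8 .mm ⟨0, 0, 0, 0, 0, 11727202, 0, 0, 0, ⟨0, 0⟩, 0⟩ 0 0)) (.cut .s 8814592 (.cut .l 3839401 (.cut .d (-524288) (.pos 9 .mm ⟨0, 0, 0, 0,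 0, 23202462, 0, 0, 0, ⟨0, 0⟩, 0⟩ 0 0) (.cut .d (-262144) (.cut .s 8699904 (.cut .d (-393216) (.pos 9 .mm ⟨0, 0, 0, 0, 0, 20003198, 0, 0, 0, ⟨0, 0⟩, 0⟩ 0 0) (.pos 9 .mm ⟨0, 0, 0, 0, 0, 15549818, 0, 0, 0, ⟨0, 0⟩, 0⟩ 0 0)) (.pos 9 .mm ⟨0, 0, 0, 0, 0, 21810878, 0, 0, 0, ⟨0, 0⟩, 0⟩ 0 0)) (.pos 9 .mm ⟨0, 0, 0, 0, 0, 0, 0, 0, 0, ⟨0, 0⟩, 0⟩ 0 0))) (.pos 9 .mm ⟨0, 0, 0, 0, 0, 16557787, 0, 0, 0, ⟨0, 0⟩, 0⟩ 0 0)) (.cut .l 3839401 (.cut .d (-524288) (.pos 9 .mm ⟨0, 0, 0, 0, 0, 30775108, 0, 0, 0, ⟨0, 0⟩, 0⟩ 0 0) (.cut .d (-262144) (.cut .s 8929280 (.pos 9 .mm ⟨0, 0, 0, 0, 0, 25976259, 0, 0, 0, ⟨0, 0⟩, 0⟩ 0 0) (.pos 9 .mm ⟨0, 0, 0, 0, 0, 29618928, 0, 0, 0, ⟨0, 0⟩,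 0⟩ 0 0)) (.pos 9 .mm ⟨0, 0, 0, 0, 0, 0, 0, 0, 0, ⟨0, 0⟩, 0⟩ 0 0))) (.pos 9 .mm ⟨0, 0, 0, 0, 0, 23335235, 0, 0, 0, ⟨0, 0⟩, 0⟩ 0 0)))) (.pos 7 .mm ⟨0, 0, 0, 0, 0, 0, 0, 0, 0, ⟨0, 0⟩, 0⟩ 0 0)))))))) (.cut .v 268435456 (.cut .v 67108864 (.cut .v 33554432 (.cut .d (-8388608) (.void 11 ⟨0, 0, 0, 0, 0, 100000, 0, 0, 0, ⟨0, 0⟩, 0⟩ 0 0) (.cut .d (-4194304) (.void 11 ⟨0, 0, 0, 0, 0, 100000, 0, 0, 0, ⟨0, 0⟩, 0⟩ 0 0) (.cut .v 25165824 (.cut .d (-2097152) (.cut .v 20971520 (.cut .v 18874368 (.cut .d (-3145728) (.void 17 ⟨0, 0, 0, 0, 0, 100000, 0, 0, 0, ⟨0, 0⟩, 0⟩ 0 0) (.cut .d (-2621440) (.void 17 ⟨0, 0, 0, 0, 0, 100000, 0, 0, 0, ⟨0, 0⟩, 0⟩ 0 0) (.cut .l 6001081 (.void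 17 ⟨0, 0, 0, 0, 0, 100000, 0, 0, 0, ⟨0, 0⟩, 0⟩ 0 0) (.cut .l 8162761 (.void 17 ⟨0, 0, 0, 0, 0, 100000, 0, 0, 0, ⟨0, 0⟩, 0⟩ 0 0) (.cut .v 17825792 (.cut .s 8814592 (.pos 19 .mp ⟨8103462, 0, 0, 0, 0, 20528761, 0, 0, 0, ⟨0, 0⟩, 0⟩ 0 0) (.cut .s 8929280 (.pos 19 .mp ⟨14860808, 0, 0, 0, 0, 21066224, 0, 0, 0, ⟨0, 0⟩, 0⟩ 0 0) (.pos 19 .mp ⟨19063280, 0, 0, 0, 0, 22372320, 0, 0, 0, ⟨0, 0⟩, 0⟩ 0 0))) (.cut .s 8814592 (.pos 20 .mp ⟨29763034, 0, 0, 0, 0, 0, 0, 0, 0, ⟨0, 0⟩, 0⟩ 0 0) (.pos 20 .mp ⟨40977951, 0, 0, 0, 0, 0, 0, 0, 0, ⟨0, 0⟩, 0⟩ 0 0))))))) (.pos 18 .mp ⟨60729085, 0, 0, 0, 0, 0, 0, 0, 0, ⟨0, 0⟩, 0⟩ 0 0)) (.void 16 ⟨100000, 0, 0, 0, 0, 0, 0, 0, 0, ⟨0, 0⟩,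 0⟩ 0 0)) (.cut .v 20971520 (.cut .d (-1048576) (.cut .v 18874368 (.cut .s 8814592 (.cut .l 6001081 (.cut .s 8699904 (.pos 17 .mp ⟨4766758, 0, 0, 0, 0, 22600065, 0, 0, 0, ⟨0, 0⟩, 0⟩ 0 0) (.pos 17 .mp ⟨9104154, 0, 0, 0, 0, 21909307, 0, 0, 0, ⟨0, 0⟩, 0⟩ 0 0)) (.cut .s 8699904 (.pos 17 .mp ⟨17845079, 0, 0, 0, 0, 3891615, 0, 0, 0, ⟨0, 0⟩, 0⟩ 0 0) (.cut .s 8757248 (.pos 17 .mp ⟨20415772, 0, 0, 0, 0, 3858265, 0, 0, 0, ⟨0, 0⟩, 0⟩ 0 0) (.pos 17 .mp ⟨23140856, 0, 0, 0, 0, 2684185, 0, 0, 0, ⟨0, 0⟩, 0⟩ 0 0)))) (.cut .l 6001081 (.cut .v 17825792 (.pos 19 .mp ⟨5842447, 0, 0, 0, 0, 31125448, 0, 0, 0, ⟨0, 0⟩, 0⟩ 0 0) (.pos 20 .mp ⟨38097100, 0, 0, 0, 0, 0, 0, 0, 0, ⟨0,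 0⟩, 0⟩ 0 0)) (.cut .d (-1572864) (.cut .v 17825792 (.cut .s 8929280 (.pos 19 .mp ⟨7013394, 0, 0, 0, 0, 24883902, 0, 0, 0, ⟨0, 0⟩, 0⟩ 0 0) (.pos 19 .mp ⟨9670288, 0, 0, 0, 0, 26560631, 0, 0, 0, ⟨0, 0⟩, 0⟩ 0 0)) (.pos 20 .mp ⟨34942451, 0, 0, 0, 0, 0, 0, 0, 0, ⟨0, 0⟩, 0⟩ 0 0)) (.pos 17 .mp ⟨23492669, 0, 0, 0, 0, 4071496, 0, 0, 0, ⟨0, 0⟩, 0⟩ 0 0)))) (.cut .s 8814592 (.pos 18 .mp ⟨31115466, 0, 0, 0, 0, 0, 0, 0, 0, ⟨0, 0⟩, 0⟩ 0 0) (.pos 18 .mp ⟨40458881, 0, 0, 0, 0, 0, 0, 0, 0, ⟨0, 0⟩, 0⟩ 0 0))) (.cut .l 6001081 (.cut .v 18874368 (.cut .s 8814592 (.cut .v 17825792 (.cut .l 3839401 (.cut .d (-524288) (.cut .s 8699904 (.pos 19 .mp ⟨0, 0, 0, 0, 0, 23555822, 0,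 0, 0, ⟨0, 0⟩, 0⟩ 0 0) (.pos 19 .mp ⟨0, 0, 0, 0, 0, 27436375, 0, 0, 0, ⟨0, 0⟩, 0⟩ 0 0)) (.cut .d (-262144) (.cut .s 8699904 (.pos 19 .mp ⟨0, 0, 0, 0, 0, 20591682, 0, 0, 0, ⟨0, 0⟩, 0⟩ 0 0) (.pos 19 .mp ⟨1333227, 0, 0, 0, 0, 22943283, 0, 0, 0, ⟨0, 0⟩, 0⟩ 0 0)) (.pos 19 .mp ⟨0, 0, 0, 0, 0, 0, 0, 0, 0, ⟨0, 0⟩, 0⟩ 0 0))) (.pos 19 .mp ⟨8124258, 0, 0, 0, 0, 10771199, 0, 0, 0, ⟨0, 0⟩, 0⟩ 0 0)) (.pos 20 .mp ⟨24524154, 0, 0, 0, 0, 0, 0, 0, 0, ⟨0, 0⟩, 0⟩ 0 0)) (.cut .v 17825792 (.cut .d (-524288) (.cut .l 3839401 (.cut .s 8929280 (.pos 19 .mp ⟨1026654, 0, 0, 0, 0, 30429397, 0, 0, 0, ⟨0, 0⟩, 0⟩ 0 0) (.pos 19 .mp ⟨2967411, 0, 0, 0, 0, 32647858, 0, 0, 0, ⟨0, 0⟩, 0⟩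 0 0)) (.pos 19 .mp ⟨15089158, 0, 0, 0, 0, 11751507, 0, 0, 0, ⟨0, 0⟩, 0⟩ 0 0)) (.cut .d (-262144) (.cut .s 8929280 (.pos 19 .mp ⟨3915409, 0, 0, 0, 0, 23579960, 0, 0, 0, ⟨0, 0⟩, 0⟩ 0 0) (.cut .s 8986624 (.pos 19 .mp ⟨3602617, 0, 0, 0, 0, 27433536, 0, 0, 0, ⟨0, 0⟩, 0⟩ 0 0) (.pos 19 .mp ⟨4967115, 0, 0, 0, 0, 27897970, 0, 0, 0, ⟨0, 0⟩, 0⟩ 0 0))) (.pos 19 .mp ⟨2800860, 0, 0, 0, 0, 0, 0, 0, 0, ⟨0, 0⟩, 0⟩ 0 0))) (.pos 20 .mp ⟨31028424, 0, 0, 0, 0, 0, 0, 0, 0, ⟨0, 0⟩, 0⟩ 0 0))) (.pos 18 .mp ⟨31955200, 0, 0, 0, 0, 0, 0, 0, 0, ⟨0, 0⟩, 0⟩ 0 0)) (.pos 15 .mp ⟨9231642, 0, 0, 0, 0, 0, 0, 0, 0, ⟨0, 0⟩, 0⟩ 0 0))) (.cut .d (-1048576) (.pos 16 .mp ⟨51627861, 0, 0, 0, 0,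 0, 0, 0, 0, ⟨0, 0⟩, 0⟩ 0 0) (.pos 16 .mp ⟨37230806, 0, 0, 0, 0, 0, 0, 0, 0, ⟨0, 0⟩, 0⟩ 0 0)))) (.cut .d (-2097152) (.void 14 ⟨100000, 0, 0, 0, 0, 0, 0, 0, 0, ⟨0, 0⟩, 0⟩ 0 0) (.pos 14 .mp ⟨90192905, 0, 0, 0, 0, 0, 0, 0, 0, ⟨0, 0⟩, 0⟩ 0 0))))) (.void 12 ⟨100000, 0, 0, 0, 0, 0, 0, 0, 0, ⟨0, 0⟩, 0⟩ 0 0)) (.void 67 ⟨100000, 0, 0, 0, 0, 0, 0, 0, 0, ⟨0, 0⟩, 0⟩ 0 0)) (.void 74 ⟨64975, 35025, 0, 0, 0, 0, 0, 0, 0, ⟨0, 0⟩, 0⟩ 0 0))) (.cut .v 16777216 (.cut .v 8388608 (.cut .v 4194304 (.void 4 ⟨0, 0, 50000, 0, 50000, 0, 0, 0, 0, ⟨0, 0⟩, 0⟩ 0 0) (.pos 5 .pm ⟨0, 0, 0, 0, 0, 0, 0, 0, 693846, ⟨0, 0⟩, 9975792⟩ 0 0)) (.cut .v 12582912 (.pos 6 .pm ⟨0, 0, 0, 0, 0, 0, 0,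 0, 92332, ⟨0, 0⟩, 13128881⟩ 0 0) (.pos 7 .pm ⟨0, 0, 0, 0, 0, 0, 0, 0, 0, ⟨0, 0⟩, 0⟩ 0 0))) (.cut .v 268435456 (.cut .v 67108864 (.cut .d 8004398 (.cut .d 4002199 (.cut .v 33554432 (.cut .v 25165824 (.pos 13 .pp ⟨2991736, 0, 0, 0, 0, 0, 0, 0, 0, ⟨0, 0⟩, 0⟩ 0 0) (.pos 14 .pp ⟨41274450, 0, 0, 0, 0, 0, 0, 0, 0, ⟨0, 0⟩, 0⟩ 0 0)) (.cut .v 50331648 (.pos 33 .pp ⟨98865493, 0, 0, 0, 0, 0, 0, 0, 0, ⟨0, 0⟩, 0⟩ 0 0) (.pos 34 .pp ⟨309265185, 0, 0, 0, 0, 0, 0, 0, 0, ⟨0, 0⟩, 0⟩ 0 0))) (.pos 10 .pp ⟨0, 0, 0, 0, 0, 0, 0, 0, 0, ⟨0, 0⟩, 0⟩ 0 0)) (.pos 10 .pp ⟨0, 0, 0, 0, 0, 0, 0, 0, 0, ⟨0, 0⟩, 0⟩ 0 0)) (.cut .v 134217728 (.cut .d 8004398 (.cut .d 4002199 (.cut .d 2001099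 (.void 70 ⟨100000, 0, 0, 0, 0, 0, 0, 0, 0, ⟨0, 0⟩, 0⟩ 0 0) (.pos 70 .pp ⟨577389105, 149062050, 0, 0, 0, 0, 0, 0, 0, ⟨0, 0⟩, 0⟩ 0 0)) (.pos 70 .pp ⟨106991705, 0, 0, 0, 0, 0, 0, 0, 0, ⟨0, 0⟩, 0⟩ 0 0)) (.void 70 ⟨0, 100000, 0, 0, 0, 0, 0, 0, 0, ⟨0, 0⟩, 0⟩ 0 0)) (.void 71 ⟨0, 100000, 0, 0, 0, 0, 0, 0, 0, ⟨0, 0⟩, 0⟩ 0 0))) (.void 74 ⟨0, 0, 0, 100000, 0, 0, 0, 0, 0, ⟨0, 0⟩, 0⟩ 0 0)))),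
    by decide +kernel⟩

def covers11 : cell.Covers table row11.1 :=
  ⟨(.cut .d 0 (.cut .v 16777216 (.cut .d (-8388608) (.void 1 ⟨0, 0, 0, 0, 0, 100000, 0, 0, 0, ⟨0, 0⟩, 0⟩ 0 0) (.cut .d (-4194304) (.void 1 ⟨0, 0, 0, 0, 0, 100000, 0, 0, 0, ⟨0, 0⟩, 0⟩ 0 0) (.cut .v 8388608 (.cut .v 4194304 (.void 4 ⟨0, 0, 100000, 0, 0, 0, 0, 0, 0, ⟨0, 0⟩, 0⟩ 0 0) (.pos 5 .mm ⟨0, 0, 0, 0, 0, 13215968, 0, 0, 0, ⟨0, 0⟩, 0⟩ 0 0)) (.cut .d (-2097152) (.pos 3 .mm ⟨0, 0, 0, 0, 0, 65679831, 0, 0, 0, ⟨0, 0⟩, 0⟩ 0 0) (.cut .v 12582912 (.pos 6 .mm ⟨0, 0, 0, 0, 0, 25913585, 0, 0, 0, ⟨0, 0⟩, 0⟩ 0 0) (.cut .d (-1048576) (.cut .v 14680064 (.pos 8 .mm ⟨0, 0, 0, 0, 0, 38958523, 0, 0, 0,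 ⟨0, 0⟩, 0⟩ 0 0) (.cut .s 9306112 (.cut .s 9175040 (.pos 9 .mm ⟨0, 0, 0, 0, 0, 37346145, 0, 0, 0, ⟨0, 0⟩, 0⟩ 0 0) (.pos 9 .mm ⟨0, 0, 0, 0, 0, 43113241, 0, 0, 0, ⟨0, 0⟩, 0⟩ 0 0)) (.cut .s 9437184 (.pos 9 .mm ⟨0, 0, 0, 0, 0, 49513842, 0, 0, 0, ⟨0, 0⟩, 0⟩ 0 0) (.pos 9 .mm ⟨0, 0, 0, 0, 0, 56562329, 0, 0, 0, ⟨0, 0⟩, 0⟩ 0 0)))) (.cut .l 6001081 (.cut .v 14680064 (.pos 8 .mm ⟨0, 0, 0, 0, 0, 30971715, 0, 0, 0, ⟨0, 0⟩, 0⟩ 0 0) (.cut .s 9306112 (.cut .v 15728640 (.pos 45 .mm ⟨0, 0, 0, 0, 0, 31419798, 0, 0, 0, ⟨0, 0⟩, 0⟩ 0 0) (.cut .l 3839401 (.cut .d (-524288) (.pos 46 .mm ⟨0, 0, 0, 0, 0, 40424435, 0, 0, 0, ⟨0, 0⟩, 0⟩ 0 0) (.cut .s 9175040 (.cut .d (-262144) (.pos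 46 .mm ⟨0, 0, 0, 0, 0, 33741521, 0, 0, 0, ⟨0, 0⟩, 0⟩ 0 0) (.pos 46 .mm ⟨0, 0, 0, 0, 0, 0, 0, 0, 0, ⟨0, 0⟩, 0⟩ 0 0)) (.pos 46 .mm ⟨0, 0, 0, 0, 0, 36621998, 0, 0, 0, ⟨0, 0⟩, 0⟩ 0 0))) (.pos 46 .mm ⟨0, 0, 0, 0, 0, 32273962, 0, 0, 0, ⟨0, 0⟩, 0⟩ 0 0))) (.cut .v 15728640 (.pos 45 .mm ⟨0, 0, 0, 0, 0, 42041839, 0, 0, 0, ⟨0, 0⟩, 0⟩ 0 0) (.cut .d (-524288) (.cut .s 9437184 (.pos 46 .mm ⟨0, 0, 0, 0, 0, 47520296, 0, 0, 0, ⟨0, 0⟩, 0⟩ 0 0) (.pos 46 .mm ⟨0, 0, 0, 0, 0, 54197578, 0, 0, 0, ⟨0, 0⟩, 0⟩ 0 0)) (.cut .s 9437184 (.pos 46 .mm ⟨0, 0, 0, 0, 0, 42254289, 0, 0, 0, ⟨0, 0⟩, 0⟩ 0 0) (.pos 46 .mm ⟨0, 0, 0, 0, 0, 48503942, 0, 0, 0, ⟨0, 0⟩, 0⟩ 0 0)))))) (.pos 7 .mm ⟨0,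 0, 0, 0, 0, 0, 0, 0, 0, ⟨0, 0⟩, 0⟩ 0 0)))))))) (.cut .v 268435456 (.cut .v 67108864 (.cut .v 33554432 (.cut .d (-8388608) (.void 11 ⟨0, 0, 0, 0, 0, 100000, 0, 0, 0, ⟨0, 0⟩, 0⟩ 0 0) (.cut .d (-4194304) (.void 11 ⟨0, 0, 0, 0, 0, 100000, 0, 0, 0, ⟨0, 0⟩, 0⟩ 0 0) (.cut .v 25165824 (.cut .d (-2097152) (.cut .v 20971520 (.cut .v 18874368 (.cut .s 9306112 (.cut .v 17825792 (.cut .s 9175040 (.pos 19 .mp ⟨23703752, 0, 0, 0, 0, 28040885, 0, 0, 0, ⟨0, 0⟩, 0⟩ 0 0) (.pos 19 .mp ⟨29395356, 0, 0, 0, 0, 30843044, 0, 0, 0, ⟨0, 0⟩, 0⟩ 0 0)) (.pos 20 .mp ⟨67085422, 0, 0, 0, 0, 0, 0, 0, 0, ⟨0, 0⟩, 0⟩ 0 0)) (.void 17 ⟨0, 0, 0, 0, 0, 100000, 0, 0, 0, ⟨0, 0⟩, 0⟩ 0 0)) (.void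 18 ⟨100000, 0, 0, 0, 0, 0, 0, 0, 0, ⟨0, 0⟩, 0⟩ 0 0)) (.void 16 ⟨100000, 0, 0, 0, 0, 0, 0, 0, 0, ⟨0, 0⟩, 0⟩ 0 0)) (.cut .v 20971520 (.cut .d (-1048576) (.cut .v 18874368 (.cut .l 6001081 (.cut .s 9306112 (.cut .v 17825792 (.pos 19 .mp ⟨11226636, 0, 0, 0, 0, 37873539, 0, 0, 0, ⟨0, 0⟩, 0⟩ 0 0) (.pos 20 .mp ⟨49905657, 0, 0, 0, 0, 0, 0, 0, 0, ⟨0, 0⟩, 0⟩ 0 0)) (.pos 17 .mp ⟨23408907, 0, 0, 0, 0, 51171775, 0, 0, 0, ⟨0, 0⟩, 0⟩ 0 0)) (.cut .s 9306112 (.cut .d (-1572864) (.cut .v 17825792 (.cut .l 8162761 (.pos 19 .mp ⟨17349748, 0, 0, 0, 0, 32605887, 0, 0, 0, ⟨0, 0⟩, 0⟩ 0 0) (.cut .s 9175040 (.pos 19 .mp ⟨35004967, 0, 0, 0, 0, 509712, 0, 0, 0, ⟨0, 0⟩, 0⟩ 0 0) (.cut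 .v 17301504 (.pos 21 .mp ⟨16102367, 0, 0, 0, 0, 28577355, 0, 0, 0, ⟨0, 0⟩, 0⟩ 0 0) (.pos 22 .mp ⟨44061396, 0, 0, 0, 0, 0, 0, 0, 0, ⟨0, 0⟩, 0⟩ 0 0)))) (.pos 20 .mp ⟨45909773, 0, 0, 0, 0, 0, 0, 0, 0, ⟨0, 0⟩, 0⟩ 0 0)) (.cut .s 9175040 (.pos 17 .mp ⟨29056794, 0, 0, 0, 0, 4981031, 0, 0, 0, ⟨0, 0⟩, 0⟩ 0 0) (.pos 17 .mp ⟨36016998, 0, 0, 0, 0, 3017453, 0, 0, 0, ⟨0, 0⟩, 0⟩ 0 0))) (.cut .d (-1572864) (.cut .v 17825792 (.cut .l 8162761 (.pos 19 .mp ⟨27455436, 0, 0, 0, 0, 47409247, 0, 0, 0, ⟨0, 0⟩, 0⟩ 0 0) (.cut .s 9437184 (.cut .v 17301504 (.pos 21 .mp ⟨20607710, 0, 0, 0, 0, 31075741, 0, 0, 0, ⟨0, 0⟩, 0⟩ 0 0) (.pos 22 .mp ⟨50912886, 0, 0, 0, 0, 0, 0, 0, 0, ⟨0, 0⟩,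 0⟩ 0 0)) (.cut .v 17301504 (.pos 21 .mp ⟨25798216, 0, 0, 0, 0, 33872922, 0, 0, 0, ⟨0, 0⟩, 0⟩ 0 0) (.pos 22 .mp ⟨58824917, 0, 0, 0, 0, 0, 0, 0, 0, ⟨0, 0⟩, 0⟩ 0 0)))) (.pos 20 .mp ⟨61041884, 0, 0, 0, 0, 0, 0, 0, 0, ⟨0, 0⟩, 0⟩ 0 0)) (.cut .s 9437184 (.pos 17 .mp ⟨43895093, 0, 0, 0, 0, 516218, 0, 0, 0, ⟨0, 0⟩, 0⟩ 0 0) (.cut .s 9502720 (.pos 17 .mp ⟨48190696, 0, 0, 0, 0, 1198160, 0, 0, 0, ⟨0, 0⟩, 0⟩ 0 0) (.pos 17 .mp ⟨52435137, 0, 0, 0, 0, 0, 0, 0, 0, ⟨0, 0⟩, 0⟩ 0 0)))))) (.cut .s 9306112 (.pos 18 .mp ⟨52881798, 0, 0, 0, 0, 0, 0, 0, 0, ⟨0, 0⟩, 0⟩ 0 0) (.pos 18 .mp ⟨68938858, 0, 0, 0, 0, 0, 0, 0, 0, ⟨0, 0⟩, 0⟩ 0 0))) (.cut .l 6001081 (.cut .v 18874368 (.cut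 .s 9306112 (.cut .v 17825792 (.cut .d (-524288) (.cut .l 3839401 (.cut .s 9175040 (.pos 19 .mp ⟨5138067, 0, 0, 0, 0, 35479636, 0, 0, 0, ⟨0, 0⟩, 0⟩ 0 0) (.pos 19 .mp ⟨7831762, 0, 0, 0, 0, 38862902, 0, 0, 0, ⟨0, 0⟩, 0⟩ 0 0)) (.cut .s 9175040 (.pos 19 .mp ⟨19867646, 0, 0, 0, 0, 12471588, 0, 0, 0, ⟨0, 0⟩, 0⟩ 0 0) (.pos 19 .mp ⟨25236640, 0, 0, 0, 0, 12132336, 0, 0, 0, ⟨0, 0⟩, 0⟩ 0 0))) (.cut .d (-262144) (.cut .l 3839401 (.cut .l 2758561 (.cut .v 17301504 (.cut .s 9175040 (.cut .s 9109504 (.pos 21 .mp ⟨3128404, 0, 0, 0, 0, 31516408, 0, 0, 0, ⟨0, 0⟩, 0⟩ 0 0) (.pos 21 .mp ⟨4972118, 0, 0, 0, 0, 32041213, 0, 0, 0, ⟨0, 0⟩, 0⟩ 0 0)) (.cut .s 9240576 (.pos 21 .mp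 ⟨6675732, 0, 0, 0, 0, 33181270, 0, 0, 0, ⟨0, 0⟩, 0⟩ 0 0) (.pos 21 .mp ⟨8390809, 0, 0, 0, 0, 34084176, 0, 0, 0, ⟨0, 0⟩, 0⟩ 0 0))) (.pos 22 .mp ⟨37545960, 0, 0, 0, 0, 0, 0, 0, 0, ⟨0, 0⟩, 0⟩ 0 0)) (.pos 19 .mp ⟨12616205, 0, 0, 0, 0, 16814548, 0, 0, 0, ⟨0, 0⟩, 0⟩ 0 0)) (.pos 19 .mp ⟨0, 0, 0, 0, 0, 0, 0, 0, 0, ⟨0, 0⟩, 0⟩ 0 0)) (.pos 19 .mp ⟨8963286, 0, 0, 0, 0, 6499224, 0, 0, 0, ⟨0, 0⟩, 0⟩ 0 0))) (.pos 20 .mp ⟨39212138, 0, 0, 0, 0, 0, 0, 0, 0, ⟨0, 0⟩, 0⟩ 0 0)) (.cut .d (-524288) (.cut .v 17825792 (.cut .l 3839401 (.cut .s 9437184 (.pos 19 .mp ⟨10903360, 0, 0, 0, 0, 42444830, 0, 0, 0, ⟨0, 0⟩, 0⟩ 0 0) (.pos 19 .mp ⟨14368778, 0, 0, 0, 0, 46195862, 0, 0, 0, ⟨0,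 0⟩, 0⟩ 0 0)) (.cut .s 9437184 (.pos 19 .mp ⟨31130473, 0, 0, 0, 0, 11802267, 0, 0, 0, ⟨0, 0⟩, 0⟩ 0 0) (.pos 19 .mp ⟨36732654, 0, 0, 0, 0, 12638106, 0, 0, 0, ⟨0, 0⟩, 0⟩ 0 0))) (.pos 20 .mp ⟨53370679, 0, 0, 0, 0, 0, 0, 0, 0, ⟨0, 0⟩, 0⟩ 0 0)) (.cut .v 17825792 (.cut .l 3839401 (.cut .l 2758561 (.cut .d (-262144) (.cut .v 17301504 (.cut .d (-393216) (.pos 21 .mp ⟨9763353, 0, 0, 0, 0, 45932594, 0, 0, 0, ⟨0, 0⟩, 0⟩ 0 0) (.cut .s 9437184 (.pos 21 .mp ⟨6671795, 0, 0, 0, 0, 41124659, 0, 0, 0, ⟨0, 0⟩, 0⟩ 0 0) (.pos 21 .mp ⟨9504321, 0, 0, 0, 0, 44807496, 0, 0, 0, ⟨0, 0⟩, 0⟩ 0 0))) (.pos 22 .mp ⟨48509066, 0, 0, 0, 0, 0, 0, 0, 0, ⟨0, 0⟩, 0⟩ 0 0)) (.cut .s 9437184 (.pos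 19 .mp ⟨12469954, 0, 0, 0, 0, 25231149, 0, 0, 0, ⟨0, 0⟩, 0⟩ 0 0) (.cut .s 9502720 (.pos 19 .mp ⟨14711441, 0, 0, 0, 0, 28260830, 0, 0, 0, ⟨0, 0⟩, 0⟩ 0 0) (.pos 19 .mp ⟨16810186, 0, 0, 0, 0, 28877286, 0, 0, 0, ⟨0, 0⟩, 0⟩ 0 0)))) (.pos 19 .mp ⟨22485658, 0, 0, 0, 0, 15670733, 0, 0, 0, ⟨0, 0⟩, 0⟩ 0 0)) (.pos 19 .mp ⟨13777928, 0, 0, 0, 0, 0, 0, 0, 0, ⟨0, 0⟩, 0⟩ 0 0)) (.pos 20 .mp ⟨47581891, 0, 0, 0, 0, 0, 0, 0, 0, ⟨0, 0⟩, 0⟩ 0 0)))) (.cut .s 9306112 (.pos 18 .mp ⟨44317641, 0, 0, 0, 0, 0, 0, 0, 0, ⟨0, 0⟩, 0⟩ 0 0) (.pos 18 .mp ⟨57612554, 0, 0, 0, 0, 0, 0, 0, 0, ⟨0, 0⟩, 0⟩ 0 0))) (.cut .s 9306112 (.pos 15 .mp ⟨21641005, 0, 0, 0, 0, 0, 0, 0, 0, ⟨0, 0⟩, 0⟩ 0 0)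 (.pos 15 .mp ⟨36950121, 0, 0, 0, 0, 0, 0, 0, 0, ⟨0, 0⟩, 0⟩ 0 0)))) (.cut .d (-1048576) (.pos 16 .mp ⟨92831667, 0, 0, 0, 0, 0, 0, 0, 0, ⟨0, 0⟩, 0⟩ 0 0) (.cut .s 9306112 (.pos 16 .mp ⟨54065628, 0, 0, 0, 0, 0, 0, 0, 0, ⟨0, 0⟩, 0⟩ 0 0) (.pos 16 .mp ⟨71302848, 0, 0, 0, 0, 0, 0, 0, 0, ⟨0, 0⟩, 0⟩ 0 0))))) (.cut .d (-2097152) (.void 14 ⟨100000, 0, 0, 0, 0, 0, 0, 0, 0, ⟨0, 0⟩, 0⟩ 0 0) (.cut .d (-1048576) (.void 14 ⟨100000, 0, 0, 0, 0, 0, 0, 0, 0, ⟨0, 0⟩, 0⟩ 0 0) (.pos 14 .mp ⟨116998606, 0, 0, 0, 0, 0, 0, 0, 0, ⟨0, 0⟩, 0⟩ 0 0)))))) (.void 12 ⟨100000, 0, 0, 0, 0, 0, 0, 0, 0, ⟨0, 0⟩, 0⟩ 0 0)) (.void 67 ⟨100000, 0, 0, 0, 0, 0, 0, 0, 0, ⟨0, 0⟩, 0⟩ 0 0)) (.void 74 ⟨63682,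 36318, 0, 0, 0, 0, 0, 0, 0, ⟨0, 0⟩, 0⟩ 0 0))) (.cut .v 16777216 (.cut .v 8388608 (.cut .v 4194304 (.cut .v 2097152 (.void 79 ⟨0, 0, 50000, 0, 50000, 0, 0, 0, 0, ⟨0, 0⟩, 0⟩ 0 0) (.void 80 ⟨0, 0, 45679, 0, 0, 0, 0, 0, 54321, ⟨0, 0⟩, 7053950⟩ 0 0)) (.pos 5 .pm ⟨0, 0, 0, 0, 0, 0, 0, 0, 3568532, ⟨0, 0⟩, 9975792⟩ 0 0)) (.cut .v 12582912 (.cut .d 7172869 (.pos 6 .pm ⟨0, 0, 0, 0, 0, 0, 0, 0, 0, ⟨0, 0⟩, 0⟩ 0 0) (.pos 6 .pm ⟨0, 4530042, 0, 0, 0, 0, 0, 0, 4308070, ⟨0, 0⟩, 13128881⟩ 0 0)) (.pos 7 .pm ⟨0, 0, 0, 0, 0, 0, 0, 0, 0, ⟨0, 0⟩, 0⟩ 0 0))) (.cut .v 268435456 (.cut .v 67108864 (.cut .d 7172869 (.cut .d 3586434 (.cut .v 33554432 (.cut .v 25165824 (.pos 13 .pp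 ⟨12370701, 0, 0, 0, 0, 0, 0, 0, 0, ⟨0, 0⟩, 0⟩ 0 0) (.pos 14 .pp ⟨64854288, 0, 0, 0, 0, 0, 0, 0, 0, ⟨0, 0⟩, 0⟩ 0 0)) (.cut .v 50331648 (.cut .v 41943040 (.pos 35 .pp ⟨134357167, 0, 0, 0, 0, 0, 0, 0, 0, ⟨0, 0⟩, 0⟩ 0 0) (.pos 36 .pp ⟨241198076, 0, 0, 0, 0, 0, 0, 0, 0, ⟨0, 0⟩, 0⟩ 0 0)) (.pos 34 .pp ⟨458561541, 0, 0, 0, 0, 0, 0, 0, 0, ⟨0, 0⟩, 0⟩ 0 0))) (.pos 10 .pp ⟨0, 0, 0, 0, 0, 0, 0, 0, 0, ⟨0, 0⟩, 0⟩ 0 0)) (.pos 10 .pp ⟨0, 0, 0, 0, 0, 0, 0, 0, 0, ⟨0, 0⟩, 0⟩ 0 0)) (.cut .v 134217728 (.cut .d 7172869 (.cut .d 3586434 (.cut .d 1793217 (.void 70 ⟨100000, 0, 0, 0, 0, 0, 0, 0, 0, ⟨0, 0⟩, 0⟩ 0 0) (.pos 70 .pp ⟨834328282, 283228046, 0, 0, 0, 0, 0, 0, 0, ⟨0, 0⟩,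 0⟩ 0 0)) (.pos 70 .pp ⟨0, 0, 0, 0, 0, 0, 0, 0, 0, ⟨0, 0⟩, 0⟩ 0 0)) (.void 70 ⟨0, 100000, 0, 0, 0, 0, 0, 0, 0, ⟨0, 0⟩, 0⟩ 0 0)) (.void 71 ⟨0, 100000, 0, 0, 0, 0, 0, 0, 0, ⟨0, 0⟩, 0⟩ 0 0))) (.void 74 ⟨0, 0, 0, 100000, 0, 0, 0, 0, 0, ⟨0, 0⟩, 0⟩ 0 0)))),
    by decide +kernel⟩

def covers12 : cell.Covers table row12.1 :=
  ⟨(.cut .d 0 (.cut .v 16777216 (.cut .d (-8388608) (.void 1 ⟨0, 0, 0, 0, 0, 100000, 0, 0, 0, ⟨0, 0⟩, 0⟩ 0 0) (.cut .d (-4194304) (.void 1 ⟨0, 0, 0, 0, 0, 100000, 0, 0, 0, ⟨0, 0⟩, 0⟩ 0 0) (.cut .d (-2097152) (.void 1 ⟨0, 0, 0, 0, 0, 100000, 0, 0, 0, ⟨0, 0⟩, 0⟩ 0 0) (.cut .v 8388608 (.cut .v 4194304 (.void 4 ⟨0, 0, 100000, 0, 0, 0, 0, 0, 0,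 ⟨0, 0⟩, 0⟩ 0 0) (.pos 5 .mm ⟨0, 0, 0, 0, 0, 22752192, 0, 0, 0, ⟨0, 0⟩, 0⟩ 0 0)) (.cut .v 12582912 (.pos 6 .mm ⟨0, 0, 0, 0, 0, 45740129, 0, 0, 0, ⟨0, 0⟩, 0⟩ 0 0) (.cut .d (-1048576) (.cut .l 6001081 (.pos 7 .mm ⟨0, 0, 0, 0, 0, 98717489, 0, 0, 0, ⟨0, 0⟩, 0⟩ 0 0) (.cut .v 14680064 (.pos 8 .mm ⟨0, 0, 0, 0, 0, 63966882, 0, 0, 0, ⟨0, 0⟩, 0⟩ 0 0) (.cut .s 9830400 (.cut .s 9699328 (.pos 9 .mm ⟨0, 0, 0, 0, 0, 63431488, 0, 0, 0, ⟨0, 0⟩, 0⟩ 0 0) (.pos 9 .mm ⟨0, 0, 0, 0, 0, 72880554, 0, 0, 0, ⟨0, 0⟩, 0⟩ 0 0)) (.cut .s 9961472 (.pos 9 .mm ⟨0, 0, 0, 0, 0, 83375129, 0, 0, 0, ⟨0, 0⟩, 0⟩ 0 0) (.cut .d (-1572864) (.pos 9 .mm ⟨0, 0, 0, 0, 0, 102022142, 0, 0, 0, ⟨0, 0⟩,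 0⟩ 0 0) (.pos 9 .mm ⟨0, 0, 0, 0, 0, 91255506, 0, 0, 0, ⟨0, 0⟩, 0⟩ 0 0)))))) (.cut .l 6001081 (.cut .v 14680064 (.pos 8 .mm ⟨0, 0, 0, 0, 0, 54867395, 0, 0, 0, ⟨0, 0⟩, 0⟩ 0 0) (.cut .s 9830400 (.cut .v 15728640 (.pos 45 .mm ⟨0, 0, 0, 0, 0, 55163628, 0, 0, 0, ⟨0, 0⟩, 0⟩ 0 0) (.cut .d (-524288) (.cut .s 9699328 (.pos 46 .mm ⟨0, 0, 0, 0, 0, 61606264, 0, 0, 0, ⟨0, 0⟩, 0⟩ 0 0) (.pos 46 .mm ⟨0, 0, 0, 0, 0, 70279604, 0, 0, 0, ⟨0, 0⟩, 0⟩ 0 0)) (.cut .s 9699328 (.pos 46 .mm ⟨0, 0, 0, 0, 0, 55461104, 0, 0, 0, ⟨0, 0⟩, 0⟩ 0 0) (.pos 46 .mm ⟨0, 0, 0, 0, 0, 63406266, 0, 0, 0, ⟨0, 0⟩, 0⟩ 0 0)))) (.cut .v 15728640 (.pos 45 .mm ⟨0, 0, 0, 0, 0, 71910002, 0, 0, 0, ⟨0, 0⟩,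 0⟩ 0 0) (.cut .d (-524288) (.cut .s 9961472 (.pos 46 .mm ⟨0, 0, 0, 0, 0, 79842523, 0, 0, 0, ⟨0, 0⟩, 0⟩ 0 0) (.pos 46 .mm ⟨0, 0, 0, 0, 0, 90314271, 0, 0, 0, ⟨0, 0⟩, 0⟩ 0 0)) (.cut .s 9961472 (.pos 46 .mm ⟨0, 0, 0, 0, 0, 72292603, 0, 0, 0, ⟨0, 0⟩, 0⟩ 0 0) (.pos 46 .mm ⟨0, 0, 0, 0, 0, 82084108, 0, 0, 0, ⟨0, 0⟩, 0⟩ 0 0)))))) (.pos 7 .mm ⟨0, 0, 0, 0, 0, 50280697, 0, 0, 0, ⟨0, 0⟩, 0⟩ 0 0)))))))) (.cut .v 268435456 (.cut .v 67108864 (.cut .v 33554432 (.cut .d (-8388608) (.void 11 ⟨0, 0, 0, 0, 0, 100000, 0, 0, 0, ⟨0, 0⟩, 0⟩ 0 0) (.cut .d (-4194304) (.void 11 ⟨0, 0, 0, 0, 0, 100000, 0, 0, 0, ⟨0, 0⟩, 0⟩ 0 0) (.cut .d (-2097152) (.void 11 ⟨0, 0, 0, 0, 0, 100000,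 0, 0, 0, ⟨0, 0⟩, 0⟩ 0 0) (.cut .v 25165824 (.cut .v 20971520 (.cut .d (-1048576) (.cut .l 6001081 (.cut .v 18874368 (.pos 17 .mp ⟨44938539, 0, 0, 0, 0, 76736268, 0, 0, 0, ⟨0, 0⟩, 0⟩ 0 0) (.void 18 ⟨100000, 0, 0, 0, 0, 0, 0, 0, 0, ⟨0, 0⟩, 0⟩ 0 0)) (.cut .v 18874368 (.cut .s 9830400 (.cut .d (-1572864) (.cut .v 17825792 (.cut .l 8162761 (.void 19 ⟨0, 0, 0, 0, 0, 100000, 0, 0, 0, ⟨0, 0⟩, 0⟩ 0 0) (.cut .d (-1835008) (.cut .s 9699328 (.pos 19 .mp ⟨42611454, 0, 0, 0, 0, 34674738, 0, 0, 0, ⟨0, 0⟩, 0⟩ 0 0) (.pos 19 .mp ⟨50801578, 0, 0, 0, 0, 49619397, 0, 0, 0, ⟨0, 0⟩, 0⟩ 0 0)) (.cut .v 17301504 (.cut .s 9699328 (.pos 21 .mp ⟨31718587, 0, 0, 0, 0, 32802501, 0,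 0, 0, ⟨0, 0⟩, 0⟩ 0 0) (.pos 21 .mp ⟨40761165, 0, 0, 0, 0, 33004295, 0, 0, 0, ⟨0, 0⟩, 0⟩ 0 0)) (.pos 22 .mp ⟨68261444, 0, 0, 0, 0, 0, 0, 0, 0, ⟨0, 0⟩, 0⟩ 0 0)))) (.pos 20 .mp ⟨79724148, 0, 0, 0, 0, 0, 0, 0, 0, ⟨0, 0⟩, 0⟩ 0 0)) (.cut .v 17825792 (.cut .l 8162761 (.cut .s 9699328 (.pos 19 .mp ⟨57604953, 0, 0, 0, 0, 0, 0, 0, 0, ⟨0, 0⟩, 0⟩ 0 0) (.pos 19 .mp ⟨65970684, 0, 0, 0, 0, 0, 0, 0, 0, ⟨0, 0⟩, 0⟩ 0 0)) (.pos 19 .mp ⟨56432248, 0, 0, 0, 0, 0, 0, 0, 0, ⟨0, 0⟩, 0⟩ 0 0)) (.pos 20 .mp ⟨68381128, 0, 0, 0, 0, 0, 0, 0, 0, ⟨0, 0⟩, 0⟩ 0 0))) (.cut .d (-1572864) (.cut .d (-1835008) (.void 17 ⟨0, 0, 0, 0, 0, 100000, 0, 0, 0, ⟨0, 0⟩, 0⟩ 0 0) (.cut .v 17825792 (.cut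 .v 17301504 (.cut .s 9961472 (.pos 21 .mp ⟨62767874, 0, 0, 0, 0, 17896240, 0, 0, 0, ⟨0, 0⟩, 0⟩ 0 0) (.cut .s 10027008 (.pos 21 .mp ⟨54306299, 0, 0, 0, 0, 41941853, 0, 0, 0, ⟨0, 0⟩, 0⟩ 0 0) (.pos 21 .mp ⟨59013175, 0, 0, 0, 0, 43651495, 0, 0, 0, ⟨0, 0⟩, 0⟩ 0 0))) (.pos 22 .mp ⟨91456696, 0, 0, 0, 0, 0, 0, 0, 0, ⟨0, 0⟩, 0⟩ 0 0)) (.pos 20 .mp ⟨100131119, 0, 0, 0, 0, 0, 0, 0, 0, ⟨0, 0⟩, 0⟩ 0 0))) (.cut .v 17825792 (.cut .s 9961472 (.cut .s 9895936 (.pos 19 .mp ⟨70997379, 0, 0, 0, 0, 0, 0, 0, 0, ⟨0, 0⟩, 0⟩ 0 0) (.pos 19 .mp ⟨75431031, 0, 0, 0, 0, 0, 0, 0, 0, ⟨0, 0⟩, 0⟩ 0 0)) (.cut .s 10027008 (.pos 19 .mp ⟨80051762, 0, 0, 0, 0, 0, 0, 0, 0, ⟨0, 0⟩, 0⟩ 0 0) (.pos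 19 .mp ⟨84859433, 0, 0, 0, 0, 0, 0, 0, 0, ⟨0, 0⟩, 0⟩ 0 0))) (.cut .s 9961472 (.pos 20 .mp ⟨81838693, 0, 0, 0, 0, 0, 0, 0, 0, ⟨0, 0⟩, 0⟩ 0 0) (.pos 20 .mp ⟨92233713, 0, 0, 0, 0, 0, 0, 0, 0, ⟨0, 0⟩, 0⟩ 0 0))))) (.cut .d (-1572864) (.pos 18 .mp ⟨123428609, 0, 0, 0, 0, 0, 0, 0, 0, ⟨0, 0⟩, 0⟩ 0 0) (.cut .s 9830400 (.pos 18 .mp ⟨79653320, 0, 0, 0, 0, 0, 0, 0, 0, ⟨0, 0⟩, 0⟩ 0 0) (.pos 18 .mp ⟨103240423, 0, 0, 0, 0, 0, 0, 0, 0, ⟨0, 0⟩, 0⟩ 0 0))))) (.cut .s 9830400 (.cut .v 18874368 (.cut .l 6001081 (.cut .d (-524288) (.cut .v 17825792 (.cut .l 3839401 (.cut .s 9699328 (.pos 19 .mp ⟨18542949, 0, 0, 0, 0, 49884808, 0, 0, 0, ⟨0, 0⟩, 0⟩ 0 0) (.pos 19 .mp ⟨23224375,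 0, 0, 0, 0, 54265724, 0, 0, 0, ⟨0, 0⟩, 0⟩ 0 0)) (.cut .s 9699328 (.pos 19 .mp ⟨45045821, 0, 0, 0, 0, 10030882, 0, 0, 0, ⟨0, 0⟩, 0⟩ 0 0) (.pos 19 .mp ⟨53311226, 0, 0, 0, 0, 8941217, 0, 0, 0, ⟨0, 0⟩, 0⟩ 0 0))) (.pos 20 .mp ⟨68251015, 0, 0, 0, 0, 0, 0, 0, 0, ⟨0, 0⟩, 0⟩ 0 0)) (.cut .v 17825792 (.cut .l 3839401 (.cut .d (-262144) (.cut .l 2758561 (.cut .d (-393216) (.pos 19 .mp ⟨17892714, 0, 0, 0, 0, 60635196, 0, 0, 0, ⟨0, 0⟩, 0⟩ 0 0) (.cut .v 17301504 (.cut .s 9699328 (.cut .s 9633792 (.pos 21 .mp ⟨17906102, 0, 0, 0, 0, 39421086, 0, 0, 0, ⟨0, 0⟩, 0⟩ 0 0) (.pos 21 .mp ⟨20292946, 0, 0, 0, 0, 40611660, 0, 0, 0, ⟨0, 0⟩, 0⟩ 0 0)) (.pos 21 .mp ⟨16313441, 0, 0,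 0, 0, 53361485, 0, 0, 0, ⟨0, 0⟩, 0⟩ 0 0)) (.pos 22 .mp ⟨60615454, 0, 0, 0, 0, 0, 0, 0, 0, ⟨0, 0⟩, 0⟩ 0 0))) (.pos 19 .mp ⟨33494470, 0, 0, 0, 0, 18273950, 0, 0, 0, ⟨0, 0⟩, 0⟩ 0 0)) (.cut .d (-131072) (.cut .v 17301504 (.cut .v 17039360 (.pos 77 .mp ⟨0, 0, 0, 0, 0, 57437266, 0, 0, 0, ⟨0, 0⟩, 0⟩ 0 0) (.cut .s 9699328 (.pos 78 .mp ⟨20991865, 0, 0, 0, 0, 30784472, 0, 0, 0, ⟨0, 0⟩, 0⟩ 0 0) (.cut .s 9764864 (.pos 78 .mp ⟨23305904, 0, 0, 0, 0, 34835856, 0, 0, 0, ⟨0, 0⟩, 0⟩ 0 0) (.pos 78 .mp ⟨25737962, 0, 0, 0, 0, 36115367, 0, 0, 0, ⟨0, 0⟩, 0⟩ 0 0)))) (.pos 22 .mp ⟨54174606, 0, 0, 0, 0, 0, 0, 0, 0, ⟨0, 0⟩, 0⟩ 0 0)) (.pos 19 .mp ⟨13641653, 0, 0, 0, 0, 0, 0, 0,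 0, ⟨0, 0⟩, 0⟩ 0 0))) (.pos 19 .mp ⟨23640484, 0, 0, 0, 0, 0, 0, 0, 0, ⟨0, 0⟩, 0⟩ 0 0)) (.pos 20 .mp ⟨59979127, 0, 0, 0, 0, 0, 0, 0, 0, ⟨0, 0⟩, 0⟩ 0 0))) (.pos 17 .mp ⟨46898068, 0, 0, 0, 0, 0, 0, 0, 0, ⟨0, 0⟩, 0⟩ 0 0)) (.cut .s 9699328 (.pos 18 .mp ⟨66347752, 0, 0, 0, 0, 0, 0, 0, 0, ⟨0, 0⟩, 0⟩ 0 0) (.pos 18 .mp ⟨74942326, 0, 0, 0, 0, 0, 0, 0, 0, ⟨0, 0⟩, 0⟩ 0 0))) (.cut .v 18874368 (.cut .l 6001081 (.cut .d (-524288) (.cut .v 17825792 (.cut .l 3839401 (.pos 19 .mp ⟨28474354, 0, 0, 0, 0, 70063276, 0, 0, 0, ⟨0, 0⟩, 0⟩ 0 0) (.cut .s 9961472 (.pos 19 .mp ⟨62568849, 0, 0, 0, 0, 7432139, 0, 0, 0, ⟨0, 0⟩, 0⟩ 0 0) (.pos 19 .mp ⟨72866995, 0, 0, 0, 0, 5409853, 0,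 0, 0, ⟨0, 0⟩, 0⟩ 0 0))) (.pos 20 .mp ⟨86856681, 0, 0, 0, 0, 0, 0, 0, 0, ⟨0, 0⟩, 0⟩ 0 0)) (.cut .v 17825792 (.cut .l 3839401 (.cut .d (-262144) (.cut .v 17301504 (.cut .s 9961472 (.cut .s 9895936 (.pos 21 .mp ⟨24920748, 0, 0, 0, 0, 48739566, 0, 0, 0, ⟨0, 0⟩, 0⟩ 0 0) (.pos 21 .mp ⟨26851504, 0, 0, 0, 0, 51337469, 0, 0, 0, ⟨0, 0⟩, 0⟩ 0 0)) (.cut .s 10027008 (.pos 21 .mp ⟨28794021, 0, 0, 0, 0, 54135262, 0, 0, 0, ⟨0, 0⟩, 0⟩ 0 0) (.pos 21 .mp ⟨30809404, 0, 0, 0, 0, 57056146, 0, 0, 0, ⟨0, 0⟩, 0⟩ 0 0))) (.pos 22 .mp ⟨75916122, 0, 0, 0, 0, 0, 0, 0, 0, ⟨0, 0⟩, 0⟩ 0 0)) (.cut .d (-131072) (.cut .d (-196608) (.cut .v 17301504 (.cut .l 2758561 (.cut .l 2218141 (.cut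 .v 17039360 (.pos 77 .mp ⟨0, 0, 0, 0, 0, 79601546, 0, 0, 0, ⟨0, 0⟩, 0⟩ 0 0) (.cut .s 9961472 (.pos 78 .mp ⟨30967528, 0, 0, 0, 0, 38911835, 0, 0, 0, ⟨0, 0⟩, 0⟩ 0 0) (.pos 78 .mp ⟨32451428, 0, 0, 0, 0, 50182159, 0, 0, 0, ⟨0, 0⟩, 0⟩ 0 0))) (.pos 21 .mp ⟨28563047, 0, 0, 0, 0, 0, 0, 0, 0, ⟨0, 0⟩, 0⟩ 0 0)) (.pos 21 .mp ⟨0, 0, 0, 0, 0, 0, 0, 0, 0, ⟨0, 0⟩, 0⟩ 0 0)) (.pos 22 .mp ⟨71783728, 0, 0, 0, 0, 0, 0, 0, 0, ⟨0, 0⟩, 0⟩ 0 0)) (.pos 19 .mp ⟨32525931, 0, 0, 0, 0, 0, 0, 0, 0, ⟨0, 0⟩, 0⟩ 0 0)) (.pos 19 .mp ⟨22805847, 0, 0, 0, 0, 0, 0, 0, 0, ⟨0, 0⟩, 0⟩ 0 0))) (.pos 19 .mp ⟨38752747, 0, 0, 0, 0, 0, 0, 0, 0, ⟨0, 0⟩, 0⟩ 0 0)) (.pos 20 .mp ⟨75388865, 0, 0, 0, 0, 0,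 0, 0, 0, ⟨0, 0⟩, 0⟩ 0 0))) (.pos 17 .mp ⟨63284454, 0, 0, 0, 0, 0, 0, 0, 0, ⟨0, 0⟩, 0⟩ 0 0)) (.cut .s 9961472 (.pos 18 .mp ⟨84308862, 0, 0, 0, 0, 0, 0, 0, 0, ⟨0, 0⟩, 0⟩ 0 0) (.pos 18 .mp ⟨94444000, 0, 0, 0, 0, 0, 0, 0, 0, ⟨0, 0⟩, 0⟩ 0 0))))) (.cut .d (-1048576) (.pos 16 .mp ⟨158498237, 0, 0, 0, 0, 0, 0, 0, 0, ⟨0, 0⟩, 0⟩ 0 0) (.cut .s 9830400 (.pos 16 .mp ⟨91733370, 0, 0, 0, 0, 0, 0, 0, 0, ⟨0, 0⟩, 0⟩ 0 0) (.pos 16 .mp ⟨116600790, 0, 0, 0, 0, 0, 0, 0, 0, ⟨0, 0⟩, 0⟩ 0 0)))) (.cut .d (-1048576) (.void 14 ⟨100000, 0, 0, 0, 0, 0, 0, 0, 0, ⟨0, 0⟩, 0⟩ 0 0) (.pos 14 .mp ⟨191861673, 0, 0, 0, 0, 0, 0, 0, 0, ⟨0, 0⟩, 0⟩ 0 0)))))) (.void 12 ⟨100000, 0, 0, 0, 0, 0, 0,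 0, 0, ⟨0, 0⟩, 0⟩ 0 0)) (.void 67 ⟨100000, 0, 0, 0, 0, 0, 0, 0, 0, ⟨0, 0⟩, 0⟩ 0 0)) (.void 74 ⟨62439, 37561, 0, 0, 0, 0, 0, 0, 0, ⟨0, 0⟩, 0⟩ 0 0))) (.cut .v 16777216 (.cut .v 8388608 (.cut .v 4194304 (.cut .v 2097152 (.void 79 ⟨0, 0, 50000, 0, 50000, 0, 0, 0, 0, ⟨0, 0⟩, 0⟩ 0 0) (.pos 80 .pm ⟨0, 0, 2185061, 0, 0, 0, 0, 0, 7202700, ⟨0, 0⟩, 7053950⟩ 0 0)) (.cut .d 6320185 (.pos 5 .pm ⟨0, 0, 0, 0, 0, 0, 0, 0, 0, ⟨0, 0⟩, 0⟩ 0 0) (.cut .d 9480278 (.pos 5 .pm ⟨0, 0, 0, 0, 0, 0, 0, 0, 1439139, ⟨0, 0⟩, 9975792⟩ 0 0) (.pos 5 .pm ⟨0, 25285479, 0, 0, 0, 0, 0, 0, 5464884, ⟨0, 0⟩, 9975792⟩ 0 0)))) (.cut .d 6320185 (.pos 3 .pm ⟨0, 0, 0, 0, 0, 0, 0, 0, 0, ⟨0, 0⟩, 0⟩ 0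 0) (.cut .d 9480278 (.pos 3 .pm ⟨0, 0, 0, 0, 0, 0, 0, 0, 0, ⟨0, 0⟩, 0⟩ 0 0) (.cut .d 11060324 (.pos 3 .pm ⟨0, 19393276, 0, 0, 0, 0, 0, 0, 0, ⟨0, 0⟩, 0⟩ 0 0) (.pos 3 .pm ⟨0, 46656155, 0, 0, 0, 0, 0, 0, 4824853, ⟨0, 0⟩, 14107901⟩ 0 0))))) (.cut .v 268435456 (.cut .d 6320185 (.cut .v 67108864 (.cut .d 3160092 (.cut .v 33554432 (.cut .d 1580046 (.cut .v 25165824 (.cut .v 20971520 (.pos 15 .pp ⟨20254427, 0, 0, 0, 0, 0, 0, 0, 0, ⟨0, 0⟩, 0⟩ 0 0) (.pos 16 .pp ⟨69000991, 0, 0, 0, 0, 0, 0, 0, 0, ⟨0, 0⟩, 0⟩ 0 0)) (.pos 14 .pp ⟨118178619, 0, 0, 0, 0, 0, 0, 0, 0, ⟨0, 0⟩, 0⟩ 0 0)) (.pos 11 .pp ⟨0, 0, 0, 0, 0, 0, 0, 0, 0, ⟨0, 0⟩, 0⟩ 0 0)) (.cut .d 1580046 (.cut .v 50331648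 (.cut .v 41943040 (.pos 35 .pp ⟨232023249, 0, 0, 0, 0, 0, 0, 0, 0, ⟨0, 0⟩, 0⟩ 0 0) (.pos 36 .pp ⟨434068859, 0, 0, 0, 0, 0, 0, 0, 0, ⟨0, 0⟩, 0⟩ 0 0)) (.pos 34 .pp ⟨842565376, 0, 0, 0, 0, 0, 0, 0, 0, ⟨0, 0⟩, 0⟩ 0 0)) (.pos 12 .pp ⟨170594611, 0, 0, 0, 0, 0, 0, 0, 0, ⟨0, 0⟩, 0⟩ 0 0))) (.pos 10 .pp ⟨0, 0, 0, 0, 0, 0, 0, 0, 0, ⟨0, 0⟩, 0⟩ 0 0)) (.cut .v 134217728 (.cut .v 100663296 (.cut .d 3160092 (.cut .d 1580046 (.void 75 ⟨100000, 0, 0, 0, 0, 0, 0, 0, 0, ⟨0, 0⟩, 0⟩ 0 0) (.pos 75 .pp ⟨973595562, 224477298, 0, 0, 0, 0, 0, 0, 0, ⟨0, 0⟩, 0⟩ 0 0)) (.pos 75 .pp ⟨0, 0, 0, 0, 0, 0, 0, 0, 0, ⟨0, 0⟩, 0⟩ 0 0)) (.void 76 ⟨41157, 58843, 0, 0, 0, 0, 0, 0, 0, ⟨0, 0⟩, 0⟩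 0 0)) (.void 71 ⟨0, 100000, 0, 0, 0, 0, 0, 0, 0, ⟨0, 0⟩, 0⟩ 0 0))) (.pos 66 .pp ⟨0, 4546846, 0, 0, 0, 0, 0, 0, 0, ⟨0, 0⟩, 0⟩ 0 0)) (.void 74 ⟨0, 0, 0, 100000, 0, 0, 0, 0, 0, ⟨0, 0⟩, 0⟩ 0 0)))),
    by decide +kernel⟩

def covers13 : cell.Covers table row13.1 :=
  ⟨(.cut .d 0 (.cut .v 16777216 (.cut .d (-8388608) (.void 1 ⟨0, 0, 0, 0, 0, 100000, 0, 0, 0, ⟨0, 0⟩, 0⟩ 0 0) (.cut .d (-4194304) (.void 1 ⟨0, 0, 0, 0, 0, 100000, 0, 0, 0, ⟨0, 0⟩, 0⟩ 0 0) (.cut .d (-2097152) (.void 1 ⟨0, 0, 0, 0, 0, 100000, 0, 0, 0, ⟨0, 0⟩, 0⟩ 0 0) (.cut .v 8388608 (.cut .v 4194304 (.void 4 ⟨0, 0, 100000, 0, 0, 0, 0, 0, 0, ⟨0, 0⟩, 0⟩ 0 0) (.pos 5 .mm ⟨0, 0, 0, 0, 0, 39180547, 0,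 0, 0, ⟨0, 0⟩, 0⟩ 0 0)) (.cut .v 12582912 (.pos 6 .mm ⟨0, 0, 0, 0, 0, 71796883, 0, 0, 0, ⟨0, 0⟩, 0⟩ 0 0) (.cut .d (-1048576) (.cut .d (-1572864) (.pos 7 .mm ⟨0, 0, 0, 0, 0, 149064311, 0, 0, 0, ⟨0, 0⟩, 0⟩ 0 0) (.cut .l 6001081 (.void 7 ⟨0, 0, 0, 0, 0, 100000, 0, 0, 0, ⟨0, 0⟩, 0⟩ 0 0) (.cut .v 14680064 (.pos 8 .mm ⟨0, 0, 0, 0, 0, 96359414, 0, 0, 0, ⟨0, 0⟩, 0⟩ 0 0) (.cut .v 15728640 (.pos 45 .mm ⟨0, 0, 0, 0, 0, 108230900, 0, 0, 0, ⟨0, 0⟩, 0⟩ 0 0) (.cut .s 10289152 (.cut .s 10190848 (.pos 46 .mm ⟨0, 0, 0, 0, 0, 101463474, 0, 0, 0, ⟨0, 0⟩, 0⟩ 0 0) (.pos 46 .mm ⟨0, 0, 0, 0, 0, 111597212, 0, 0, 0, ⟨0, 0⟩, 0⟩ 0 0)) (.cut .s 10387456 (.pos 46 .mm ⟨0, 0, 0, 0, 0,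 122496999, 0, 0, 0, ⟨0, 0⟩, 0⟩ 0 0) (.pos 46 .mm ⟨0, 0, 0, 0, 0, 134174920, 0, 0, 0, ⟨0, 0⟩, 0⟩ 0 0))))))) (.cut .l 6001081 (.cut .v 14680064 (.pos 8 .mm ⟨0, 0, 0, 0, 0, 87151861, 0, 0, 0, ⟨0, 0⟩, 0⟩ 0 0) (.cut .d (-524288) (.cut .s 10289152 (.pos 9 .mm ⟨0, 0, 0, 0, 0, 106323975, 0, 0, 0, ⟨0, 0⟩, 0⟩ 0 0) (.pos 9 .mm ⟨0, 0, 0, 0, 0, 127585366, 0, 0, 0, ⟨0, 0⟩, 0⟩ 0 0)) (.cut .d (-262144) (.cut .s 10289152 (.pos 9 .mm ⟨0, 0, 0, 0, 0, 98870849, 0, 0, 0, ⟨0, 0⟩, 0⟩ 0 0) (.pos 9 .mm ⟨0, 0, 0, 0, 0, 118288532, 0, 0, 0, ⟨0, 0⟩, 0⟩ 0 0)) (.pos 9 .mm ⟨0, 0, 0, 0, 0, 93034437, 0, 0, 0, ⟨0, 0⟩, 0⟩ 0 0)))) (.cut .s 10289152 (.pos 7 .mm ⟨0, 0, 0, 0, 0, 82041609, 0,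 0, 0, ⟨0, 0⟩, 0⟩ 0 0) (.cut .d (-524288) (.pos 7 .mm ⟨0, 0, 0, 0, 0, 115977269, 0, 0, 0, ⟨0, 0⟩, 0⟩ 0 0) (.pos 7 .mm ⟨0, 0, 0, 0, 0, 0, 0, 0, 0, ⟨0, 0⟩, 0⟩ 0 0)))))))))) (.cut .v 268435456 (.cut .v 67108864 (.cut .v 33554432 (.cut .d (-8388608) (.void 11 ⟨0, 0, 0, 0, 0, 100000, 0, 0, 0, ⟨0, 0⟩, 0⟩ 0 0) (.cut .d (-4194304) (.void 11 ⟨0, 0, 0, 0, 0, 100000, 0, 0, 0, ⟨0, 0⟩, 0⟩ 0 0) (.cut .d (-2097152) (.void 11 ⟨0, 0, 0, 0, 0, 100000, 0, 0, 0, ⟨0, 0⟩, 0⟩ 0 0) (.cut .v 25165824 (.cut .v 20971520 (.cut .d (-1048576) (.cut .l 6001081 (.void 15 ⟨0, 0, 0, 0, 0, 100000, 0, 0, 0, ⟨0, 0⟩, 0⟩ 0 0) (.cut .v 18874368 (.cut .d (-1572864) (.cut .s 10289152 (.cut .v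 17825792 (.cut .s 10190848 (.cut .v 17301504 (.pos 21 .mp ⟨63978465, 0, 0, 0, 0, 50638116, 0, 0, 0, ⟨0, 0⟩, 0⟩ 0 0) (.pos 22 .mp ⟨111052414, 0, 0, 0, 0, 0, 0, 0, 0, ⟨0, 0⟩, 0⟩ 0 0)) (.pos 19 .mp ⟨77983192, 0, 0, 0, 0, 55316275, 0, 0, 0, ⟨0, 0⟩, 0⟩ 0 0)) (.void 20 ⟨100000, 0, 0, 0, 0, 0, 0, 0, 0, ⟨0, 0⟩, 0⟩ 0 0)) (.void 17 ⟨0, 0, 0, 0, 0, 100000, 0, 0, 0, ⟨0, 0⟩, 0⟩ 0 0)) (.cut .s 10289152 (.cut .v 17825792 (.cut .s 10190848 (.cut .s 10141696 (.pos 19 .mp ⟨89063432, 0, 0, 0, 0, 0, 0, 0, 0, ⟨0, 0⟩, 0⟩ 0 0) (.pos 19 .mp ⟨93086218, 0, 0, 0, 0, 0, 0, 0, 0, ⟨0, 0⟩, 0⟩ 0 0)) (.cut .s 10240000 (.pos 19 .mp ⟨97256516, 0, 0, 0, 0, 0, 0, 0, 0, ⟨0, 0⟩, 0⟩ 0 0) (.pos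 19 .mp ⟨101574254, 0, 0, 0, 0, 0, 0, 0, 0, ⟨0, 0⟩, 0⟩ 0 0))) (.pos 20 .mp ⟨107784665, 0, 0, 0, 0, 0, 0, 0, 0, ⟨0, 0⟩, 0⟩ 0 0)) (.cut .v 17825792 (.cut .s 10387456 (.cut .s 10338304 (.pos 19 .mp ⟨106039359, 0, 0, 0, 0, 0, 0, 0, 0, ⟨0, 0⟩, 0⟩ 0 0) (.cut .d (-1310720) (.pos 19 .mp ⟨102339287, 0, 0, 0, 0, 12326618, 0, 0, 0, ⟨0, 0⟩, 0⟩ 0 0) (.pos 19 .mp ⟨105647909, 0, 0, 0, 0, 187778, 0, 0, 0, ⟨0, 0⟩, 0⟩ 0 0))) (.cut .d (-1310720) (.cut .s 10436608 (.pos 19 .mp ⟨104528543, 0, 0, 0, 0, 15892993, 0, 0, 0, ⟨0, 0⟩, 0⟩ 0 0) (.pos 19 .mp ⟨106901940, 0, 0, 0, 0, 19434747, 0, 0, 0, ⟨0, 0⟩, 0⟩ 0 0)) (.pos 19 .mp ⟨113335942, 0, 0, 0, 0, 0, 0, 0, 0, ⟨0, 0⟩, 0⟩ 0 0)))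 (.pos 20 .mp ⟨128582164, 0, 0, 0, 0, 0, 0, 0, 0, ⟨0, 0⟩, 0⟩ 0 0)))) (.cut .s 10289152 (.pos 18 .mp ⟨140619594, 0, 0, 0, 0, 0, 0, 0, 0, ⟨0, 0⟩, 0⟩ 0 0) (.pos 18 .mp ⟨168434797, 0, 0, 0, 0, 0, 0, 0, 0, ⟨0, 0⟩, 0⟩ 0 0)))) (.cut .v 18874368 (.cut .d (-524288) (.cut .l 6001081 (.cut .v 17825792 (.cut .l 3839401 (.pos 19 .mp ⟨42072318, 0, 0, 0, 0, 98592328, 0, 0, 0, ⟨0, 0⟩, 0⟩ 0 0) (.cut .s 10289152 (.cut .s 10190848 (.pos 19 .mp ⟨81319237, 0, 0, 0, 0, 4788654, 0, 0, 0, ⟨0, 0⟩, 0⟩ 0 0) (.pos 19 .mp ⟨90551021, 0, 0, 0, 0, 2926866, 0, 0, 0, ⟨0, 0⟩, 0⟩ 0 0)) (.cut .s 10387456 (.pos 19 .mp ⟨100573270, 0, 0, 0, 0, 689450, 0, 0, 0, ⟨0, 0⟩, 0⟩ 0 0) (.pos 19 .mp ⟨109976453,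 0, 0, 0, 0, 0, 0, 0, 0, ⟨0, 0⟩, 0⟩ 0 0)))) (.pos 20 .mp ⟨119197591, 0, 0, 0, 0, 0, 0, 0, 0, ⟨0, 0⟩, 0⟩ 0 0)) (.cut .s 10289152 (.pos 17 .mp ⟨82592562, 0, 0, 0, 0, 1418395, 0, 0, 0, ⟨0, 0⟩, 0⟩ 0 0) (.pos 17 .mp ⟨100487677, 0, 0, 0, 0, 0, 0, 0, 0, ⟨0, 0⟩, 0⟩ 0 0))) (.cut .l 6001081 (.cut .l 3839401 (.cut .v 17825792 (.cut .d (-262144) (.cut .s 10289152 (.cut .v 17301504 (.cut .l 2758561 (.cut .s 10190848 (.pos 21 .mp ⟨33199359, 0, 0, 0, 0, 62720934, 0, 0, 0, ⟨0, 0⟩, 0⟩ 0 0) (.pos 21 .mp ⟨38100376, 0, 0, 0, 0, 66163434, 0, 0, 0, ⟨0, 0⟩, 0⟩ 0 0)) (.pos 21 .mp ⟨49119487, 0, 0, 0, 0, 39957213, 0, 0, 0, ⟨0, 0⟩, 0⟩ 0 0)) (.pos 22 .mp ⟨91790290, 0, 0, 0, 0, 0,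 0, 0, 0, ⟨0, 0⟩, 0⟩ 0 0)) (.cut .v 17301504 (.cut .d (-393216) (.pos 21 .mp ⟨40094407, 0, 0, 0, 0, 84738302, 0, 0, 0, ⟨0, 0⟩, 0⟩ 0 0) (.cut .s 10387456 (.pos 21 .mp ⟨54724644, 0, 0, 0, 0, 51935321, 0, 0, 0, ⟨0, 0⟩, 0⟩ 0 0) (.pos 21 .mp ⟨60727471, 0, 0, 0, 0, 54814653, 0, 0, 0, ⟨0, 0⟩, 0⟩ 0 0))) (.pos 22 .mp ⟨107967179, 0, 0, 0, 0, 0, 0, 0, 0, ⟨0, 0⟩, 0⟩ 0 0))) (.cut .d (-131072) (.cut .v 17301504 (.cut .l 2758561 (.cut .l 2218141 (.cut .s 10289152 (.cut .l 1947931 (.cut .d (-196608) (.cut .s 10190848 (.pos 21 .mp ⟨31900141, 0, 0, 0, 0, 61727982, 0, 0, 0, ⟨0, 0⟩, 0⟩ 0 0) (.pos 21 .mp ⟨36662130, 0, 0, 0, 0, 65005449, 0, 0, 0, ⟨0, 0⟩, 0⟩ 0 0)) (.cut .s 10190848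 (.pos 21 .mp ⟨36259015, 0, 0, 0, 0, 0, 0, 0, 0, ⟨0, 0⟩, 0⟩ 0 0) (.pos 21 .mp ⟨38838450, 0, 0, 0, 0, 46607447, 0, 0, 0, ⟨0, 0⟩, 0⟩ 0 0))) (.pos 21 .mp ⟨43323717, 0, 0, 0, 0, 34052910, 0, 0, 0, ⟨0, 0⟩, 0⟩ 0 0)) (.cut .d (-196608) (.cut .s 10387456 (.pos 21 .mp ⟨40201565, 0, 0, 0, 0, 70414748, 0, 0, 0, ⟨0, 0⟩, 0⟩ 0 0) (.pos 21 .mp ⟨45284848, 0, 0, 0, 0, 74566489, 0, 0, 0, ⟨0, 0⟩, 0⟩ 0 0)) (.cut .v 17039360 (.pos 77 .mp ⟨0, 0, 0, 0, 0, 109180573, 0, 0, 0, ⟨0, 0⟩, 0⟩ 0 0) (.cut .s 10387456 (.pos 78 .mp ⟨46599874, 0, 0, 0, 0, 49528583, 0, 0, 0, ⟨0, 0⟩, 0⟩ 0 0) (.pos 78 .mp ⟨51823218, 0, 0, 0, 0, 53017070, 0, 0, 0, ⟨0, 0⟩, 0⟩ 0 0))))) (.pos 21 .mp ⟨49696743,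 0, 0, 0, 0, 0, 0, 0, 0, ⟨0, 0⟩, 0⟩ 0 0)) (.pos 21 .mp ⟨0, 0, 0, 0, 0, 0, 0, 0, 0, ⟨0, 0⟩, 0⟩ 0 0)) (.pos 22 .mp ⟨90079125, 0, 0, 0, 0, 0, 0, 0, 0, ⟨0, 0⟩, 0⟩ 0 0)) (.pos 19 .mp ⟨36706595, 0, 0, 0, 0, 0, 0, 0, 0, ⟨0, 0⟩, 0⟩ 0 0))) (.cut .s 10289152 (.pos 20 .mp ⟨92147796, 0, 0, 0, 0, 0, 0, 0, 0, ⟨0, 0⟩, 0⟩ 0 0) (.pos 20 .mp ⟨108013876, 0, 0, 0, 0, 0, 0, 0, 0, ⟨0, 0⟩, 0⟩ 0 0))) (.pos 17 .mp ⟨70567971, 0, 0, 0, 0, 0, 0, 0, 0, ⟨0, 0⟩, 0⟩ 0 0)) (.pos 17 .mp ⟨0, 0, 0, 0, 0, 0, 0, 0, 0, ⟨0, 0⟩, 0⟩ 0 0))) (.cut .s 10289152 (.cut .s 10190848 (.pos 18 .mp ⟨103905143, 0, 0, 0, 0, 0, 0, 0, 0, ⟨0, 0⟩, 0⟩ 0 0) (.pos 18 .mp ⟨112912449, 0, 0, 0, 0, 0, 0, 0, 0, ⟨0, 0⟩,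 0⟩ 0 0)) (.cut .d (-524288) (.pos 18 .mp ⟨133357048, 0, 0, 0, 0, 0, 0, 0, 0, ⟨0, 0⟩, 0⟩ 0 0) (.pos 18 .mp ⟨117933000, 0, 0, 0, 0, 0, 0, 0, 0, ⟨0, 0⟩, 0⟩ 0 0))))) (.cut .d (-1048576) (.void 16 ⟨100000, 0, 0, 0, 0, 0, 0, 0, 0, ⟨0, 0⟩, 0⟩ 0 0) (.cut .d (-524288) (.pos 16 .mp ⟨167583691, 0, 0, 0, 0, 0, 0, 0, 0, ⟨0, 0⟩, 0⟩ 0 0) (.pos 16 .mp ⟨139310442, 0, 0, 0, 0, 0, 0, 0, 0, ⟨0, 0⟩, 0⟩ 0 0)))) (.cut .d (-1048576) (.void 14 ⟨100000, 0, 0, 0, 0, 0, 0, 0, 0, ⟨0, 0⟩, 0⟩ 0 0) (.cut .v 29360128 (.pos 29 .mp ⟨224001720, 0, 0, 0, 0, 0, 0, 0, 0, ⟨0, 0⟩, 0⟩ 0 0) (.pos 30 .mp ⟨334214673, 0, 0, 0, 0, 0, 0, 0, 0, ⟨0, 0⟩, 0⟩ 0 0))))))) (.void 12 ⟨100000, 0, 0, 0, 0, 0,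 0, 0, 0, ⟨0, 0⟩, 0⟩ 0 0)) (.void 67 ⟨100000, 0, 0, 0, 0, 0, 0, 0, 0, ⟨0, 0⟩, 0⟩ 0 0)) (.void 74 ⟨95726, 0, 0, 4274, 0, 0, 0, 0, 0, ⟨0, 0⟩, 0⟩ 0 0))) (.cut .v 16777216 (.cut .v 8388608 (.cut .v 4194304 (.cut .v 2097152 (.void 79 ⟨0, 0, 50000, 0, 50000, 0, 0, 0, 0, ⟨0, 0⟩, 0⟩ 0 0) (.pos 80 .pm ⟨0, 249244, 0, 0, 0, 0, 0, 0, 8155039, ⟨0, 0⟩, 7053950⟩ 0 0)) (.cut .d 5556092 (.pos 5 .pm ⟨0, 0, 0, 0, 0, 0, 0, 0, 0, ⟨0, 0⟩, 0⟩ 0 0) (.cut .d 8334138 (.pos 5 .pm ⟨0, 0, 0, 0, 0, 0, 0, 0, 0, ⟨0, 0⟩, 0⟩ 0 0) (.cut .d 9723161 (.pos 5 .pm ⟨0, 28554767, 0, 0, 0, 0, 0, 0, 0, ⟨0, 0⟩, 0⟩ 0 0) (.pos 5 .pm ⟨0, 55314732, 0, 0, 0, 0, 0, 0, 4000220, ⟨0, 0⟩, 9975792⟩ 0 0)))))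 (.cut .d 5556092 (.pos 3 .pm ⟨0, 0, 0, 0, 0, 0, 0, 0, 0, ⟨0, 0⟩, 0⟩ 0 0) (.cut .d 8334138 (.pos 3 .pm ⟨0, 0, 0, 0, 0, 0, 0, 0, 0, ⟨0, 0⟩, 0⟩ 0 0) (.cut .d 9723161 (.pos 3 .pm ⟨0, 28957014, 0, 0, 0, 0, 0, 0, 0, ⟨0, 0⟩, 0⟩ 0 0) (.pos 3 .pm ⟨0, 49446992, 0, 0, 0, 0, 0, 0, 0, ⟨0, 0⟩, 0⟩ 0 0))))) (.cut .v 268435456 (.cut .d 5556092 (.cut .v 67108864 (.cut .d 2778046 (.cut .v 33554432 (.cut .d 1389023 (.cut .d 694511 (.cut .v 25165824 (.cut .v 20971520 (.pos 15 .pp ⟨40810102, 0, 0, 0, 0, 0, 0, 0, 0, ⟨0, 0⟩, 0⟩ 0 0) (.pos 16 .pp ⟨110952256, 0, 0, 0, 0, 0, 0, 0, 0, ⟨0, 0⟩, 0⟩ 0 0)) (.pos 14 .pp ⟨185128528, 0, 0, 0, 0, 0, 0, 0, 0, ⟨0, 0⟩, 0⟩ 0 0)) (.pos 11 .pp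 ⟨21631064, 0, 0, 0, 0, 0, 0, 0, 0, ⟨0, 0⟩, 0⟩ 0 0)) (.pos 11 .pp ⟨0, 0, 0, 0, 0, 0, 0, 0, 0, ⟨0, 0⟩, 0⟩ 0 0)) (.cut .d 1389023 (.cut .v 50331648 (.cut .v 41943040 (.pos 35 .pp ⟨320998456, 0, 0, 0, 0, 0, 0, 0, 0, ⟨0, 0⟩, 0⟩ 0 0) (.pos 36 .pp ⟨570071698, 0, 0, 0, 0, 0, 0, 0, 0, ⟨0, 0⟩, 0⟩ 0 0)) (.pos 34 .pp ⟨1097877519, 0, 0, 0, 0, 0, 0, 0, 0, ⟨0, 0⟩, 0⟩ 0 0)) (.cut .v 50331648 (.pos 33 .pp ⟨126634634, 0, 0, 0, 0, 0, 0, 0, 0, ⟨0, 0⟩, 0⟩ 0 0) (.pos 34 .pp ⟨539399884, 0, 0, 0, 0, 0, 0, 0, 0, ⟨0, 0⟩, 0⟩ 0 0)))) (.pos 10 .pp ⟨0, 0, 0, 0, 0, 0, 0, 0, 0, ⟨0, 0⟩, 0⟩ 0 0)) (.cut .v 134217728 (.cut .v 100663296 (.cut .d 2778046 (.cut .d 1389023 (.void 75 ⟨100000,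 0, 0, 0, 0, 0, 0, 0, 0, ⟨0, 0⟩, 0⟩ 0 0) (.cut .v 83886080 (.pos 87 .pp ⟨1210735599, 0, 0, 0, 0, 0, 0, 0, 0, ⟨0, 0⟩, 0⟩ 0 0) (.void 88 ⟨41576, 58424, 0, 0, 0, 0, 0, 0, 0, ⟨0, 0⟩, 0⟩ 0 0))) (.pos 75 .pp ⟨0, 46325541, 0, 0, 0, 0, 0, 0, 0, ⟨0, 0⟩, 0⟩ 0 0)) (.void 76 ⟨40700, 59300, 0, 0, 0, 0, 0, 0, 0, ⟨0, 0⟩, 0⟩ 0 0)) (.void 71 ⟨0, 100000, 0, 0, 0, 0, 0, 0, 0, ⟨0, 0⟩, 0⟩ 0 0))) (.pos 66 .pp ⟨0, 13488541, 0, 0, 0, 0, 0, 0, 0, ⟨0, 0⟩, 0⟩ 0 0)) (.void 74 ⟨0, 0, 0, 100000, 0, 0, 0, 0, 0, ⟨0, 0⟩, 0⟩ 0 0)))),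
    by decide +kernel⟩

def covers14 : cell.Covers table row14.1 :=
  ⟨(.cut .d 0 (.cut .v 16777216 (.cut .d (-8388608) (.void 1 ⟨0, 0, 0, 0, 0, 100000, 0, 0, 0, ⟨0, 0⟩, 0⟩ 0 0) (.cut .d (-4194304) (.void 1 ⟨0, 0, 0, 0, 0, 100000, 0, 0, 0, ⟨0, 0⟩, 0⟩ 0 0) (.cut .d (-2097152) (.void 1 ⟨0, 0, 0, 0, 0, 100000, 0, 0, 0, ⟨0, 0⟩, 0⟩ 0 0) (.cut .v 8388608 (.cut .v 4194304 (.void 4 ⟨0, 0, 100000, 0, 0, 0, 0, 0, 0, ⟨0, 0⟩, 0⟩ 0 0) (.pos 5 .mm ⟨0, 0, 1138695, 0, 0, 60833385, 0, 0, 0, ⟨0, 0⟩, 0⟩ 0 0)) (.cut .d (-1048576) (.cut .d (-1572864) (.void 3 ⟨0, 0, 0, 0, 0, 100000, 0, 0, 0, ⟨0, 0⟩, 0⟩ 0 0) (.cut .l 6001081 (.void 3 ⟨0, 0, 0, 0, 0, 100000, 0, 0, 0, ⟨0, 0⟩,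 0⟩ 0 0) (.cut .l 8162761 (.pos 3 .mm ⟨0, 0, 0, 0, 0, 196369913, 0, 0, 0, ⟨0, 0⟩, 0⟩ 0 0) (.cut .v 12582912 (.pos 6 .mm ⟨0, 0, 0, 0, 0, 106451490, 0, 0, 0, ⟨0, 0⟩, 0⟩ 0 0) (.cut .v 14680064 (.pos 8 .mm ⟨0, 0, 0, 0, 0, 138712363, 0, 0, 0, ⟨0, 0⟩, 0⟩ 0 0) (.cut .v 15728640 (.pos 45 .mm ⟨0, 0, 0, 0, 0, 156817332, 0, 0, 0, ⟨0, 0⟩, 0⟩ 0 0) (.cut .s 10682368 (.cut .d (-1310720) (.cut .s 10584064 (.pos 46 .mm ⟨0, 0, 0, 0, 0, 153637559, 0, 0, 0, ⟨0, 0⟩, 0⟩ 0 0) (.pos 46 .mm ⟨0, 0, 0, 0, 0, 170924621, 0, 0, 0, ⟨0, 0⟩, 0⟩ 0 0)) (.pos 46 .mm ⟨0, 0, 0, 0, 0, 147808771, 0, 0, 0, ⟨0, 0⟩, 0⟩ 0 0)) (.cut .v 16252928 (.pos 57 .mm ⟨0, 0, 0, 0, 0, 178782866, 0, 0, 0, ⟨0,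 0⟩, 0⟩ 0 0) (.cut .v 16515072 (.pos 59 .mm ⟨0, 0, 0, 0, 0, 183672362, 0, 0, 0, ⟨0, 0⟩, 0⟩ 0 0) (.cut .d (-1310720) (.cut .s 10780672 (.pos 60 .mm ⟨0, 0, 0, 0, 0, 189306809, 0, 0, 0, ⟨0, 0⟩, 0⟩ 0 0) (.pos 60 .mm ⟨101157673, 0, 0, 0, 0, 87093400, 0, 0, 0, ⟨0, 0⟩, 0⟩ 0 0)) (.cut .s 10780672 (.pos 60 .mm ⟨65256933, 0, 0, 0, 0, 92791284, 0, 0, 0, ⟨0, 0⟩, 0⟩ 0 0) (.pos 60 .mm ⟨74212119, 0, 0, 0, 0, 97264202, 0, 0, 0, ⟨0, 0⟩, 0⟩ 0 0)))))))))))) (.cut .v 12582912 (.pos 6 .mm ⟨0, 0, 0, 0, 0, 90241706, 0, 0, 0, ⟨0, 0⟩, 0⟩ 0 0) (.cut .d (-524288) (.cut .v 14680064 (.pos 8 .mm ⟨0, 0, 0, 0, 0, 132090154, 0, 0, 0, ⟨0, 0⟩, 0⟩ 0 0) (.cut .s 10682368 (.cut .s 10584064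 (.pos 9 .mm ⟨0, 0, 0, 0, 0, 139714856, 0, 0, 0, ⟨0, 0⟩, 0⟩ 0 0) (.pos 9 .mm ⟨0, 0, 0, 0, 0, 152287969, 0, 0, 0, ⟨0, 0⟩, 0⟩ 0 0)) (.cut .l 6001081 (.pos 9 .mm ⟨0, 0, 0, 0, 0, 181313599, 0, 0, 0, ⟨0, 0⟩, 0⟩ 0 0) (.cut .s 10780672 (.pos 9 .mm ⟨0, 0, 0, 0, 0, 162721804, 0, 0, 0, ⟨0, 0⟩, 0⟩ 0 0) (.pos 9 .mm ⟨0, 0, 0, 0, 0, 177311732, 0, 0, 0, ⟨0, 0⟩, 0⟩ 0 0))))) (.cut .l 6001081 (.cut .l 3839401 (.cut .v 14680064 (.pos 8 .mm ⟨0, 0, 0, 0, 0, 116262297, 0, 0, 0, ⟨0, 0⟩, 0⟩ 0 0) (.cut .v 15728640 (.pos 45 .mm ⟨0, 0, 0, 0, 0, 132194141, 0, 0, 0, ⟨0, 0⟩, 0⟩ 0 0) (.cut .s 10682368 (.cut .d (-262144) (.pos 46 .mm ⟨0, 0, 0, 0, 0, 144239807, 0, 0, 0, ⟨0, 0⟩, 0⟩ 0 0)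 (.pos 46 .mm ⟨0, 0, 0, 0, 0, 128122215, 0, 0, 0, ⟨0, 0⟩, 0⟩ 0 0)) (.cut .d (-262144) (.pos 46 .mm ⟨0, 0, 0, 0, 0, 171411706, 0, 0, 0, ⟨0, 0⟩, 0⟩ 0 0) (.pos 46 .mm ⟨0, 0, 0, 0, 0, 152994540, 0, 0, 0, ⟨0, 0⟩, 0⟩ 0 0))))) (.pos 7 .mm ⟨0, 0, 0, 0, 0, 126552863, 0, 0, 0, ⟨0, 0⟩, 0⟩ 0 0)) (.pos 7 .mm ⟨0, 0, 0, 0, 0, 0, 0, 0, 0, ⟨0, 0⟩, 0⟩ 0 0))))))))) (.cut .v 268435456 (.cut .v 67108864 (.cut .v 33554432 (.cut .d (-8388608) (.void 11 ⟨0, 0, 0, 0, 0, 100000, 0, 0, 0, ⟨0, 0⟩, 0⟩ 0 0) (.cut .d (-4194304) (.void 11 ⟨100000, 0, 0, 0, 0, 0, 0, 0, 0, ⟨0, 0⟩, 0⟩ 0 0) (.cut .d (-2097152) (.void 11 ⟨100000, 0, 0, 0, 0, 0, 0, 0, 0, ⟨0, 0⟩, 0⟩ 0 0) (.cut .v 25165824 (.cut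 .d (-1048576) (.cut .v 20971520 (.cut .v 18874368 (.cut .d (-1572864) (.void 17 ⟨0, 0, 0, 0, 0, 100000, 0, 0, 0, ⟨0, 0⟩, 0⟩ 0 0) (.cut .l 6001081 (.void 17 ⟨100000, 0, 0, 0, 0, 0, 0, 0, 0, ⟨0, 0⟩, 0⟩ 0 0) (.cut .s 10682368 (.cut .v 17825792 (.cut .l 8162761 (.pos 19 .mp ⟨143365103, 0, 0, 0, 0, 0, 0, 0, 0, ⟨0, 0⟩, 0⟩ 0 0) (.cut .d (-1310720) (.cut .s 10584064 (.cut .d (-1441792) (.pos 19 .mp ⟨118205826, 0, 0, 0, 0, 20805667, 0, 0, 0, ⟨0, 0⟩, 0⟩ 0 0) (.pos 19 .mp ⟨121396660, 0, 0, 0, 0, 4975798, 0, 0, 0, ⟨0, 0⟩, 0⟩ 0 0)) (.pos 19 .mp ⟨131542499, 0, 0, 0, 0, 15761232, 0, 0, 0, ⟨0, 0⟩, 0⟩ 0 0)) (.cut .s 10584064 (.pos 19 .mp ⟨110923933, 0, 0, 0, 0, 11446590,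 0, 0, 0, ⟨0, 0⟩, 0⟩ 0 0) (.pos 19 .mp ⟨123175987, 0, 0, 0, 0, 9945937, 0, 0, 0, ⟨0, 0⟩, 0⟩ 0 0)))) (.pos 20 .mp ⟨152315524, 0, 0, 0, 0, 0, 0, 0, 0, ⟨0, 0⟩, 0⟩ 0 0)) (.cut .v 17825792 (.cut .v 17301504 (.cut .l 8162761 (.pos 21 .mp ⟨169207109, 0, 0, 0, 0, 0, 0, 0, 0, ⟨0, 0⟩, 0⟩ 0 0) (.cut .d (-1310720) (.cut .s 10780672 (.pos 21 .mp ⟨139485358, 0, 0, 0, 0, 23157885, 0, 0, 0, ⟨0, 0⟩, 0⟩ 0 0) (.pos 21 .mp ⟨173569707, 0, 0, 0, 0, 0, 0, 0, 0, ⟨0, 0⟩, 0⟩ 0 0)) (.cut .s 10780672 (.pos 21 .mp ⟨143018983, 0, 0, 0, 0, 0, 0, 0, 0, ⟨0, 0⟩, 0⟩ 0 0) (.pos 21 .mp ⟨155099448, 0, 0, 0, 0, 0, 0, 0, 0, ⟨0, 0⟩, 0⟩ 0 0)))) (.pos 22 .mp ⟨168003629, 0, 0, 0, 0, 0, 0, 0, 0,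 ⟨0, 0⟩, 0⟩ 0 0)) (.pos 20 .mp ⟨181128601, 0, 0, 0, 0, 0, 0, 0, 0, ⟨0, 0⟩, 0⟩ 0 0))))) (.pos 18 .mp ⟨230121751, 0, 0, 0, 0, 0, 0, 0, 0, ⟨0, 0⟩, 0⟩ 0 0)) (.void 16 ⟨100000, 0, 0, 0, 0, 0, 0, 0, 0, ⟨0, 0⟩, 0⟩ 0 0)) (.cut .v 20971520 (.cut .v 18874368 (.cut .d (-524288) (.cut .l 6001081 (.cut .d (-786432) (.pos 17 .mp ⟨116264750, 0, 0, 0, 0, 72937974, 0, 0, 0, ⟨0, 0⟩, 0⟩ 0 0) (.cut .l 3839401 (.void 17 ⟨0, 0, 0, 0, 0, 100000, 0, 0, 0, ⟨0, 0⟩, 0⟩ 0 0) (.cut .s 10682368 (.pos 17 .mp ⟨117437564, 0, 0, 0, 0, 4072687, 0, 0, 0, ⟨0, 0⟩, 0⟩ 0 0) (.pos 17 .mp ⟨142227588, 0, 0, 0, 0, 0, 0, 0, 0, ⟨0, 0⟩, 0⟩ 0 0)))) (.cut .d (-786432) (.cut .l 8162761 (.cut .s 10682368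 (.pos 17 .mp ⟨123680342, 0, 0, 0, 0, 0, 0, 0, 0, ⟨0, 0⟩, 0⟩ 0 0) (.pos 17 .mp ⟨147787532, 0, 0, 0, 0, 0, 0, 0, 0, ⟨0, 0⟩, 0⟩ 0 0)) (.pos 17 .mp ⟨119957575, 0, 0, 0, 0, 0, 0, 0, 0, ⟨0, 0⟩, 0⟩ 0 0)) (.pos 17 .mp ⟨114728087, 0, 0, 0, 0, 0, 0, 0, 0, ⟨0, 0⟩, 0⟩ 0 0))) (.cut .l 6001081 (.cut .l 3839401 (.cut .d (-262144) (.cut .v 17825792 (.cut .s 10682368 (.cut .v 17301504 (.cut .d (-393216) (.pos 21 .mp ⟨50296270, 0, 0, 0, 0, 97161684, 0, 0, 0, ⟨0, 0⟩, 0⟩ 0 0) (.cut .s 10584064 (.pos 21 .mp ⟨67107174, 0, 0, 0, 0, 57993633, 0, 0, 0, ⟨0, 0⟩, 0⟩ 0 0) (.pos 21 .mp ⟨73839117, 0, 0, 0, 0, 61637201, 0, 0, 0, ⟨0, 0⟩, 0⟩ 0 0))) (.pos 22 .mp ⟨126405399, 0, 0, 0, 0,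 0, 0, 0, 0, ⟨0, 0⟩, 0⟩ 0 0)) (.cut .d (-393216) (.pos 19 .mp ⟨117614948, 0, 0, 0, 0, 35125765, 0, 0, 0, ⟨0, 0⟩, 0⟩ 0 0) (.cut .s 10780672 (.cut .s 10731520 (.pos 19 .mp ⟨81424818, 0, 0, 0, 0, 63622177, 0, 0, 0, ⟨0, 0⟩, 0⟩ 0 0) (.pos 19 .mp ⟨85408802, 0, 0, 0, 0, 65230774, 0, 0, 0, ⟨0, 0⟩, 0⟩ 0 0)) (.pos 19 .mp ⟨97944422, 0, 0, 0, 0, 58347060, 0, 0, 0, ⟨0, 0⟩, 0⟩ 0 0)))) (.pos 20 .mp ⟨149215282, 0, 0, 0, 0, 0, 0, 0, 0, ⟨0, 0⟩, 0⟩ 0 0)) (.cut .d (-131072) (.cut .v 17825792 (.cut .l 2758561 (.cut .v 17301504 (.cut .s 10682368 (.cut .l 2218141 (.cut .d (-196608) (.cut .s 10584064 (.pos 21 .mp ⟨51167534, 0, 0, 0, 0, 78462201, 0, 0, 0, ⟨0, 0⟩, 0⟩ 0 0) (.pos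 21 .mp ⟨57315507, 0, 0, 0, 0, 82869724, 0, 0, 0, ⟨0, 0⟩, 0⟩ 0 0)) (.cut .v 17039360 (.pos 77 .mp ⟨0, 0, 0, 0, 0, 133920227, 0, 0, 0, ⟨0, 0⟩, 0⟩ 0 0) (.cut .s 10584064 (.pos 78 .mp ⟨57405890, 0, 0, 0, 0, 57296578, 0, 0, 0, ⟨0, 0⟩, 0⟩ 0 0) (.pos 78 .mp ⟨63347559, 0, 0, 0, 0, 61589965, 0, 0, 0, ⟨0, 0⟩, 0⟩ 0 0)))) (.pos 21 .mp ⟨61279985, 0, 0, 0, 0, 46914660, 0, 0, 0, ⟨0, 0⟩, 0⟩ 0 0)) (.cut .l 2218141 (.cut .d (-196608) (.cut .s 10780672 (.pos 21 .mp ⟨63704179, 0, 0, 0, 0, 87796777, 0, 0, 0, ⟨0, 0⟩, 0⟩ 0 0) (.pos 21 .mp ⟨70425602, 0, 0, 0, 0, 93091057, 0, 0, 0, ⟨0, 0⟩, 0⟩ 0 0)) (.cut .v 17039360 (.pos 77 .mp ⟨0, 0, 0, 0, 0, 161295759, 0, 0, 0, ⟨0, 0⟩, 0⟩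 0 0) (.cut .d (-163840) (.cut .s 10780672 (.pos 78 .mp ⟨69667213, 0, 0, 0, 0, 70730047, 0, 0, 0, ⟨0, 0⟩, 0⟩ 0 0) (.pos 78 .mp ⟨69660137, 0, 0, 0, 0, 91938732, 0, 0, 0, ⟨0, 0⟩, 0⟩ 0 0)) (.pos 78 .mp ⟨72331678, 0, 0, 0, 0, 53640488, 0, 0, 0, ⟨0, 0⟩, 0⟩ 0 0)))) (.pos 21 .mp ⟨76636191, 0, 0, 0, 0, 50465119, 0, 0, 0, ⟨0, 0⟩, 0⟩ 0 0))) (.pos 22 .mp ⟨127144616, 0, 0, 0, 0, 0, 0, 0, 0, ⟨0, 0⟩, 0⟩ 0 0)) (.pos 19 .mp ⟨64398788, 0, 0, 0, 0, 0, 0, 0, 0, ⟨0, 0⟩, 0⟩ 0 0)) (.pos 20 .mp ⟨133794715, 0, 0, 0, 0, 0, 0, 0, 0, ⟨0, 0⟩, 0⟩ 0 0)) (.pos 17 .mp ⟨72228590, 0, 0, 0, 0, 0, 0, 0, 0, ⟨0, 0⟩, 0⟩ 0 0))) (.cut .s 10682368 (.pos 17 .mp ⟨87750048, 0, 0, 0, 0, 16839715,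 0, 0, 0, ⟨0, 0⟩, 0⟩ 0 0) (.pos 17 .mp ⟨106684594, 0, 0, 0, 0, 16184158, 0, 0, 0, ⟨0, 0⟩, 0⟩ 0 0))) (.pos 17 .mp ⟨60135712, 0, 0, 0, 0, 0, 0, 0, 0, ⟨0, 0⟩, 0⟩ 0 0))) (.cut .d (-524288) (.cut .s 10682368 (.pos 18 .mp ⟨156724979, 0, 0, 0, 0, 0, 0, 0, 0, ⟨0, 0⟩, 0⟩ 0 0) (.pos 18 .mp ⟨183540916, 0, 0, 0, 0, 0, 0, 0, 0, ⟨0, 0⟩, 0⟩ 0 0)) (.cut .s 10682368 (.pos 18 .mp ⟨138165919, 0, 0, 0, 0, 0, 0, 0, 0, ⟨0, 0⟩, 0⟩ 0 0) (.pos 18 .mp ⟨161252724, 0, 0, 0, 0, 0, 0, 0, 0, ⟨0, 0⟩, 0⟩ 0 0)))) (.cut .d (-524288) (.pos 16 .mp ⟨231912879, 0, 0, 0, 0, 0, 0, 0, 0, ⟨0, 0⟩, 0⟩ 0 0) (.cut .l 6001081 (.pos 16 .mp ⟨208179833, 0, 0, 0, 0, 0, 0, 0, 0, ⟨0, 0⟩, 0⟩ 0 0) (.pos 16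 .mp ⟨171817977, 0, 0, 0, 0, 0, 0, 0, 0, ⟨0, 0⟩, 0⟩ 0 0))))) (.cut .v 29360128 (.cut .d (-1048576) (.void 29 ⟨100000, 0, 0, 0, 0, 0, 0, 0, 0, ⟨0, 0⟩, 0⟩ 0 0) (.pos 29 .mp ⟨303287837, 0, 0, 0, 0, 0, 0, 0, 0, ⟨0, 0⟩, 0⟩ 0 0)) (.pos 30 .mp ⟨500340476, 0, 0, 0, 0, 0, 0, 0, 0, ⟨0, 0⟩, 0⟩ 0 0)))))) (.void 12 ⟨100000, 0, 0, 0, 0, 0, 0, 0, 0, ⟨0, 0⟩, 0⟩ 0 0)) (.void 67 ⟨100000, 0, 0, 0, 0, 0, 0, 0, 0, ⟨0, 0⟩, 0⟩ 0 0)) (.void 74 ⟨95573, 0, 0, 4427, 0, 0, 0, 0, 0, ⟨0, 0⟩, 0⟩ 0 0))) (.cut .v 16777216 (.cut .v 8388608 (.cut .v 4194304 (.cut .v 2097152 (.pos 79 .pm ⟨0, 0, 23689990, 0, 18223239, 0, 0, 0, 12493276, ⟨0, 0⟩, 2804900⟩ 0 0) (.pos 80 .pm ⟨0, 3740576, 0, 0,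 0, 0, 0, 0, 8954834, ⟨0, 0⟩, 7053950⟩ 0 0)) (.cut .d 5033166 (.pos 5 .pm ⟨0, 0, 0, 0, 0, 0, 0, 0, 0, ⟨0, 0⟩, 0⟩ 0 0) (.cut .d 7549749 (.pos 5 .pm ⟨0, 0, 0, 0, 0, 0, 0, 0, 0, ⟨0, 0⟩, 0⟩ 0 0) (.cut .l 6001081 (.cut .d 8808040 (.cut .v 6291456 (.pos 85 .pm ⟨0, 36706483, 0, 0, 0, 0, 0, 0, 0, ⟨0, 0⟩, 0⟩ 0 0) (.cut .v 7340032 (.cut .s 10682368 (.pos 93 .pm ⟨0, 0, 0, 0, 0, 0, 0, 0, 0, ⟨0, 0⟩, 0⟩ 0 0) (.pos 93 .pm ⟨0, 43352940, 0, 0, 0, 0, 0, 0, 0, ⟨0, 0⟩, 0⟩ 0 0)) (.pos 94 .pm ⟨0, 39286944, 0, 0, 0, 0, 0, 0, 0, ⟨0, 0⟩, 0⟩ 0 0))) (.cut .v 6291456 (.pos 85 .pm ⟨0, 55911621, 0, 0, 0, 0, 0, 0, 0, ⟨0, 0⟩, 0⟩ 0 0) (.cut .s 10682368 (.pos 86 .pm ⟨0, 49238782, 0, 0,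 0, 0, 0, 0, 0, ⟨0, 0⟩, 0⟩ 0 0) (.pos 86 .pm ⟨0, 66033120, 0, 0, 0, 0, 0, 0, 0, ⟨0, 0⟩, 0⟩ 0 0)))) (.pos 5 .pm ⟨0, 42441475, 0, 0, 0, 0, 0, 0, 0, ⟨0, 0⟩, 0⟩ 0 0))))) (.cut .d 5033166 (.pos 3 .pm ⟨0, 0, 0, 0, 0, 0, 0, 0, 0, ⟨0, 0⟩, 0⟩ 0 0) (.cut .d 7549749 (.pos 3 .pm ⟨0, 0, 0, 0, 0, 0, 0, 0, 0, ⟨0, 0⟩, 0⟩ 0 0) (.cut .d 8808040 (.pos 3 .pm ⟨0, 40694974, 0, 0, 0, 0, 0, 0, 0, ⟨0, 0⟩, 0⟩ 0 0) (.pos 3 .pm ⟨0, 66309472, 0, 0, 0, 0, 0, 0, 0, ⟨0, 0⟩, 0⟩ 0 0))))) (.cut .v 268435456 (.cut .d 5033166 (.cut .v 67108864 (.cut .d 2516583 (.cut .v 33554432 (.cut .d 1258291 (.cut .d 629145 (.cut .v 25165824 (.cut .v 20971520 (.pos 15 .pp ⟨63419249, 0, 0, 0, 0, 0, 0, 0,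 0, ⟨0, 0⟩, 0⟩ 0 0) (.pos 16 .pp ⟨152339292, 0, 0, 0, 0, 0, 0, 0, 0, ⟨0, 0⟩, 0⟩ 0 0)) (.pos 14 .pp ⟨252340902, 0, 0, 0, 0, 0, 0, 0, 0, ⟨0, 0⟩, 0⟩ 0 0)) (.pos 11 .pp ⟨53915917, 0, 0, 0, 0, 0, 0, 0, 0, ⟨0, 0⟩, 0⟩ 0 0)) (.pos 11 .pp ⟨0, 0, 0, 0, 0, 0, 0, 0, 0, ⟨0, 0⟩, 0⟩ 0 0)) (.cut .v 50331648 (.cut .d 1258291 (.cut .v 41943040 (.pos 35 .pp ⟨423419963, 0, 0, 0, 0, 0, 0, 0, 0, ⟨0, 0⟩, 0⟩ 0 0) (.pos 36 .pp ⟨725741882, 0, 0, 0, 0, 0, 0, 0, 0, ⟨0, 0⟩, 0⟩ 0 0)) (.pos 33 .pp ⟨260552506, 0, 0, 0, 0, 0, 0, 0, 0, ⟨0, 0⟩, 0⟩ 0 0)) (.cut .d 1258291 (.cut .v 58720256 (.pos 97 .pp ⟨1113289094, 0, 0, 0, 0, 0, 0, 0, 0, ⟨0, 0⟩, 0⟩ 0 0) (.pos 98 .pp ⟨1530525041, 0, 0, 0,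 0, 0, 0, 0, 0, ⟨0, 0⟩, 0⟩ 0 0)) (.pos 34 .pp ⟨714521701, 0, 0, 0, 0, 0, 0, 0, 0, ⟨0, 0⟩, 0⟩ 0 0)))) (.pos 10 .pp ⟨0, 0, 0, 0, 0, 0, 0, 0, 0, ⟨0, 0⟩, 0⟩ 0 0)) (.cut .v 134217728 (.cut .v 100663296 (.cut .d 2516583 (.cut .d 1258291 (.void 75 ⟨100000, 0, 0, 0, 0, 0, 0, 0, 0, ⟨0, 0⟩, 0⟩ 0 0) (.cut .v 83886080 (.cut .v 75497472 (.pos 99 .pp ⟨1346236905, 0, 0, 0, 0, 0, 0, 0, 0, ⟨0, 0⟩, 0⟩ 0 0) (.pos 100 .pp ⟨1820330541, 0, 0, 0, 0, 0, 0, 0, 0, ⟨0, 0⟩, 0⟩ 0 0)) (.void 88 ⟨40937, 59063, 0, 0, 0, 0, 0, 0, 0, ⟨0, 0⟩, 0⟩ 0 0))) (.pos 75 .pp ⟨0, 146842068, 0, 0, 0, 0, 0, 0, 0, ⟨0, 0⟩, 0⟩ 0 0)) (.void 76 ⟨40138, 59862, 0, 0, 0, 0, 0, 0, 0, ⟨0, 0⟩, 0⟩ 0 0)) (.void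 71 ⟨40138, 59862, 0, 0, 0, 0, 0, 0, 0, ⟨0, 0⟩, 0⟩ 0 0))) (.pos 66 .pp ⟨0, 25774984, 0, 0, 0, 0, 0, 0, 0, ⟨0, 0⟩, 0⟩ 0 0)) (.void 74 ⟨0, 0, 0, 100000, 0, 0, 0, 0, 0, ⟨0, 0⟩, 0⟩ 0 0)))),
    by decide +kernel⟩

def covers15 : cell.Covers table row15.1 :=
  ⟨(.cut .d 0 (.cut .v 16777216 (.cut .d (-8388608) (.void 1 ⟨0, 0, 0, 0, 0, 100000, 0, 0, 0, ⟨0, 0⟩, 0⟩ 0 0) (.cut .d (-4194304) (.void 1 ⟨0, 0, 0, 0, 0, 100000, 0, 0, 0, ⟨0, 0⟩, 0⟩ 0 0) (.cut .d (-2097152) (.void 1 ⟨0, 0, 0, 0, 0, 100000, 0, 0, 0, ⟨0, 0⟩, 0⟩ 0 0) (.cut .v 8388608 (.cut .v 4194304 (.void 4 ⟨0, 0, 100000, 0, 0, 0, 0, 0, 0, ⟨0, 0⟩, 0⟩ 0 0) (.pos 5 .mm ⟨0, 0, 7449384, 0, 0, 92258509, 0, 0,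 0, ⟨0, 0⟩, 0⟩ 0 0)) (.cut .d (-1048576) (.cut .d (-1572864) (.void 3 ⟨0, 0, 0, 0, 0, 100000, 0, 0, 0, ⟨0, 0⟩, 0⟩ 0 0) (.cut .d (-1310720) (.void 3 ⟨0, 0, 0, 0, 0, 100000, 0, 0, 0, ⟨0, 0⟩, 0⟩ 0 0) (.cut .l 6001081 (.void 3 ⟨0, 0, 0, 0, 0, 100000, 0, 0, 0, ⟨0, 0⟩, 0⟩ 0 0) (.cut .l 8162761 (.void 3 ⟨0, 0, 0, 0, 0, 100000, 0, 0, 0, ⟨0, 0⟩, 0⟩ 0 0) (.cut .v 12582912 (.pos 6 .mm ⟨0, 0, 0, 0, 0, 154610318, 0, 0, 0, ⟨0, 0⟩, 0⟩ 0 0) (.cut .v 14680064 (.pos 8 .mm ⟨0, 0, 0, 0, 0, 200206905, 0, 0, 0, ⟨0, 0⟩, 0⟩ 0 0) (.cut .v 15728640 (.pos 45 .mm ⟨0, 0, 0, 0, 0, 225852641, 0, 0, 0, ⟨0, 0⟩, 0⟩ 0 0) (.cut .s 11108352 (.cut .s 10993664 (.pos 46 .mm ⟨74516058, 0, 0,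 0, 0, 114333269, 0, 0, 0, ⟨0, 0⟩, 0⟩ 0 0) (.pos 46 .mm ⟨84419490, 0, 0, 0, 0, 126344030, 0, 0, 0, ⟨0, 0⟩, 0⟩ 0 0)) (.cut .s 11223040 (.pos 46 .mm ⟨95522200, 0, 0, 0, 0, 138967792, 0, 0, 0, ⟨0, 0⟩, 0⟩ 0 0) (.pos 46 .mm ⟨107888462, 0, 0, 0, 0, 151539396, 0, 0, 0, ⟨0, 0⟩, 0⟩ 0 0)))))))))) (.cut .v 12582912 (.pos 6 .mm ⟨0, 0, 0, 0, 0, 129851179, 0, 0, 0, ⟨0, 0⟩, 0⟩ 0 0) (.cut .d (-524288) (.cut .v 14680064 (.pos 8 .mm ⟨0, 0, 0, 0, 0, 194210805, 0, 0, 0, ⟨0, 0⟩, 0⟩ 0 0) (.cut .s 11108352 (.cut .v 15728640 (.pos 45 .mm ⟨0, 0, 0, 0, 0, 191636609, 0, 0, 0, ⟨0, 0⟩, 0⟩ 0 0) (.cut .s 10993664 (.cut .s 10936320 (.pos 46 .mm ⟨0, 0, 0, 0, 0, 192131104, 0, 0, 0, ⟨0,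 0⟩, 0⟩ 0 0) (.pos 46 .mm ⟨0, 0, 0, 0, 0, 201808493, 0, 0, 0, ⟨0, 0⟩, 0⟩ 0 0)) (.cut .s 11051008 (.pos 46 .mm ⟨21227188, 0, 0, 0, 0, 185938776, 0, 0, 0, ⟨0, 0⟩, 0⟩ 0 0) (.pos 46 .mm ⟨23043837, 0, 0, 0, 0, 194126467, 0, 0, 0, ⟨0, 0⟩, 0⟩ 0 0)))) (.cut .l 6001081 (.pos 9 .mm ⟨0, 0, 0, 0, 0, 268085467, 0, 0, 0, ⟨0, 0⟩, 0⟩ 0 0) (.cut .d (-786432) (.cut .s 11223040 (.pos 9 .mm ⟨50681248, 0, 0, 0, 0, 177030284, 0, 0, 0, ⟨0, 0⟩, 0⟩ 0 0) (.pos 9 .mm ⟨57792415, 0, 0, 0, 0, 192159531, 0, 0, 0, ⟨0, 0⟩, 0⟩ 0 0)) (.pos 9 .mm ⟨18091651, 0, 0, 0, 0, 210522429, 0, 0, 0, ⟨0, 0⟩, 0⟩ 0 0))))) (.cut .l 6001081 (.cut .v 14680064 (.pos 8 .mm ⟨0, 0, 0, 0, 0, 165018146, 0, 0,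 0, ⟨0, 0⟩, 0⟩ 0 0) (.cut .s 11108352 (.cut .d (-262144) (.cut .s 10993664 (.pos 9 .mm ⟨0, 0, 0, 0, 0, 191279364, 0, 0, 0, ⟨0, 0⟩, 0⟩ 0 0) (.pos 9 .mm ⟨0, 0, 0, 0, 0, 210863987, 0, 0, 0, ⟨0, 0⟩, 0⟩ 0 0)) (.pos 9 .mm ⟨0, 0, 0, 0, 0, 184657496, 0, 0, 0, ⟨0, 0⟩, 0⟩ 0 0)) (.cut .d (-262144) (.cut .s 11223040 (.pos 9 .mm ⟨0, 0, 0, 0, 0, 232090546, 0, 0, 0, ⟨0, 0⟩, 0⟩ 0 0) (.pos 9 .mm ⟨0, 0, 0, 0, 0, 255013710, 0, 0, 0, ⟨0, 0⟩, 0⟩ 0 0)) (.pos 9 .mm ⟨0, 0, 0, 0, 0, 223978137, 0, 0, 0, ⟨0, 0⟩, 0⟩ 0 0)))) (.pos 7 .mm ⟨0, 0, 0, 0, 0, 0, 0, 0, 0, ⟨0, 0⟩, 0⟩ 0 0))))))))) (.cut .v 268435456 (.cut .v 67108864 (.cut .v 33554432 (.cut .d (-8388608) (.void 11 ⟨0, 0, 0,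 0, 0, 100000, 0, 0, 0, ⟨0, 0⟩, 0⟩ 0 0) (.cut .d (-4194304) (.void 11 ⟨100000, 0, 0, 0, 0, 0, 0, 0, 0, ⟨0, 0⟩, 0⟩ 0 0) (.cut .d (-2097152) (.void 11 ⟨100000, 0, 0, 0, 0, 0, 0, 0, 0, ⟨0, 0⟩, 0⟩ 0 0) (.cut .v 25165824 (.cut .d (-1048576) (.cut .v 20971520 (.cut .v 18874368 (.cut .d (-1572864) (.void 17 ⟨100000, 0, 0, 0, 0, 0, 0, 0, 0, ⟨0, 0⟩, 0⟩ 0 0) (.cut .v 17825792 (.cut .d (-1310720) (.void 19 ⟨100000, 0, 0, 0, 0, 0, 0, 0, 0, ⟨0, 0⟩, 0⟩ 0 0) (.cut .l 6001081 (.void 19 ⟨100000, 0, 0, 0, 0, 0, 0, 0, 0, ⟨0, 0⟩, 0⟩ 0 0) (.cut .l 8162761 (.void 19 ⟨100000, 0, 0, 0, 0, 0, 0, 0, 0, ⟨0, 0⟩, 0⟩ 0 0) (.cut .s 11108352 (.cut .s 10993664 (.pos 19 .mp ⟨168728529,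 0, 0, 0, 0, 0, 0, 0, 0, ⟨0, 0⟩, 0⟩ 0 0) (.pos 19 .mp ⟨186548869, 0, 0, 0, 0, 0, 0, 0, 0, ⟨0, 0⟩, 0⟩ 0 0)) (.cut .s 11223040 (.pos 19 .mp ⟨206423405, 0, 0, 0, 0, 0, 0, 0, 0, ⟨0, 0⟩, 0⟩ 0 0) (.pos 19 .mp ⟨227503701, 0, 0, 0, 0, 0, 0, 0, 0, ⟨0, 0⟩, 0⟩ 0 0)))))) (.pos 20 .mp ⟨253351089, 0, 0, 0, 0, 0, 0, 0, 0, ⟨0, 0⟩, 0⟩ 0 0))) (.void 18 ⟨100000, 0, 0, 0, 0, 0, 0, 0, 0, ⟨0, 0⟩, 0⟩ 0 0)) (.void 16 ⟨100000, 0, 0, 0, 0, 0, 0, 0, 0, ⟨0, 0⟩, 0⟩ 0 0)) (.cut .v 20971520 (.cut .d (-524288) (.cut .v 18874368 (.cut .l 6001081 (.cut .d (-786432) (.void 17 ⟨100000, 0, 0, 0, 0, 0, 0, 0, 0, ⟨0, 0⟩, 0⟩ 0 0) (.cut .l 3839401 (.void 17 ⟨0, 0, 0, 0, 0, 100000, 0, 0, 0, ⟨0,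 0⟩, 0⟩ 0 0) (.cut .s 11108352 (.cut .s 10993664 (.pos 17 .mp ⟨158795087, 0, 0, 0, 0, 1471371, 0, 0, 0, ⟨0, 0⟩, 0⟩ 0 0) (.pos 17 .mp ⟨175692060, 0, 0, 0, 0, 0, 0, 0, 0, ⟨0, 0⟩, 0⟩ 0 0)) (.pos 17 .mp ⟨206772974, 0, 0, 0, 0, 0, 0, 0, 0, ⟨0, 0⟩, 0⟩ 0 0)))) (.cut .s 11108352 (.cut .v 17825792 (.cut .s 10993664 (.pos 19 .mp ⟨158463923, 0, 0, 0, 0, 0, 0, 0, 0, ⟨0, 0⟩, 0⟩ 0 0) (.pos 19 .mp ⟨173797714, 0, 0, 0, 0, 0, 0, 0, 0, ⟨0, 0⟩, 0⟩ 0 0)) (.pos 20 .mp ⟨183143499, 0, 0, 0, 0, 0, 0, 0, 0, ⟨0, 0⟩, 0⟩ 0 0)) (.cut .d (-786432) (.cut .l 8162761 (.pos 17 .mp ⟨217339311, 0, 0, 0, 0, 0, 0, 0, 0, ⟨0, 0⟩, 0⟩ 0 0) (.pos 17 .mp ⟨197172608, 0, 0, 0, 0, 0, 0, 0, 0, ⟨0, 0⟩,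 0⟩ 0 0)) (.pos 17 .mp ⟨186940066, 0, 0, 0, 0, 0, 0, 0, 0, ⟨0, 0⟩, 0⟩ 0 0)))) (.cut .s 11108352 (.pos 18 .mp ⟨218015954, 0, 0, 0, 0, 0, 0, 0, 0, ⟨0, 0⟩, 0⟩ 0 0) (.pos 18 .mp ⟨260537199, 0, 0, 0, 0, 0, 0, 0, 0, ⟨0, 0⟩, 0⟩ 0 0))) (.cut .l 6001081 (.cut .v 18874368 (.cut .s 11108352 (.cut .v 17825792 (.cut .l 3839401 (.cut .d (-262144) (.cut .d (-393216) (.pos 19 .mp ⟨79939619, 0, 0, 0, 0, 139624155, 0, 0, 0, ⟨0, 0⟩, 0⟩ 0 0) (.cut .s 10993664 (.cut .s 10936320 (.pos 19 .mp ⟨99562737, 0, 0, 0, 0, 69014194, 0, 0, 0, ⟨0, 0⟩, 0⟩ 0 0) (.pos 19 .mp ⟨104599896, 0, 0, 0, 0, 71875877, 0, 0, 0, ⟨0, 0⟩, 0⟩ 0 0)) (.pos 19 .mp ⟨121123963, 0, 0, 0, 0, 63893589, 0, 0, 0,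 ⟨0, 0⟩, 0⟩ 0 0))) (.cut .d (-131072) (.cut .v 17301504 (.cut .l 2758561 (.cut .l 2218141 (.cut .d (-196608) (.cut .s 10993664 (.pos 21 .mp ⟨68679449, 0, 0, 0, 0, 121519391, 0, 0, 0, ⟨0, 0⟩, 0⟩ 0 0) (.pos 21 .mp ⟨76312331, 0, 0, 0, 0, 133298991, 0, 0, 0, ⟨0, 0⟩, 0⟩ 0 0)) (.cut .l 1947931 (.cut .v 17039360 (.cut .s 10993664 (.pos 77 .mp ⟨0, 0, 0, 0, 0, 187322606, 0, 0, 0, ⟨0, 0⟩, 0⟩ 0 0) (.pos 77 .mp ⟨0, 0, 0, 0, 0, 207262911, 0, 0, 0, ⟨0, 0⟩, 0⟩ 0 0)) (.cut .v 17170432 (.cut .v 17104896 (.cut .d (-163840) (.cut .s 10993664 (.pos 103 .mp ⟨78655664, 0, 0, 0, 0, 95612822, 0, 0, 0, ⟨0, 0⟩, 0⟩ 0 0) (.pos 103 .mp ⟨86961832, 0, 0, 0, 0, 105845857, 0, 0, 0, ⟨0,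 0⟩, 0⟩ 0 0)) (.cut .s 10993664 (.pos 103 .mp ⟨78655664, 0, 0, 0, 0, 78359168, 0, 0, 0, ⟨0, 0⟩, 0⟩ 0 0) (.pos 103 .mp ⟨86961832, 0, 0, 0, 0, 86544583, 0, 0, 0, ⟨0, 0⟩, 0⟩ 0 0))) (.pos 104 .mp ⟨154642089, 0, 0, 0, 0, 0, 0, 0, 0, ⟨0, 0⟩, 0⟩ 0 0)) (.pos 84 .mp ⟨157254440, 0, 0, 0, 0, 0, 0, 0, 0, ⟨0, 0⟩, 0⟩ 0 0))) (.pos 21 .mp ⟨85098453, 0, 0, 0, 0, 62493947, 0, 0, 0, ⟨0, 0⟩, 0⟩ 0 0))) (.pos 21 .mp ⟨94353235, 0, 0, 0, 0, 57369749, 0, 0, 0, ⟨0, 0⟩, 0⟩ 0 0)) (.pos 21 .mp ⟨83397438, 0, 0, 0, 0, 0, 0, 0, 0, ⟨0, 0⟩, 0⟩ 0 0)) (.pos 22 .mp ⟨162918036, 0, 0, 0, 0, 0, 0, 0, 0, ⟨0, 0⟩, 0⟩ 0 0)) (.pos 19 .mp ⟨82349161, 0, 0, 0, 0, 0, 0, 0, 0, ⟨0, 0⟩, 0⟩ 0 0))) (.pos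 19 .mp ⟨119717413, 0, 0, 0, 0, 26928197, 0, 0, 0, ⟨0, 0⟩, 0⟩ 0 0)) (.pos 20 .mp ⟨171542008, 0, 0, 0, 0, 0, 0, 0, 0, ⟨0, 0⟩, 0⟩ 0 0)) (.cut .v 17825792 (.cut .d (-262144) (.cut .l 3839401 (.cut .s 11223040 (.cut .l 2758561 (.pos 19 .mp ⟨93424511, 0, 0, 0, 0, 149040478, 0, 0, 0, ⟨0, 0⟩, 0⟩ 0 0) (.pos 19 .mp ⟨142333229, 0, 0, 0, 0, 52001206, 0, 0, 0, ⟨0, 0⟩, 0⟩ 0 0)) (.pos 19 .mp ⟨167146730, 0, 0, 0, 0, 48843677, 0, 0, 0, ⟨0, 0⟩, 0⟩ 0 0)) (.pos 19 .mp ⟨147129738, 0, 0, 0, 0, 41291887, 0, 0, 0, ⟨0, 0⟩, 0⟩ 0 0)) (.cut .d (-131072) (.cut .v 17301504 (.cut .l 3839401 (.cut .l 2758561 (.cut .s 11223040 (.cut .d (-196608) (.pos 21 .mp ⟨89757095, 0, 0, 0, 0, 125303050,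 0, 0, 0, ⟨0, 0⟩, 0⟩ 0 0) (.cut .v 17039360 (.pos 77 .mp ⟨2259964, 0, 0, 0, 0, 225741241, 0, 0, 0, ⟨0, 0⟩, 0⟩ 0 0) (.cut .s 11165696 (.pos 78 .mp ⟨98524304, 0, 0, 0, 0, 90991236, 0, 0, 0, ⟨0, 0⟩, 0⟩ 0 0) (.pos 78 .mp ⟨103417029, 0, 0, 0, 0, 94659739, 0, 0, 0, ⟨0, 0⟩, 0⟩ 0 0)))) (.cut .v 17039360 (.pos 77 .mp ⟨45564737, 0, 0, 0, 0, 195090367, 0, 0, 0, ⟨0, 0⟩, 0⟩ 0 0) (.cut .s 11280384 (.pos 78 .mp ⟨120290878, 0, 0, 0, 0, 85984475, 0, 0, 0, ⟨0, 0⟩, 0⟩ 0 0) (.pos 78 .mp ⟨126159393, 0, 0, 0, 0, 88988422, 0, 0, 0, ⟨0, 0⟩, 0⟩ 0 0)))) (.pos 21 .mp ⟨106720071, 0, 0, 0, 0, 0, 0, 0, 0, ⟨0, 0⟩, 0⟩ 0 0)) (.pos 21 .mp ⟨0, 0, 0, 0, 0, 0, 0, 0, 0, ⟨0, 0⟩, 0⟩ 0 0)) (.pos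 22 .mp ⟨193041248, 0, 0, 0, 0, 0, 0, 0, 0, ⟨0, 0⟩, 0⟩ 0 0)) (.pos 19 .mp ⟨101319978, 0, 0, 0, 0, 0, 0, 0, 0, ⟨0, 0⟩, 0⟩ 0 0))) (.pos 20 .mp ⟨203970827, 0, 0, 0, 0, 0, 0, 0, 0, ⟨0, 0⟩, 0⟩ 0 0))) (.cut .s 11108352 (.pos 18 .mp ⟨193970069, 0, 0, 0, 0, 0, 0, 0, 0, ⟨0, 0⟩, 0⟩ 0 0) (.pos 18 .mp ⟨230529830, 0, 0, 0, 0, 0, 0, 0, 0, ⟨0, 0⟩, 0⟩ 0 0))) (.pos 15 .mp ⟨137542999, 0, 0, 0, 0, 0, 0, 0, 0, ⟨0, 0⟩, 0⟩ 0 0))) (.cut .d (-524288) (.pos 16 .mp ⟨328554360, 0, 0, 0, 0, 0, 0, 0, 0, ⟨0, 0⟩, 0⟩ 0 0) (.cut .l 6001081 (.pos 16 .mp ⟨290999657, 0, 0, 0, 0, 0, 0, 0, 0, ⟨0, 0⟩, 0⟩ 0 0) (.pos 16 .mp ⟨239256941, 0, 0, 0, 0, 0, 0, 0, 0, ⟨0, 0⟩, 0⟩ 0 0))))) (.cut .v 29360128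 (.cut .d (-1048576) (.void 29 ⟨100000, 0, 0, 0, 0, 0, 0, 0, 0, ⟨0, 0⟩, 0⟩ 0 0) (.pos 29 .mp ⟨416508644, 0, 0, 0, 0, 0, 0, 0, 0, ⟨0, 0⟩, 0⟩ 0 0)) (.pos 30 .mp ⟨674196611, 0, 0, 0, 0, 0, 0, 0, 0, ⟨0, 0⟩, 0⟩ 0 0)))))) (.void 12 ⟨100000, 0, 0, 0, 0, 0, 0, 0, 0, ⟨0, 0⟩, 0⟩ 0 0)) (.void 67 ⟨100000, 0, 0, 0, 0, 0, 0, 0, 0, ⟨0, 0⟩, 0⟩ 0 0)) (.void 74 ⟨95395, 0, 0, 4605, 0, 0, 0, 0, 0, ⟨0, 0⟩, 0⟩ 0 0))) (.cut .v 16777216 (.cut .v 8388608 (.cut .v 4194304 (.cut .v 2097152 (.cut .v 1048576 (.void 107 ⟨0, 0, 50000, 0, 50000, 0, 0, 0, 0, ⟨0, 0⟩, 0⟩ 0 0) (.pos 108 .pm ⟨0, 520722, 0, 0, 0, 0, 0, 0, 9719913, ⟨0, 0⟩, 4987896⟩ 0 0)) (.cut .d 4548041 (.pos 80 .pm ⟨0, 0,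 5804239, 0, 0, 0, 0, 0, 0, ⟨0, 0⟩, 0⟩ 0 0) (.cut .d 6822062 (.pos 80 .pm ⟨0, 0, 0, 0, 0, 0, 0, 0, 0, ⟨0, 0⟩, 0⟩ 0 0) (.pos 80 .pm ⟨0, 47395175, 0, 0, 0, 0, 0, 0, 0, ⟨0, 0⟩, 0⟩ 0 0)))) (.cut .d 4548041 (.pos 5 .pm ⟨0, 0, 0, 0, 0, 0, 0, 0, 0, ⟨0, 0⟩, 0⟩ 0 0) (.cut .d 6822062 (.pos 5 .pm ⟨0, 0, 0, 0, 0, 0, 0, 0, 0, ⟨0, 0⟩, 0⟩ 0 0) (.cut .d 7959072 (.cut .l 6001081 (.cut .v 6291456 (.cut .s 11108352 (.pos 85 .pm ⟨0, 0, 0, 0, 0, 0, 0, 0, 0, ⟨0, 0⟩, 0⟩ 0 0) (.cut .d 7390567 (.pos 85 .pm ⟨0, 0, 0, 0, 0, 0, 0, 0, 0, ⟨0, 0⟩, 0⟩ 0 0) (.cut .v 5242880 (.pos 111 .pm ⟨0, 59705033, 0, 0, 0, 0, 0, 0, 0, ⟨0, 0⟩, 0⟩ 0 0) (.cut .l 3839401 (.cut .l 2758561 (.cut .l 2218141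 (.cut .s 11223040 (.cut .d 7674819 (.pos 112 .pm ⟨0, 0, 0, 0, 0, 0, 0, 0, 0, ⟨0, 0⟩, 0⟩ 0 0) (.pos 112 .pm ⟨0, 63131993, 0, 0, 0, 0, 0, 0, 0, ⟨0, 0⟩, 0⟩ 0 0)) (.cut .l 1947931 (.cut .d 7674819 (.cut .v 5767168 (.pos 113 .pm ⟨0, 64421242, 0, 0, 0, 0, 0, 0, 0, ⟨0, 0⟩, 0⟩ 0 0) (.pos 114 .pm ⟨0, 65749167, 0, 0, 0, 0, 0, 0, 0, ⟨0, 0⟩, 0⟩ 0 0)) (.cut .s 11280384 (.pos 112 .pm ⟨0, 69936464, 0, 0, 0, 0, 0, 0, 0, ⟨0, 0⟩, 0⟩ 0 0) (.pos 112 .pm ⟨0, 75231087, 0, 0, 0, 0, 0, 0, 0, ⟨0, 0⟩, 0⟩ 0 0))) (.pos 112 .pm ⟨0, 68503263, 0, 0, 0, 0, 0, 0, 0, ⟨0, 0⟩, 0⟩ 0 0))) (.pos 112 .pm ⟨0, 63645357, 0, 0, 0, 0, 0, 0, 0, ⟨0, 0⟩, 0⟩ 0 0)) (.pos 112 .pm ⟨0, 62644838, 0, 0, 0,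 0, 0, 0, 0, ⟨0, 0⟩, 0⟩ 0 0)) (.pos 112 .pm ⟨0, 60643800, 0, 0, 0, 0, 0, 0, 0, ⟨0, 0⟩, 0⟩ 0 0))))) (.cut .s 11108352 (.pos 86 .pm ⟨0, 0, 0, 0, 0, 0, 0, 0, 0, ⟨0, 0⟩, 0⟩ 0 0) (.cut .d 7390567 (.pos 86 .pm ⟨0, 0, 0, 0, 0, 0, 0, 0, 0, ⟨0, 0⟩, 0⟩ 0 0) (.cut .d 7674819 (.pos 86 .pm ⟨0, 62354432, 0, 0, 0, 0, 0, 0, 0, ⟨0, 0⟩, 0⟩ 0 0) (.cut .s 11223040 (.pos 86 .pm ⟨0, 65831204, 0, 0, 0, 0, 0, 0, 0, ⟨0, 0⟩, 0⟩ 0 0) (.pos 86 .pm ⟨0, 77201006, 0, 0, 0, 0, 0, 0, 0, ⟨0, 0⟩, 0⟩ 0 0)))))) (.pos 5 .pm ⟨0, 44545759, 0, 0, 0, 0, 0, 0, 0, ⟨0, 0⟩, 0⟩ 0 0)) (.cut .l 6001081 (.cut .v 6291456 (.cut .d 8527577 (.cut .l 3839401 (.cut .l 2758561 (.cut .s 11108352 (.cut .s 10993664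 (.pos 85 .pm ⟨0, 52635953, 0, 0, 0, 0, 0, 0, 0, ⟨0, 0⟩, 0⟩ 0 0) (.pos 85 .pm ⟨0, 62231078, 0, 0, 0, 0, 0, 0, 0, ⟨0, 0⟩, 0⟩ 0 0)) (.cut .s 11223040 (.pos 85 .pm ⟨0, 72972603, 0, 0, 0, 0, 0, 0, 0, ⟨0, 0⟩, 0⟩ 0 0) (.void 85 ⟨0, 100000, 0, 0, 0, 0, 0, 0, 0, ⟨0, 0⟩, 0⟩ 0 0))) (.pos 85 .pm ⟨0, 70154825, 0, 0, 0, 0, 0, 0, 0, ⟨0, 0⟩, 0⟩ 0 0)) (.pos 85 .pm ⟨0, 67538781, 0, 0, 0, 0, 0, 0, 0, ⟨0, 0⟩, 0⟩ 0 0)) (.pos 85 .pm ⟨0, 92069943, 0, 0, 0, 0, 0, 0, 0, ⟨0, 0⟩, 0⟩ 0 0)) (.cut .s 11108352 (.cut .d 8527577 (.cut .s 10993664 (.pos 86 .pm ⟨0, 57158126, 0, 0, 0, 0, 0, 0, 0, ⟨0, 0⟩, 0⟩ 0 0) (.pos 86 .pm ⟨0, 67699092, 0, 0, 0, 0, 0, 0, 0, ⟨0, 0⟩, 0⟩ 0 0)) (.void 86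 ⟨0, 100000, 0, 0, 0, 0, 0, 0, 0, ⟨0, 0⟩, 0⟩ 0 0)) (.pos 86 .pm ⟨0, 94642758, 0, 0, 0, 0, 0, 0, 0, ⟨0, 0⟩, 0⟩ 0 0))) (.pos 5 .pm ⟨0, 71156415, 0, 0, 0, 0, 0, 0, 0, ⟨0, 0⟩, 0⟩ 0 0)))))) (.cut .d 4548041 (.pos 3 .pm ⟨0, 0, 0, 0, 0, 0, 0, 0, 0, ⟨0, 0⟩, 0⟩ 0 0) (.cut .d 6822062 (.pos 3 .pm ⟨0, 0, 0, 0, 0, 0, 0, 0, 0, ⟨0, 0⟩, 0⟩ 0 0) (.cut .d 7959072 (.pos 3 .pm ⟨0, 57607941, 0, 0, 0, 0, 0, 0, 0, ⟨0, 0⟩, 0⟩ 0 0) (.pos 3 .pm ⟨0, 95409751, 0, 0, 0, 0, 0, 0, 0, ⟨0, 0⟩, 0⟩ 0 0))))) (.cut .v 268435456 (.cut .d 4548041 (.cut .v 67108864 (.cut .d 2274020 (.cut .v 33554432 (.cut .d 1137010 (.cut .d 568505 (.cut .v 25165824 (.cut .v 20971520 (.pos 15 .pp ⟨93046819,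 0, 0, 0, 0, 0, 0, 0, 0, ⟨0, 0⟩, 0⟩ 0 0) (.pos 16 .pp ⟨207258014, 0, 0, 0, 0, 0, 0, 0, 0, ⟨0, 0⟩, 0⟩ 0 0)) (.cut .v 29360128 (.pos 29 .pp ⟨298951258, 0, 0, 0, 0, 0, 0, 0, 0, ⟨0, 0⟩, 0⟩ 0 0) (.pos 30 .pp ⟨407720247, 0, 0, 0, 0, 0, 0, 0, 0, ⟨0, 0⟩, 0⟩ 0 0))) (.pos 11 .pp ⟨94461564, 0, 0, 0, 0, 0, 0, 0, 0, ⟨0, 0⟩, 0⟩ 0 0)) (.pos 11 .pp ⟨0, 0, 0, 0, 0, 0, 0, 0, 0, ⟨0, 0⟩, 0⟩ 0 0)) (.cut .d 1137010 (.cut .v 50331648 (.cut .v 41943040 (.cut .d 568505 (.pos 35 .pp ⟨620843581, 0, 0, 0, 0, 0, 0, 0, 0, ⟨0, 0⟩, 0⟩ 0 0) (.pos 35 .pp ⟨461570434, 0, 0, 0, 0, 0, 0, 0, 0, ⟨0, 0⟩, 0⟩ 0 0)) (.cut .d 568505 (.pos 36 .pp ⟨1133526267, 0, 0, 0, 0, 0, 0, 0, 0, ⟨0, 0⟩, 0⟩ 0 0)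 (.pos 36 .pp ⟨754449981, 0, 0, 0, 0, 0, 0, 0, 0, ⟨0, 0⟩, 0⟩ 0 0))) (.cut .v 58720256 (.pos 97 .pp ⟨1423683837, 0, 0, 0, 0, 0, 0, 0, 0, ⟨0, 0⟩, 0⟩ 0 0) (.pos 98 .pp ⟨1958663249, 0, 0, 0, 0, 0, 0, 0, 0, ⟨0, 0⟩, 0⟩ 0 0))) (.cut .v 50331648 (.pos 33 .pp ⟨363225951, 0, 0, 0, 0, 0, 0, 0, 0, ⟨0, 0⟩, 0⟩ 0 0) (.cut .v 58720256 (.pos 97 .pp ⟨806795357, 0, 0, 0, 0, 0, 0, 0, 0, ⟨0, 0⟩, 0⟩ 0 0) (.pos 98 .pp ⟨1163612736, 0, 0, 0, 0, 0, 0, 0, 0, ⟨0, 0⟩, 0⟩ 0 0))))) (.pos 10 .pp ⟨0, 0, 0, 0, 0, 0, 0, 0, 0, ⟨0, 0⟩, 0⟩ 0 0)) (.cut .v 134217728 (.cut .v 100663296 (.cut .d 2274020 (.cut .d 1137010 (.void 75 ⟨100000, 0, 0, 0, 0, 0, 0, 0, 0, ⟨0, 0⟩, 0⟩ 0 0) (.cut .v 83886080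 (.cut .d 1705515 (.cut .l 6001081 (.pos 87 .pp ⟨2454264819, 0, 0, 0, 0, 0, 0, 0, 0, ⟨0, 0⟩, 0⟩ 0 0) (.cut .l 8162761 (.pos 87 .pp ⟨2383280127, 0, 0, 0, 0, 0, 0, 0, 0, ⟨0, 0⟩, 0⟩ 0 0) (.cut .v 75497472 (.cut .d 1421262 (.pos 99 .pp ⟨2146583576, 0, 0, 0, 0, 0, 0, 0, 0, ⟨0, 0⟩, 0⟩ 0 0) (.pos 99 .pp ⟨1063455114, 0, 0, 0, 0, 0, 0, 0, 0, ⟨0, 0⟩, 0⟩ 0 0)) (.cut .s 11108352 (.pos 100 .pp ⟨2375288618, 0, 0, 0, 0, 0, 0, 0, 0, ⟨0, 0⟩, 0⟩ 0 0) (.cut .l 9243601 (.pos 100 .pp ⟨2624441685, 0, 0, 0, 0, 0, 0, 0, 0, ⟨0, 0⟩, 0⟩ 0 0) (.cut .d 1421262 (.cut .v 79691776 (.pos 117 .pp ⟨2565582270, 0, 0, 0, 0, 0, 0, 0, 0, ⟨0, 0⟩, 0⟩ 0 0) (.pos 118 .pp ⟨3196992350, 0, 0, 0, 0,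 0, 0, 0, 0, ⟨0, 0⟩, 0⟩ 0 0)) (.cut .v 79691776 (.pos 117 .pp ⟨1784796396, 0, 0, 0, 0, 0, 0, 0, 0, ⟨0, 0⟩, 0⟩ 0 0) (.cut .v 81788928 (.pos 119 .pp ⟨2540140392, 0, 0, 0, 0, 0, 0, 0, 0, ⟨0, 0⟩, 0⟩ 0 0) (.cut .v 82837504 (.pos 121 .pp ⟨2648210385, 0, 0, 0, 0, 0, 0, 0, 0, ⟨0, 0⟩, 0⟩ 0 0) (.pos 122 .pp ⟨2801151959, 180014375, 0, 0, 0, 0, 0, 0, 0, ⟨0, 0⟩, 0⟩ 0 0)))))))))) (.pos 87 .pp ⟨1167789177, 72228139, 0, 0, 0, 0, 0, 0, 0, ⟨0, 0⟩, 0⟩ 0 0)) (.void 88 ⟨40177, 59823, 0, 0, 0, 0, 0, 0, 0, ⟨0, 0⟩, 0⟩ 0 0))) (.pos 75 .pp ⟨0, 281832931, 0, 0, 0, 0, 0, 0, 0, ⟨0, 0⟩, 0⟩ 0 0)) (.void 76 ⟨39452, 60548, 0, 0, 0, 0, 0, 0, 0, ⟨0, 0⟩, 0⟩ 0 0)) (.void 71 ⟨39452, 60548,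 0, 0, 0, 0, 0, 0, 0, ⟨0, 0⟩, 0⟩ 0 0))) (.pos 66 .pp ⟨0, 45524132, 0, 0, 0, 0, 0, 0, 0, ⟨0, 0⟩, 0⟩ 0 0)) (.void 74 ⟨0, 0, 0, 100000, 0, 0, 0, 0, 0, ⟨0, 0⟩, 0⟩ 0 0)))),
    by decide +kernel⟩

def covers16 : cell.Covers table row16.1 :=
  ⟨(.cut .d 0 (.cut .v 16777216 (.cut .d (-8388608) (.void 1 ⟨0, 0, 0, 0, 0, 100000, 0, 0, 0, ⟨0, 0⟩, 0⟩ 0 0) (.cut .d (-4194304) (.void 1 ⟨0, 0, 0, 0, 0, 100000, 0, 0, 0, ⟨0, 0⟩, 0⟩ 0 0) (.cut .d (-2097152) (.void 1 ⟨0, 0, 0, 0, 0, 100000, 0, 0, 0, ⟨0, 0⟩, 0⟩ 0 0) (.cut .v 8388608 (.cut .v 4194304 (.void 4 ⟨0, 0, 100000, 0, 0, 0, 0, 0, 0, ⟨0, 0⟩, 0⟩ 0 0) (.pos 5 .mm ⟨0, 0, 14158941, 0, 0, 133510291, 0, 0, 0, ⟨0, 0⟩, 0⟩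 0 0)) (.cut .d (-1048576) (.cut .s 11534336 (.cut .d (-1572864) (.void 3 ⟨0, 0, 0, 0, 0, 100000, 0, 0, 0, ⟨0, 0⟩, 0⟩ 0 0) (.cut .s 11436032 (.pos 3 .mm ⟨46090829, 0, 0, 0, 0, 249534782, 0, 0, 0, ⟨0, 0⟩, 0⟩ 0 0) (.pos 3 .mm ⟨47750326, 0, 0, 0, 0, 279934332, 0, 0, 0, ⟨0, 0⟩, 0⟩ 0 0))) (.pos 3 .mm ⟨49973055, 0, 0, 0, 0, 357990495, 0, 0, 0, ⟨0, 0⟩, 0⟩ 0 0)) (.cut .v 12582912 (.cut .d (-524288) (.pos 6 .mm ⟨0, 0, 0, 0, 0, 219085536, 0, 0, 0, ⟨0, 0⟩, 0⟩ 0 0) (.pos 6 .mm ⟨0, 0, 0, 0, 0, 162330950, 0, 0, 0, ⟨0, 0⟩, 0⟩ 0 0)) (.cut .d (-524288) (.cut .s 11534336 (.cut .l 6001081 (.pos 7 .mm ⟨59172589, 0, 0, 0, 0, 241031247, 0, 0, 0, ⟨0, 0⟩, 0⟩ 0 0) (.pos 7 .mm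 ⟨10826994, 0, 0, 0, 0, 270301277, 0, 0, 0, ⟨0, 0⟩, 0⟩ 0 0)) (.pos 7 .mm ⟨6230048, 0, 0, 0, 0, 363467341, 0, 0, 0, ⟨0, 0⟩, 0⟩ 0 0)) (.cut .l 6001081 (.cut .l 3839401 (.cut .v 14680064 (.pos 8 .mm ⟨0, 0, 0, 0, 0, 247545397, 0, 0, 0, ⟨0, 0⟩, 0⟩ 0 0) (.cut .v 15728640 (.pos 45 .mm ⟨0, 0, 0, 0, 0, 276057472, 0, 0, 0, ⟨0, 0⟩, 0⟩ 0 0) (.cut .d (-262144) (.cut .s 11534336 (.pos 46 .mm ⟨0, 0, 0, 0, 0, 297511615, 0, 0, 0, ⟨0, 0⟩, 0⟩ 0 0) (.pos 46 .mm ⟨0, 0, 0, 0, 0, 362953213, 0, 0, 0, ⟨0, 0⟩, 0⟩ 0 0)) (.cut .s 11534336 (.pos 46 .mm ⟨0, 0, 0, 0, 0, 266123960, 0, 0, 0, ⟨0, 0⟩, 0⟩ 0 0) (.pos 46 .mm ⟨0, 0, 0, 0, 0, 311960263, 0, 0, 0, ⟨0, 0⟩, 0⟩ 0 0))))) (.pos 7 .mm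 ⟨0, 0, 0, 0, 0, 253863750, 0, 0, 0, ⟨0, 0⟩, 0⟩ 0 0)) (.pos 7 .mm ⟨0, 0, 0, 0, 0, 0, 0, 0, 0, ⟨0, 0⟩, 0⟩ 0 0))))))))) (.cut .v 268435456 (.cut .v 67108864 (.cut .v 33554432 (.cut .d (-8388608) (.void 11 ⟨0, 0, 0, 0, 0, 100000, 0, 0, 0, ⟨0, 0⟩, 0⟩ 0 0) (.cut .d (-4194304) (.void 11 ⟨100000, 0, 0, 0, 0, 0, 0, 0, 0, ⟨0, 0⟩, 0⟩ 0 0) (.cut .d (-2097152) (.void 11 ⟨100000, 0, 0, 0, 0, 0, 0, 0, 0, ⟨0, 0⟩, 0⟩ 0 0) (.cut .v 25165824 (.cut .d (-1048576) (.cut .v 20971520 (.cut .s 11534336 (.cut .v 18874368 (.pos 17 .mp ⟨311936172, 0, 0, 0, 0, 0, 0, 0, 0, ⟨0, 0⟩, 0⟩ 0 0) (.void 18 ⟨100000, 0, 0, 0, 0, 0, 0, 0, 0, ⟨0, 0⟩, 0⟩ 0 0)) (.void 15 ⟨100000, 0, 0, 0, 0, 0,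 0, 0, 0, ⟨0, 0⟩, 0⟩ 0 0)) (.void 16 ⟨100000, 0, 0, 0, 0, 0, 0, 0, 0, ⟨0, 0⟩, 0⟩ 0 0)) (.cut .v 20971520 (.cut .d (-524288) (.cut .l 6001081 (.cut .s 11534336 (.cut .v 18874368 (.pos 17 .mp ⟨266592118, 0, 0, 0, 0, 0, 0, 0, 0, ⟨0, 0⟩, 0⟩ 0 0) (.void 18 ⟨100000, 0, 0, 0, 0, 0, 0, 0, 0, ⟨0, 0⟩, 0⟩ 0 0)) (.pos 15 .mp ⟨348999594, 0, 0, 0, 0, 0, 0, 0, 0, ⟨0, 0⟩, 0⟩ 0 0)) (.cut .v 18874368 (.cut .s 11534336 (.cut .v 17825792 (.pos 19 .mp ⟨225583103, 0, 0, 0, 0, 0, 0, 0, 0, ⟨0, 0⟩, 0⟩ 0 0) (.pos 20 .mp ⟨249836197, 0, 0, 0, 0, 0, 0, 0, 0, ⟨0, 0⟩, 0⟩ 0 0)) (.pos 17 .mp ⟨278220758, 0, 0, 0, 0, 0, 0, 0, 0, ⟨0, 0⟩, 0⟩ 0 0)) (.pos 18 .mp ⟨306600009, 0, 0, 0, 0, 0, 0,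 0, 0, ⟨0, 0⟩, 0⟩ 0 0))) (.cut .l 6001081 (.cut .v 18874368 (.cut .l 3839401 (.cut .d (-262144) (.cut .s 11534336 (.cut .l 2758561 (.pos 17 .mp ⟨125976089, 0, 0, 0, 0, 221434817, 0, 0, 0, ⟨0, 0⟩, 0⟩ 0 0) (.pos 17 .mp ⟨206441461, 0, 0, 0, 0, 15700489, 0, 0, 0, ⟨0, 0⟩, 0⟩ 0 0)) (.pos 17 .mp ⟨245699500, 0, 0, 0, 0, 49242339, 0, 0, 0, ⟨0, 0⟩, 0⟩ 0 0)) (.cut .v 17825792 (.cut .l 2758561 (.cut .d (-131072) (.cut .v 17301504 (.cut .s 11534336 (.cut .s 11436032 (.cut .s 11386880 (.pos 21 .mp ⟨98486208, 0, 0, 0, 0, 142890117, 0, 0, 0, ⟨0, 0⟩, 0⟩ 0 0) (.pos 21 .mp ⟨102368589, 0, 0, 0, 0, 148172838, 0, 0, 0, ⟨0, 0⟩, 0⟩ 0 0)) (.pos 21 .mp ⟨106348216, 0, 0, 0, 0, 163762117,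 0, 0, 0, ⟨0, 0⟩, 0⟩ 0 0)) (.pos 21 .mp ⟨114782107, 0, 0, 0, 0, 198684016, 0, 0, 0, ⟨0, 0⟩, 0⟩ 0 0)) (.pos 22 .mp ⟨242690216, 0, 0, 0, 0, 0, 0, 0, 0, ⟨0, 0⟩, 0⟩ 0 0)) (.cut .s 11534336 (.pos 19 .mp ⟨116851560, 0, 0, 0, 0, 0, 0, 0, 0, ⟨0, 0⟩, 0⟩ 0 0) (.pos 19 .mp ⟨130782423, 0, 0, 0, 0, 108478909, 0, 0, 0, ⟨0, 0⟩, 0⟩ 0 0))) (.pos 19 .mp ⟨112906015, 0, 0, 0, 0, 32353009, 0, 0, 0, ⟨0, 0⟩, 0⟩ 0 0)) (.pos 20 .mp ⟨240189152, 0, 0, 0, 0, 0, 0, 0, 0, ⟨0, 0⟩, 0⟩ 0 0))) (.cut .s 11534336 (.pos 17 .mp ⟨183782657, 0, 0, 0, 0, 11248179, 0, 0, 0, ⟨0, 0⟩, 0⟩ 0 0) (.pos 17 .mp ⟨220260727, 0, 0, 0, 0, 1762100, 0, 0, 0, ⟨0, 0⟩, 0⟩ 0 0))) (.pos 18 .mp ⟨292302656, 0, 0, 0,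 0, 0, 0, 0, 0, ⟨0, 0⟩, 0⟩ 0 0)) (.pos 15 .mp ⟨159711968, 0, 0, 0, 0, 0, 0, 0, 0, ⟨0, 0⟩, 0⟩ 0 0))) (.cut .d (-524288) (.pos 16 .mp ⟨444297171, 0, 0, 0, 0, 0, 0, 0, 0, ⟨0, 0⟩, 0⟩ 0 0) (.cut .l 6001081 (.pos 16 .mp ⟨387781530, 0, 0, 0, 0, 0, 0, 0, 0, ⟨0, 0⟩, 0⟩ 0 0) (.pos 16 .mp ⟨306934486, 0, 0, 0, 0, 0, 0, 0, 0, ⟨0, 0⟩, 0⟩ 0 0))))) (.cut .v 29360128 (.cut .d (-1048576) (.void 29 ⟨100000, 0, 0, 0, 0, 0, 0, 0, 0, ⟨0, 0⟩, 0⟩ 0 0) (.pos 29 .mp ⟨550809698, 0, 0, 0, 0, 0, 0, 0, 0, ⟨0, 0⟩, 0⟩ 0 0)) (.pos 30 .mp ⟨837063756, 0, 0, 0, 0, 0, 0, 0, 0, ⟨0, 0⟩, 0⟩ 0 0)))))) (.void 12 ⟨100000, 0, 0, 0, 0, 0, 0, 0, 0, ⟨0, 0⟩, 0⟩ 0 0)) (.void 67 ⟨100000, 0, 0, 0, 0, 0,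 0, 0, 0, ⟨0, 0⟩, 0⟩ 0 0)) (.void 74 ⟨95243, 0, 0, 4757, 0, 0, 0, 0, 0, ⟨0, 0⟩, 0⟩ 0 0))) (.cut .v 16777216 (.cut .v 8388608 (.cut .v 4194304 (.cut .v 2097152 (.cut .v 1048576 (.pos 107 .pm ⟨0, 0, 15028325, 0, 0, 0, 0, 0, 53209615, ⟨0, 0⟩, 1983364⟩ 0 0) (.pos 108 .pm ⟨0, 2445388, 0, 0, 0, 0, 0, 0, 11573085, ⟨0, 0⟩, 4987896⟩ 0 0)) (.cut .d 4024593 (.pos 80 .pm ⟨0, 0, 10470372, 0, 0, 0, 0, 0, 0, ⟨0, 0⟩, 0⟩ 0 0) (.cut .d 6036890 (.pos 80 .pm ⟨0, 0, 0, 0, 0, 0, 0, 0, 0, ⟨0, 0⟩, 0⟩ 0 0) (.cut .d 7043038 (.pos 80 .pm ⟨0, 50631488, 0, 0, 0, 0, 0, 0, 0, ⟨0, 0⟩, 0⟩ 0 0) (.pos 80 .pm ⟨0, 74818350, 0, 0, 0, 0, 0, 0, 0, ⟨0, 0⟩, 0⟩ 0 0))))) (.cut .d 4024593 (.pos 5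 .pm ⟨0, 0, 0, 0, 0, 0, 0, 0, 0, ⟨0, 0⟩, 0⟩ 0 0) (.cut .d 6036890 (.pos 5 .pm ⟨0, 0, 0, 0, 0, 0, 0, 0, 0, ⟨0, 0⟩, 0⟩ 0 0) (.cut .l 6001081 (.cut .d 7043038 (.cut .d 6539964 (.pos 5 .pm ⟨0, 0, 0, 0, 0, 0, 0, 0, 0, ⟨0, 0⟩, 0⟩ 0 0) (.cut .l 3839401 (.cut .v 6291456 (.cut .s 11534336 (.pos 85 .pm ⟨0, 0, 0, 0, 0, 0, 0, 0, 0, ⟨0, 0⟩, 0⟩ 0 0) (.cut .d 6791501 (.pos 85 .pm ⟨0, 0, 0, 0, 0, 0, 0, 0, 0, ⟨0, 0⟩, 0⟩ 0 0) (.cut .l 2758561 (.cut .l 2218141 (.cut .v 5242880 (.cut .s 11632640 (.pos 111 .pm ⟨0, 72996310, 0, 0, 0, 0, 0, 0, 0, ⟨0, 0⟩, 0⟩ 0 0) (.pos 111 .pm ⟨0, 83169248, 0, 0, 0, 0, 0, 0, 0, ⟨0, 0⟩, 0⟩ 0 0)) (.cut .l 1947931 (.cut .s 11632640 (.cut .v 5767168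 (.pos 113 .pm ⟨0, 75017853, 0, 0, 0, 0, 0, 0, 0, ⟨0, 0⟩, 0⟩ 0 0) (.pos 114 .pm ⟨0, 78112326, 0, 0, 0, 0, 0, 0, 0, ⟨0, 0⟩, 0⟩ 0 0)) (.cut .d 6917269 (.pos 112 .pm ⟨0, 83807915, 0, 0, 0, 0, 0, 0, 0, ⟨0, 0⟩, 0⟩ 0 0) (.cut .v 5767168 (.pos 113 .pm ⟨0, 87909678, 0, 0, 0, 0, 0, 0, 0, ⟨0, 0⟩, 0⟩ 0 0) (.pos 114 .pm ⟨0, 90773650, 0, 0, 0, 0, 0, 0, 0, ⟨0, 0⟩, 0⟩ 0 0)))) (.pos 112 .pm ⟨0, 79642520, 0, 0, 0, 0, 0, 0, 0, ⟨0, 0⟩, 0⟩ 0 0))) (.pos 85 .pm ⟨0, 75262286, 0, 0, 0, 0, 0, 0, 0, ⟨0, 0⟩, 0⟩ 0 0)) (.pos 85 .pm ⟨0, 72288134, 0, 0, 0, 0, 0, 0, 0, ⟨0, 0⟩, 0⟩ 0 0)))) (.cut .s 11534336 (.pos 86 .pm ⟨0, 0, 0, 0, 0, 0, 0, 0, 0, ⟨0, 0⟩, 0⟩ 0 0) (.pos 86 .pm ⟨0, 84015573,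 0, 0, 0, 0, 0, 0, 0, ⟨0, 0⟩, 0⟩ 0 0))) (.pos 5 .pm ⟨0, 60781884, 0, 0, 0, 0, 0, 0, 0, ⟨0, 0⟩, 0⟩ 0 0))) (.cut .v 6291456 (.cut .l 3839401 (.cut .d 7546112 (.cut .s 11534336 (.cut .l 2758561 (.cut .l 2218141 (.cut .v 5242880 (.cut .s 11436032 (.pos 111 .pm ⟨0, 63913528, 0, 0, 0, 0, 0, 0, 0, ⟨0, 0⟩, 0⟩ 0 0) (.pos 111 .pm ⟨0, 73623167, 0, 0, 0, 0, 0, 0, 0, ⟨0, 0⟩, 0⟩ 0 0)) (.cut .s 11436032 (.cut .d 7294575 (.pos 112 .pm ⟨0, 0, 0, 0, 0, 0, 0, 0, 0, ⟨0, 0⟩, 0⟩ 0 0) (.cut .v 5767168 (.pos 113 .pm ⟨0, 71173215, 0, 0, 0, 0, 0, 0, 0, ⟨0, 0⟩, 0⟩ 0 0) (.cut .s 11386880 (.pos 114 .pm ⟨0, 70116296, 0, 0, 0, 0, 0, 0, 0, ⟨0, 0⟩, 0⟩ 0 0) (.pos 114 .pm ⟨0, 75456690,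 0, 0, 0, 0, 0, 0, 0, ⟨0, 0⟩, 0⟩ 0 0)))) (.cut .l 1947931 (.cut .d 7294575 (.cut .v 5767168 (.cut .s 11485184 (.pos 113 .pm ⟨0, 66983145, 0, 0, 0, 0, 0, 0, 0, ⟨0, 0⟩, 0⟩ 0 0) (.pos 113 .pm ⟨0, 76223994, 0, 0, 0, 0, 0, 0, 0, ⟨0, 0⟩, 0⟩ 0 0)) (.pos 114 .pm ⟨0, 75415406, 0, 0, 0, 0, 0, 0, 0, ⟨0, 0⟩, 0⟩ 0 0)) (.cut .v 5767168 (.cut .s 11485184 (.pos 113 .pm ⟨0, 79190827, 0, 0, 0, 0, 0, 0, 0, ⟨0, 0⟩, 0⟩ 0 0) (.pos 113 .pm ⟨0, 84884066, 0, 0, 0, 0, 0, 0, 0, ⟨0, 0⟩, 0⟩ 0 0)) (.pos 114 .pm ⟨0, 84616847, 0, 0, 0, 0, 0, 0, 0, ⟨0, 0⟩, 0⟩ 0 0))) (.pos 112 .pm ⟨0, 78257809, 0, 0, 0, 0, 0, 0, 0, ⟨0, 0⟩, 0⟩ 0 0)))) (.pos 85 .pm ⟨0, 70582551, 0, 0, 0, 0, 0, 0, 0, ⟨0,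 0⟩, 0⟩ 0 0)) (.pos 85 .pm ⟨0, 68618232, 0, 0, 0, 0, 0, 0, 0, ⟨0, 0⟩, 0⟩ 0 0)) (.cut .d 7294575 (.cut .l 2758561 (.cut .l 2218141 (.cut .v 5242880 (.cut .s 11632640 (.pos 111 .pm ⟨0, 81153991, 0, 0, 0, 0, 0, 0, 0, ⟨0, 0⟩, 0⟩ 0 0) (.pos 111 .pm ⟨0, 129570939, 0, 0, 0, 0, 0, 0, 0, ⟨0, 0⟩, 0⟩ 0 0)) (.cut .s 11632640 (.cut .l 1947931 (.cut .l 1812826 (.cut .v 5767168 (.cut .s 11583488 (.cut .d 7168806 (.pos 113 .pm ⟨0, 79412364, 0, 0, 0, 0, 0, 0, 0, ⟨0, 0⟩, 0⟩ 0 0) (.pos 113 .pm ⟨0, 84224562, 0, 0, 0, 0, 0, 0, 0, ⟨0, 0⟩, 0⟩ 0 0)) (.pos 113 .pm ⟨0, 87299992, 0, 0, 0, 0, 0, 0, 0, ⟨0, 0⟩, 0⟩ 0 0)) (.cut .s 11583488 (.pos 114 .pm ⟨0, 83994690, 0, 0, 0, 0, 0, 0,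 0, ⟨0, 0⟩, 0⟩ 0 0) (.pos 114 .pm ⟨0, 89820835, 0, 0, 0, 0, 0, 0, 0, ⟨0, 0⟩, 0⟩ 0 0))) (.pos 112 .pm ⟨0, 84796671, 0, 0, 0, 0, 0, 0, 0, ⟨0, 0⟩, 0⟩ 0 0)) (.pos 112 .pm ⟨0, 84459410, 0, 0, 0, 0, 0, 0, 0, ⟨0, 0⟩, 0⟩ 0 0)) (.void 112 ⟨0, 100000, 0, 0, 0, 0, 0, 0, 0, ⟨0, 0⟩, 0⟩ 0 0))) (.pos 85 .pm ⟨0, 88198363, 0, 0, 0, 0, 0, 0, 0, ⟨0, 0⟩, 0⟩ 0 0)) (.pos 85 .pm ⟨0, 85242536, 0, 0, 0, 0, 0, 0, 0, ⟨0, 0⟩, 0⟩ 0 0)) (.pos 85 .pm ⟨0, 366906760, 0, 0, 0, 0, 0, 0, 0, ⟨0, 0⟩, 0⟩ 0 0))) (.cut .v 5242880 (.pos 111 .pm ⟨0, 100601041, 0, 0, 0, 0, 0, 0, 0, ⟨0, 0⟩, 0⟩ 0 0) (.cut .s 11534336 (.cut .v 5767168 (.pos 113 .pm ⟨0, 89780046, 0, 0, 0, 0, 0, 0, 0, ⟨0, 0⟩, 0⟩ 0 0)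 (.pos 114 .pm ⟨0, 93612152, 0, 0, 0, 0, 0, 0, 0, ⟨0, 0⟩, 0⟩ 0 0)) (.void 112 ⟨0, 0, 0, 100000, 0, 0, 0, 0, 0, ⟨0, 0⟩, 0⟩ 0 0)))) (.pos 85 .pm ⟨0, 88307698, 0, 0, 0, 0, 0, 0, 0, ⟨0, 0⟩, 0⟩ 0 0)) (.cut .s 11534336 (.cut .d 7546112 (.cut .s 11436032 (.pos 86 .pm ⟨0, 73363326, 0, 0, 0, 0, 0, 0, 0, ⟨0, 0⟩, 0⟩ 0 0) (.pos 86 .pm ⟨0, 84806306, 0, 0, 0, 0, 0, 0, 0, ⟨0, 0⟩, 0⟩ 0 0)) (.pos 86 .pm ⟨0, 98466920, 0, 0, 0, 0, 0, 0, 0, ⟨0, 0⟩, 0⟩ 0 0)) (.pos 86 .pm ⟨0, 117390994, 0, 0, 0, 0, 0, 0, 0, ⟨0, 0⟩, 0⟩ 0 0)))) (.pos 5 .pm ⟨0, 73854794, 0, 0, 0, 0, 0, 0, 0, ⟨0, 0⟩, 0⟩ 0 0))))) (.cut .d 4024593 (.pos 3 .pm ⟨0, 0, 0, 0, 0, 0, 0, 0, 0, ⟨0, 0⟩, 0⟩ 0 0) (.cut .d 6036890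 (.pos 3 .pm ⟨0, 0, 0, 0, 0, 0, 0, 0, 0, ⟨0, 0⟩, 0⟩ 0 0) (.cut .d 7043038 (.pos 3 .pm ⟨0, 74056993, 0, 0, 0, 0, 0, 0, 0, ⟨0, 0⟩, 0⟩ 0 0) (.pos 3 .pm ⟨0, 122502171, 0, 0, 0, 0, 0, 0, 0, ⟨0, 0⟩, 0⟩ 0 0))))) (.cut .v 268435456 (.cut .d 4024593 (.cut .v 67108864 (.cut .d 2012296 (.cut .v 33554432 (.cut .d 1006148 (.cut .d 503074 (.cut .v 25165824 (.cut .v 20971520 (.pos 15 .pp ⟨124918002, 0, 0, 0, 0, 0, 0, 0, 0, ⟨0, 0⟩, 0⟩ 0 0) (.pos 16 .pp ⟨282056127, 0, 0, 0, 0, 0, 0, 0, 0, ⟨0, 0⟩, 0⟩ 0 0)) (.cut .v 29360128 (.pos 29 .pp ⟨400855730, 0, 0, 0, 0, 0, 0, 0, 0, ⟨0, 0⟩, 0⟩ 0 0) (.pos 30 .pp ⟨537765243, 0, 0, 0, 0, 0, 0, 0, 0, ⟨0, 0⟩, 0⟩ 0 0))) (.pos 11 .pp ⟨146606255,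 0, 0, 0, 0, 0, 0, 0, 0, ⟨0, 0⟩, 0⟩ 0 0)) (.pos 11 .pp ⟨0, 0, 0, 0, 0, 0, 0, 0, 0, ⟨0, 0⟩, 0⟩ 0 0)) (.cut .v 50331648 (.cut .d 1006148 (.cut .v 41943040 (.cut .d 503074 (.pos 35 .pp ⟨804310854, 0, 0, 0, 0, 0, 0, 0, 0, ⟨0, 0⟩, 0⟩ 0 0) (.pos 35 .pp ⟨616301670, 0, 0, 0, 0, 0, 0, 0, 0, ⟨0, 0⟩, 0⟩ 0 0)) (.cut .d 503074 (.pos 36 .pp ⟨1270699232, 0, 0, 0, 0, 0, 0, 0, 0, ⟨0, 0⟩, 0⟩ 0 0) (.pos 36 .pp ⟨980772212, 0, 0, 0, 0, 0, 0, 0, 0, ⟨0, 0⟩, 0⟩ 0 0))) (.pos 33 .pp ⟨505126258, 0, 0, 0, 0, 0, 0, 0, 0, ⟨0, 0⟩, 0⟩ 0 0)) (.cut .d 1006148 (.cut .v 58720256 (.pos 97 .pp ⟨1661258752, 0, 0, 0, 0, 0, 0, 0, 0, ⟨0, 0⟩, 0⟩ 0 0) (.pos 98 .pp ⟨2362797885, 0, 0, 0, 0, 0, 0,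 0, 0, ⟨0, 0⟩, 0⟩ 0 0)) (.cut .v 58720256 (.pos 97 .pp ⟨1055938489, 0, 0, 0, 0, 0, 0, 0, 0, ⟨0, 0⟩, 0⟩ 0 0) (.pos 98 .pp ⟨1460438070, 0, 0, 0, 0, 0, 0, 0, 0, ⟨0, 0⟩, 0⟩ 0 0))))) (.pos 10 .pp ⟨0, 0, 0, 0, 0, 0, 0, 0, 0, ⟨0, 0⟩, 0⟩ 0 0)) (.cut .v 134217728 (.cut .v 100663296 (.cut .d 2012296 (.cut .d 1006148 (.void 75 ⟨100000, 0, 0, 0, 0, 0, 0, 0, 0, ⟨0, 0⟩, 0⟩ 0 0) (.cut .v 83886080 (.cut .d 1509222 (.cut .l 6001081 (.pos 87 .pp ⟨3080407209, 0, 0, 0, 0, 0, 0, 0, 0, ⟨0, 0⟩, 0⟩ 0 0) (.cut .v 75497472 (.cut .d 1257685 (.pos 99 .pp ⟨2496462516, 0, 0, 0, 0, 0, 0, 0, 0, ⟨0, 0⟩, 0⟩ 0 0) (.pos 99 .pp ⟨2014796943, 0, 0, 0, 0, 0, 0, 0, 0, ⟨0, 0⟩, 0⟩ 0 0)) (.cut .d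 1257685 (.pos 100 .pp ⟨3732745935, 0, 0, 0, 0, 0, 0, 0, 0, ⟨0, 0⟩, 0⟩ 0 0) (.cut .v 79691776 (.pos 117 .pp ⟨2542872547, 0, 0, 0, 0, 0, 0, 0, 0, ⟨0, 0⟩, 0⟩ 0 0) (.cut .l 8162761 (.pos 118 .pp ⟨3223574968, 0, 0, 0, 0, 0, 0, 0, 0, ⟨0, 0⟩, 0⟩ 0 0) (.cut .l 9243601 (.pos 118 .pp ⟨3041972601, 0, 0, 0, 0, 0, 0, 0, 0, ⟨0, 0⟩, 0⟩ 0 0) (.cut .l 9784021 (.pos 118 .pp ⟨3021689309, 0, 0, 0, 0, 0, 0, 0, 0, ⟨0, 0⟩, 0⟩ 0 0) (.cut .s 11534336 (.cut .d 1383453 (.pos 118 .pp ⟨3234409384, 48545305, 0, 0, 0, 0, 0, 0, 0, ⟨0, 0⟩, 0⟩ 0 0) (.cut .d 1446337 (.cut .v 81788928 (.pos 119 .pp ⟨2734430148, 0, 0, 0, 0, 0, 0, 0, 0, ⟨0, 0⟩, 0⟩ 0 0) (.cut .s 11436032 (.cut .v 82837504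 (.pos 121 .pp ⟨2785874280, 0, 0, 0, 0, 0, 0, 0, 0, ⟨0, 0⟩, 0⟩ 0 0) (.pos 122 .pp ⟨2921645871, 199838361, 0, 0, 0, 0, 0, 0, 0, ⟨0, 0⟩, 0⟩ 0 0)) (.pos 120 .pp ⟨2942815353, 135375883, 0, 0, 0, 0, 0, 0, 0, ⟨0, 0⟩, 0⟩ 0 0))) (.pos 118 .pp ⟨1432904926, 488507800, 0, 0, 0, 0, 0, 0, 0, ⟨0, 0⟩, 0⟩ 0 0))) (.cut .d 1383453 (.pos 118 .pp ⟨3252992308, 52318694, 0, 0, 0, 0, 0, 0, 0, ⟨0, 0⟩, 0⟩ 0 0) (.pos 118 .pp ⟨1788244276, 485077916, 0, 0, 0, 0, 0, 0, 0, ⟨0, 0⟩, 0⟩ 0 0)))))))))) (.pos 87 .pp ⟨1575342656, 153887382, 0, 0, 0, 0, 0, 0, 0, ⟨0, 0⟩, 0⟩ 0 0)) (.cut .d 1509222 (.cut .d 1257685 (.void 88 ⟨100000, 0, 0, 0, 0, 0, 0, 0, 0, ⟨0, 0⟩, 0⟩ 0 0) (.cut .s 11534336 (.void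 88 ⟨40187, 59813, 0, 0, 0, 0, 0, 0, 0, ⟨0, 0⟩, 0⟩ 0 0) (.cut .d 1383453 (.pos 88 .pp ⟨3695968412, 664612265, 0, 0, 0, 0, 0, 0, 0, ⟨0, 0⟩, 0⟩ 0 0) (.void 88 ⟨0, 100000, 0, 0, 0, 0, 0, 0, 0, ⟨0, 0⟩, 0⟩ 0 0)))) (.void 88 ⟨0, 100000, 0, 0, 0, 0, 0, 0, 0, ⟨0, 0⟩, 0⟩ 0 0)))) (.pos 75 .pp ⟨0, 491469640, 0, 0, 0, 0, 0, 0, 0, ⟨0, 0⟩, 0⟩ 0 0)) (.void 76 ⟨38969, 61031, 0, 0, 0, 0, 0, 0, 0, ⟨0, 0⟩, 0⟩ 0 0)) (.void 71 ⟨38969, 61031, 0, 0, 0, 0, 0, 0, 0, ⟨0, 0⟩, 0⟩ 0 0))) (.pos 66 .pp ⟨0, 65469068, 0, 0, 0, 0, 0, 0, 0, ⟨0, 0⟩, 0⟩ 0 0)) (.void 74 ⟨0, 0, 0, 100000, 0, 0, 0, 0, 0, ⟨0, 0⟩, 0⟩ 0 0)))),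
    by decide +kernel⟩

def covers17 : cell.Covers table row17.1 :=
  ⟨(.cut .d 0 (.cut .v 16777216 (.cut .d (-8388608) (.void 1 ⟨0, 0, 0, 0, 0, 100000, 0, 0, 0, ⟨0, 0⟩, 0⟩ 0 0) (.cut .d (-4194304) (.void 1 ⟨0, 0, 0, 0, 0, 99534, 0, 0, 0, ⟨0, 0⟩, 0⟩ 0 0) (.cut .d (-2097152) (.void 1 ⟨0, 0, 0, 0, 0, 100000, 0, 0, 0, ⟨0, 0⟩, 0⟩ 0 0) (.cut .d (-1048576) (.void 1 ⟨0, 0, 0, 0, 0, 100000, 0, 0, 0, ⟨0, 0⟩, 0⟩ 0 0) (.cut .v 8388608 (.cut .v 4194304 (.void 4 ⟨0, 0, 100000, 0, 0, 0, 0, 0, 0, ⟨0, 0⟩, 0⟩ 0 0) (.pos 5 .mm ⟨0, 0, 15565387, 0, 0, 180921126, 0, 0, 0, ⟨0, 0⟩, 0⟩ 0 0)) (.cut .d (-524288) (.cut .s 11993088 (.cut .v 12582912 (.pos 6 .mm ⟨0, 0, 0, 0, 0, 303724296,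 0, 0, 0, ⟨0, 0⟩, 0⟩ 0 0) (.pos 7 .mm ⟨2152446, 0, 0, 0, 0, 463015113, 0, 0, 0, ⟨0, 0⟩, 0⟩ 0 0)) (.pos 3 .mm ⟨0, 0, 0, 0, 0, 555961510, 0, 0, 0, ⟨0, 0⟩, 0⟩ 0 0)) (.cut .v 12582912 (.pos 6 .mm ⟨0, 0, 0, 0, 0, 249649934, 0, 0, 0, ⟨0, 0⟩, 0⟩ 0 0) (.cut .l 6001081 (.cut .l 3839401 (.cut .d (-262144) (.pos 7 .mm ⟨0, 0, 0, 0, 0, 528558044, 0, 0, 0, ⟨0, 0⟩, 0⟩ 0 0) (.cut .s 11993088 (.pos 7 .mm ⟨0, 0, 0, 0, 0, 380468193, 0, 0, 0, ⟨0, 0⟩, 0⟩ 0 0) (.pos 7 .mm ⟨0, 0, 0, 0, 0, 463733980, 0, 0, 0, ⟨0, 0⟩, 0⟩ 0 0))) (.pos 7 .mm ⟨0, 0, 0, 0, 0, 379180815, 0, 0, 0, ⟨0, 0⟩, 0⟩ 0 0)) (.pos 7 .mm ⟨48139961, 0, 0, 0, 0, 0, 0, 0, 0, ⟨0, 0⟩, 0⟩ 0 0))))))))) (.cut .v 268435456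 (.cut .v 67108864 (.cut .v 33554432 (.cut .d (-8388608) (.void 11 ⟨100000, 0, 0, 0, 0, 0, 0, 0, 0, ⟨0, 0⟩, 0⟩ 0 0) (.cut .d (-4194304) (.void 11 ⟨100000, 0, 0, 0, 0, 0, 0, 0, 0, ⟨0, 0⟩, 0⟩ 0 0) (.cut .d (-2097152) (.void 11 ⟨100000, 0, 0, 0, 0, 0, 0, 0, 0, ⟨0, 0⟩, 0⟩ 0 0) (.cut .d (-1048576) (.void 11 ⟨100000, 0, 0, 0, 0, 0, 0, 0, 0, ⟨0, 0⟩, 0⟩ 0 0) (.cut .v 25165824 (.cut .v 20971520 (.cut .d (-524288) (.cut .s 11993088 (.cut .l 6001081 (.pos 15 .mp ⟨428546763, 0, 0, 0, 0, 0, 0, 0, 0, ⟨0, 0⟩, 0⟩ 0 0) (.pos 15 .mp ⟨365373406, 0, 0, 0, 0, 0, 0, 0, 0, ⟨0, 0⟩, 0⟩ 0 0)) (.pos 15 .mp ⟨500495742, 0, 0, 0, 0, 0, 0, 0, 0, ⟨0, 0⟩, 0⟩ 0 0)) (.cut .l 6001081 (.cut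 .v 18874368 (.cut .l 3839401 (.cut .d (-262144) (.pos 17 .mp ⟨389071511, 0, 0, 0, 0, 0, 0, 0, 0, ⟨0, 0⟩, 0⟩ 0 0) (.cut .v 17825792 (.cut .l 2758561 (.cut .d (-131072) (.cut .s 11993088 (.pos 19 .mp ⟨178570515, 0, 0, 0, 0, 196782383, 0, 0, 0, ⟨0, 0⟩, 0⟩ 0 0) (.pos 19 .mp ⟨194584273, 0, 0, 0, 0, 293668154, 0, 0, 0, ⟨0, 0⟩, 0⟩ 0 0)) (.cut .s 11993088 (.pos 19 .mp ⟨169420388, 0, 0, 0, 0, 102639625, 0, 0, 0, ⟨0, 0⟩, 0⟩ 0 0) (.cut .s 12124160 (.pos 19 .mp ⟨185272573, 0, 0, 0, 0, 146632083, 0, 0, 0, ⟨0, 0⟩, 0⟩ 0 0) (.pos 19 .mp ⟨202097049, 0, 0, 0, 0, 161602306, 0, 0, 0, ⟨0, 0⟩, 0⟩ 0 0)))) (.pos 19 .mp ⟨214992367, 0, 0, 0, 0, 41634700, 0, 0, 0, ⟨0, 0⟩, 0⟩ 0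 0)) (.pos 20 .mp ⟨348119373, 0, 0, 0, 0, 0, 0, 0, 0, ⟨0, 0⟩, 0⟩ 0 0))) (.pos 17 .mp ⟨288945802, 0, 0, 0, 0, 0, 0, 0, 0, ⟨0, 0⟩, 0⟩ 0 0)) (.pos 18 .mp ⟨428151792, 0, 0, 0, 0, 0, 0, 0, 0, ⟨0, 0⟩, 0⟩ 0 0)) (.pos 15 .mp ⟨249062661, 0, 0, 0, 0, 0, 0, 0, 0, ⟨0, 0⟩, 0⟩ 0 0))) (.cut .s 11993088 (.pos 16 .mp ⟨521650434, 0, 0, 0, 0, 0, 0, 0, 0, ⟨0, 0⟩, 0⟩ 0 0) (.pos 16 .mp ⟨631737947, 0, 0, 0, 0, 0, 0, 0, 0, ⟨0, 0⟩, 0⟩ 0 0))) (.pos 14 .mp ⟨942688314, 0, 0, 0, 0, 0, 0, 0, 0, ⟨0, 0⟩, 0⟩ 0 0)))))) (.void 12 ⟨100000, 0, 0, 0, 0, 0, 0, 0, 0, ⟨0, 0⟩, 0⟩ 0 0)) (.void 67 ⟨100000, 0, 0, 0, 0, 0, 0, 0, 0, ⟨0, 0⟩, 0⟩ 0 0)) (.void 74 ⟨95041, 0, 0, 4959, 0, 0, 0, 0, 0, ⟨0,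 0⟩, 0⟩ 0 0))) (.cut .v 16777216 (.cut .v 8388608 (.cut .v 4194304 (.cut .v 2097152 (.cut .v 1048576 (.pos 107 .pm ⟨0, 0, 3504362, 0, 0, 0, 0, 0, 16116155, ⟨0, 0⟩, 1983364⟩ 0 0) (.pos 108 .pm ⟨0, 16127069, 0, 0, 0, 0, 0, 0, 0, ⟨0, 0⟩, 0⟩ 0 0)) (.cut .d 3608508 (.pos 80 .pm ⟨0, 0, 17875026, 0, 0, 0, 0, 0, 0, ⟨0, 0⟩, 0⟩ 0 0) (.cut .d 5412762 (.pos 80 .pm ⟨0, 0, 0, 0, 0, 0, 0, 0, 0, ⟨0, 0⟩, 0⟩ 0 0) (.cut .l 6001081 (.cut .d 6314889 (.cut .s 11993088 (.pos 80 .pm ⟨0, 0, 0, 0, 0, 0, 0, 0, 0, ⟨0, 0⟩, 0⟩ 0 0) (.cut .d 5863825 (.pos 80 .pm ⟨0, 0, 0, 0, 0, 0, 0, 0, 0, ⟨0, 0⟩, 0⟩ 0 0) (.pos 80 .pm ⟨0, 92424867, 0, 0, 0, 0, 0, 0, 0, ⟨0, 0⟩, 0⟩ 0 0))) (.cut .s 11993088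 (.cut .s 11862016 (.pos 80 .pm ⟨0, 76552769, 0, 0, 0, 0, 0, 0, 0, ⟨0, 0⟩, 0⟩ 0 0) (.pos 80 .pm ⟨0, 91352443, 0, 0, 0, 0, 0, 0, 0, ⟨0, 0⟩, 0⟩ 0 0)) (.pos 80 .pm ⟨0, 120551281, 0, 0, 0, 0, 0, 0, 0, ⟨0, 0⟩, 0⟩ 0 0))) (.pos 80 .pm ⟨0, 77786928, 0, 0, 0, 0, 0, 0, 0, ⟨0, 0⟩, 0⟩ 0 0))))) (.cut .d 3608508 (.pos 5 .pm ⟨0, 0, 1873619, 0, 0, 0, 0, 0, 0, ⟨0, 0⟩, 0⟩ 0 0) (.cut .d 5412762 (.pos 5 .pm ⟨0, 0, 0, 0, 0, 0, 0, 0, 0, ⟨0, 0⟩, 0⟩ 0 0) (.cut .d 6314889 (.cut .l 6001081 (.cut .l 3839401 (.cut .v 6291456 (.cut .s 11993088 (.pos 85 .pm ⟨0, 0, 0, 0, 0, 0, 0, 0, 0, ⟨0, 0⟩, 0⟩ 0 0) (.cut .d 5863825 (.pos 85 .pm ⟨0, 0, 0, 0, 0, 0, 0, 0, 0, ⟨0, 0⟩, 0⟩ 0 0) (.cut .l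 2758561 (.cut .l 2218141 (.cut .v 5242880 (.cut .s 12124160 (.cut .s 12058624 (.pos 111 .pm ⟨0, 90144065, 0, 0, 0, 0, 0, 0, 0, ⟨0, 0⟩, 0⟩ 0 0) (.cut .d 6089357 (.pos 111 .pm ⟨0, 0, 0, 0, 0, 0, 0, 0, 0, ⟨0, 0⟩, 0⟩ 0 0) (.pos 111 .pm ⟨0, 103359751, 0, 0, 0, 0, 0, 0, 0, ⟨0, 0⟩, 0⟩ 0 0))) (.cut .d 6089357 (.pos 111 .pm ⟨0, 101810124, 0, 0, 0, 0, 0, 0, 0, ⟨0, 0⟩, 0⟩ 0 0) (.pos 111 .pm ⟨0, 117092150, 0, 0, 0, 0, 0, 0, 0, ⟨0, 0⟩, 0⟩ 0 0))) (.cut .s 12124160 (.pos 112 .pm ⟨0, 101684239, 0, 0, 0, 0, 0, 0, 0, ⟨0, 0⟩, 0⟩ 0 0) (.pos 112 .pm ⟨0, 120327750, 0, 0, 0, 0, 0, 0, 0, ⟨0, 0⟩, 0⟩ 0 0))) (.pos 85 .pm ⟨0, 102582348, 0, 0, 0, 0, 0, 0, 0, ⟨0, 0⟩, 0⟩ 0 0)) (.pos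 85 .pm ⟨0, 100430209, 0, 0, 0, 0, 0, 0, 0, ⟨0, 0⟩, 0⟩ 0 0)))) (.cut .s 11993088 (.pos 86 .pm ⟨0, 78246073, 0, 0, 0, 0, 0, 0, 0, ⟨0, 0⟩, 0⟩ 0 0) (.pos 86 .pm ⟨0, 115402037, 0, 0, 0, 0, 0, 0, 0, ⟨0, 0⟩, 0⟩ 0 0))) (.pos 5 .pm ⟨0, 76548495, 0, 0, 0, 0, 0, 0, 0, ⟨0, 0⟩, 0⟩ 0 0)) (.pos 5 .pm ⟨0, 65807366, 0, 0, 0, 0, 0, 0, 0, ⟨0, 0⟩, 0⟩ 0 0)) (.cut .l 6001081 (.cut .s 11993088 (.cut .l 3839401 (.cut .v 6291456 (.cut .d 6765953 (.cut .l 2758561 (.cut .s 11862016 (.cut .d 6540421 (.pos 85 .pm ⟨0, 0, 0, 0, 0, 0, 0, 0, 0, ⟨0, 0⟩, 0⟩ 0 0) (.cut .l 2218141 (.cut .v 5242880 (.cut .s 11796480 (.pos 111 .pm ⟨0, 80956899, 0, 0, 0, 0, 0, 0, 0, ⟨0, 0⟩, 0⟩ 0 0) (.cut .d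 6653187 (.pos 111 .pm ⟨0, 85816339, 0, 0, 0, 0, 0, 0, 0, ⟨0, 0⟩, 0⟩ 0 0) (.pos 111 .pm ⟨0, 92637098, 0, 0, 0, 0, 0, 0, 0, ⟨0, 0⟩, 0⟩ 0 0))) (.cut .s 11796480 (.pos 112 .pm ⟨0, 85217369, 0, 0, 0, 0, 0, 0, 0, ⟨0, 0⟩, 0⟩ 0 0) (.pos 112 .pm ⟨0, 94740389, 0, 0, 0, 0, 0, 0, 0, ⟨0, 0⟩, 0⟩ 0 0))) (.pos 85 .pm ⟨0, 81987700, 0, 0, 0, 0, 0, 0, 0, ⟨0, 0⟩, 0⟩ 0 0))) (.cut .l 2218141 (.cut .v 5242880 (.cut .l 1947931 (.cut .d 6540421 (.cut .s 11927552 (.pos 111 .pm ⟨0, 88504884, 0, 0, 0, 0, 0, 0, 0, ⟨0, 0⟩, 0⟩ 0 0) (.pos 111 .pm ⟨0, 97130828, 0, 0, 0, 0, 0, 0, 0, ⟨0, 0⟩, 0⟩ 0 0)) (.cut .s 11927552 (.pos 111 .pm ⟨0, 99579444, 0, 0, 0, 0, 0, 0, 0, ⟨0, 0⟩, 0⟩ 0 0) (.pos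 111 .pm ⟨0, 300620803, 0, 0, 0, 0, 0, 0, 0, ⟨0, 0⟩, 0⟩ 0 0))) (.pos 111 .pm ⟨0, 98128947, 0, 0, 0, 0, 0, 0, 0, ⟨0, 0⟩, 0⟩ 0 0)) (.cut .d 6540421 (.pos 112 .pm ⟨0, 96987520, 0, 0, 0, 0, 0, 0, 0, ⟨0, 0⟩, 0⟩ 0 0) (.pos 112 .pm ⟨0, 110574453, 0, 0, 0, 0, 0, 0, 0, ⟨0, 0⟩, 0⟩ 0 0))) (.pos 85 .pm ⟨0, 97237369, 0, 0, 0, 0, 0, 0, 0, ⟨0, 0⟩, 0⟩ 0 0))) (.pos 85 .pm ⟨0, 85956079, 0, 0, 0, 0, 0, 0, 0, ⟨0, 0⟩, 0⟩ 0 0)) (.cut .s 11862016 (.cut .d 6991485 (.cut .s 11796480 (.cut .l 2758561 (.cut .l 2218141 (.cut .v 5242880 (.cut .d 6878719 (.pos 111 .pm ⟨0, 88578492, 0, 0, 0, 0, 0, 0, 0, ⟨0, 0⟩, 0⟩ 0 0) (.pos 111 .pm ⟨0, 203279520, 0, 0, 0, 0, 0, 0, 0, ⟨0, 0⟩, 0⟩ 0 0))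 (.cut .d 6878719 (.cut .v 5767168 (.cut .s 11763712 (.cut .v 5505024 (.cut .d 6822336 (.pos 127 .pm ⟨0, 83696797, 0, 0, 0, 0, 0, 0, 0, ⟨0, 0⟩, 0⟩ 0 0) (.pos 127 .pm ⟨0, 89928796, 0, 0, 0, 0, 0, 0, 0, ⟨0, 0⟩, 0⟩ 0 0)) (.pos 128 .pm ⟨0, 91692333, 0, 0, 0, 0, 0, 0, 0, ⟨0, 0⟩, 0⟩ 0 0)) (.pos 113 .pm ⟨0, 94073023, 0, 0, 0, 0, 0, 0, 0, ⟨0, 0⟩, 0⟩ 0 0)) (.pos 114 .pm ⟨0, 95709237, 0, 0, 0, 0, 0, 0, 0, ⟨0, 0⟩, 0⟩ 0 0)) (.void 112 ⟨0, 100000, 0, 0, 0, 0, 0, 0, 0, ⟨0, 0⟩, 0⟩ 0 0))) (.pos 85 .pm ⟨0, 88365444, 0, 0, 0, 0, 0, 0, 0, ⟨0, 0⟩, 0⟩ 0 0)) (.pos 85 .pm ⟨0, 85021482, 0, 0, 0, 0, 0, 0, 0, ⟨0, 0⟩, 0⟩ 0 0)) (.pos 85 .pm ⟨0, 331542949, 0, 0, 0, 0, 0, 0, 0, ⟨0,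 0⟩, 0⟩ 0 0)) (.void 85 ⟨0, 100000, 0, 0, 0, 0, 0, 0, 0, ⟨0, 0⟩, 0⟩ 0 0)) (.void 85 ⟨0, 0, 0, 100000, 0, 0, 0, 0, 0, ⟨0, 0⟩, 0⟩ 0 0))) (.cut .d 6765953 (.pos 86 .pm ⟨0, 104496306, 0, 0, 0, 0, 0, 0, 0, ⟨0, 0⟩, 0⟩ 0 0) (.pos 86 .pm ⟨0, 129188784, 0, 0, 0, 0, 0, 0, 0, ⟨0, 0⟩, 0⟩ 0 0))) (.pos 5 .pm ⟨0, 105818941, 0, 0, 0, 0, 0, 0, 0, ⟨0, 0⟩, 0⟩ 0 0)) (.cut .v 6291456 (.cut .v 5242880 (.cut .s 12124160 (.cut .d 6765953 (.pos 111 .pm ⟨0, 119601906, 0, 0, 0, 0, 0, 0, 0, ⟨0, 0⟩, 0⟩ 0 0) (.void 111 ⟨0, 0, 0, 100000, 0, 0, 0, 0, 0, ⟨0, 0⟩, 0⟩ 0 0)) (.void 111 ⟨0, 0, 0, 100000, 0, 0, 0, 0, 0, ⟨0, 0⟩, 0⟩ 0 0)) (.pos 112 .pm ⟨0, 158052027, 0, 0, 0, 0, 0, 0, 0, ⟨0,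 0⟩, 0⟩ 0 0)) (.void 86 ⟨0, 100000, 0, 0, 0, 0, 0, 0, 0, ⟨0, 0⟩, 0⟩ 0 0))) (.pos 5 .pm ⟨0, 120597374, 0, 0, 0, 0, 0, 0, 0, ⟨0, 0⟩, 0⟩ 0 0)))))) (.cut .d 3608508 (.pos 3 .pm ⟨0, 0, 0, 0, 0, 0, 0, 0, 0, ⟨0, 0⟩, 0⟩ 0 0) (.cut .d 5412762 (.pos 3 .pm ⟨0, 0, 0, 0, 0, 0, 0, 0, 0, ⟨0, 0⟩, 0⟩ 0 0) (.pos 3 .pm ⟨0, 150376831, 0, 0, 0, 0, 0, 0, 0, ⟨0, 0⟩, 0⟩ 0 0)))) (.cut .v 268435456 (.cut .d 3608508 (.cut .v 67108864 (.cut .d 1804254 (.cut .v 33554432 (.cut .d 902127 (.cut .d 451063 (.cut .v 25165824 (.cut .v 20971520 (.pos 15 .pp ⟨170187033, 0, 0, 0, 0, 0, 0, 0, 0, ⟨0, 0⟩, 0⟩ 0 0) (.pos 16 .pp ⟨378309414, 0, 0, 0, 0, 0, 0, 0, 0, ⟨0, 0⟩, 0⟩ 0 0)) (.pos 14 .pp ⟨648383744,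 0, 0, 0, 0, 0, 0, 0, 0, ⟨0, 0⟩, 0⟩ 0 0)) (.pos 11 .pp ⟨197965581, 0, 0, 0, 0, 0, 0, 0, 0, ⟨0, 0⟩, 0⟩ 0 0)) (.pos 11 .pp ⟨0, 0, 0, 0, 0, 0, 0, 0, 0, ⟨0, 0⟩, 0⟩ 0 0)) (.cut .v 50331648 (.cut .d 902127 (.cut .v 41943040 (.cut .d 451063 (.pos 35 .pp ⟨1131422492, 0, 0, 0, 0, 0, 0, 0, 0, ⟨0, 0⟩, 0⟩ 0 0) (.pos 35 .pp ⟨859159296, 0, 0, 0, 0, 0, 0, 0, 0, ⟨0, 0⟩, 0⟩ 0 0)) (.pos 36 .pp ⟨1532033128, 0, 0, 0, 0, 0, 0, 0, 0, ⟨0, 0⟩, 0⟩ 0 0)) (.pos 33 .pp ⟨664406282, 0, 0, 0, 0, 0, 0, 0, 0, ⟨0, 0⟩, 0⟩ 0 0)) (.cut .d 902127 (.cut .v 58720256 (.pos 97 .pp ⟨2155480419, 0, 0, 0, 0, 0, 0, 0, 0, ⟨0, 0⟩, 0⟩ 0 0) (.pos 98 .pp ⟨2990336821, 0, 0, 0, 0, 0, 0, 0, 0, ⟨0, 0⟩, 0⟩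 0 0)) (.cut .v 58720256 (.pos 97 .pp ⟨1401276309, 0, 0, 0, 0, 0, 0, 0, 0, ⟨0, 0⟩, 0⟩ 0 0) (.cut .s 11993088 (.pos 98 .pp ⟨1853789365, 0, 0, 0, 0, 0, 0, 0, 0, ⟨0, 0⟩, 0⟩ 0 0) (.pos 98 .pp ⟨2108288748, 0, 0, 0, 0, 0, 0, 0, 0, ⟨0, 0⟩, 0⟩ 0 0)))))) (.pos 10 .pp ⟨0, 0, 0, 0, 0, 0, 0, 0, 0, ⟨0, 0⟩, 0⟩ 0 0)) (.cut .v 134217728 (.cut .v 100663296 (.cut .d 1804254 (.cut .d 902127 (.pos 75 .pp ⟨7397144555, 0, 0, 0, 0, 0, 0, 0, 0, ⟨0, 0⟩, 0⟩ 0 0) (.cut .v 83886080 (.cut .d 1353190 (.cut .v 75497472 (.pos 99 .pp ⟨2777956272, 0, 0, 0, 0, 0, 0, 0, 0, ⟨0, 0⟩, 0⟩ 0 0) (.cut .d 1127658 (.pos 100 .pp ⟨4643648099, 0, 0, 0, 0, 0, 0, 0, 0, ⟨0, 0⟩, 0⟩ 0 0) (.cut .s 11993088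 (.cut .v 79691776 (.pos 117 .pp ⟨3086984962, 0, 0, 0, 0, 0, 0, 0, 0, ⟨0, 0⟩, 0⟩ 0 0) (.cut .s 11862016 (.pos 118 .pp ⟨3515510270, 0, 0, 0, 0, 0, 0, 0, 0, ⟨0, 0⟩, 0⟩ 0 0) (.pos 118 .pp ⟨3621714635, 0, 0, 0, 0, 0, 0, 0, 0, ⟨0, 0⟩, 0⟩ 0 0))) (.pos 100 .pp ⟨3585441665, 0, 0, 0, 0, 0, 0, 0, 0, ⟨0, 0⟩, 0⟩ 0 0)))) (.pos 87 .pp ⟨2369708606, 0, 0, 0, 0, 0, 0, 0, 0, ⟨0, 0⟩, 0⟩ 0 0)) (.cut .d 1353190 (.cut .v 92274688 (.cut .v 88080384 (.cut .d 1127658 (.pos 135 .pp ⟨5053787588, 300698323, 0, 0, 0, 0, 0, 0, 0, ⟨0, 0⟩, 0⟩ 0 0) (.cut .v 85983232 (.cut .l 6001081 (.void 137 ⟨38926, 61074, 0, 0, 0, 0, 0, 0, 0, ⟨0, 0⟩, 0⟩ 0 0) (.cut .l 8162761 (.pos 137 .pp ⟨5700106943,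 2285138863, 0, 0, 0, 0, 0, 0, 0, ⟨0, 0⟩, 0⟩ 0 0) (.cut .l 9243601 (.pos 137 .pp ⟨4130079866, 556799148, 0, 0, 0, 0, 0, 0, 0, ⟨0, 0⟩, 0⟩ 0 0) (.cut .s 11993088 (.cut .v 84934656 (.cut .l 9784021 (.pos 139 .pp ⟨3965878483, 515956850, 0, 0, 0, 0, 0, 0, 0, ⟨0, 0⟩, 0⟩ 0 0) (.cut .l 10054231 (.pos 139 .pp ⟨3788686484, 208513441, 0, 0, 0, 0, 0, 0, 0, ⟨0, 0⟩, 0⟩ 0 0) (.cut .s 11862016 (.cut .d 1240424 (.pos 139 .pp ⟨4772017376, 0, 0, 0, 0, 0, 0, 0, 0, ⟨0, 0⟩, 0⟩ 0 0) (.cut .s 11796480 (.pos 139 .pp ⟨3645225394, 320993337, 0, 0, 0, 0, 0, 0, 0, ⟨0, 0⟩, 0⟩ 0 0) (.pos 139 .pp ⟨3694125093, 312345520, 0, 0, 0, 0, 0, 0, 0, ⟨0, 0⟩, 0⟩ 0 0))) (.cut .d 1240424 (.cut .s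 11927552 (.pos 139 .pp ⟨3961986493, 241713722, 0, 0, 0, 0, 0, 0, 0, ⟨0, 0⟩, 0⟩ 0 0) (.pos 139 .pp ⟨4026096266, 225117368, 0, 0, 0, 0, 0, 0, 0, ⟨0, 0⟩, 0⟩ 0 0)) (.pos 139 .pp ⟨3762666544, 296279725, 0, 0, 0, 0, 0, 0, 0, ⟨0, 0⟩, 0⟩ 0 0))))) (.void 140 ⟨39442, 60558, 0, 0, 0, 0, 0, 0, 0, ⟨0, 0⟩, 0⟩ 0 0)) (.cut .v 84934656 (.pos 139 .pp ⟨3912647497, 0, 0, 0, 0, 0, 0, 0, 0, ⟨0, 0⟩, 0⟩ 0 0) (.cut .s 12124160 (.pos 140 .pp ⟨4240862005, 483630550, 0, 0, 0, 0, 0, 0, 0, ⟨0, 0⟩, 0⟩ 0 0) (.pos 140 .pp ⟨4404379344, 444722826, 0, 0, 0, 0, 0, 0, 0, ⟨0, 0⟩, 0⟩ 0 0))))))) (.void 138 ⟨22393, 77607, 0, 0, 0, 0, 0, 0, 0, ⟨0, 0⟩, 0⟩ 0 0))) (.void 136 ⟨39076, 60924, 0, 0,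 0, 0, 0, 0, 0, ⟨0, 0⟩, 0⟩ 0 0)) (.void 130 ⟨39076, 60924, 0, 0, 0, 0, 0, 0, 0, ⟨0, 0⟩, 0⟩ 0 0)) (.void 88 ⟨0, 100000, 0, 0, 0, 0, 0, 0, 0, ⟨0, 0⟩, 0⟩ 0 0)))) (.pos 75 .pp ⟨0, 724419721, 0, 0, 0, 0, 0, 0, 0, ⟨0, 0⟩, 0⟩ 0 0)) (.void 76 ⟨38196, 61804, 0, 0, 0, 0, 0, 0, 0, ⟨0, 0⟩, 0⟩ 0 0)) (.void 71 ⟨38196, 61804, 0, 0, 0, 0, 0, 0, 0, ⟨0, 0⟩, 0⟩ 0 0))) (.pos 66 .pp ⟨0, 106459307, 0, 0, 0, 0, 0, 0, 0, ⟨0, 0⟩, 0⟩ 0 0)) (.void 74 ⟨0, 0, 0, 100000, 0, 0, 0, 0, 0, ⟨0, 0⟩, 0⟩ 0 0)))),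
    by decide +kernel⟩

def covers18 : cell.Covers table row18.1 :=
  ⟨(.cut .d 0 (.cut .v 16777216 (.cut .d (-8388608) (.void 1 ⟨0, 0, 0, 0, 0, 100000, 0, 0, 0, ⟨0, 0⟩, 0⟩ 0 0) (.cut .d (-4194304) (.pos 1 .mm ⟨0, 0, 0, 0, 0, 167772160000, 0, 0, 0, ⟨0, 0⟩, 0⟩ 0 0) (.cut .d (-2097152) (.void 1 ⟨0, 0, 0, 0, 0, 100000, 0, 0, 0, ⟨0, 0⟩, 0⟩ 0 0) (.cut .d (-1048576) (.void 1 ⟨0, 0, 0, 0, 0, 100000, 0, 0, 0, ⟨0, 0⟩, 0⟩ 0 0) (.cut .v 8388608 (.cut .v 4194304 (.void 4 ⟨0, 0, 100000, 0, 0, 0, 0, 0, 0, ⟨0, 0⟩, 0⟩ 0 0) (.pos 5 .mm ⟨0, 0, 23761847, 0, 0, 272413929, 0, 0, 0, ⟨0, 0⟩, 0⟩ 0 0)) (.cut .d (-524288) (.cut .v 12582912 (.pos 6 .mm ⟨0, 0, 0, 0, 0, 536107069,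 0, 0, 0, ⟨0, 0⟩, 0⟩ 0 0) (.pos 7 .mm ⟨0, 0, 0, 0, 0, 812043674, 0, 0, 0, ⟨0, 0⟩, 0⟩ 0 0)) (.cut .v 12582912 (.pos 6 .mm ⟨0, 0, 0, 0, 0, 387809066, 0, 0, 0, ⟨0, 0⟩, 0⟩ 0 0) (.cut .v 14680064 (.pos 8 .mm ⟨0, 0, 0, 0, 0, 543766442, 0, 0, 0, ⟨0, 0⟩, 0⟩ 0 0) (.cut .d (-262144) (.pos 9 .mm ⟨0, 0, 0, 0, 0, 717078359, 0, 0, 0, ⟨0, 0⟩, 0⟩ 0 0) (.cut .d (-131072) (.pos 9 .mm ⟨0, 0, 0, 0, 0, 663416321, 0, 0, 0, ⟨0, 0⟩, 0⟩ 0 0) (.pos 9 .mm ⟨0, 0, 0, 0, 0, 538867334, 0, 0, 0, ⟨0, 0⟩, 0⟩ 0 0))))))))))) (.cut .v 268435456 (.cut .v 67108864 (.cut .v 33554432 (.cut .d (-8388608) (.void 11 ⟨100000, 0, 0, 0, 0, 0, 0, 0, 0, ⟨0, 0⟩, 0⟩ 0 0) (.cut .d (-4194304) (.void 11 ⟨100000,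 0, 0, 0, 0, 0, 0, 0, 0, ⟨0, 0⟩, 0⟩ 0 0) (.cut .d (-2097152) (.void 11 ⟨100000, 0, 0, 0, 0, 0, 0, 0, 0, ⟨0, 0⟩, 0⟩ 0 0) (.cut .v 25165824 (.cut .d (-1048576) (.void 13 ⟨100000, 0, 0, 0, 0, 0, 0, 0, 0, ⟨0, 0⟩, 0⟩ 0 0) (.cut .v 20971520 (.cut .d (-524288) (.pos 15 .mp ⟨675968206, 0, 0, 0, 0, 0, 0, 0, 0, ⟨0, 0⟩, 0⟩ 0 0) (.cut .d (-262144) (.pos 15 .mp ⟨565294773, 0, 0, 0, 0, 0, 0, 0, 0, ⟨0, 0⟩, 0⟩ 0 0) (.cut .d (-131072) (.pos 15 .mp ⟨447983397, 0, 0, 0, 0, 101205669, 0, 0, 0, ⟨0, 0⟩, 0⟩ 0 0) (.cut .v 18874368 (.cut .d (-65536) (.cut .d (-98304) (.cut .v 17825792 (.pos 19 .mp ⟨212795339, 0, 0, 0, 0, 410243420, 0, 0, 0, ⟨0, 0⟩, 0⟩ 0 0) (.pos 20 .mp ⟨565719575,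 0, 0, 0, 0, 0, 0, 0, 0, ⟨0, 0⟩, 0⟩ 0 0)) (.pos 17 .mp ⟨277987715, 0, 0, 0, 0, 13493647, 0, 0, 0, ⟨0, 0⟩, 0⟩ 0 0)) (.pos 17 .mp ⟨230388837, 0, 0, 0, 0, 0, 0, 0, 0, ⟨0, 0⟩, 0⟩ 0 0)) (.pos 18 .mp ⟨602338737, 0, 0, 0, 0, 0, 0, 0, 0, ⟨0, 0⟩, 0⟩ 0 0))))) (.pos 16 .mp ⟨829987661, 0, 0, 0, 0, 0, 0, 0, 0, ⟨0, 0⟩, 0⟩ 0 0))) (.pos 14 .mp ⟨1490791044, 0, 0, 0, 0, 0, 0, 0, 0, ⟨0, 0⟩, 0⟩ 0 0))))) (.void 12 ⟨100000, 0, 0, 0, 0, 0, 0, 0, 0, ⟨0, 0⟩, 0⟩ 0 0)) (.void 67 ⟨100000, 0, 0, 0, 0, 0, 0, 0, 0, ⟨0, 0⟩, 0⟩ 0 0)) (.void 74 ⟨94865, 0, 0, 5135, 0, 0, 0, 0, 0, ⟨0, 0⟩, 0⟩ 0 0))) (.cut .v 16777216 (.cut .v 8388608 (.cut .v 4194304 (.cut .v 2097152 (.cut .d 3095263 (.void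 79 ⟨0, 0, 100000, 0, 0, 0, 0, 0, 0, ⟨0, 0⟩, 0⟩ 0 0) (.cut .v 1048576 (.cut .v 524288 (.pos 145 .pm ⟨0, 0, 2139890, 0, 0, 0, 0, 0, 15324544, ⟨0, 0⟩, 1402450⟩ 0 0) (.pos 146 .pm ⟨0, 21997337, 0, 0, 0, 0, 0, 0, 0, ⟨0, 0⟩, 0⟩ 0 0)) (.pos 108 .pm ⟨0, 46114442, 0, 0, 0, 0, 0, 0, 0, ⟨0, 0⟩, 0⟩ 0 0))) (.cut .d 3095263 (.pos 80 .pm ⟨0, 0, 44569879, 0, 0, 0, 0, 0, 0, ⟨0, 0⟩, 0⟩ 0 0) (.cut .d 4642894 (.pos 80 .pm ⟨0, 0, 0, 0, 0, 0, 0, 0, 0, ⟨0, 0⟩, 0⟩ 0 0) (.cut .l 6001081 (.cut .d 5416710 (.cut .s 12484608 (.pos 80 .pm ⟨0, 0, 0, 0, 0, 0, 0, 0, 0, ⟨0, 0⟩, 0⟩ 0 0) (.cut .d 5029802 (.pos 80 .pm ⟨0, 0, 0, 0, 0, 0, 0, 0, 0, ⟨0, 0⟩, 0⟩ 0 0) (.pos 80 .pm ⟨0, 105531304,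 0, 0, 0, 0, 0, 0, 0, ⟨0, 0⟩, 0⟩ 0 0))) (.cut .s 12484608 (.cut .d 5803618 (.pos 80 .pm ⟨0, 98755231, 0, 0, 0, 0, 0, 0, 0, ⟨0, 0⟩, 0⟩ 0 0) (.pos 80 .pm ⟨0, 124617816, 0, 0, 0, 0, 0, 0, 0, ⟨0, 0⟩, 0⟩ 0 0)) (.pos 80 .pm ⟨0, 152526581, 0, 0, 0, 0, 0, 0, 0, ⟨0, 0⟩, 0⟩ 0 0))) (.pos 80 .pm ⟨0, 93575556, 0, 0, 0, 0, 0, 0, 0, ⟨0, 0⟩, 0⟩ 0 0))))) (.cut .d 3095263 (.pos 5 .pm ⟨0, 0, 6352478, 0, 0, 0, 0, 0, 0, ⟨0, 0⟩, 0⟩ 0 0) (.cut .d 4642894 (.pos 5 .pm ⟨0, 0, 0, 0, 0, 0, 0, 0, 0, ⟨0, 0⟩, 0⟩ 0 0) (.cut .l 6001081 (.cut .d 5416710 (.cut .s 12484608 (.pos 5 .pm ⟨0, 0, 0, 0, 0, 0, 0, 0, 0, ⟨0, 0⟩, 0⟩ 0 0) (.cut .v 6291456 (.pos 85 .pm ⟨0, 112790428, 0, 0, 0, 0, 0,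 0, 0, ⟨0, 0⟩, 0⟩ 0 0) (.pos 86 .pm ⟨0, 148137804, 0, 0, 0, 0, 0, 0, 0, ⟨0, 0⟩, 0⟩ 0 0))) (.cut .v 6291456 (.cut .s 12484608 (.cut .l 3839401 (.cut .l 2758561 (.cut .d 5803618 (.cut .s 12369920 (.pos 85 .pm ⟨0, 104618891, 0, 0, 0, 0, 0, 0, 0, ⟨0, 0⟩, 0⟩ 0 0) (.pos 85 .pm ⟨0, 125058769, 0, 0, 0, 0, 0, 0, 0, ⟨0, 0⟩, 0⟩ 0 0)) (.cut .v 5242880 (.pos 111 .pm ⟨0, 139549439, 0, 0, 0, 0, 0, 0, 0, ⟨0, 0⟩, 0⟩ 0 0) (.pos 112 .pm ⟨0, 149981853, 0, 0, 0, 0, 0, 0, 0, ⟨0, 0⟩, 0⟩ 0 0))) (.pos 85 .pm ⟨0, 123965282, 0, 0, 0, 0, 0, 0, 0, ⟨0, 0⟩, 0⟩ 0 0)) (.pos 85 .pm ⟨0, 119964482, 0, 0, 0, 0, 0, 0, 0, ⟨0, 0⟩, 0⟩ 0 0)) (.pos 85 .pm ⟨0, 182454193, 0, 0, 0, 0, 0, 0, 0, ⟨0,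 0⟩, 0⟩ 0 0)) (.pos 86 .pm ⟨0, 187351063, 0, 0, 0, 0, 0, 0, 0, ⟨0, 0⟩, 0⟩ 0 0))) (.pos 5 .pm ⟨0, 122999382, 0, 0, 0, 0, 0, 0, 0, ⟨0, 0⟩, 0⟩ 0 0))))) (.cut .d 3095263 (.pos 3 .pm ⟨0, 0, 0, 0, 0, 0, 0, 0, 0, ⟨0, 0⟩, 0⟩ 0 0) (.cut .d 4642894 (.pos 3 .pm ⟨0, 0, 0, 0, 0, 0, 0, 0, 0, ⟨0, 0⟩, 0⟩ 0 0) (.pos 3 .pm ⟨0, 196406136, 0, 0, 0, 0, 0, 0, 0, ⟨0, 0⟩, 0⟩ 0 0)))) (.cut .v 268435456 (.cut .d 3095263 (.cut .v 67108864 (.cut .d 1547631 (.cut .v 33554432 (.cut .d 773815 (.cut .d 386907 (.cut .v 25165824 (.cut .v 20971520 (.pos 15 .pp ⟨222094715, 0, 0, 0, 0, 0, 0, 0, 0, ⟨0, 0⟩, 0⟩ 0 0) (.pos 16 .pp ⟨501304395, 0, 0, 0, 0, 0, 0, 0, 0, ⟨0, 0⟩, 0⟩ 0 0)) (.pos 14 .pp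 ⟨908064670, 0, 0, 0, 0, 0, 0, 0, 0, ⟨0, 0⟩, 0⟩ 0 0)) (.pos 11 .pp ⟨281375744, 0, 0, 0, 0, 0, 0, 0, 0, ⟨0, 0⟩, 0⟩ 0 0)) (.pos 11 .pp ⟨0, 0, 0, 0, 0, 0, 0, 0, 0, ⟨0, 0⟩, 0⟩ 0 0)) (.cut .v 50331648 (.cut .d 773815 (.cut .v 41943040 (.pos 35 .pp ⟨1369871542, 0, 0, 0, 0, 0, 0, 0, 0, ⟨0, 0⟩, 0⟩ 0 0) (.pos 36 .pp ⟨2039699822, 0, 0, 0, 0, 0, 0, 0, 0, ⟨0, 0⟩, 0⟩ 0 0)) (.pos 33 .pp ⟨900044843, 0, 0, 0, 0, 0, 0, 0, 0, ⟨0, 0⟩, 0⟩ 0 0)) (.cut .d 773815 (.pos 34 .pp ⟨3506783075, 0, 0, 0, 0, 0, 0, 0, 0, ⟨0, 0⟩, 0⟩ 0 0) (.cut .v 58720256 (.pos 97 .pp ⟨1930182680, 0, 0, 0, 0, 0, 0, 0, 0, ⟨0, 0⟩, 0⟩ 0 0) (.pos 98 .pp ⟨2615146992, 0, 0, 0, 0, 0, 0, 0, 0, ⟨0, 0⟩, 0⟩ 0 0)))))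 (.pos 10 .pp ⟨0, 0, 0, 0, 0, 0, 0, 0, 0, ⟨0, 0⟩, 0⟩ 0 0)) (.cut .v 134217728 (.cut .v 100663296 (.cut .d 1547631 (.cut .d 773815 (.pos 75 .pp ⟨9375228780, 0, 0, 0, 0, 0, 0, 0, 0, ⟨0, 0⟩, 0⟩ 0 0) (.cut .v 83886080 (.cut .d 1160723 (.cut .v 75497472 (.pos 99 .pp ⟨3732560413, 0, 0, 0, 0, 0, 0, 0, 0, ⟨0, 0⟩, 0⟩ 0 0) (.cut .d 967269 (.pos 100 .pp ⟨6035356461, 0, 0, 0, 0, 0, 0, 0, 0, ⟨0, 0⟩, 0⟩ 0 0) (.cut .s 12484608 (.pos 100 .pp ⟨4474423799, 0, 0, 0, 0, 0, 0, 0, 0, ⟨0, 0⟩, 0⟩ 0 0) (.pos 100 .pp ⟨4586574202, 0, 0, 0, 0, 0, 0, 0, 0, ⟨0, 0⟩, 0⟩ 0 0)))) (.cut .v 75497472 (.pos 99 .pp ⟨2972450263, 0, 0, 0, 0, 0, 0, 0, 0, ⟨0, 0⟩, 0⟩ 0 0) (.pos 100 .pp ⟨3710510716,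 0, 0, 0, 0, 0, 0, 0, 0, ⟨0, 0⟩, 0⟩ 0 0))) (.cut .d 1160723 (.cut .v 92274688 (.cut .v 88080384 (.cut .d 967269 (.pos 135 .pp ⟨6508303336, 390322396, 0, 0, 0, 0, 0, 0, 0, ⟨0, 0⟩, 0⟩ 0 0) (.cut .l 6001081 (.void 135 ⟨38289, 61711, 0, 0, 0, 0, 0, 0, 0, ⟨0, 0⟩, 0⟩ 0 0) (.cut .l 8162761 (.pos 135 .pp ⟨5355397530, 938243069, 0, 0, 0, 0, 0, 0, 0, ⟨0, 0⟩, 0⟩ 0 0) (.cut .s 12484608 (.cut .l 9243601 (.pos 135 .pp ⟨5328072483, 221484201, 0, 0, 0, 0, 0, 0, 0, ⟨0, 0⟩, 0⟩ 0 0) (.cut .v 85983232 (.cut .s 12369920 (.pos 137 .pp ⟨4866806532, 196510426, 0, 0, 0, 0, 0, 0, 0, ⟨0, 0⟩, 0⟩ 0 0) (.pos 137 .pp ⟨4860686967, 0, 0, 0, 0, 0, 0, 0, 0, ⟨0, 0⟩, 0⟩ 0 0)) (.cut .d 1063996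 (.cut .s 12369920 (.void 138 ⟨100000, 0, 0, 0, 0, 0, 0, 0, 0, ⟨0, 0⟩, 0⟩ 0 0) (.pos 138 .pp ⟨5495441534, 765702347, 0, 0, 0, 0, 0, 0, 0, ⟨0, 0⟩, 0⟩ 0 0)) (.void 138 ⟨24016, 75984, 0, 0, 0, 0, 0, 0, 0, ⟨0, 0⟩, 0⟩ 0 0)))) (.cut .v 85983232 (.pos 137 .pp ⟨5046105303, 0, 0, 0, 0, 0, 0, 0, 0, ⟨0, 0⟩, 0⟩ 0 0) (.cut .s 12599296 (.cut .d 1063996 (.pos 138 .pp ⟨5626222137, 741283401, 0, 0, 0, 0, 0, 0, 0, ⟨0, 0⟩, 0⟩ 0 0) (.void 138 ⟨0, 100000, 0, 0, 0, 0, 0, 0, 0, ⟨0, 0⟩, 0⟩ 0 0)) (.pos 138 .pp ⟨5716793641, 720592484, 0, 0, 0, 0, 0, 0, 0, ⟨0, 0⟩, 0⟩ 0 0))))))) (.void 136 ⟨38417, 61583, 0, 0, 0, 0, 0, 0, 0, ⟨0, 0⟩, 0⟩ 0 0)) (.void 130 ⟨38417, 61583, 0, 0, 0, 0,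 0, 0, 0, ⟨0, 0⟩, 0⟩ 0 0)) (.pos 88 .pp ⟨3731076811, 1739025496, 0, 0, 0, 0, 0, 0, 0, ⟨0, 0⟩, 0⟩ 0 0)))) (.pos 75 .pp ⟨0, 1120966399, 0, 0, 0, 0, 0, 0, 0, ⟨0, 0⟩, 0⟩ 0 0)) (.void 76 ⟨37659, 62341, 0, 0, 0, 0, 0, 0, 0, ⟨0, 0⟩, 0⟩ 0 0)) (.void 71 ⟨89426, 0, 0, 10574, 0, 0, 0, 0, 0, ⟨0, 0⟩, 0⟩ 0 0))) (.pos 66 .pp ⟨0, 143866885, 0, 0, 0, 0, 0, 0, 0, ⟨0, 0⟩, 0⟩ 0 0)) (.void 74 ⟨0, 0, 0, 100000, 0, 0, 0, 0, 0, ⟨0, 0⟩, 0⟩ 0 0)))),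
    by decide +kernel⟩

def covers19 : cell.Covers table row19.1 :=
  ⟨(.cut .d 0 (.cut .v 16777216 (.cut .d (-8388608) (.void 1 ⟨0, 0, 0, 0, 0, 100000, 0, 0, 0, ⟨0, 0⟩, 0⟩ 0 0) (.cut .d (-4194304) (.pos 1 .mm ⟨0, 0, 0, 0, 0, 167772160000, 0, 0, 0, ⟨0, 0⟩, 0⟩ 0 0) (.cut .d (-2097152) (.void 1 ⟨0, 0, 0, 0, 0, 100000, 0, 0, 0, ⟨0, 0⟩, 0⟩ 0 0) (.cut .d (-1048576) (.void 1 ⟨0, 0, 0, 0, 0, 100000, 0, 0, 0, ⟨0, 0⟩, 0⟩ 0 0) (.cut .v 8388608 (.cut .v 4194304 (.void 4 ⟨0, 0, 100000, 0, 0, 0, 0, 0, 0, ⟨0, 0⟩, 0⟩ 0 0) (.pos 5 .mm ⟨0, 0, 43661651, 0, 0, 408456335, 0, 0, 0, ⟨0, 0⟩, 0⟩ 0 0)) (.cut .d (-524288) (.pos 3 .mm ⟨0, 0, 0, 0, 0, 1157957779, 0, 0, 0, ⟨0, 0⟩,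 0⟩ 0 0) (.cut .v 12582912 (.pos 6 .mm ⟨0, 0, 0, 0, 0, 564958687, 0, 0, 0, ⟨0, 0⟩, 0⟩ 0 0) (.cut .v 14680064 (.pos 8 .mm ⟨0, 0, 0, 0, 0, 781624261, 0, 0, 0, ⟨0, 0⟩, 0⟩ 0 0) (.cut .d (-262144) (.pos 9 .mm ⟨0, 0, 0, 0, 0, 1038382355, 0, 0, 0, ⟨0, 0⟩, 0⟩ 0 0) (.cut .v 15728640 (.pos 45 .mm ⟨0, 0, 0, 0, 0, 813441410, 0, 0, 0, ⟨0, 0⟩, 0⟩ 0 0) (.cut .d (-131072) (.pos 46 .mm ⟨0, 0, 0, 0, 0, 973447067, 0, 0, 0, ⟨0, 0⟩, 0⟩ 0 0) (.cut .d (-65536) (.pos 46 .mm ⟨0, 0, 0, 0, 0, 871338001, 0, 0, 0, ⟨0, 0⟩, 0⟩ 0 0) (.pos 46 .mm ⟨0, 0, 0, 0, 0, 0, 0, 0, 0, ⟨0, 0⟩, 0⟩ 0 0))))))))))))) (.cut .v 268435456 (.cut .v 67108864 (.cut .v 33554432 (.cut .d (-8388608) (.void 11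 ⟨100000, 0, 0, 0, 0, 0, 0, 0, 0, ⟨0, 0⟩, 0⟩ 0 0) (.cut .d (-4194304) (.void 11 ⟨100000, 0, 0, 0, 0, 0, 0, 0, 0, ⟨0, 0⟩, 0⟩ 0 0) (.cut .d (-2097152) (.void 11 ⟨100000, 0, 0, 0, 0, 0, 0, 0, 0, ⟨0, 0⟩, 0⟩ 0 0) (.cut .v 25165824 (.cut .d (-1048576) (.void 13 ⟨100000, 0, 0, 0, 0, 0, 0, 0, 0, ⟨0, 0⟩, 0⟩ 0 0) (.cut .d (-524288) (.pos 13 .mp ⟨1153634210, 0, 0, 0, 0, 0, 0, 0, 0, ⟨0, 0⟩, 0⟩ 0 0) (.cut .v 20971520 (.cut .d (-262144) (.pos 15 .mp ⟨792327900, 0, 0, 0, 0, 0, 0, 0, 0, ⟨0, 0⟩, 0⟩ 0 0) (.cut .d (-131072) (.pos 15 .mp ⟨622741511, 0, 0, 0, 0, 136669986, 0, 0, 0, ⟨0, 0⟩, 0⟩ 0 0) (.cut .d (-65536) (.cut .d (-98304) (.pos 15 .mp ⟨475419811, 0, 0, 0, 0, 330566079,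 0, 0, 0, ⟨0, 0⟩, 0⟩ 0 0) (.cut .v 18874368 (.cut .s 12976128 (.pos 17 .mp ⟨322318062, 0, 0, 0, 0, 234140125, 0, 0, 0, ⟨0, 0⟩, 0⟩ 0 0) (.pos 17 .mp ⟨368493440, 0, 0, 0, 0, 276400546, 0, 0, 0, ⟨0, 0⟩, 0⟩ 0 0)) (.pos 18 .mp ⟨835707689, 0, 0, 0, 0, 0, 0, 0, 0, ⟨0, 0⟩, 0⟩ 0 0))) (.pos 15 .mp ⟨399241390, 0, 0, 0, 0, 0, 0, 0, 0, ⟨0, 0⟩, 0⟩ 0 0)))) (.pos 16 .mp ⟨1032221190, 0, 0, 0, 0, 0, 0, 0, 0, ⟨0, 0⟩, 0⟩ 0 0)))) (.pos 14 .mp ⟨2059027669, 0, 0, 0, 0, 0, 0, 0, 0, ⟨0, 0⟩, 0⟩ 0 0))))) (.void 12 ⟨100000, 0, 0, 0, 0, 0, 0, 0, 0, ⟨0, 0⟩, 0⟩ 0 0)) (.void 67 ⟨100000, 0, 0, 0, 0, 0, 0, 0, 0, ⟨0, 0⟩, 0⟩ 0 0)) (.void 74 ⟨94665, 0, 0, 5335, 0, 0, 0, 0, 0, ⟨0, 0⟩, 0⟩ 0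 0))) (.cut .v 16777216 (.cut .v 8388608 (.cut .v 4194304 (.cut .v 2097152 (.cut .d 2680896 (.void 79 ⟨0, 0, 100000, 0, 0, 0, 0, 0, 0, ⟨0, 0⟩, 0⟩ 0 0) (.cut .v 1048576 (.cut .v 524288 (.pos 145 .pm ⟨0, 5686881, 0, 0, 0, 0, 0, 0, 0, ⟨0, 0⟩, 0⟩ 0 0) (.pos 146 .pm ⟨0, 32953358, 0, 0, 0, 0, 0, 0, 0, ⟨0, 0⟩, 0⟩ 0 0)) (.cut .d 4021344 (.pos 108 .pm ⟨0, 0, 0, 0, 0, 0, 0, 0, 0, ⟨0, 0⟩, 0⟩ 0 0) (.pos 108 .pm ⟨0, 88177436, 0, 0, 0, 0, 0, 0, 0, ⟨0, 0⟩, 0⟩ 0 0)))) (.cut .d 2680896 (.pos 80 .pm ⟨0, 0, 84430086, 0, 0, 0, 0, 0, 0, ⟨0, 0⟩, 0⟩ 0 0) (.cut .d 4021344 (.pos 80 .pm ⟨0, 0, 0, 0, 0, 0, 0, 0, 0, ⟨0, 0⟩, 0⟩ 0 0) (.cut .l 6001081 (.cut .d 4691568 (.cut .s 12976128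 (.pos 80 .pm ⟨0, 0, 0, 0, 0, 0, 0, 0, 0, ⟨0, 0⟩, 0⟩ 0 0) (.cut .d 4356456 (.pos 80 .pm ⟨0, 41757151, 0, 0, 0, 0, 0, 0, 0, ⟨0, 0⟩, 0⟩ 0 0) (.pos 80 .pm ⟨0, 130921865, 0, 0, 0, 0, 0, 0, 0, ⟨0, 0⟩, 0⟩ 0 0))) (.cut .s 12976128 (.cut .d 5026680 (.pos 80 .pm ⟨0, 113884223, 0, 0, 0, 0, 0, 0, 0, ⟨0, 0⟩, 0⟩ 0 0) (.pos 80 .pm ⟨0, 155775644, 0, 0, 0, 0, 0, 0, 0, ⟨0, 0⟩, 0⟩ 0 0)) (.pos 80 .pm ⟨0, 206470753, 0, 0, 0, 0, 0, 0, 0, ⟨0, 0⟩, 0⟩ 0 0))) (.pos 80 .pm ⟨0, 121366574, 0, 0, 0, 0, 0, 0, 0, ⟨0, 0⟩, 0⟩ 0 0))))) (.cut .d 2680896 (.pos 5 .pm ⟨0, 0, 14352398, 0, 0, 0, 0, 0, 0, ⟨0, 0⟩, 0⟩ 0 0) (.cut .d 4021344 (.pos 5 .pm ⟨0, 0, 0, 0, 0, 0, 0, 0, 0, ⟨0, 0⟩, 0⟩ 0 0)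 (.cut .l 6001081 (.cut .d 4691568 (.cut .s 12976128 (.pos 5 .pm ⟨0, 0, 0, 0, 0, 0, 0, 0, 0, ⟨0, 0⟩, 0⟩ 0 0) (.pos 5 .pm ⟨0, 156243704, 0, 0, 0, 0, 0, 0, 0, ⟨0, 0⟩, 0⟩ 0 0)) (.cut .s 12976128 (.cut .d 5026680 (.pos 5 .pm ⟨0, 143292713, 0, 0, 0, 0, 0, 0, 0, ⟨0, 0⟩, 0⟩ 0 0) (.pos 5 .pm ⟨0, 194969113, 0, 0, 0, 0, 0, 0, 0, ⟨0, 0⟩, 0⟩ 0 0)) (.pos 5 .pm ⟨0, 264775079, 0, 0, 0, 0, 0, 0, 0, ⟨0, 0⟩, 0⟩ 0 0))) (.pos 5 .pm ⟨0, 166286040, 0, 0, 0, 0, 0, 0, 0, ⟨0, 0⟩, 0⟩ 0 0))))) (.cut .d 2680896 (.pos 3 .pm ⟨0, 0, 0, 0, 0, 0, 0, 0, 0, ⟨0, 0⟩, 0⟩ 0 0) (.cut .d 4021344 (.pos 3 .pm ⟨0, 0, 0, 0, 0, 0, 0, 0, 0, ⟨0, 0⟩, 0⟩ 0 0) (.pos 3 .pm ⟨0, 272535638, 0, 0, 0, 0, 0,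 0, 0, ⟨0, 0⟩, 0⟩ 0 0)))) (.cut .v 268435456 (.cut .d 2680896 (.cut .v 67108864 (.cut .d 1340448 (.cut .v 33554432 (.cut .d 670224 (.cut .d 335112 (.cut .v 25165824 (.cut .v 20971520 (.pos 15 .pp ⟨281479732, 0, 0, 0, 0, 0, 0, 0, 0, ⟨0, 0⟩, 0⟩ 0 0) (.pos 16 .pp ⟨645170229, 0, 0, 0, 0, 0, 0, 0, 0, ⟨0, 0⟩, 0⟩ 0 0)) (.pos 14 .pp ⟨1198551130, 0, 0, 0, 0, 0, 0, 0, 0, ⟨0, 0⟩, 0⟩ 0 0)) (.pos 11 .pp ⟨364293812, 0, 0, 0, 0, 0, 0, 0, 0, ⟨0, 0⟩, 0⟩ 0 0)) (.pos 11 .pp ⟨0, 0, 0, 0, 0, 0, 0, 0, 0, ⟨0, 0⟩, 0⟩ 0 0)) (.cut .v 50331648 (.cut .d 670224 (.cut .v 41943040 (.pos 35 .pp ⟨1788176834, 0, 0, 0, 0, 0, 0, 0, 0, ⟨0, 0⟩, 0⟩ 0 0) (.pos 36 .pp ⟨2649534050, 0, 0, 0, 0,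 0, 0, 0, 0, ⟨0, 0⟩, 0⟩ 0 0)) (.pos 33 .pp ⟨1158617631, 0, 0, 0, 0, 0, 0, 0, 0, ⟨0, 0⟩, 0⟩ 0 0)) (.cut .d 670224 (.pos 34 .pp ⟨4498331122, 0, 0, 0, 0, 0, 0, 0, 0, ⟨0, 0⟩, 0⟩ 0 0) (.cut .v 58720256 (.pos 97 .pp ⟨2448979632, 0, 0, 0, 0, 0, 0, 0, 0, ⟨0, 0⟩, 0⟩ 0 0) (.pos 98 .pp ⟨3314737670, 0, 0, 0, 0, 0, 0, 0, 0, ⟨0, 0⟩, 0⟩ 0 0))))) (.pos 10 .pp ⟨0, 0, 0, 0, 0, 0, 0, 0, 0, ⟨0, 0⟩, 0⟩ 0 0)) (.cut .v 134217728 (.cut .v 100663296 (.cut .d 1340448 (.cut .d 670224 (.pos 75 .pp ⟨11442685800, 0, 0, 0, 0, 0, 0, 0, 0, ⟨0, 0⟩, 0⟩ 0 0) (.cut .v 83886080 (.cut .d 1005336 (.cut .v 75497472 (.pos 99 .pp ⟨4778408817, 0, 0, 0, 0, 0, 0, 0, 0, ⟨0, 0⟩, 0⟩ 0 0) (.cut .d 837780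 (.pos 100 .pp ⟨7533157986, 0, 0, 0, 0, 0, 0, 0, 0, ⟨0, 0⟩, 0⟩ 0 0) (.pos 100 .pp ⟨5730635295, 0, 0, 0, 0, 0, 0, 0, 0, ⟨0, 0⟩, 0⟩ 0 0))) (.cut .v 75497472 (.pos 99 .pp ⟨3884620422, 0, 0, 0, 0, 0, 0, 0, 0, ⟨0, 0⟩, 0⟩ 0 0) (.cut .s 12976128 (.pos 100 .pp ⟨4715649955, 0, 0, 0, 0, 0, 0, 0, 0, ⟨0, 0⟩, 0⟩ 0 0) (.pos 100 .pp ⟨5122233575, 0, 0, 0, 0, 0, 0, 0, 0, ⟨0, 0⟩, 0⟩ 0 0)))) (.cut .v 92274688 (.cut .d 1005336 (.cut .l 6001081 (.pos 129 .pp ⟨8149960516, 824116928, 0, 0, 0, 0, 0, 0, 0, ⟨0, 0⟩, 0⟩ 0 0) (.cut .v 88080384 (.cut .d 837780 (.pos 135 .pp ⟨9222655800, 32525584, 0, 0, 0, 0, 0, 0, 0, ⟨0, 0⟩, 0⟩ 0 0) (.cut .s 12976128 (.cut .v 85983232 (.pos 137 .pp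 ⟨5939824380, 0, 0, 0, 0, 0, 0, 0, 0, ⟨0, 0⟩, 0⟩ 0 0) (.cut .l 8162761 (.void 138 ⟨37996, 62004, 0, 0, 0, 0, 0, 0, 0, ⟨0, 0⟩, 0⟩ 0 0) (.cut .l 9243601 (.pos 138 .pp ⟨6651296688, 1149164412, 0, 0, 0, 0, 0, 0, 0, ⟨0, 0⟩, 0⟩ 0 0) (.cut .d 921558 (.cut .s 12845056 (.pos 138 .pp ⟨6670320733, 635037447, 0, 0, 0, 0, 0, 0, 0, ⟨0, 0⟩, 0⟩ 0 0) (.cut .s 12910592 (.cut .s 12877824 (.pos 138 .pp ⟨6734033847, 615147879, 0, 0, 0, 0, 0, 0, 0, ⟨0, 0⟩, 0⟩ 0 0) (.pos 138 .pp ⟨6787683179, 597143638, 0, 0, 0, 0, 0, 0, 0, ⟨0, 0⟩, 0⟩ 0 0)) (.pos 138 .pp ⟨6845069586, 575001213, 0, 0, 0, 0, 0, 0, 0, ⟨0, 0⟩, 0⟩ 0 0))) (.cut .s 12845056 (.pos 138 .pp ⟨6230553705, 769783514, 0, 0,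 0, 0, 0, 0, 0, ⟨0, 0⟩, 0⟩ 0 0) (.pos 138 .pp ⟨5360981421, 1030648253, 0, 0, 0, 0, 0, 0, 0, ⟨0, 0⟩, 0⟩ 0 0)))))) (.cut .d 921558 (.pos 135 .pp ⟨6880352045, 439099663, 0, 0, 0, 0, 0, 0, 0, ⟨0, 0⟩, 0⟩ 0 0) (.pos 135 .pp ⟨5787274773, 776942068, 0, 0, 0, 0, 0, 0, 0, ⟨0, 0⟩, 0⟩ 0 0)))) (.cut .d 837780 (.pos 136 .pp ⟨11560618550, 6697992726, 0, 0, 0, 0, 0, 0, 0, ⟨0, 0⟩, 0⟩ 0 0) (.void 136 ⟨25967, 74033, 0, 0, 0, 0, 0, 0, 0, ⟨0, 0⟩, 0⟩ 0 0)))) (.cut .l 6001081 (.pos 129 .pp ⟨6268594814, 1001949994, 0, 0, 0, 0, 0, 0, 0, ⟨0, 0⟩, 0⟩ 0 0) (.pos 129 .pp ⟨4744864679, 1441857710, 0, 0, 0, 0, 0, 0, 0, ⟨0, 0⟩, 0⟩ 0 0))) (.void 130 ⟨37415, 62585, 0, 0, 0, 0, 0, 0, 0, ⟨0,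 0⟩, 0⟩ 0 0)))) (.pos 75 .pp ⟨0, 1551713660, 0, 0, 0, 0, 0, 0, 0, ⟨0, 0⟩, 0⟩ 0 0)) (.void 76 ⟨36979, 63021, 0, 0, 0, 0, 0, 0, 0, ⟨0, 0⟩, 0⟩ 0 0)) (.void 71 ⟨89148, 0, 0, 10852, 0, 0, 0, 0, 0, ⟨0, 0⟩, 0⟩ 0 0))) (.pos 66 .pp ⟨0, 215567680, 0, 0, 0, 0, 0, 0, 0, ⟨0, 0⟩, 0⟩ 0 0)) (.void 74 ⟨0, 0, 0, 100000, 0, 0, 0, 0, 0, ⟨0, 0⟩, 0⟩ 0 0)))),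
    by decide +kernel⟩

def covers20 : cell.Covers table row20.1 :=
  ⟨(.cut .d 0 (.cut .v 16777216 (.cut .d (-8388608) (.void 1 ⟨0, 0, 0, 0, 0, 100000, 0, 0, 0, ⟨0, 0⟩, 0⟩ 0 0) (.cut .d (-4194304) (.void 1 ⟨0, 0, 0, 0, 0, 124051, 0, 0, 0, ⟨0, 0⟩, 0⟩ 0 0) (.cut .v 8388608 (.pos 2 .mm ⟨0, 0, 1050482649, 0, 0, 58281374, 0, 0, 0, ⟨0, 0⟩, 0⟩ 0 0) (.cut .d (-2097152) (.void 3 ⟨0, 0, 0, 0, 0, 100000, 0, 0, 0, ⟨0, 0⟩, 0⟩ 0 0) (.cut .d (-1048576) (.void 3 ⟨0, 0, 0, 0, 0, 100000, 0, 0, 0, ⟨0, 0⟩, 0⟩ 0 0) (.cut .d (-524288) (.pos 3 .mm ⟨0, 0, 3094603, 0, 0, 1751075632, 0, 0, 0, ⟨0, 0⟩, 0⟩ 0 0) (.cut .v 12582912 (.cut .d (-262144) (.pos 6 .mm ⟨0, 0, 0, 0, 0, 961870456,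 0, 0, 0, ⟨0, 0⟩, 0⟩ 0 0) (.pos 6 .mm ⟨0, 0, 0, 0, 0, 744458118, 0, 0, 0, ⟨0, 0⟩, 0⟩ 0 0)) (.cut .d (-262144) (.cut .l 6001081 (.pos 7 .mm ⟨70977890, 0, 0, 0, 0, 1544138365, 0, 0, 0, ⟨0, 0⟩, 0⟩ 0 0) (.pos 7 .mm ⟨0, 0, 0, 0, 0, 1348715715, 0, 0, 0, ⟨0, 0⟩, 0⟩ 0 0)) (.cut .v 14680064 (.pos 8 .mm ⟨0, 0, 0, 0, 0, 1064148491, 0, 0, 0, ⟨0, 0⟩, 0⟩ 0 0) (.cut .v 15728640 (.pos 45 .mm ⟨0, 0, 0, 0, 0, 1192885706, 0, 0, 0, ⟨0, 0⟩, 0⟩ 0 0) (.cut .d (-131072) (.pos 46 .mm ⟨0, 0, 0, 0, 0, 1391535145, 0, 0, 0, ⟨0, 0⟩, 0⟩ 0 0) (.cut .d (-65536) (.pos 46 .mm ⟨0, 0, 0, 0, 0, 1328776848, 0, 0, 0, ⟨0, 0⟩, 0⟩ 0 0) (.pos 46 .mm ⟨0, 0, 0, 0, 0, 1004380111, 0, 0, 0, ⟨0, 0⟩, 0⟩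 0 0))))))))))))) (.cut .v 268435456 (.cut .v 67108864 (.cut .v 33554432 (.cut .d (-8388608) (.void 11 ⟨100000, 0, 0, 0, 0, 0, 0, 0, 0, ⟨0, 0⟩, 0⟩ 0 0) (.cut .d (-4194304) (.void 11 ⟨100000, 0, 0, 0, 0, 0, 0, 0, 0, ⟨0, 0⟩, 0⟩ 0 0) (.cut .d (-2097152) (.void 11 ⟨100000, 0, 0, 0, 0, 0, 0, 0, 0, ⟨0, 0⟩, 0⟩ 0 0) (.cut .v 25165824 (.cut .d (-1048576) (.void 13 ⟨100000, 0, 0, 0, 0, 0, 0, 0, 0, ⟨0, 0⟩, 0⟩ 0 0) (.cut .d (-524288) (.pos 13 .mp ⟨1636436953, 0, 0, 0, 0, 0, 0, 0, 0, ⟨0, 0⟩, 0⟩ 0 0) (.cut .v 20971520 (.cut .d (-262144) (.pos 15 .mp ⟨1103975797, 0, 0, 0, 0, 0, 0, 0, 0, ⟨0, 0⟩, 0⟩ 0 0) (.cut .d (-131072) (.pos 15 .mp ⟨998168487, 0, 0, 0, 0, 0, 0, 0,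 0, ⟨0, 0⟩, 0⟩ 0 0) (.cut .d (-65536) (.cut .v 18874368 (.cut .s 13500416 (.pos 17 .mp ⟨362792763, 0, 0, 0, 0, 796634185, 0, 0, 0, ⟨0, 0⟩, 0⟩ 0 0) (.pos 17 .mp ⟨390649742, 0, 0, 0, 0, 969779981, 0, 0, 0, ⟨0, 0⟩, 0⟩ 0 0)) (.pos 18 .mp ⟨1147590381, 0, 0, 0, 0, 0, 0, 0, 0, ⟨0, 0⟩, 0⟩ 0 0)) (.pos 15 .mp ⟨516746811, 0, 0, 0, 0, 147278317, 0, 0, 0, ⟨0, 0⟩, 0⟩ 0 0)))) (.pos 16 .mp ⟨1397466930, 0, 0, 0, 0, 0, 0, 0, 0, ⟨0, 0⟩, 0⟩ 0 0)))) (.pos 14 .mp ⟨2851935611, 0, 0, 0, 0, 0, 0, 0, 0, ⟨0, 0⟩, 0⟩ 0 0))))) (.void 12 ⟨100000, 0, 0, 0, 0, 0, 0, 0, 0, ⟨0, 0⟩, 0⟩ 0 0)) (.void 67 ⟨100000, 0, 0, 0, 0, 0, 0, 0, 0, ⟨0, 0⟩, 0⟩ 0 0)) (.void 74 ⟨94465, 0, 0, 5535, 0, 0, 0,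 0, 0, ⟨0, 0⟩, 0⟩ 0 0))) (.cut .v 16777216 (.cut .v 8388608 (.cut .v 4194304 (.cut .v 2097152 (.cut .d 2242500 (.void 79 ⟨0, 0, 100000, 0, 0, 0, 0, 0, 0, ⟨0, 0⟩, 0⟩ 0 0) (.cut .v 1048576 (.cut .v 524288 (.pos 145 .pm ⟨0, 12024473, 0, 0, 0, 0, 0, 0, 0, ⟨0, 0⟩, 0⟩ 0 0) (.pos 146 .pm ⟨0, 46394900, 0, 0, 0, 0, 0, 0, 0, ⟨0, 0⟩, 0⟩ 0 0)) (.cut .d 3363750 (.pos 108 .pm ⟨0, 0, 0, 0, 0, 0, 0, 0, 0, ⟨0, 0⟩, 0⟩ 0 0) (.cut .d 3924375 (.pos 108 .pm ⟨0, 95526797, 0, 0, 0, 0, 0, 0, 0, ⟨0, 0⟩, 0⟩ 0 0) (.pos 108 .pm ⟨0, 142421151, 0, 0, 0, 0, 0, 0, 0, ⟨0, 0⟩, 0⟩ 0 0))))) (.cut .d 2242500 (.pos 80 .pm ⟨0, 0, 136434302, 0, 0, 0, 0, 0, 0, ⟨0, 0⟩, 0⟩ 0 0) (.cut .d 3363750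 (.pos 80 .pm ⟨0, 0, 0, 0, 0, 0, 0, 0, 0, ⟨0, 0⟩, 0⟩ 0 0) (.cut .d 3924375 (.cut .s 13500416 (.pos 80 .pm ⟨0, 0, 0, 0, 0, 0, 0, 0, 0, ⟨0, 0⟩, 0⟩ 0 0) (.cut .d 3644062 (.pos 80 .pm ⟨0, 129162890, 0, 0, 0, 0, 0, 0, 0, ⟨0, 0⟩, 0⟩ 0 0) (.pos 80 .pm ⟨0, 170838985, 0, 0, 0, 0, 0, 0, 0, ⟨0, 0⟩, 0⟩ 0 0))) (.cut .s 13500416 (.cut .d 4204688 (.pos 80 .pm ⟨0, 136923494, 0, 0, 0, 0, 0, 0, 0, ⟨0, 0⟩, 0⟩ 0 0) (.pos 80 .pm ⟨0, 184202162, 0, 0, 0, 0, 0, 0, 0, ⟨0, 0⟩, 0⟩ 0 0)) (.pos 80 .pm ⟨0, 268713155, 0, 0, 0, 0, 0, 0, 0, ⟨0, 0⟩, 0⟩ 0 0)))))) (.cut .d 2242500 (.pos 5 .pm ⟨0, 0, 30654860, 0, 0, 0, 0, 0, 0, ⟨0, 0⟩, 0⟩ 0 0) (.cut .d 3363750 (.pos 5 .pm ⟨0, 0, 0, 0, 0,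 0, 0, 0, 0, ⟨0, 0⟩, 0⟩ 0 0) (.cut .d 3924375 (.pos 5 .pm ⟨0, 170732572, 0, 0, 0, 0, 0, 0, 0, ⟨0, 0⟩, 0⟩ 0 0) (.cut .s 13500416 (.pos 5 .pm ⟨0, 217499688, 0, 0, 0, 0, 0, 0, 0, ⟨0, 0⟩, 0⟩ 0 0) (.void 5 ⟨0, 100000, 0, 0, 0, 0, 0, 0, 0, ⟨0, 0⟩, 0⟩ 0 0)))))) (.cut .d 2242500 (.pos 3 .pm ⟨0, 0, 0, 0, 0, 0, 0, 0, 0, ⟨0, 0⟩, 0⟩ 0 0) (.pos 3 .pm ⟨0, 269707330, 0, 0, 0, 0, 0, 0, 0, ⟨0, 0⟩, 0⟩ 0 0))) (.cut .v 268435456 (.cut .d 2242500 (.cut .v 67108864 (.cut .d 1121250 (.cut .v 33554432 (.cut .d 560625 (.cut .v 25165824 (.pos 13 .pp ⟨544874769, 0, 0, 0, 0, 0, 0, 0, 0, ⟨0, 0⟩, 0⟩ 0 0) (.pos 14 .pp ⟨1307882952, 0, 0, 0, 0, 0, 0, 0, 0, ⟨0, 0⟩, 0⟩ 0 0)) (.pos 11 .pp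 ⟨0, 0, 0, 0, 0, 0, 0, 0, 0, ⟨0, 0⟩, 0⟩ 0 0)) (.cut .v 50331648 (.cut .d 560625 (.cut .v 41943040 (.pos 35 .pp ⟨2309670646, 0, 0, 0, 0, 0, 0, 0, 0, ⟨0, 0⟩, 0⟩ 0 0) (.pos 36 .pp ⟨3391713211, 0, 0, 0, 0, 0, 0, 0, 0, ⟨0, 0⟩, 0⟩ 0 0)) (.pos 33 .pp ⟨1499938820, 0, 0, 0, 0, 0, 0, 0, 0, ⟨0, 0⟩, 0⟩ 0 0)) (.cut .d 560625 (.pos 34 .pp ⟨5606503393, 0, 0, 0, 0, 0, 0, 0, 0, ⟨0, 0⟩, 0⟩ 0 0) (.cut .v 58720256 (.pos 97 .pp ⟨3085097003, 0, 0, 0, 0, 0, 0, 0, 0, ⟨0, 0⟩, 0⟩ 0 0) (.pos 98 .pp ⟨4290163568, 0, 0, 0, 0, 0, 0, 0, 0, ⟨0, 0⟩, 0⟩ 0 0))))) (.pos 10 .pp ⟨0, 0, 0, 0, 0, 0, 0, 0, 0, ⟨0, 0⟩, 0⟩ 0 0)) (.cut .v 134217728 (.cut .v 100663296 (.cut .d 1121250 (.cut .d 560625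 (.cut .v 83886080 (.pos 87 .pp ⟨9789838168, 0, 0, 0, 0, 0, 0, 0, 0, ⟨0, 0⟩, 0⟩ 0 0) (.void 88 ⟨100000, 0, 0, 0, 0, 0, 0, 0, 0, ⟨0, 0⟩, 0⟩ 0 0)) (.cut .v 83886080 (.cut .v 75497472 (.cut .d 840937 (.pos 99 .pp ⟨5935548448, 0, 0, 0, 0, 0, 0, 0, 0, ⟨0, 0⟩, 0⟩ 0 0) (.pos 99 .pp ⟨5047655817, 0, 0, 0, 0, 0, 0, 0, 0, ⟨0, 0⟩, 0⟩ 0 0)) (.cut .d 840937 (.cut .s 13500416 (.pos 100 .pp ⟨7210581621, 0, 0, 0, 0, 0, 0, 0, 0, ⟨0, 0⟩, 0⟩ 0 0) (.pos 100 .pp ⟨7495398342, 0, 0, 0, 0, 0, 0, 0, 0, ⟨0, 0⟩, 0⟩ 0 0)) (.pos 100 .pp ⟨6259615029, 0, 0, 0, 0, 0, 0, 0, 0, ⟨0, 0⟩, 0⟩ 0 0))) (.cut .v 92274688 (.cut .d 840937 (.cut .l 6001081 (.pos 129 .pp ⟨10719069055, 446048930, 0,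 0, 0, 0, 0, 0, 0, ⟨0, 0⟩, 0⟩ 0 0) (.cut .s 13500416 (.cut .d 700781 (.pos 129 .pp ⟨13013179037, 0, 0, 0, 0, 0, 0, 0, 0, ⟨0, 0⟩, 0⟩ 0 0) (.cut .v 88080384 (.pos 135 .pp ⟨7842806266, 0, 0, 0, 0, 0, 0, 0, 0, ⟨0, 0⟩, 0⟩ 0 0) (.cut .s 13369344 (.pos 136 .pp ⟨8817770984, 1604222515, 0, 0, 0, 0, 0, 0, 0, ⟨0, 0⟩, 0⟩ 0 0) (.cut .v 90177536 (.cut .d 770859 (.cut .d 735820 (.pos 151 .pp ⟨9318480944, 1057242040, 0, 0, 0, 0, 0, 0, 0, ⟨0, 0⟩, 0⟩ 0 0) (.cut .s 13434880 (.pos 151 .pp ⟨8783063156, 1212948528, 0, 0, 0, 0, 0, 0, 0, ⟨0, 0⟩, 0⟩ 0 0) (.pos 151 .pp ⟨8542790203, 1286222023, 0, 0, 0, 0, 0, 0, 0, ⟨0, 0⟩, 0⟩ 0 0))) (.pos 151 .pp ⟨7081484551, 2114589062, 0, 0, 0,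 0, 0, 0, 0, ⟨0, 0⟩, 0⟩ 0 0)) (.void 152 ⟨37267, 62733, 0, 0, 0, 0, 0, 0, 0, ⟨0, 0⟩, 0⟩ 0 0))))) (.cut .d 700781 (.cut .v 88080384 (.pos 135 .pp ⟨8921098942, 0, 0, 0, 0, 0, 0, 0, 0, ⟨0, 0⟩, 0⟩ 0 0) (.cut .s 13631488 (.cut .v 90177536 (.pos 151 .pp ⟨10596704035, 884344997, 0, 0, 0, 0, 0, 0, 0, ⟨0, 0⟩, 0⟩ 0 0) (.void 152 ⟨37229, 62771, 0, 0, 0, 0, 0, 0, 0, ⟨0, 0⟩, 0⟩ 0 0)) (.pos 136 .pp ⟨10514576960, 1010593880, 0, 0, 0, 0, 0, 0, 0, ⟨0, 0⟩, 0⟩ 0 0))) (.cut .v 88080384 (.pos 135 .pp ⟨8248197266, 0, 0, 0, 0, 0, 0, 0, 0, ⟨0, 0⟩, 0⟩ 0 0) (.cut .v 90177536 (.cut .v 89128960 (.pos 153 .pp ⟨8631839064, 335714631, 0, 0, 0, 0, 0, 0, 0, ⟨0, 0⟩, 0⟩ 0 0) (.pos 154 .pp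 ⟨9124483501, 1432551188, 0, 0, 0, 0, 0, 0, 0, ⟨0, 0⟩, 0⟩ 0 0)) (.void 152 ⟨24543, 75457, 0, 0, 0, 0, 0, 0, 0, ⟨0, 0⟩, 0⟩ 0 0)))))) (.pos 129 .pp ⟨7162460226, 1799068115, 0, 0, 0, 0, 0, 0, 0, ⟨0, 0⟩, 0⟩ 0 0)) (.void 130 ⟨36726, 63274, 0, 0, 0, 0, 0, 0, 0, ⟨0, 0⟩, 0⟩ 0 0)))) (.pos 75 .pp ⟨0, 2114237413, 0, 0, 0, 0, 0, 0, 0, ⟨0, 0⟩, 0⟩ 0 0)) (.void 76 ⟨36360, 63640, 0, 0, 0, 0, 0, 0, 0, ⟨0, 0⟩, 0⟩ 0 0)) (.void 71 ⟨76351, 0, 0, 23649, 0, 0, 0, 0, 0, ⟨0, 0⟩, 0⟩ 0 0))) (.pos 66 .pp ⟨0, 315673666, 0, 0, 0, 0, 0, 0, 0, ⟨0, 0⟩, 0⟩ 0 0)) (.void 74 ⟨0, 0, 0, 100000, 0, 0, 0, 0, 0, ⟨0, 0⟩, 0⟩ 0 0)))),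
    by decide +kernel⟩

def covers21 : cell.Covers table row21.1 :=
  ⟨(.cut .d 0 (.cut .v 16777216 (.cut .v 8388608 (.pos 2 .mm ⟨0, 0, 4128854533, 0, 0, 0, 0, 0, 0, ⟨0, 0⟩, 0⟩ 0 0) (.cut .d (-8388608) (.void 3 ⟨100000, 0, 0, 0, 0, 0, 0, 0, 0, ⟨0, 0⟩, 0⟩ 0 0) (.cut .d (-4194304) (.void 3 ⟨100000, 0, 0, 0, 0, 0, 0, 0, 0, ⟨0, 0⟩, 0⟩ 0 0) (.cut .d (-2097152) (.void 3 ⟨80223, 0, 19777, 0, 0, 0, 0, 0, 0, ⟨0, 0⟩, 0⟩ 0 0) (.cut .d (-1048576) (.void 3 ⟨0, 0, 0, 0, 0, 100000, 0, 0, 0, ⟨0, 0⟩, 0⟩ 0 0) (.cut .d (-524288) (.void 3 ⟨0, 0, 0, 0, 0, 100000, 0, 0, 0, ⟨0, 0⟩, 0⟩ 0 0) (.cut .v 12582912 (.cut .d (-262144) (.pos 6 .mm ⟨0, 0, 0, 0, 0, 1272096589, 0, 0, 0,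 ⟨0, 0⟩, 0⟩ 0 0) (.cut .v 10485760 (.pos 81 .mm ⟨0, 0, 0, 0, 0, 888230062, 0, 0, 0, ⟨0, 0⟩, 0⟩ 0 0) (.pos 82 .mm ⟨0, 0, 0, 0, 0, 1121487247, 0, 0, 0, ⟨0, 0⟩, 0⟩ 0 0))) (.cut .d (-262144) (.pos 7 .mm ⟨0, 0, 0, 0, 0, 1888578008, 0, 0, 0, ⟨0, 0⟩, 0⟩ 0 0) (.cut .v 14680064 (.pos 8 .mm ⟨0, 0, 0, 0, 0, 1365890283, 0, 0, 0, ⟨0, 0⟩, 0⟩ 0 0) (.cut .v 15728640 (.pos 45 .mm ⟨0, 0, 0, 0, 0, 1550128312, 0, 0, 0, ⟨0, 0⟩, 0⟩ 0 0) (.cut .d (-131072) (.pos 46 .mm ⟨0, 0, 0, 0, 0, 1770981827, 0, 0, 0, ⟨0, 0⟩, 0⟩ 0 0) (.cut .d (-65536) (.pos 46 .mm ⟨0, 0, 0, 0, 0, 1687755158, 0, 0, 0, ⟨0, 0⟩, 0⟩ 0 0) (.pos 46 .mm ⟨0, 0, 0, 0, 0, 1398010489, 0, 0, 0, ⟨0, 0⟩, 0⟩ 0 0)))))))))))))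 (.cut .v 268435456 (.cut .v 67108864 (.cut .v 33554432 (.cut .d (-8388608) (.void 11 ⟨100000, 0, 0, 0, 0, 0, 0, 0, 0, ⟨0, 0⟩, 0⟩ 0 0) (.cut .d (-4194304) (.void 11 ⟨100000, 0, 0, 0, 0, 0, 0, 0, 0, ⟨0, 0⟩, 0⟩ 0 0) (.cut .d (-2097152) (.void 11 ⟨100000, 0, 0, 0, 0, 0, 0, 0, 0, ⟨0, 0⟩, 0⟩ 0 0) (.cut .v 25165824 (.cut .d (-1048576) (.void 13 ⟨100000, 0, 0, 0, 0, 0, 0, 0, 0, ⟨0, 0⟩, 0⟩ 0 0) (.cut .d (-524288) (.void 13 ⟨100000, 0, 0, 0, 0, 0, 0, 0, 0, ⟨0, 0⟩, 0⟩ 0 0) (.cut .v 20971520 (.cut .d (-262144) (.pos 15 .mp ⟨1375983451, 0, 0, 0, 0, 0, 0, 0, 0, ⟨0, 0⟩, 0⟩ 0 0) (.cut .d (-131072) (.pos 15 .mp ⟨1224101388, 0, 0, 0, 0, 0, 0, 0, 0, ⟨0, 0⟩, 0⟩ 0 0) (.cut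 .d (-65536) (.pos 15 .mp ⟨706557940, 0, 0, 0, 0, 715026825, 0, 0, 0, ⟨0, 0⟩, 0⟩ 0 0) (.cut .v 18874368 (.pos 17 .mp ⟨457016139, 0, 0, 0, 0, 632009695, 0, 0, 0, ⟨0, 0⟩, 0⟩ 0 0) (.pos 18 .mp ⟨1378221150, 0, 0, 0, 0, 0, 0, 0, 0, ⟨0, 0⟩, 0⟩ 0 0))))) (.pos 16 .mp ⟨1718828474, 0, 0, 0, 0, 0, 0, 0, 0, ⟨0, 0⟩, 0⟩ 0 0)))) (.pos 14 .mp ⟨3675232016, 0, 0, 0, 0, 0, 0, 0, 0, ⟨0, 0⟩, 0⟩ 0 0))))) (.void 12 ⟨100000, 0, 0, 0, 0, 0, 0, 0, 0, ⟨0, 0⟩, 0⟩ 0 0)) (.void 67 ⟨100000, 0, 0, 0, 0, 0, 0, 0, 0, ⟨0, 0⟩, 0⟩ 0 0)) (.void 74 ⟨94316, 0, 0, 5684, 0, 0, 0, 0, 0, ⟨0, 0⟩, 0⟩ 0 0))) (.cut .v 16777216 (.cut .v 8388608 (.cut .v 4194304 (.cut .v 2097152 (.cut .d 1837506 (.void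 79 ⟨0, 0, 100000, 0, 0, 0, 0, 0, 0, ⟨0, 0⟩, 0⟩ 0 0) (.cut .v 1048576 (.cut .v 524288 (.pos 145 .pm ⟨0, 15839582, 0, 0, 0, 0, 0, 0, 0, ⟨0, 0⟩, 0⟩ 0 0) (.pos 146 .pm ⟨0, 54324268, 0, 0, 0, 0, 0, 0, 0, ⟨0, 0⟩, 0⟩ 0 0)) (.cut .d 2756259 (.pos 108 .pm ⟨0, 0, 0, 0, 0, 0, 0, 0, 0, ⟨0, 0⟩, 0⟩ 0 0) (.cut .d 3215635 (.pos 108 .pm ⟨0, 107881719, 0, 0, 0, 0, 0, 0, 0, ⟨0, 0⟩, 0⟩ 0 0) (.pos 108 .pm ⟨0, 170551716, 0, 0, 0, 0, 0, 0, 0, ⟨0, 0⟩, 0⟩ 0 0))))) (.cut .d 1837506 (.pos 80 .pm ⟨0, 0, 188029236, 0, 0, 0, 0, 0, 0, ⟨0, 0⟩, 0⟩ 0 0) (.cut .d 2756259 (.pos 80 .pm ⟨0, 0, 0, 0, 0, 0, 0, 0, 0, ⟨0, 0⟩, 0⟩ 0 0) (.cut .l 6001081 (.cut .d 3215635 (.cut .v 3145728 (.cut .s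 13959168 (.pos 109 .pm ⟨0, 0, 0, 0, 0, 0, 0, 0, 0, ⟨0, 0⟩, 0⟩ 0 0) (.pos 109 .pm ⟨0, 153073047, 0, 0, 0, 0, 0, 0, 0, ⟨0, 0⟩, 0⟩ 0 0)) (.pos 110 .pm ⟨0, 170530901, 0, 0, 0, 0, 0, 0, 0, ⟨0, 0⟩, 0⟩ 0 0)) (.cut .s 13959168 (.cut .d 3445323 (.pos 80 .pm ⟨0, 165957698, 0, 0, 0, 0, 0, 0, 0, ⟨0, 0⟩, 0⟩ 0 0) (.pos 80 .pm ⟨0, 209552474, 0, 0, 0, 0, 0, 0, 0, ⟨0, 0⟩, 0⟩ 0 0)) (.pos 80 .pm ⟨0, 290195044, 0, 0, 0, 0, 0, 0, 0, ⟨0, 0⟩, 0⟩ 0 0))) (.pos 80 .pm ⟨0, 177975120, 0, 0, 0, 0, 0, 0, 0, ⟨0, 0⟩, 0⟩ 0 0))))) (.cut .d 1837506 (.pos 5 .pm ⟨0, 0, 288286785, 0, 0, 0, 0, 0, 0, ⟨0, 0⟩, 0⟩ 0 0) (.cut .d 2756259 (.pos 5 .pm ⟨0, 0, 0, 0, 0, 0, 0, 0, 0, ⟨0, 0⟩, 0⟩ 0 0) (.cut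 .d 3215635 (.pos 5 .pm ⟨0, 213603909, 0, 0, 0, 0, 0, 0, 0, ⟨0, 0⟩, 0⟩ 0 0) (.pos 5 .pm ⟨0, 338059033, 0, 0, 0, 0, 0, 0, 0, ⟨0, 0⟩, 0⟩ 0 0))))) (.cut .d 1837506 (.pos 3 .pm ⟨0, 0, 2061780, 0, 0, 0, 0, 0, 0, ⟨0, 0⟩, 0⟩ 0 0) (.pos 3 .pm ⟨0, 322377244, 0, 0, 0, 0, 0, 0, 0, ⟨0, 0⟩, 0⟩ 0 0))) (.cut .v 268435456 (.cut .d 1837506 (.cut .v 67108864 (.cut .d 918753 (.cut .v 33554432 (.cut .v 25165824 (.pos 13 .pp ⟨625773845, 0, 0, 0, 0, 0, 0, 0, 0, ⟨0, 0⟩, 0⟩ 0 0) (.cut .v 29360128 (.pos 29 .pp ⟨1228586441, 0, 0, 0, 0, 0, 0, 0, 0, ⟨0, 0⟩, 0⟩ 0 0) (.pos 30 .pp ⟨1619789257, 0, 0, 0, 0, 0, 0, 0, 0, ⟨0, 0⟩, 0⟩ 0 0))) (.cut .v 50331648 (.cut .d 459376 (.cut .v 41943040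 (.pos 35 .pp ⟨2758918354, 0, 0, 0, 0, 0, 0, 0, 0, ⟨0, 0⟩, 0⟩ 0 0) (.pos 36 .pp ⟨3995633847, 0, 0, 0, 0, 0, 0, 0, 0, ⟨0, 0⟩, 0⟩ 0 0)) (.pos 33 .pp ⟨1871379548, 0, 0, 0, 0, 0, 0, 0, 0, ⟨0, 0⟩, 0⟩ 0 0)) (.cut .d 459376 (.pos 34 .pp ⟨6534217828, 0, 0, 0, 0, 0, 0, 0, 0, ⟨0, 0⟩, 0⟩ 0 0) (.pos 34 .pp ⟨4430641859, 0, 0, 0, 0, 0, 0, 0, 0, ⟨0, 0⟩, 0⟩ 0 0)))) (.pos 10 .pp ⟨0, 0, 0, 0, 0, 0, 0, 0, 0, ⟨0, 0⟩, 0⟩ 0 0)) (.cut .v 134217728 (.cut .v 100663296 (.cut .d 918753 (.cut .d 459376 (.pos 75 .pp ⟨16563027124, 0, 0, 0, 0, 0, 0, 0, 0, ⟨0, 0⟩, 0⟩ 0 0) (.cut .v 83886080 (.cut .d 689064 (.cut .d 574220 (.pos 87 .pp ⟨9308753469, 0, 0, 0, 0, 0, 0, 0, 0, ⟨0, 0⟩, 0⟩ 0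 0) (.pos 87 .pp ⟨7803994282, 0, 0, 0, 0, 0, 0, 0, 0, ⟨0, 0⟩, 0⟩ 0 0)) (.pos 87 .pp ⟨6747295910, 0, 0, 0, 0, 0, 0, 0, 0, ⟨0, 0⟩, 0⟩ 0 0)) (.cut .v 92274688 (.cut .d 689064 (.cut .l 6001081 (.pos 129 .pp ⟨13013800593, 501413416, 0, 0, 0, 0, 0, 0, 0, ⟨0, 0⟩, 0⟩ 0 0) (.cut .l 8162761 (.pos 129 .pp ⟨11419216526, 583291821, 0, 0, 0, 0, 0, 0, 0, ⟨0, 0⟩, 0⟩ 0 0) (.cut .s 13959168 (.cut .d 574220 (.pos 129 .pp ⟨15833123896, 0, 0, 0, 0, 0, 0, 0, 0, ⟨0, 0⟩, 0⟩ 0 0) (.cut .d 631642 (.cut .v 88080384 (.pos 135 .pp ⟨9774752890, 0, 0, 0, 0, 0, 0, 0, 0, ⟨0, 0⟩, 0⟩ 0 0) (.cut .v 90177536 (.pos 151 .pp ⟨10921539443, 1224128401, 0, 0, 0, 0, 0, 0, 0, ⟨0, 0⟩, 0⟩ 0 0) (.pos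 152 .pp ⟨12825524707, 3880878832, 0, 0, 0, 0, 0, 0, 0, ⟨0, 0⟩, 0⟩ 0 0))) (.pos 129 .pp ⟨8829423733, 1710620761, 0, 0, 0, 0, 0, 0, 0, ⟨0, 0⟩, 0⟩ 0 0))) (.cut .v 88080384 (.pos 135 .pp ⟨10388694960, 0, 0, 0, 0, 0, 0, 0, 0, ⟨0, 0⟩, 0⟩ 0 0) (.cut .l 9243601 (.pos 136 .pp ⟨11725382321, 526059043, 0, 0, 0, 0, 0, 0, 0, ⟨0, 0⟩, 0⟩ 0 0) (.cut .d 574220 (.cut .s 14057472 (.pos 136 .pp ⟨13069087059, 1145776288, 0, 0, 0, 0, 0, 0, 0, ⟨0, 0⟩, 0⟩ 0 0) (.pos 136 .pp ⟨12560673322, 1304648661, 0, 0, 0, 0, 0, 0, 0, ⟨0, 0⟩, 0⟩ 0 0)) (.cut .v 90177536 (.pos 151 .pp ⟨10496180129, 0, 0, 0, 0, 0, 0, 0, 0, ⟨0, 0⟩, 0⟩ 0 0) (.pos 152 .pp ⟨11443188492, 1872651335, 0, 0, 0, 0, 0,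 0, 0, ⟨0, 0⟩, 0⟩ 0 0)))))))) (.pos 129 .pp ⟨8678137589, 1391304247, 0, 0, 0, 0, 0, 0, 0, ⟨0, 0⟩, 0⟩ 0 0)) (.void 130 ⟨36274, 63726, 0, 0, 0, 0, 0, 0, 0, ⟨0, 0⟩, 0⟩ 0 0)))) (.pos 75 .pp ⟨0, 2666453691, 0, 0, 0, 0, 0, 0, 0, ⟨0, 0⟩, 0⟩ 0 0)) (.void 76 ⟨35972, 64028, 0, 0, 0, 0, 0, 0, 0, ⟨0, 0⟩, 0⟩ 0 0)) (.void 71 ⟨0, 0, 0, 100000, 0, 0, 0, 0, 0, ⟨0, 0⟩, 0⟩ 0 0))) (.pos 66 .pp ⟨0, 376944619, 0, 0, 0, 0, 0, 0, 0, ⟨0, 0⟩, 0⟩ 0 0)) (.void 74 ⟨0, 0, 0, 100000, 0, 0, 0, 0, 0, ⟨0, 0⟩, 0⟩ 0 0)))),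
    by decide +kernel⟩

def covers22 : cell.Covers table row22.1 :=
  ⟨(.cut .d 0 (.cut .v 16777216 (.cut .v 8388608 (.void 2 ⟨0, 0, 100000, 0, 0, 0, 0, 0, 0, ⟨0, 0⟩, 0⟩ 0 0) (.cut .d (-8388608) (.void 3 ⟨100000, 0, 0, 0, 0, 0, 0, 0, 0, ⟨0, 0⟩, 0⟩ 0 0) (.cut .d (-4194304) (.void 3 ⟨100000, 0, 0, 0, 0, 0, 0, 0, 0, ⟨0, 0⟩, 0⟩ 0 0) (.cut .d (-2097152) (.void 3 ⟨79846, 0, 20154, 0, 0, 0, 0, 0, 0, ⟨0, 0⟩, 0⟩ 0 0) (.cut .d (-1048576) (.void 3 ⟨0, 0, 0, 0, 0, 100000, 0, 0, 0, ⟨0, 0⟩, 0⟩ 0 0) (.cut .d (-524288) (.void 3 ⟨0, 0, 0, 0, 0, 100000, 0, 0, 0, ⟨0, 0⟩, 0⟩ 0 0) (.cut .d (-262144) (.cut .v 12582912 (.pos 6 .mm ⟨0, 0, 24297595, 0, 0, 1560845634, 0, 0, 0,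 ⟨0, 0⟩, 0⟩ 0 0) (.cut .d (-393216) (.pos 7 .mm ⟨231922439, 0, 0, 0, 0, 2689534391, 0, 0, 0, ⟨0, 0⟩, 0⟩ 0 0) (.cut .v 14680064 (.pos 8 .mm ⟨0, 0, 0, 0, 0, 1889335958, 0, 0, 0, ⟨0, 0⟩, 0⟩ 0 0) (.cut .v 15728640 (.pos 45 .mm ⟨0, 0, 0, 0, 0, 2102882208, 0, 0, 0, ⟨0, 0⟩, 0⟩ 0 0) (.cut .d (-327680) (.pos 46 .mm ⟨598162150, 0, 0, 0, 0, 1189607927, 0, 0, 0, ⟨0, 0⟩, 0⟩ 0 0) (.pos 46 .mm ⟨214555172, 0, 0, 0, 0, 1757442399, 0, 0, 0, ⟨0, 0⟩, 0⟩ 0 0)))))) (.cut .v 12582912 (.cut .v 10485760 (.pos 81 .mm ⟨0, 0, 0, 0, 0, 1015753978, 0, 0, 0, ⟨0, 0⟩, 0⟩ 0 0) (.pos 82 .mm ⟨0, 0, 0, 0, 0, 1278330880, 0, 0, 0, ⟨0, 0⟩, 0⟩ 0 0)) (.cut .v 14680064 (.cut .d (-131072) (.pos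 8 .mm ⟨0, 0, 0, 0, 0, 1649540129, 0, 0, 0, ⟨0, 0⟩, 0⟩ 0 0) (.pos 8 .mm ⟨0, 0, 0, 0, 0, 1463533650, 0, 0, 0, ⟨0, 0⟩, 0⟩ 0 0)) (.cut .d (-131072) (.cut .l 6001081 (.pos 9 .mm ⟨77417672, 0, 0, 0, 0, 1944196440, 0, 0, 0, ⟨0, 0⟩, 0⟩ 0 0) (.cut .v 15728640 (.pos 45 .mm ⟨0, 0, 0, 0, 0, 1789496281, 0, 0, 0, ⟨0, 0⟩, 0⟩ 0 0) (.pos 46 .mm ⟨534697592, 0, 0, 0, 0, 982268484, 0, 0, 0, ⟨0, 0⟩, 0⟩ 0 0))) (.cut .v 15728640 (.pos 45 .mm ⟨0, 0, 0, 0, 0, 1676634750, 0, 0, 0, ⟨0, 0⟩, 0⟩ 0 0) (.pos 46 .mm ⟨0, 0, 0, 0, 0, 1804141400, 0, 0, 0, ⟨0, 0⟩, 0⟩ 0 0)))))))))))) (.cut .v 268435456 (.cut .v 67108864 (.cut .v 33554432 (.cut .d (-8388608) (.void 11 ⟨100000, 0, 0, 0, 0,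 0, 0, 0, 0, ⟨0, 0⟩, 0⟩ 0 0) (.cut .d (-4194304) (.void 11 ⟨100000, 0, 0, 0, 0, 0, 0, 0, 0, ⟨0, 0⟩, 0⟩ 0 0) (.cut .d (-2097152) (.void 11 ⟨100000, 0, 0, 0, 0, 0, 0, 0, 0, ⟨0, 0⟩, 0⟩ 0 0) (.cut .d (-1048576) (.void 11 ⟨100000, 0, 0, 0, 0, 0, 0, 0, 0, ⟨0, 0⟩, 0⟩ 0 0) (.cut .v 25165824 (.cut .d (-524288) (.void 13 ⟨100000, 0, 0, 0, 0, 0, 0, 0, 0, ⟨0, 0⟩, 0⟩ 0 0) (.cut .v 20971520 (.cut .d (-262144) (.pos 15 .mp ⟨1585886302, 0, 0, 0, 0, 0, 0, 0, 0, ⟨0, 0⟩, 0⟩ 0 0) (.cut .d (-131072) (.pos 15 .mp ⟨1306618130, 0, 0, 0, 0, 0, 0, 0, 0, ⟨0, 0⟩, 0⟩ 0 0) (.cut .d (-65536) (.pos 15 .mp ⟨764966289, 0, 0, 0, 0, 757871815, 0, 0, 0, ⟨0, 0⟩, 0⟩ 0 0) (.pos 15 .mp ⟨577160099,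 0, 0, 0, 0, 726828614, 0, 0, 0, ⟨0, 0⟩, 0⟩ 0 0)))) (.pos 16 .mp ⟨1961910179, 0, 0, 0, 0, 0, 0, 0, 0, ⟨0, 0⟩, 0⟩ 0 0))) (.pos 14 .mp ⟨3475488014, 0, 0, 0, 0, 0, 0, 0, 0, ⟨0, 0⟩, 0⟩ 0 0)))))) (.void 12 ⟨100000, 0, 0, 0, 0, 0, 0, 0, 0, ⟨0, 0⟩, 0⟩ 0 0)) (.void 67 ⟨100000, 0, 0, 0, 0, 0, 0, 0, 0, ⟨0, 0⟩, 0⟩ 0 0)) (.void 74 ⟨94192, 0, 0, 5808, 0, 0, 0, 0, 0, ⟨0, 0⟩, 0⟩ 0 0))) (.cut .v 16777216 (.cut .v 8388608 (.cut .v 4194304 (.cut .v 2097152 (.cut .d 1553447 (.void 79 ⟨0, 0, 100000, 0, 0, 0, 0, 0, 0, ⟨0, 0⟩, 0⟩ 0 0) (.cut .v 1048576 (.cut .v 524288 (.cut .v 262144 (.pos 157 .pm ⟨0, 6128436, 0, 0, 0, 0, 0, 0, 0, ⟨0, 0⟩, 0⟩ 0 0) (.pos 158 .pm ⟨0, 33324575,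 0, 0, 0, 0, 0, 0, 0, ⟨0, 0⟩, 0⟩ 0 0)) (.pos 146 .pm ⟨0, 63236032, 0, 0, 0, 0, 0, 0, 0, ⟨0, 0⟩, 0⟩ 0 0)) (.cut .d 2330170 (.pos 108 .pm ⟨0, 0, 0, 0, 0, 0, 0, 0, 0, ⟨0, 0⟩, 0⟩ 0 0) (.cut .d 2718532 (.cut .d 2524351 (.pos 108 .pm ⟨0, 0, 0, 0, 0, 0, 0, 0, 0, ⟨0, 0⟩, 0⟩ 0 0) (.cut .s 14319616 (.pos 108 .pm ⟨0, 0, 0, 0, 0, 0, 0, 0, 0, ⟨0, 0⟩, 0⟩ 0 0) (.cut .d 2621441 (.pos 108 .pm ⟨0, 151682879, 0, 0, 0, 0, 0, 0, 0, ⟨0, 0⟩, 0⟩ 0 0) (.cut .s 14401536 (.pos 108 .pm ⟨0, 158278192, 0, 0, 0, 0, 0, 0, 0, ⟨0, 0⟩, 0⟩ 0 0) (.pos 108 .pm ⟨0, 196135515, 0, 0, 0, 0, 0, 0, 0, ⟨0, 0⟩, 0⟩ 0 0))))) (.cut .s 14319616 (.cut .d 2912713 (.pos 108 .pm ⟨0, 146155315, 0, 0, 0, 0,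 0, 0, 0, ⟨0, 0⟩, 0⟩ 0 0) (.pos 108 .pm ⟨0, 188425106, 0, 0, 0, 0, 0, 0, 0, ⟨0, 0⟩, 0⟩ 0 0)) (.pos 108 .pm ⟨0, 222448322, 0, 0, 0, 0, 0, 0, 0, ⟨0, 0⟩, 0⟩ 0 0)))))) (.cut .d 1553447 (.pos 80 .pm ⟨0, 0, 260349746, 0, 0, 0, 0, 0, 0, ⟨0, 0⟩, 0⟩ 0 0) (.cut .d 2330170 (.pos 80 .pm ⟨0, 0, 0, 0, 0, 0, 0, 0, 0, ⟨0, 0⟩, 0⟩ 0 0) (.cut .d 2718532 (.cut .v 3145728 (.cut .s 14319616 (.pos 109 .pm ⟨0, 0, 0, 0, 0, 0, 0, 0, 0, ⟨0, 0⟩, 0⟩ 0 0) (.cut .d 2524351 (.pos 109 .pm ⟨0, 0, 0, 0, 0, 0, 0, 0, 0, ⟨0, 0⟩, 0⟩ 0 0) (.cut .v 2621440 (.cut .s 14401536 (.pos 155 .pm ⟨0, 170019262, 0, 0, 0, 0, 0, 0, 0, ⟨0, 0⟩, 0⟩ 0 0) (.cut .s 14442496 (.pos 155 .pm ⟨0, 186986024, 0, 0, 0,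 0, 0, 0, 0, ⟨0, 0⟩, 0⟩ 0 0) (.cut .d 2621441 (.cut .v 2359296 (.pos 159 .pm ⟨0, 187615438, 0, 0, 0, 0, 0, 0, 0, ⟨0, 0⟩, 0⟩ 0 0) (.pos 160 .pm ⟨0, 205647037, 0, 0, 0, 0, 0, 0, 0, ⟨0, 0⟩, 0⟩ 0 0)) (.pos 155 .pm ⟨0, 228253617, 0, 0, 0, 0, 0, 0, 0, ⟨0, 0⟩, 0⟩ 0 0)))) (.pos 156 .pm ⟨0, 222157025, 0, 0, 0, 0, 0, 0, 0, ⟨0, 0⟩, 0⟩ 0 0)))) (.pos 110 .pm ⟨0, 207014918, 0, 0, 0, 0, 0, 0, 0, ⟨0, 0⟩, 0⟩ 0 0)) (.cut .l 6001081 (.cut .s 14319616 (.cut .d 2912713 (.cut .v 3145728 (.pos 109 .pm ⟨0, 175200319, 0, 0, 0, 0, 0, 0, 0, ⟨0, 0⟩, 0⟩ 0 0) (.pos 110 .pm ⟨0, 230243489, 0, 0, 0, 0, 0, 0, 0, ⟨0, 0⟩, 0⟩ 0 0)) (.pos 80 .pm ⟨0, 245848987, 0, 0, 0, 0, 0, 0, 0, ⟨0, 0⟩,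 0⟩ 0 0)) (.cut .d 2912713 (.cut .s 14401536 (.cut .v 3145728 (.pos 109 .pm ⟨0, 227455526, 0, 0, 0, 0, 0, 0, 0, ⟨0, 0⟩, 0⟩ 0 0) (.pos 110 .pm ⟨0, 282174715, 0, 0, 0, 0, 0, 0, 0, ⟨0, 0⟩, 0⟩ 0 0)) (.void 80 ⟨0, 100000, 0, 0, 0, 0, 0, 0, 0, ⟨0, 0⟩, 0⟩ 0 0)) (.void 80 ⟨0, 0, 0, 100000, 0, 0, 0, 0, 0, ⟨0, 0⟩, 0⟩ 0 0))) (.pos 80 .pm ⟨0, 245581904, 0, 0, 0, 0, 0, 0, 0, ⟨0, 0⟩, 0⟩ 0 0)))))) (.cut .d 1553447 (.pos 5 .pm ⟨0, 0, 377448310, 0, 0, 0, 0, 0, 0, ⟨0, 0⟩, 0⟩ 0 0) (.cut .d 2330170 (.pos 5 .pm ⟨0, 0, 0, 0, 0, 0, 0, 0, 0, ⟨0, 0⟩, 0⟩ 0 0) (.cut .d 2718532 (.pos 5 .pm ⟨0, 260383382, 0, 0, 0, 0, 0, 0, 0, ⟨0, 0⟩, 0⟩ 0 0) (.pos 5 .pm ⟨0, 390863483, 0, 0, 0, 0,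 0, 0, 0, ⟨0, 0⟩, 0⟩ 0 0))))) (.cut .d 1553447 (.pos 3 .pm ⟨0, 0, 8785834, 0, 0, 0, 0, 0, 0, ⟨0, 0⟩, 0⟩ 0 0) (.pos 3 .pm ⟨0, 379876759, 0, 0, 0, 0, 0, 0, 0, ⟨0, 0⟩, 0⟩ 0 0))) (.cut .v 268435456 (.cut .d 1553447 (.cut .v 67108864 (.cut .d 776723 (.cut .v 33554432 (.cut .v 25165824 (.pos 13 .pp ⟨638399668, 0, 0, 0, 0, 0, 0, 0, 0, ⟨0, 0⟩, 0⟩ 0 0) (.pos 14 .pp ⟨1557608509, 0, 0, 0, 0, 0, 0, 0, 0, ⟨0, 0⟩, 0⟩ 0 0)) (.cut .v 50331648 (.cut .v 41943040 (.pos 35 .pp ⟨2597863168, 0, 0, 0, 0, 0, 0, 0, 0, ⟨0, 0⟩, 0⟩ 0 0) (.pos 36 .pp ⟨3823880798, 0, 0, 0, 0, 0, 0, 0, 0, ⟨0, 0⟩, 0⟩ 0 0)) (.cut .d 388361 (.pos 34 .pp ⟨7229070927, 0, 0, 0, 0, 0, 0, 0, 0, ⟨0, 0⟩, 0⟩ 0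 0) (.pos 34 .pp ⟨4990009214, 0, 0, 0, 0, 0, 0, 0, 0, ⟨0, 0⟩, 0⟩ 0 0)))) (.pos 10 .pp ⟨0, 0, 0, 0, 0, 0, 0, 0, 0, ⟨0, 0⟩, 0⟩ 0 0)) (.cut .v 134217728 (.cut .v 100663296 (.cut .d 776723 (.cut .d 388361 (.pos 75 .pp ⟨18394263315, 0, 0, 0, 0, 0, 0, 0, 0, ⟨0, 0⟩, 0⟩ 0 0) (.cut .v 83886080 (.cut .d 582542 (.pos 87 .pp ⟨9329666205, 0, 0, 0, 0, 0, 0, 0, 0, ⟨0, 0⟩, 0⟩ 0 0) (.pos 87 .pp ⟨7504677432, 0, 0, 0, 0, 0, 0, 0, 0, ⟨0, 0⟩, 0⟩ 0 0)) (.cut .v 92274688 (.cut .d 582542 (.pos 129 .pp ⟨12870249577, 455491857, 0, 0, 0, 0, 0, 0, 0, ⟨0, 0⟩, 0⟩ 0 0) (.pos 129 .pp ⟨9332133005, 1633404484, 0, 0, 0, 0, 0, 0, 0, ⟨0, 0⟩, 0⟩ 0 0)) (.void 130 ⟨35887, 64113, 0, 0, 0, 0,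 0, 0, 0, ⟨0, 0⟩, 0⟩ 0 0)))) (.pos 75 .pp ⟨0, 2936911641, 0, 0, 0, 0, 0, 0, 0, ⟨0, 0⟩, 0⟩ 0 0)) (.void 76 ⟨35632, 64368, 0, 0, 0, 0, 0, 0, 0, ⟨0, 0⟩, 0⟩ 0 0)) (.void 71 ⟨0, 0, 0, 100000, 0, 0, 0, 0, 0, ⟨0, 0⟩, 0⟩ 0 0))) (.pos 66 .pp ⟨0, 450171586, 0, 0, 0, 0, 0, 0, 0, ⟨0, 0⟩, 0⟩ 0 0)) (.void 74 ⟨0, 0, 0, 100000, 0, 0, 0, 0, 0, ⟨0, 0⟩, 0⟩ 0 0)))),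
    by decide +kernel⟩

def covers23 : cell.Covers table row23.1 :=
  ⟨(.cut .d 0 (.cut .v 16777216 (.cut .v 8388608 (.void 2 ⟨0, 0, 100000, 0, 0, 0, 0, 0, 0, ⟨0, 0⟩, 0⟩ 0 0) (.cut .d (-8388608) (.void 3 ⟨100000, 0, 0, 0, 0, 0, 0, 0, 0, ⟨0, 0⟩, 0⟩ 0 0) (.cut .d (-4194304) (.void 3 ⟨100000, 0, 0, 0, 0, 0, 0, 0, 0, ⟨0, 0⟩, 0⟩ 0 0) (.cut .d (-2097152) (.void 3 ⟨100000, 0, 0, 0, 0, 0, 0, 0, 0, ⟨0, 0⟩, 0⟩ 0 0) (.cut .d (-1048576) (.void 3 ⟨0, 0, 0, 0, 0, 100000, 0, 0, 0, ⟨0, 0⟩, 0⟩ 0 0) (.cut .d (-524288) (.void 3 ⟨0, 0, 0, 0, 0, 100000, 0, 0, 0, ⟨0, 0⟩, 0⟩ 0 0) (.cut .d (-262144) (.cut .d (-393216) (.void 3 ⟨0, 0, 0, 0, 0, 100000, 0, 0, 0, ⟨0, 0⟩, 0⟩ 0 0)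 (.cut .v 12582912 (.pos 6 .mm ⟨0, 0, 0, 0, 0, 1642302976, 0, 0, 0, ⟨0, 0⟩, 0⟩ 0 0) (.cut .v 14680064 (.pos 8 .mm ⟨0, 0, 0, 0, 0, 2217858868, 0, 0, 0, ⟨0, 0⟩, 0⟩ 0 0) (.cut .l 6001081 (.void 9 ⟨0, 0, 0, 0, 0, 100000, 0, 0, 0, ⟨0, 0⟩, 0⟩ 0 0) (.cut .l 8162761 (.pos 9 .mm ⟨300817508, 0, 0, 0, 0, 1957476203, 0, 0, 0, ⟨0, 0⟩, 0⟩ 0 0) (.cut .d (-327680) (.cut .v 15728640 (.pos 45 .mm ⟨0, 0, 0, 0, 0, 2572915833, 0, 0, 0, ⟨0, 0⟩, 0⟩ 0 0) (.pos 46 .mm ⟨420003838, 0, 0, 0, 0, 1948852730, 0, 0, 0, ⟨0, 0⟩, 0⟩ 0 0)) (.cut .v 15728640 (.pos 45 .mm ⟨0, 0, 0, 0, 0, 2289584451, 0, 0, 0, ⟨0, 0⟩, 0⟩ 0 0) (.cut .s 14647296 (.pos 46 .mm ⟨464258731, 0, 0, 0, 0, 1444644492,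 0, 0, 0, ⟨0, 0⟩, 0⟩ 0 0) (.pos 46 .mm ⟨469495479, 0, 0, 0, 0, 1584779179, 0, 0, 0, ⟨0, 0⟩, 0⟩ 0 0))))))))) (.cut .v 12582912 (.cut .v 10485760 (.pos 81 .mm ⟨0, 0, 0, 0, 0, 1064335886, 0, 0, 0, ⟨0, 0⟩, 0⟩ 0 0) (.pos 82 .mm ⟨0, 0, 0, 0, 0, 1357186456, 0, 0, 0, ⟨0, 0⟩, 0⟩ 0 0)) (.cut .v 14680064 (.pos 8 .mm ⟨0, 0, 0, 0, 0, 1665564739, 0, 0, 0, ⟨0, 0⟩, 0⟩ 0 0) (.cut .d (-131072) (.pos 9 .mm ⟨0, 0, 0, 0, 0, 2059861040, 0, 0, 0, ⟨0, 0⟩, 0⟩ 0 0) (.pos 9 .mm ⟨0, 0, 0, 0, 0, 1912967039, 0, 0, 0, ⟨0, 0⟩, 0⟩ 0 0))))))))))) (.cut .v 268435456 (.cut .v 67108864 (.cut .v 33554432 (.cut .d (-8388608) (.void 11 ⟨100000, 0, 0, 0, 0, 0, 0, 0, 0, ⟨0, 0⟩, 0⟩ 0 0) (.cut .d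 (-4194304) (.void 11 ⟨100000, 0, 0, 0, 0, 0, 0, 0, 0, ⟨0, 0⟩, 0⟩ 0 0) (.cut .d (-2097152) (.void 11 ⟨100000, 0, 0, 0, 0, 0, 0, 0, 0, ⟨0, 0⟩, 0⟩ 0 0) (.cut .d (-1048576) (.void 11 ⟨100000, 0, 0, 0, 0, 0, 0, 0, 0, ⟨0, 0⟩, 0⟩ 0 0) (.cut .d (-524288) (.void 11 ⟨100000, 0, 0, 0, 0, 0, 0, 0, 0, ⟨0, 0⟩, 0⟩ 0 0) (.cut .v 25165824 (.cut .v 20971520 (.cut .d (-262144) (.pos 15 .mp ⟨1754130922, 0, 0, 0, 0, 0, 0, 0, 0, ⟨0, 0⟩, 0⟩ 0 0) (.pos 15 .mp ⟨1294747967, 0, 0, 0, 0, 0, 0, 0, 0, ⟨0, 0⟩, 0⟩ 0 0)) (.pos 16 .mp ⟨2175095659, 0, 0, 0, 0, 0, 0, 0, 0, ⟨0, 0⟩, 0⟩ 0 0)) (.pos 14 .mp ⟨3255955280, 0, 0, 0, 0, 0, 0, 0, 0, ⟨0, 0⟩, 0⟩ 0 0))))))) (.void 12 ⟨100000, 0, 0, 0,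 0, 0, 0, 0, 0, ⟨0, 0⟩, 0⟩ 0 0)) (.void 67 ⟨100000, 0, 0, 0, 0, 0, 0, 0, 0, ⟨0, 0⟩, 0⟩ 0 0)) (.void 74 ⟨94068, 0, 0, 5932, 0, 0, 0, 0, 0, ⟨0, 0⟩, 0⟩ 0 0))) (.cut .v 16777216 (.cut .v 8388608 (.cut .v 4194304 (.cut .v 2097152 (.cut .d 1328514 (.void 79 ⟨0, 0, 100000, 0, 0, 0, 0, 0, 0, ⟨0, 0⟩, 0⟩ 0 0) (.cut .v 1048576 (.cut .v 524288 (.cut .v 262144 (.pos 157 .pm ⟨0, 9726601, 0, 0, 0, 0, 0, 0, 0, ⟨0, 0⟩, 0⟩ 0 0) (.pos 158 .pm ⟨0, 40660405, 0, 0, 0, 0, 0, 0, 0, ⟨0, 0⟩, 0⟩ 0 0)) (.cut .d 1992771 (.pos 146 .pm ⟨0, 0, 0, 0, 0, 0, 0, 0, 0, ⟨0, 0⟩, 0⟩ 0 0) (.pos 146 .pm ⟨0, 106640464, 0, 0, 0, 0, 0, 0, 0, ⟨0, 0⟩, 0⟩ 0 0))) (.cut .d 1992771 (.pos 108 .pm ⟨0, 0,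 0, 0, 0, 0, 0, 0, 0, ⟨0, 0⟩, 0⟩ 0 0) (.cut .d 2324899 (.cut .s 14647296 (.pos 108 .pm ⟨0, 0, 0, 0, 0, 0, 0, 0, 0, ⟨0, 0⟩, 0⟩ 0 0) (.cut .d 2158835 (.pos 108 .pm ⟨0, 0, 0, 0, 0, 0, 0, 0, 0, ⟨0, 0⟩, 0⟩ 0 0) (.cut .l 6001081 (.cut .l 3839401 (.cut .s 14729216 (.cut .v 1572864 (.pos 149 .pm ⟨0, 143037601, 0, 0, 0, 0, 0, 0, 0, ⟨0, 0⟩, 0⟩ 0 0) (.cut .d 2241867 (.pos 150 .pm ⟨0, 0, 0, 0, 0, 0, 0, 0, 0, ⟨0, 0⟩, 0⟩ 0 0) (.pos 150 .pm ⟨0, 175021739, 0, 0, 0, 0, 0, 0, 0, ⟨0, 0⟩, 0⟩ 0 0))) (.cut .v 1572864 (.pos 149 .pm ⟨0, 170017965, 0, 0, 0, 0, 0, 0, 0, ⟨0, 0⟩, 0⟩ 0 0) (.cut .l 2758561 (.cut .d 2241867 (.cut .s 14770176 (.pos 150 .pm ⟨0, 173833015, 0, 0, 0, 0,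 0, 0, 0, ⟨0, 0⟩, 0⟩ 0 0) (.cut .l 2218141 (.cut .l 1947931 (.cut .v 1835008 (.cut .d 2200351 (.pos 163 .pm ⟨0, 183229592, 0, 0, 0, 0, 0, 0, 0, ⟨0, 0⟩, 0⟩ 0 0) (.pos 163 .pm ⟨0, 198125553, 0, 0, 0, 0, 0, 0, 0, ⟨0, 0⟩, 0⟩ 0 0)) (.cut .d 2200351 (.pos 164 .pm ⟨0, 193503120, 0, 0, 0, 0, 0, 0, 0, ⟨0, 0⟩, 0⟩ 0 0) (.cut .s 14790656 (.pos 164 .pm ⟨0, 200457063, 0, 0, 0, 0, 0, 0, 0, ⟨0, 0⟩, 0⟩ 0 0) (.pos 164 .pm ⟨0, 212253063, 0, 0, 0, 0, 0, 0, 0, ⟨0, 0⟩, 0⟩ 0 0)))) (.pos 150 .pm ⟨0, 192221813, 0, 0, 0, 0, 0, 0, 0, ⟨0, 0⟩, 0⟩ 0 0)) (.pos 150 .pm ⟨0, 191630463, 0, 0, 0, 0, 0, 0, 0, ⟨0, 0⟩, 0⟩ 0 0))) (.cut .s 14770176 (.cut .v 1835008 (.pos 163 .pm ⟨0, 195532577,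 0, 0, 0, 0, 0, 0, 0, ⟨0, 0⟩, 0⟩ 0 0) (.cut .s 14749696 (.pos 164 .pm ⟨0, 202139236, 0, 0, 0, 0, 0, 0, 0, ⟨0, 0⟩, 0⟩ 0 0) (.pos 164 .pm ⟨0, 214036852, 0, 0, 0, 0, 0, 0, 0, ⟨0, 0⟩, 0⟩ 0 0))) (.pos 150 .pm ⟨0, 229684616, 0, 0, 0, 0, 0, 0, 0, ⟨0, 0⟩, 0⟩ 0 0))) (.pos 150 .pm ⟨0, 197129600, 0, 0, 0, 0, 0, 0, 0, ⟨0, 0⟩, 0⟩ 0 0)))) (.pos 108 .pm ⟨0, 164545094, 0, 0, 0, 0, 0, 0, 0, ⟨0, 0⟩, 0⟩ 0 0)) (.pos 108 .pm ⟨0, 161010138, 0, 0, 0, 0, 0, 0, 0, ⟨0, 0⟩, 0⟩ 0 0)))) (.cut .l 6001081 (.cut .s 14647296 (.cut .l 3839401 (.cut .d 2490963 (.cut .s 14565376 (.pos 108 .pm ⟨0, 0, 0, 0, 0, 0, 0, 0, 0, ⟨0, 0⟩, 0⟩ 0 0) (.cut .d 2407931 (.pos 108 .pm ⟨0, 147313932, 0, 0,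 0, 0, 0, 0, 0, ⟨0, 0⟩, 0⟩ 0 0) (.cut .s 14606336 (.pos 108 .pm ⟨0, 171478633, 0, 0, 0, 0, 0, 0, 0, ⟨0, 0⟩, 0⟩ 0 0) (.pos 108 .pm ⟨0, 194639823, 0, 0, 0, 0, 0, 0, 0, ⟨0, 0⟩, 0⟩ 0 0)))) (.cut .s 14565376 (.cut .v 1572864 (.pos 149 .pm ⟨0, 147315526, 0, 0, 0, 0, 0, 0, 0, ⟨0, 0⟩, 0⟩ 0 0) (.cut .v 1835008 (.pos 163 .pm ⟨0, 169081345, 0, 0, 0, 0, 0, 0, 0, ⟨0, 0⟩, 0⟩ 0 0) (.cut .s 14524416 (.cut .d 2573995 (.pos 164 .pm ⟨0, 168786082, 0, 0, 0, 0, 0, 0, 0, ⟨0, 0⟩, 0⟩ 0 0) (.pos 164 .pm ⟨0, 189370499, 0, 0, 0, 0, 0, 0, 0, ⟨0, 0⟩, 0⟩ 0 0)) (.pos 164 .pm ⟨0, 197393945, 0, 0, 0, 0, 0, 0, 0, ⟨0, 0⟩, 0⟩ 0 0)))) (.pos 108 .pm ⟨0, 222458956, 0, 0, 0, 0, 0, 0, 0, ⟨0,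 0⟩, 0⟩ 0 0))) (.pos 108 .pm ⟨0, 168362230, 0, 0, 0, 0, 0, 0, 0, ⟨0, 0⟩, 0⟩ 0 0)) (.cut .s 14729216 (.cut .d 2490963 (.cut .d 2407931 (.cut .v 1572864 (.pos 149 .pm ⟨0, 169540515, 0, 0, 0, 0, 0, 0, 0, ⟨0, 0⟩, 0⟩ 0 0) (.cut .s 14688256 (.pos 150 .pm ⟨0, 191631258, 0, 0, 0, 0, 0, 0, 0, ⟨0, 0⟩, 0⟩ 0 0) (.pos 150 .pm ⟨0, 216118815, 0, 0, 0, 0, 0, 0, 0, ⟨0, 0⟩, 0⟩ 0 0))) (.pos 108 .pm ⟨0, 549868029, 0, 0, 0, 0, 0, 0, 0, ⟨0, 0⟩, 0⟩ 0 0)) (.void 108 ⟨0, 0, 0, 100000, 0, 0, 0, 0, 0, ⟨0, 0⟩, 0⟩ 0 0)) (.void 108 ⟨0, 0, 0, 100000, 0, 0, 0, 0, 0, ⟨0, 0⟩, 0⟩ 0 0))) (.pos 108 .pm ⟨0, 214313645, 0, 0, 0, 0, 0, 0, 0, ⟨0, 0⟩, 0⟩ 0 0)))))) (.cut .d 1328514 (.pos 80 .pm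 ⟨0, 0, 326193335, 0, 0, 0, 0, 0, 0, ⟨0, 0⟩, 0⟩ 0 0) (.cut .d 1992771 (.pos 80 .pm ⟨0, 0, 0, 0, 0, 0, 0, 0, 0, ⟨0, 0⟩, 0⟩ 0 0) (.cut .d 2324899 (.cut .s 14647296 (.pos 80 .pm ⟨0, 0, 0, 0, 0, 0, 0, 0, 0, ⟨0, 0⟩, 0⟩ 0 0) (.cut .v 3145728 (.cut .d 2158835 (.pos 109 .pm ⟨0, 0, 0, 0, 0, 0, 0, 0, 0, ⟨0, 0⟩, 0⟩ 0 0) (.cut .s 14729216 (.pos 109 .pm ⟨0, 190556286, 0, 0, 0, 0, 0, 0, 0, ⟨0, 0⟩, 0⟩ 0 0) (.cut .d 2241867 (.pos 109 .pm ⟨0, 211871813, 0, 0, 0, 0, 0, 0, 0, ⟨0, 0⟩, 0⟩ 0 0) (.cut .s 14770176 (.pos 109 .pm ⟨0, 232394027, 0, 0, 0, 0, 0, 0, 0, ⟨0, 0⟩, 0⟩ 0 0) (.void 109 ⟨0, 0, 0, 100000, 0, 0, 0, 0, 0, ⟨0, 0⟩, 0⟩ 0 0))))) (.pos 110 .pm ⟨0, 269085350, 0, 0,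 0, 0, 0, 0, 0, ⟨0, 0⟩, 0⟩ 0 0))) (.cut .l 6001081 (.cut .s 14647296 (.cut .v 3145728 (.cut .l 3839401 (.cut .d 2490963 (.cut .s 14565376 (.pos 109 .pm ⟨0, 0, 0, 0, 0, 0, 0, 0, 0, ⟨0, 0⟩, 0⟩ 0 0) (.cut .d 2407931 (.pos 109 .pm ⟨0, 183475150, 0, 0, 0, 0, 0, 0, 0, ⟨0, 0⟩, 0⟩ 0 0) (.cut .s 14606336 (.pos 109 .pm ⟨0, 202380913, 0, 0, 0, 0, 0, 0, 0, ⟨0, 0⟩, 0⟩ 0 0) (.pos 109 .pm ⟨0, 228140325, 0, 0, 0, 0, 0, 0, 0, ⟨0, 0⟩, 0⟩ 0 0)))) (.cut .s 14565376 (.cut .v 2621440 (.cut .l 2758561 (.cut .l 2218141 (.cut .d 2573995 (.cut .s 14524416 (.pos 155 .pm ⟨0, 179914271, 0, 0, 0, 0, 0, 0, 0, ⟨0, 0⟩, 0⟩ 0 0) (.pos 155 .pm ⟨0, 200120024, 0, 0, 0, 0, 0, 0, 0, ⟨0, 0⟩,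 0⟩ 0 0)) (.cut .d 2615511 (.cut .v 2359296 (.cut .s 14524416 (.cut .v 2228224 (.pos 169 .pm ⟨0, 192579689, 0, 0, 0, 0, 0, 0, 0, ⟨0, 0⟩, 0⟩ 0 0) (.pos 170 .pm ⟨0, 198116057, 0, 0, 0, 0, 0, 0, 0, ⟨0, 0⟩, 0⟩ 0 0)) (.void 159 ⟨0, 0, 0, 100000, 0, 0, 0, 0, 0, ⟨0, 0⟩, 0⟩ 0 0)) (.pos 160 .pm ⟨0, 211452464, 0, 0, 0, 0, 0, 0, 0, ⟨0, 0⟩, 0⟩ 0 0)) (.void 155 ⟨0, 0, 0, 100000, 0, 0, 0, 0, 0, ⟨0, 0⟩, 0⟩ 0 0))) (.pos 155 .pm ⟨0, 203682848, 0, 0, 0, 0, 0, 0, 0, ⟨0, 0⟩, 0⟩ 0 0)) (.pos 155 .pm ⟨0, 202430829, 0, 0, 0, 0, 0, 0, 0, ⟨0, 0⟩, 0⟩ 0 0)) (.pos 156 .pm ⟨0, 232895702, 0, 0, 0, 0, 0, 0, 0, ⟨0, 0⟩, 0⟩ 0 0)) (.pos 109 .pm ⟨0, 266619884, 0, 0, 0, 0, 0, 0, 0, ⟨0, 0⟩,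 0⟩ 0 0))) (.pos 109 .pm ⟨0, 211356575, 0, 0, 0, 0, 0, 0, 0, ⟨0, 0⟩, 0⟩ 0 0)) (.pos 110 .pm ⟨0, 276234033, 0, 0, 0, 0, 0, 0, 0, ⟨0, 0⟩, 0⟩ 0 0)) (.cut .d 2490963 (.cut .s 14729216 (.cut .v 3145728 (.cut .d 2407931 (.cut .s 14688256 (.pos 109 .pm ⟨0, 217637779, 0, 0, 0, 0, 0, 0, 0, ⟨0, 0⟩, 0⟩ 0 0) (.pos 109 .pm ⟨0, 244691106, 0, 0, 0, 0, 0, 0, 0, ⟨0, 0⟩, 0⟩ 0 0)) (.void 109 ⟨0, 0, 0, 100000, 0, 0, 0, 0, 0, ⟨0, 0⟩, 0⟩ 0 0)) (.pos 110 .pm ⟨0, 323099741, 0, 0, 0, 0, 0, 0, 0, ⟨0, 0⟩, 0⟩ 0 0)) (.void 80 ⟨0, 0, 0, 100000, 0, 0, 0, 0, 0, ⟨0, 0⟩, 0⟩ 0 0)) (.void 80 ⟨0, 0, 0, 100000, 0, 0, 0, 0, 0, ⟨0, 0⟩, 0⟩ 0 0))) (.pos 80 .pm ⟨0, 287764170, 0, 0, 0, 0, 0, 0,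 0, ⟨0, 0⟩, 0⟩ 0 0)))))) (.cut .d 1328514 (.pos 5 .pm ⟨0, 0, 459841361, 0, 0, 0, 0, 0, 0, ⟨0, 0⟩, 0⟩ 0 0) (.cut .d 1992771 (.pos 5 .pm ⟨0, 0, 0, 0, 0, 0, 0, 0, 0, ⟨0, 0⟩, 0⟩ 0 0) (.cut .s 14647296 (.pos 5 .pm ⟨0, 309055639, 0, 0, 0, 0, 0, 0, 0, ⟨0, 0⟩, 0⟩ 0 0) (.pos 5 .pm ⟨0, 428193623, 0, 0, 0, 0, 0, 0, 0, ⟨0, 0⟩, 0⟩ 0 0))))) (.cut .d 1328514 (.pos 3 .pm ⟨0, 0, 19140037, 0, 0, 0, 0, 0, 0, ⟨0, 0⟩, 0⟩ 0 0) (.pos 3 .pm ⟨0, 428949403, 0, 0, 0, 0, 0, 0, 0, ⟨0, 0⟩, 0⟩ 0 0))) (.cut .v 268435456 (.cut .d 1328514 (.cut .v 67108864 (.cut .d 664257 (.cut .v 33554432 (.cut .v 25165824 (.pos 13 .pp ⟨577417078, 0, 0, 0, 0, 0, 0, 0, 0, ⟨0, 0⟩, 0⟩ 0 0) (.pos 14 .pp ⟨1762044826,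 0, 0, 0, 0, 0, 0, 0, 0, ⟨0, 0⟩, 0⟩ 0 0)) (.cut .v 50331648 (.cut .v 41943040 (.pos 35 .pp ⟨2912395719, 0, 0, 0, 0, 0, 0, 0, 0, ⟨0, 0⟩, 0⟩ 0 0) (.pos 36 .pp ⟨4218022824, 0, 0, 0, 0, 0, 0, 0, 0, ⟨0, 0⟩, 0⟩ 0 0)) (.cut .d 332128 (.pos 34 .pp ⟨7840145214, 0, 0, 0, 0, 0, 0, 0, 0, ⟨0, 0⟩, 0⟩ 0 0) (.pos 34 .pp ⟨5456315542, 0, 0, 0, 0, 0, 0, 0, 0, ⟨0, 0⟩, 0⟩ 0 0)))) (.pos 10 .pp ⟨0, 0, 0, 0, 0, 0, 0, 0, 0, ⟨0, 0⟩, 0⟩ 0 0)) (.cut .v 134217728 (.cut .v 100663296 (.cut .d 664257 (.cut .d 332128 (.pos 75 .pp ⟨19726622536, 0, 0, 0, 0, 0, 0, 0, 0, ⟨0, 0⟩, 0⟩ 0 0) (.cut .v 83886080 (.pos 87 .pp ⟨9118228814, 0, 0, 0, 0, 0, 0, 0, 0, ⟨0, 0⟩, 0⟩ 0 0) (.cut .v 92274688 (.pos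 129 .pp ⟨12712904688, 0, 0, 0, 0, 0, 0, 0, 0, ⟨0, 0⟩, 0⟩ 0 0) (.pos 130 .pp ⟨68445937952, 97514604890, 0, 0, 0, 0, 0, 0, 0, ⟨0, 0⟩, 0⟩ 0 0)))) (.pos 75 .pp ⟨0, 2863758191, 0, 0, 0, 0, 0, 0, 0, ⟨0, 0⟩, 0⟩ 0 0)) (.void 76 ⟨35267, 64733, 0, 0, 0, 0, 0, 0, 0, ⟨0, 0⟩, 0⟩ 0 0)) (.void 71 ⟨0, 0, 0, 100000, 0, 0, 0, 0, 0, ⟨0, 0⟩, 0⟩ 0 0))) (.pos 66 .pp ⟨0, 501618818, 0, 0, 0, 0, 0, 0, 0, ⟨0, 0⟩, 0⟩ 0 0)) (.void 74 ⟨0, 0, 0, 100000, 0, 0, 0, 0, 0, ⟨0, 0⟩, 0⟩ 0 0)))),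
    by decide +kernel⟩

def covers24 : cell.Covers table row24.1 :=
  ⟨(.cut .d 0 (.cut .v 16777216 (.cut .v 8388608 (.void 2 ⟨0, 0, 100000, 0, 0, 0, 0, 0, 0, ⟨0, 0⟩, 0⟩ 0 0) (.cut .d (-8388608) (.void 3 ⟨100000, 0, 0, 0, 0, 0, 0, 0, 0, ⟨0, 0⟩, 0⟩ 0 0) (.cut .d (-4194304) (.void 3 ⟨100000, 0, 0, 0, 0, 0, 0, 0, 0, ⟨0, 0⟩, 0⟩ 0 0) (.cut .d (-2097152) (.void 3 ⟨100000, 0, 0, 0, 0, 0, 0, 0, 0, ⟨0, 0⟩, 0⟩ 0 0) (.cut .d (-1048576) (.void 3 ⟨79224, 0, 20776, 0, 0, 0, 0, 0, 0, ⟨0, 0⟩, 0⟩ 0 0) (.cut .d (-524288) (.void 3 ⟨0, 0, 0, 0, 0, 100000, 0, 0, 0, ⟨0, 0⟩, 0⟩ 0 0) (.cut .d (-262144) (.cut .v 12582912 (.pos 6 .mm ⟨0, 0, 21323076, 0, 0, 2486423861, 0, 0, 0,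 ⟨0, 0⟩, 0⟩ 0 0) (.cut .v 14680064 (.pos 8 .mm ⟨0, 0, 0, 0, 0, 3446229867, 0, 0, 0, ⟨0, 0⟩, 0⟩ 0 0) (.pos 9 .mm ⟨247978120, 0, 0, 0, 0, 3053237069, 0, 0, 0, ⟨0, 0⟩, 0⟩ 0 0))) (.cut .d (-131072) (.cut .d (-196608) (.cut .l 6001081 (.void 3 ⟨0, 0, 0, 0, 0, 100000, 0, 0, 0, ⟨0, 0⟩, 0⟩ 0 0) (.cut .l 8162761 (.pos 3 .mm ⟨0, 0, 0, 0, 0, 1936247488, 0, 0, 0, ⟨0, 0⟩, 0⟩ 0 0) (.cut .d (-229376) (.cut .l 9243601 (.pos 3 .mm ⟨0, 0, 0, 0, 0, 2194950318, 0, 0, 0, ⟨0, 0⟩, 0⟩ 0 0) (.cut .l 9784021 (.pos 3 .mm ⟨0, 0, 0, 0, 0, 2126350513, 0, 0, 0, ⟨0, 0⟩, 0⟩ 0 0) (.cut .v 12582912 (.cut .v 10485760 (.pos 81 .mm ⟨0, 0, 53367570, 0, 0, 1779695522, 0, 0, 0, ⟨0, 0⟩, 0⟩ 0 0)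 (.pos 82 .mm ⟨0, 0, 0, 0, 0, 1833063093, 0, 0, 0, ⟨0, 0⟩, 0⟩ 0 0)) (.cut .v 14680064 (.pos 8 .mm ⟨0, 0, 0, 0, 0, 2438069065, 0, 0, 0, ⟨0, 0⟩, 0⟩ 0 0) (.pos 9 .mm ⟨277576928, 0, 0, 0, 0, 2047048589, 0, 0, 0, ⟨0, 0⟩, 0⟩ 0 0))))) (.pos 3 .mm ⟨0, 0, 9522704, 0, 0, 324538479, 0, 0, 0, ⟨0, 0⟩, 0⟩ 0 0)))) (.pos 3 .mm ⟨0, 0, 0, 0, 0, 1141535860, 0, 0, 0, ⟨0, 0⟩, 0⟩ 0 0)) (.pos 3 .mm ⟨0, 0, 0, 0, 0, 723609159, 0, 0, 0, ⟨0, 0⟩, 0⟩ 0 0))))))))) (.cut .v 268435456 (.cut .v 67108864 (.cut .v 33554432 (.cut .d (-8388608) (.void 11 ⟨100000, 0, 0, 0, 0, 0, 0, 0, 0, ⟨0, 0⟩, 0⟩ 0 0) (.cut .d (-4194304) (.void 11 ⟨100000, 0, 0, 0, 0, 0, 0, 0, 0, ⟨0, 0⟩, 0⟩ 0 0) (.cut .d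 (-2097152) (.void 11 ⟨100000, 0, 0, 0, 0, 0, 0, 0, 0, ⟨0, 0⟩, 0⟩ 0 0) (.cut .d (-1048576) (.void 11 ⟨100000, 0, 0, 0, 0, 0, 0, 0, 0, ⟨0, 0⟩, 0⟩ 0 0) (.cut .d (-524288) (.void 11 ⟨100000, 0, 0, 0, 0, 0, 0, 0, 0, ⟨0, 0⟩, 0⟩ 0 0) (.cut .d (-262144) (.void 11 ⟨100000, 0, 0, 0, 0, 0, 0, 0, 0, ⟨0, 0⟩, 0⟩ 0 0) (.cut .v 25165824 (.pos 13 .mp ⟨1539012312, 0, 0, 0, 0, 0, 0, 0, 0, ⟨0, 0⟩, 0⟩ 0 0) (.pos 14 .mp ⟨2946392886, 0, 0, 0, 0, 0, 0, 0, 0, ⟨0, 0⟩, 0⟩ 0 0)))))))) (.void 12 ⟨100000, 0, 0, 0, 0, 0, 0, 0, 0, ⟨0, 0⟩, 0⟩ 0 0)) (.void 67 ⟨100000, 0, 0, 0, 0, 0, 0, 0, 0, ⟨0, 0⟩, 0⟩ 0 0)) (.void 74 ⟨93970, 0, 0, 6030, 0, 0, 0, 0, 0, ⟨0, 0⟩, 0⟩ 0 0))) (.cut .v 16777216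 (.cut .v 8388608 (.cut .v 4194304 (.cut .v 2097152 (.cut .d 1113533 (.void 79 ⟨0, 0, 100000, 0, 0, 0, 0, 0, 0, ⟨0, 0⟩, 0⟩ 0 0) (.cut .v 1048576 (.cut .d 1670300 (.pos 107 .pm ⟨0, 0, 2160159684, 0, 0, 0, 0, 0, 0, ⟨0, 0⟩, 0⟩ 0 0) (.cut .v 524288 (.cut .v 262144 (.pos 157 .pm ⟨0, 17773387, 0, 0, 0, 0, 0, 0, 0, ⟨0, 0⟩, 0⟩ 0 0) (.pos 158 .pm ⟨0, 65132389, 0, 0, 0, 0, 0, 0, 0, ⟨0, 0⟩, 0⟩ 0 0)) (.cut .d 1948683 (.pos 146 .pm ⟨0, 96515679, 0, 0, 0, 0, 0, 0, 0, ⟨0, 0⟩, 0⟩ 0 0) (.pos 146 .pm ⟨0, 140571444, 0, 0, 0, 0, 0, 0, 0, ⟨0, 0⟩, 0⟩ 0 0)))) (.cut .d 1670300 (.pos 108 .pm ⟨0, 0, 0, 0, 0, 0, 0, 0, 0, ⟨0, 0⟩, 0⟩ 0 0) (.cut .d 1948683 (.cut .s 14942208 (.pos 108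 .pm ⟨0, 0, 0, 0, 0, 0, 0, 0, 0, ⟨0, 0⟩, 0⟩ 0 0) (.cut .d 1809491 (.pos 108 .pm ⟨0, 0, 0, 0, 0, 0, 0, 0, 0, ⟨0, 0⟩, 0⟩ 0 0) (.cut .l 6001081 (.cut .v 1572864 (.cut .d 1879087 (.pos 149 .pm ⟨0, 146916829, 0, 0, 0, 0, 0, 0, 0, ⟨0, 0⟩, 0⟩ 0 0) (.cut .s 15007744 (.pos 149 .pm ⟨0, 0, 0, 0, 0, 0, 0, 0, 0, ⟨0, 0⟩, 0⟩ 0 0) (.cut .s 15040512 (.pos 149 .pm ⟨0, 179376431, 0, 0, 0, 0, 0, 0, 0, ⟨0, 0⟩, 0⟩ 0 0) (.pos 149 .pm ⟨0, 196710770, 0, 0, 0, 0, 0, 0, 0, ⟨0, 0⟩, 0⟩ 0 0)))) (.cut .s 15007744 (.pos 150 .pm ⟨0, 166442295, 0, 0, 0, 0, 0, 0, 0, ⟨0, 0⟩, 0⟩ 0 0) (.cut .d 1879087 (.pos 150 .pm ⟨0, 182595671, 0, 0, 0, 0, 0, 0, 0, ⟨0, 0⟩, 0⟩ 0 0) (.cut .s 15040512 (.pos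 150 .pm ⟨0, 199204771, 0, 0, 0, 0, 0, 0, 0, ⟨0, 0⟩, 0⟩ 0 0) (.pos 150 .pm ⟨0, 217887978, 0, 0, 0, 0, 0, 0, 0, ⟨0, 0⟩, 0⟩ 0 0))))) (.pos 108 .pm ⟨0, 174420229, 0, 0, 0, 0, 0, 0, 0, ⟨0, 0⟩, 0⟩ 0 0)))) (.cut .s 14942208 (.cut .l 6001081 (.cut .d 2087875 (.cut .s 14876672 (.pos 108 .pm ⟨0, 0, 0, 0, 0, 0, 0, 0, 0, ⟨0, 0⟩, 0⟩ 0 0) (.cut .v 1572864 (.pos 149 .pm ⟨0, 158740452, 0, 0, 0, 0, 0, 0, 0, ⟨0, 0⟩, 0⟩ 0 0) (.cut .d 2018279 (.pos 150 .pm ⟨0, 0, 0, 0, 0, 0, 0, 0, 0, ⟨0, 0⟩, 0⟩ 0 0) (.pos 150 .pm ⟨0, 189806707, 0, 0, 0, 0, 0, 0, 0, ⟨0, 0⟩, 0⟩ 0 0)))) (.cut .l 3839401 (.cut .v 1572864 (.cut .s 14876672 (.pos 149 .pm ⟨0, 169082891, 0, 0, 0, 0, 0, 0, 0, ⟨0,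 0⟩, 0⟩ 0 0) (.pos 149 .pm ⟨0, 195692948, 0, 0, 0, 0, 0, 0, 0, ⟨0, 0⟩, 0⟩ 0 0)) (.cut .l 2758561 (.cut .s 14876672 (.cut .l 2218141 (.cut .d 2157471 (.cut .s 14843904 (.pos 150 .pm ⟨0, 168212407, 0, 0, 0, 0, 0, 0, 0, ⟨0, 0⟩, 0⟩ 0 0) (.pos 150 .pm ⟨0, 189213585, 0, 0, 0, 0, 0, 0, 0, ⟨0, 0⟩, 0⟩ 0 0)) (.cut .s 14843904 (.cut .v 1835008 (.pos 163 .pm ⟨0, 192671147, 0, 0, 0, 0, 0, 0, 0, ⟨0, 0⟩, 0⟩ 0 0) (.cut .d 2192269 (.pos 164 .pm ⟨0, 195650267, 0, 0, 0, 0, 0, 0, 0, ⟨0, 0⟩, 0⟩ 0 0) (.void 164 ⟨0, 100000, 0, 0, 0, 0, 0, 0, 0, ⟨0, 0⟩, 0⟩ 0 0))) (.void 150 ⟨0, 100000, 0, 0, 0, 0, 0, 0, 0, ⟨0, 0⟩, 0⟩ 0 0))) (.pos 150 .pm ⟨0, 195930074, 0, 0, 0, 0, 0, 0, 0, ⟨0,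 0⟩, 0⟩ 0 0)) (.cut .v 1835008 (.pos 163 .pm ⟨0, 222559345, 0, 0, 0, 0, 0, 0, 0, ⟨0, 0⟩, 0⟩ 0 0) (.pos 164 .pm ⟨0, 242971538, 0, 0, 0, 0, 0, 0, 0, ⟨0, 0⟩, 0⟩ 0 0))) (.pos 150 .pm ⟨0, 219749843, 0, 0, 0, 0, 0, 0, 0, ⟨0, 0⟩, 0⟩ 0 0))) (.pos 108 .pm ⟨0, 206176838, 0, 0, 0, 0, 0, 0, 0, ⟨0, 0⟩, 0⟩ 0 0))) (.pos 108 .pm ⟨0, 181006368, 0, 0, 0, 0, 0, 0, 0, ⟨0, 0⟩, 0⟩ 0 0)) (.cut .d 2087875 (.cut .l 6001081 (.cut .v 1572864 (.cut .s 15007744 (.cut .s 14974976 (.pos 149 .pm ⟨0, 180921721, 0, 0, 0, 0, 0, 0, 0, ⟨0, 0⟩, 0⟩ 0 0) (.pos 149 .pm ⟨0, 195745683, 0, 0, 0, 0, 0, 0, 0, ⟨0, 0⟩, 0⟩ 0 0)) (.pos 149 .pm ⟨0, 219140180, 0, 0, 0, 0, 0, 0, 0, ⟨0, 0⟩, 0⟩ 0 0)) (.cut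 .s 15007744 (.cut .d 2018279 (.cut .s 14974976 (.pos 150 .pm ⟨0, 190850129, 0, 0, 0, 0, 0, 0, 0, ⟨0, 0⟩, 0⟩ 0 0) (.pos 150 .pm ⟨0, 209129714, 0, 0, 0, 0, 0, 0, 0, ⟨0, 0⟩, 0⟩ 0 0)) (.pos 150 .pm ⟨0, 234009595, 0, 0, 0, 0, 0, 0, 0, ⟨0, 0⟩, 0⟩ 0 0)) (.pos 150 .pm ⟨0, 350382118, 0, 0, 0, 0, 0, 0, 0, ⟨0, 0⟩, 0⟩ 0 0))) (.pos 108 .pm ⟨0, 238146688, 0, 0, 0, 0, 0, 0, 0, ⟨0, 0⟩, 0⟩ 0 0)) (.void 108 ⟨0, 0, 0, 100000, 0, 0, 0, 0, 0, ⟨0, 0⟩, 0⟩ 0 0))))))) (.cut .d 1113533 (.pos 80 .pm ⟨0, 0, 473415153, 0, 0, 0, 0, 0, 0, ⟨0, 0⟩, 0⟩ 0 0) (.cut .d 1670300 (.pos 80 .pm ⟨0, 0, 0, 0, 0, 0, 0, 0, 0, ⟨0, 0⟩, 0⟩ 0 0) (.cut .d 1948683 (.cut .s 14942208 (.pos 80 .pm ⟨0, 0,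 0, 0, 0, 0, 0, 0, 0, ⟨0, 0⟩, 0⟩ 0 0) (.pos 80 .pm ⟨0, 208302779, 0, 0, 0, 0, 0, 0, 0, ⟨0, 0⟩, 0⟩ 0 0)) (.cut .v 3145728 (.cut .l 6001081 (.cut .s 14942208 (.cut .d 2087875 (.pos 109 .pm ⟨0, 197335557, 0, 0, 0, 0, 0, 0, 0, ⟨0, 0⟩, 0⟩ 0 0) (.cut .s 14876672 (.cut .d 2157471 (.pos 109 .pm ⟨0, 202930103, 0, 0, 0, 0, 0, 0, 0, ⟨0, 0⟩, 0⟩ 0 0) (.pos 109 .pm ⟨0, 234578320, 0, 0, 0, 0, 0, 0, 0, ⟨0, 0⟩, 0⟩ 0 0)) (.pos 109 .pm ⟨0, 273587539, 0, 0, 0, 0, 0, 0, 0, ⟨0, 0⟩, 0⟩ 0 0))) (.cut .d 2087875 (.pos 109 .pm ⟨0, 283112837, 0, 0, 0, 0, 0, 0, 0, ⟨0, 0⟩, 0⟩ 0 0) (.void 109 ⟨0, 0, 0, 100000, 0, 0, 0, 0, 0, ⟨0, 0⟩, 0⟩ 0 0))) (.pos 109 .pm ⟨0, 310299319, 0, 0, 0, 0,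 0, 0, 0, ⟨0, 0⟩, 0⟩ 0 0)) (.pos 110 .pm ⟨0, 365910524, 0, 0, 0, 0, 0, 0, 0, ⟨0, 0⟩, 0⟩ 0 0)))))) (.cut .d 1113533 (.pos 5 .pm ⟨0, 0, 552606732, 0, 0, 0, 0, 0, 0, ⟨0, 0⟩, 0⟩ 0 0) (.cut .d 1670300 (.pos 5 .pm ⟨0, 0, 0, 0, 0, 0, 0, 0, 0, ⟨0, 0⟩, 0⟩ 0 0) (.pos 5 .pm ⟨0, 404600779, 0, 0, 0, 0, 0, 0, 0, ⟨0, 0⟩, 0⟩ 0 0)))) (.pos 3 .pm ⟨0, 23420483, 0, 0, 0, 0, 0, 0, 0, ⟨0, 0⟩, 0⟩ 0 0)) (.cut .v 268435456 (.cut .d 1113533 (.cut .v 67108864 (.cut .v 33554432 (.pos 11 .pp ⟨701619900, 0, 0, 0, 0, 0, 0, 0, 0, ⟨0, 0⟩, 0⟩ 0 0) (.cut .v 50331648 (.pos 33 .pp ⟨2828121677, 0, 0, 0, 0, 0, 0, 0, 0, ⟨0, 0⟩, 0⟩ 0 0) (.cut .d 556766 (.pos 34 .pp ⟨7048228874, 0, 0, 0, 0, 0,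 0, 0, 0, ⟨0, 0⟩, 0⟩ 0 0) (.pos 34 .pp ⟨0, 0, 0, 0, 0, 0, 0, 0, 0, ⟨0, 0⟩, 0⟩ 0 0)))) (.cut .v 134217728 (.cut .v 100663296 (.cut .d 556766 (.cut .v 83886080 (.pos 87 .pp ⟨11854332082, 0, 0, 0, 0, 0, 0, 0, 0, ⟨0, 0⟩, 0⟩ 0 0) (.pos 88 .pp ⟨17670768675, 0, 0, 0, 0, 0, 0, 0, 0, ⟨0, 0⟩, 0⟩ 0 0)) (.pos 75 .pp ⟨0, 1744144946, 0, 0, 0, 0, 0, 0, 0, ⟨0, 0⟩, 0⟩ 0 0)) (.void 76 ⟨35008, 64992, 0, 0, 0, 0, 0, 0, 0, ⟨0, 0⟩, 0⟩ 0 0)) (.void 71 ⟨0, 0, 0, 100000, 0, 0, 0, 0, 0, ⟨0, 0⟩, 0⟩ 0 0))) (.pos 66 .pp ⟨0, 544839738, 0, 0, 0, 0, 0, 0, 0, ⟨0, 0⟩, 0⟩ 0 0)) (.void 74 ⟨0, 0, 0, 100000, 0, 0, 0, 0, 0, ⟨0, 0⟩, 0⟩ 0 0)))),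
    by decide +kernel⟩

def covers25 : cell.Covers table row25.1 :=
  ⟨(.cut .d 0 (.cut .v 16777216 (.cut .v 8388608 (.void 2 ⟨0, 0, 100000, 0, 0, 0, 0, 0, 0, ⟨0, 0⟩, 0⟩ 0 0) (.cut .d (-8388608) (.void 3 ⟨100000, 0, 0, 0, 0, 0, 0, 0, 0, ⟨0, 0⟩, 0⟩ 0 0) (.cut .d (-4194304) (.void 3 ⟨100000, 0, 0, 0, 0, 0, 0, 0, 0, ⟨0, 0⟩, 0⟩ 0 0) (.cut .d (-2097152) (.void 3 ⟨100000, 0, 0, 0, 0, 0, 0, 0, 0, ⟨0, 0⟩, 0⟩ 0 0) (.cut .d (-1048576) (.void 3 ⟨78977, 0, 21023, 0, 0, 0, 0, 0, 0, ⟨0, 0⟩, 0⟩ 0 0) (.cut .d (-524288) (.void 3 ⟨0, 0, 0, 0, 0, 100000, 0, 0, 0, ⟨0, 0⟩, 0⟩ 0 0) (.cut .d (-262144) (.void 3 ⟨0, 0, 0, 0, 0, 100000, 0, 0, 0, ⟨0, 0⟩, 0⟩ 0 0) (.cut .d (-131072)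 (.cut .d (-196608) (.cut .d (-229376) (.cut .v 12582912 (.cut .v 10485760 (.pos 81 .mm ⟨0, 0, 53396891, 0, 0, 1779555738, 0, 0, 0, ⟨0, 0⟩, 0⟩ 0 0) (.pos 82 .mm ⟨0, 0, 0, 0, 0, 1832952630, 0, 0, 0, ⟨0, 0⟩, 0⟩ 0 0)) (.pos 7 .mm ⟨31347803, 0, 0, 0, 0, 3184956153, 0, 0, 0, ⟨0, 0⟩, 0⟩ 0 0)) (.pos 3 .mm ⟨0, 0, 18850134, 0, 0, 649413395, 0, 0, 0, ⟨0, 0⟩, 0⟩ 0 0)) (.pos 3 .mm ⟨0, 0, 13570127, 0, 0, 324706698, 0, 0, 0, ⟨0, 0⟩, 0⟩ 0 0)) (.pos 3 .mm ⟨0, 0, 75540254, 0, 0, 324706698, 0, 0, 0, ⟨0, 0⟩, 0⟩ 0 0))))))))) (.cut .v 268435456 (.cut .v 67108864 (.cut .v 33554432 (.cut .d (-8388608) (.void 11 ⟨100000, 0, 0, 0, 0, 0, 0, 0, 0, ⟨0, 0⟩, 0⟩ 0 0) (.cut .d (-4194304)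 (.void 11 ⟨100000, 0, 0, 0, 0, 0, 0, 0, 0, ⟨0, 0⟩, 0⟩ 0 0) (.cut .d (-2097152) (.void 11 ⟨100000, 0, 0, 0, 0, 0, 0, 0, 0, ⟨0, 0⟩, 0⟩ 0 0) (.cut .d (-1048576) (.void 11 ⟨100000, 0, 0, 0, 0, 0, 0, 0, 0, ⟨0, 0⟩, 0⟩ 0 0) (.cut .d (-524288) (.void 11 ⟨100000, 0, 0, 0, 0, 0, 0, 0, 0, ⟨0, 0⟩, 0⟩ 0 0) (.cut .d (-262144) (.void 11 ⟨100000, 0, 0, 0, 0, 0, 0, 0, 0, ⟨0, 0⟩, 0⟩ 0 0) (.cut .v 25165824 (.pos 13 .mp ⟨1676826702, 0, 0, 0, 0, 0, 0, 0, 0, ⟨0, 0⟩, 0⟩ 0 0) (.pos 14 .mp ⟨3097576170, 0, 0, 0, 0, 0, 0, 0, 0, ⟨0, 0⟩, 0⟩ 0 0)))))))) (.void 12 ⟨100000, 0, 0, 0, 0, 0, 0, 0, 0, ⟨0, 0⟩, 0⟩ 0 0)) (.void 67 ⟨100000, 0, 0, 0, 0, 0, 0, 0, 0, ⟨0, 0⟩, 0⟩ 0 0)) (.void 74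 ⟨93896, 0, 0, 6104, 0, 0, 0, 0, 0, ⟨0, 0⟩, 0⟩ 0 0))) (.cut .v 16777216 (.cut .v 8388608 (.cut .v 4194304 (.cut .d 948278 (.pos 4 .pm ⟨0, 0, 3534565679, 0, 0, 0, 0, 0, 0, ⟨0, 0⟩, 0⟩ 0 0) (.cut .v 2097152 (.cut .v 1048576 (.cut .d 1422417 (.void 107 ⟨0, 0, 100000, 0, 0, 0, 0, 0, 0, ⟨0, 0⟩, 0⟩ 0 0) (.cut .v 524288 (.cut .v 262144 (.pos 157 .pm ⟨0, 19856687, 0, 0, 0, 0, 0, 0, 0, ⟨0, 0⟩, 0⟩ 0 0) (.pos 158 .pm ⟨0, 69442835, 0, 0, 0, 0, 0, 0, 0, ⟨0, 0⟩, 0⟩ 0 0)) (.cut .d 1659487 (.pos 146 .pm ⟨0, 95702206, 0, 0, 0, 0, 0, 0, 0, ⟨0, 0⟩, 0⟩ 0 0) (.cut .s 15171584 (.pos 146 .pm ⟨0, 130592381, 0, 0, 0, 0, 0, 0, 0, ⟨0, 0⟩, 0⟩ 0 0) (.pos 146 .pm ⟨0, 162178746, 0, 0,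 0, 0, 0, 0, 0, ⟨0, 0⟩, 0⟩ 0 0))))) (.cut .d 1422417 (.pos 108 .pm ⟨0, 0, 25799670, 0, 0, 0, 0, 0, 0, ⟨0, 0⟩, 0⟩ 0 0) (.cut .d 1659487 (.cut .v 1572864 (.cut .s 15171584 (.pos 149 .pm ⟨0, 0, 0, 0, 0, 0, 0, 0, 0, ⟨0, 0⟩, 0⟩ 0 0) (.cut .v 1310720 (.pos 171 .pm ⟨0, 128032458, 0, 0, 0, 0, 0, 0, 0, ⟨0, 0⟩, 0⟩ 0 0) (.cut .d 1540952 (.pos 172 .pm ⟨0, 0, 0, 0, 0, 0, 0, 0, 0, ⟨0, 0⟩, 0⟩ 0 0) (.pos 172 .pm ⟨0, 160343254, 0, 0, 0, 0, 0, 0, 0, ⟨0, 0⟩, 0⟩ 0 0)))) (.pos 150 .pm ⟨0, 149448692, 0, 0, 0, 0, 0, 0, 0, ⟨0, 0⟩, 0⟩ 0 0)) (.cut .s 15171584 (.cut .d 1778022 (.cut .v 1572864 (.pos 149 .pm ⟨0, 144002043, 0, 0, 0, 0, 0, 0, 0, ⟨0, 0⟩, 0⟩ 0 0) (.pos 150 .pm ⟨0, 171189934,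 0, 0, 0, 0, 0, 0, 0, ⟨0, 0⟩, 0⟩ 0 0)) (.cut .v 1572864 (.cut .s 15122432 (.cut .d 1837289 (.pos 149 .pm ⟨0, 161285203, 0, 0, 0, 0, 0, 0, 0, ⟨0, 0⟩, 0⟩ 0 0) (.pos 149 .pm ⟨0, 190163444, 0, 0, 0, 0, 0, 0, 0, ⟨0, 0⟩, 0⟩ 0 0)) (.pos 149 .pm ⟨0, 207566888, 0, 0, 0, 0, 0, 0, 0, ⟨0, 0⟩, 0⟩ 0 0)) (.cut .s 15122432 (.cut .d 1837289 (.pos 150 .pm ⟨0, 183898863, 0, 0, 0, 0, 0, 0, 0, ⟨0, 0⟩, 0⟩ 0 0) (.pos 150 .pm ⟨0, 209918713, 0, 0, 0, 0, 0, 0, 0, ⟨0, 0⟩, 0⟩ 0 0)) (.pos 150 .pm ⟨0, 233981368, 0, 0, 0, 0, 0, 0, 0, ⟨0, 0⟩, 0⟩ 0 0)))) (.cut .d 1778022 (.cut .v 1572864 (.cut .d 1718754 (.cut .s 15220736 (.pos 149 .pm ⟨0, 166331010, 0, 0, 0, 0, 0, 0, 0, ⟨0, 0⟩, 0⟩ 0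 0) (.cut .v 1310720 (.pos 171 .pm ⟨0, 188258029, 0, 0, 0, 0, 0, 0, 0, ⟨0, 0⟩, 0⟩ 0 0) (.pos 172 .pm ⟨0, 206934689, 0, 0, 0, 0, 0, 0, 0, ⟨0, 0⟩, 0⟩ 0 0))) (.cut .s 15220736 (.pos 149 .pm ⟨0, 198371863, 0, 0, 0, 0, 0, 0, 0, ⟨0, 0⟩, 0⟩ 0 0) (.void 149 ⟨0, 0, 0, 100000, 0, 0, 0, 0, 0, ⟨0, 0⟩, 0⟩ 0 0))) (.cut .s 15220736 (.pos 150 .pm ⟨0, 212061097, 0, 0, 0, 0, 0, 0, 0, ⟨0, 0⟩, 0⟩ 0 0) (.pos 150 .pm ⟨0, 242952336, 0, 0, 0, 0, 0, 0, 0, ⟨0, 0⟩, 0⟩ 0 0))) (.void 108 ⟨0, 0, 0, 100000, 0, 0, 0, 0, 0, ⟨0, 0⟩, 0⟩ 0 0)))))) (.cut .d 1422417 (.pos 80 .pm ⟨0, 0, 0, 0, 0, 0, 0, 0, 0, ⟨0, 0⟩, 0⟩ 0 0) (.cut .d 1659487 (.pos 80 .pm ⟨0, 188672987, 0, 0, 0, 0, 0, 0, 0, ⟨0,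 0⟩, 0⟩ 0 0) (.cut .s 15171584 (.pos 80 .pm ⟨0, 248695922, 0, 0, 0, 0, 0, 0, 0, ⟨0, 0⟩, 0⟩ 0 0) (.pos 80 .pm ⟨0, 340549544, 0, 0, 0, 0, 0, 0, 0, ⟨0, 0⟩, 0⟩ 0 0)))))) (.cut .d 948278 (.pos 5 .pm ⟨0, 0, 611938484, 0, 0, 0, 0, 0, 0, ⟨0, 0⟩, 0⟩ 0 0) (.pos 5 .pm ⟨0, 310753179, 0, 0, 0, 0, 0, 0, 0, ⟨0, 0⟩, 0⟩ 0 0))) (.pos 3 .pm ⟨0, 0, 798199, 0, 0, 0, 0, 0, 0, ⟨0, 0⟩, 0⟩ 0 0)) (.cut .v 268435456 (.cut .d 948278 (.cut .v 67108864 (.cut .v 33554432 (.pos 11 .pp ⟨0, 0, 0, 0, 0, 0, 0, 0, 0, ⟨0, 0⟩, 0⟩ 0 0) (.cut .v 50331648 (.pos 33 .pp ⟨2814405517, 0, 0, 0, 0, 0, 0, 0, 0, ⟨0, 0⟩, 0⟩ 0 0) (.pos 34 .pp ⟨6079508870, 0, 0, 0, 0, 0, 0, 0, 0, ⟨0, 0⟩, 0⟩ 0 0))) (.cut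 .v 134217728 (.cut .v 100663296 (.cut .d 474139 (.cut .d 237069 (.pos 75 .pp ⟨29232285960, 0, 0, 0, 0, 0, 0, 0, 0, ⟨0, 0⟩, 0⟩ 0 0) (.pos 75 .pp ⟨12647332721, 0, 0, 0, 0, 0, 0, 0, 0, ⟨0, 0⟩, 0⟩ 0 0)) (.pos 75 .pp ⟨0, 0, 0, 0, 0, 0, 0, 0, 0, ⟨0, 0⟩, 0⟩ 0 0)) (.void 76 ⟨34822, 65178, 0, 0, 0, 0, 0, 0, 0, ⟨0, 0⟩, 0⟩ 0 0)) (.void 71 ⟨0, 0, 0, 100000, 0, 0, 0, 0, 0, ⟨0, 0⟩, 0⟩ 0 0))) (.pos 66 .pp ⟨0, 572663191, 0, 0, 0, 0, 0, 0, 0, ⟨0, 0⟩, 0⟩ 0 0)) (.void 74 ⟨0, 0, 0, 100000, 0, 0, 0, 0, 0, ⟨0, 0⟩, 0⟩ 0 0)))),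
    by decide +kernel⟩

def covers26 : cell.Covers table row26.1 :=
  ⟨(.cut .d 0 (.cut .v 16777216 (.cut .d (-8388608) (.void 1 ⟨0, 0, 0, 0, 0, 100000, 0, 0, 0, ⟨0, 0⟩, 0⟩ 0 0) (.cut .v 8388608 (.void 2 ⟨0, 0, 100000, 0, 0, 0, 0, 0, 0, ⟨0, 0⟩, 0⟩ 0 0) (.cut .d (-4194304) (.void 3 ⟨100000, 0, 0, 0, 0, 0, 0, 0, 0, ⟨0, 0⟩, 0⟩ 0 0) (.cut .d (-2097152) (.void 3 ⟨100000, 0, 0, 0, 0, 0, 0, 0, 0, ⟨0, 0⟩, 0⟩ 0 0) (.cut .d (-1048576) (.void 3 ⟨78793, 0, 21207, 0, 0, 0, 0, 0, 0, ⟨0, 0⟩, 0⟩ 0 0) (.cut .d (-524288) (.void 3 ⟨0, 0, 0, 0, 0, 100000, 0, 0, 0, ⟨0, 0⟩, 0⟩ 0 0) (.cut .d (-262144) (.void 3 ⟨0, 0, 0, 0, 0, 100000, 0, 0, 0, ⟨0, 0⟩, 0⟩ 0 0) (.pos 3 .mm ⟨0,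 0, 18898996, 0, 0, 1417046351, 0, 0, 0, ⟨0, 0⟩, 0⟩ 0 0)))))))) (.cut .v 268435456 (.cut .v 67108864 (.cut .v 33554432 (.cut .d (-8388608) (.void 11 ⟨100000, 0, 0, 0, 0, 0, 0, 0, 0, ⟨0, 0⟩, 0⟩ 0 0) (.cut .d (-4194304) (.void 11 ⟨100000, 0, 0, 0, 0, 0, 0, 0, 0, ⟨0, 0⟩, 0⟩ 0 0) (.cut .d (-2097152) (.void 11 ⟨100000, 0, 0, 0, 0, 0, 0, 0, 0, ⟨0, 0⟩, 0⟩ 0 0) (.cut .d (-1048576) (.void 11 ⟨100000, 0, 0, 0, 0, 0, 0, 0, 0, ⟨0, 0⟩, 0⟩ 0 0) (.cut .d (-524288) (.void 11 ⟨100000, 0, 0, 0, 0, 0, 0, 0, 0, ⟨0, 0⟩, 0⟩ 0 0) (.cut .d (-262144) (.void 11 ⟨100000, 0, 0, 0, 0, 0, 0, 0, 0, ⟨0, 0⟩, 0⟩ 0 0) (.pos 11 .mp ⟨1885030039, 0, 0, 0, 0, 0, 0, 0, 0, ⟨0, 0⟩, 0⟩ 0 0)))))))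 (.void 12 ⟨100000, 0, 0, 0, 0, 0, 0, 0, 0, ⟨0, 0⟩, 0⟩ 0 0)) (.void 67 ⟨100000, 0, 0, 0, 0, 0, 0, 0, 0, ⟨0, 0⟩, 0⟩ 0 0)) (.void 74 ⟨93797, 0, 0, 6203, 0, 0, 0, 0, 0, ⟨0, 0⟩, 0⟩ 0 0))) (.cut .v 16777216 (.cut .v 8388608 (.cut .v 4194304 (.cut .v 2097152 (.cut .d 828061 (.void 79 ⟨0, 0, 100000, 0, 0, 0, 0, 0, 0, ⟨0, 0⟩, 0⟩ 0 0) (.cut .v 1048576 (.cut .v 524288 (.cut .d 1242092 (.void 145 ⟨0, 0, 100000, 0, 0, 0, 0, 0, 0, ⟨0, 0⟩, 0⟩ 0 0) (.cut .v 262144 (.cut .v 131072 (.pos 175 .pm ⟨0, 11252703, 0, 0, 0, 0, 0, 0, 0, ⟨0, 0⟩, 0⟩ 0 0) (.pos 176 .pm ⟨0, 45647084, 0, 0, 0, 0, 0, 0, 0, ⟨0, 0⟩, 0⟩ 0 0)) (.pos 158 .pm ⟨0, 87250211, 0, 0, 0, 0, 0, 0, 0, ⟨0, 0⟩, 0⟩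 0 0))) (.cut .d 1242092 (.pos 146 .pm ⟨0, 0, 0, 0, 0, 0, 0, 0, 0, ⟨0, 0⟩, 0⟩ 0 0) (.cut .d 1449107 (.cut .s 15400960 (.pos 146 .pm ⟨0, 0, 0, 0, 0, 0, 0, 0, 0, ⟨0, 0⟩, 0⟩ 0 0) (.cut .d 1345599 (.pos 146 .pm ⟨0, 112748749, 0, 0, 0, 0, 0, 0, 0, ⟨0, 0⟩, 0⟩ 0 0) (.cut .s 15466496 (.pos 146 .pm ⟨0, 139176973, 0, 0, 0, 0, 0, 0, 0, ⟨0, 0⟩, 0⟩ 0 0) (.cut .s 15499264 (.pos 146 .pm ⟨0, 162801783, 0, 0, 0, 0, 0, 0, 0, ⟨0, 0⟩, 0⟩ 0 0) (.pos 146 .pm ⟨0, 179445519, 0, 0, 0, 0, 0, 0, 0, ⟨0, 0⟩, 0⟩ 0 0))))) (.cut .s 15400960 (.cut .d 1552615 (.pos 146 .pm ⟨0, 135952417, 0, 0, 0, 0, 0, 0, 0, ⟨0, 0⟩, 0⟩ 0 0) (.pos 146 .pm ⟨0, 165780804, 0, 0, 0, 0, 0, 0, 0, ⟨0, 0⟩, 0⟩ 0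 0)) (.pos 146 .pm ⟨0, 205211389, 0, 0, 0, 0, 0, 0, 0, ⟨0, 0⟩, 0⟩ 0 0))))) (.cut .d 1242092 (.pos 108 .pm ⟨0, 0, 0, 0, 0, 0, 0, 0, 0, ⟨0, 0⟩, 0⟩ 0 0) (.cut .d 1449107 (.cut .s 15400960 (.pos 108 .pm ⟨0, 0, 0, 0, 0, 0, 0, 0, 0, ⟨0, 0⟩, 0⟩ 0 0) (.cut .v 1572864 (.cut .d 1345599 (.pos 149 .pm ⟨0, 141350571, 0, 0, 0, 0, 0, 0, 0, ⟨0, 0⟩, 0⟩ 0 0) (.cut .s 15466496 (.cut .v 1310720 (.cut .d 1397353 (.pos 171 .pm ⟨0, 0, 0, 0, 0, 0, 0, 0, 0, ⟨0, 0⟩, 0⟩ 0 0) (.pos 171 .pm ⟨0, 169877593, 0, 0, 0, 0, 0, 0, 0, ⟨0, 0⟩, 0⟩ 0 0)) (.pos 172 .pm ⟨0, 184209944, 0, 0, 0, 0, 0, 0, 0, ⟨0, 0⟩, 0⟩ 0 0)) (.cut .d 1397353 (.cut .s 15499264 (.pos 149 .pm ⟨0, 180433651, 0, 0, 0,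 0, 0, 0, 0, ⟨0, 0⟩, 0⟩ 0 0) (.pos 149 .pm ⟨0, 199716723, 0, 0, 0, 0, 0, 0, 0, ⟨0, 0⟩, 0⟩ 0 0)) (.pos 149 .pm ⟨0, 215954977, 0, 0, 0, 0, 0, 0, 0, ⟨0, 0⟩, 0⟩ 0 0)))) (.pos 150 .pm ⟨0, 215040204, 0, 0, 0, 0, 0, 0, 0, ⟨0, 0⟩, 0⟩ 0 0))) (.cut .s 15400960 (.cut .d 1552615 (.cut .v 1572864 (.cut .s 15335424 (.pos 149 .pm ⟨0, 0, 0, 0, 0, 0, 0, 0, 0, ⟨0, 0⟩, 0⟩ 0 0) (.cut .d 1500861 (.pos 149 .pm ⟨0, 164964068, 0, 0, 0, 0, 0, 0, 0, ⟨0, 0⟩, 0⟩ 0 0) (.cut .v 1310720 (.pos 171 .pm ⟨0, 182835923, 0, 0, 0, 0, 0, 0, 0, ⟨0, 0⟩, 0⟩ 0 0) (.pos 172 .pm ⟨0, 196778746, 0, 0, 0, 0, 0, 0, 0, ⟨0, 0⟩, 0⟩ 0 0)))) (.pos 150 .pm ⟨0, 197216222, 0, 0, 0, 0, 0, 0, 0, ⟨0, 0⟩, 0⟩ 0 0))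 (.cut .v 1572864 (.cut .s 15335424 (.cut .d 1604369 (.cut .v 1310720 (.pos 171 .pm ⟨0, 166490585, 0, 0, 0, 0, 0, 0, 0, ⟨0, 0⟩, 0⟩ 0 0) (.pos 172 .pm ⟨0, 178809094, 0, 0, 0, 0, 0, 0, 0, ⟨0, 0⟩, 0⟩ 0 0)) (.cut .v 1310720 (.pos 171 .pm ⟨0, 187642278, 0, 0, 0, 0, 0, 0, 0, ⟨0, 0⟩, 0⟩ 0 0) (.pos 172 .pm ⟨0, 204482626, 0, 0, 0, 0, 0, 0, 0, ⟨0, 0⟩, 0⟩ 0 0))) (.pos 149 .pm ⟨0, 234702113, 0, 0, 0, 0, 0, 0, 0, ⟨0, 0⟩, 0⟩ 0 0)) (.cut .s 15335424 (.pos 150 .pm ⟨0, 218441814, 0, 0, 0, 0, 0, 0, 0, ⟨0, 0⟩, 0⟩ 0 0) (.pos 150 .pm ⟨0, 267072940, 0, 0, 0, 0, 0, 0, 0, ⟨0, 0⟩, 0⟩ 0 0)))) (.cut .v 1572864 (.cut .d 1552615 (.cut .s 15466496 (.cut .v 1310720 (.cut .s 15433728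 (.pos 171 .pm ⟨0, 198914203, 0, 0, 0, 0, 0, 0, 0, ⟨0, 0⟩, 0⟩ 0 0) (.void 171 ⟨0, 0, 0, 100000, 0, 0, 0, 0, 0, ⟨0, 0⟩, 0⟩ 0 0)) (.pos 172 .pm ⟨0, 231378813, 0, 0, 0, 0, 0, 0, 0, ⟨0, 0⟩, 0⟩ 0 0)) (.void 149 ⟨0, 0, 0, 100000, 0, 0, 0, 0, 0, ⟨0, 0⟩, 0⟩ 0 0)) (.void 149 ⟨0, 0, 0, 100000, 0, 0, 0, 0, 0, ⟨0, 0⟩, 0⟩ 0 0)) (.pos 150 .pm ⟨0, 338612367, 0, 0, 0, 0, 0, 0, 0, ⟨0, 0⟩, 0⟩ 0 0))))))) (.cut .d 828061 (.pos 80 .pm ⟨0, 0, 788610713, 0, 0, 0, 0, 0, 0, ⟨0, 0⟩, 0⟩ 0 0) (.cut .d 1242092 (.pos 80 .pm ⟨0, 0, 0, 0, 0, 0, 0, 0, 0, ⟨0, 0⟩, 0⟩ 0 0) (.cut .s 15400960 (.pos 80 .pm ⟨0, 247987322, 0, 0, 0, 0, 0, 0, 0, ⟨0, 0⟩, 0⟩ 0 0) (.cut .d 1449107 (.pos 80 .pm ⟨0,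 275981130, 0, 0, 0, 0, 0, 0, 0, ⟨0, 0⟩, 0⟩ 0 0) (.pos 80 .pm ⟨0, 431087957, 0, 0, 0, 0, 0, 0, 0, ⟨0, 0⟩, 0⟩ 0 0)))))) (.cut .d 828061 (.pos 5 .pm ⟨0, 0, 299698124, 0, 0, 0, 0, 0, 0, ⟨0, 0⟩, 0⟩ 0 0) (.pos 5 .pm ⟨0, 386023770, 0, 0, 0, 0, 0, 0, 0, ⟨0, 0⟩, 0⟩ 0 0))) (.pos 3 .pm ⟨0, 77405369, 0, 0, 0, 0, 0, 0, 0, ⟨0, 0⟩, 0⟩ 0 0)) (.cut .v 268435456 (.cut .d 828061 (.cut .v 67108864 (.cut .v 33554432 (.pos 11 .pp ⟨0, 0, 0, 0, 0, 0, 0, 0, 0, ⟨0, 0⟩, 0⟩ 0 0) (.pos 12 .pp ⟨3422867044, 0, 0, 0, 0, 0, 0, 0, 0, ⟨0, 0⟩, 0⟩ 0 0)) (.cut .v 134217728 (.cut .v 100663296 (.cut .v 83886080 (.pos 87 .pp ⟨10723420323, 0, 0, 0, 0, 0, 0, 0, 0, ⟨0, 0⟩, 0⟩ 0 0) (.pos 88 .pp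 ⟨20011824743, 10567407831, 0, 0, 0, 0, 0, 0, 0, ⟨0, 0⟩, 0⟩ 0 0)) (.void 76 ⟨34515, 65485, 0, 0, 0, 0, 0, 0, 0, ⟨0, 0⟩, 0⟩ 0 0)) (.void 71 ⟨0, 0, 0, 100000, 0, 0, 0, 0, 0, ⟨0, 0⟩, 0⟩ 0 0))) (.pos 66 .pp ⟨0, 784529605, 0, 0, 0, 0, 0, 0, 0, ⟨0, 0⟩, 0⟩ 0 0)) (.void 74 ⟨0, 0, 0, 100000, 0, 0, 0, 0, 0, ⟨0, 0⟩, 0⟩ 0 0)))),
    by decide +kernel⟩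

def covers27 : cell.Covers table row27.1 :=
  ⟨(.cut .d 0 (.cut .v 16777216 (.cut .d (-8388608) (.void 1 ⟨0, 0, 0, 0, 0, 100000, 0, 0, 0, ⟨0, 0⟩, 0⟩ 0 0) (.cut .v 8388608 (.void 2 ⟨0, 0, 100000, 0, 0, 0, 0, 0, 0, ⟨0, 0⟩, 0⟩ 0 0) (.cut .d (-4194304) (.void 3 ⟨100000, 0, 0, 0, 0, 0, 0, 0, 0, ⟨0, 0⟩, 0⟩ 0 0) (.cut .d (-2097152) (.void 3 ⟨100000, 0, 0, 0, 0, 0, 0, 0, 0, ⟨0, 0⟩, 0⟩ 0 0) (.cut .d (-1048576) (.void 3 ⟨100000, 0, 0, 0, 0, 0, 0, 0, 0, ⟨0, 0⟩, 0⟩ 0 0) (.cut .d (-524288) (.void 3 ⟨78549, 0, 21451, 0, 0, 0, 0, 0, 0, ⟨0, 0⟩, 0⟩ 0 0) (.pos 3 .mm ⟨0, 0, 0, 0, 0, 2731758657, 0, 0, 0, ⟨0, 0⟩, 0⟩ 0 0))))))) (.cut .v 268435456 (.cut .v 67108864 (.cut .v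 33554432 (.cut .d (-8388608) (.void 11 ⟨100000, 0, 0, 0, 0, 0, 0, 0, 0, ⟨0, 0⟩, 0⟩ 0 0) (.cut .d (-4194304) (.void 11 ⟨100000, 0, 0, 0, 0, 0, 0, 0, 0, ⟨0, 0⟩, 0⟩ 0 0) (.cut .d (-2097152) (.void 11 ⟨100000, 0, 0, 0, 0, 0, 0, 0, 0, ⟨0, 0⟩, 0⟩ 0 0) (.cut .d (-1048576) (.void 11 ⟨100000, 0, 0, 0, 0, 0, 0, 0, 0, ⟨0, 0⟩, 0⟩ 0 0) (.cut .d (-524288) (.void 11 ⟨100000, 0, 0, 0, 0, 0, 0, 0, 0, ⟨0, 0⟩, 0⟩ 0 0) (.pos 11 .mp ⟨3272107266, 0, 0, 0, 0, 0, 0, 0, 0, ⟨0, 0⟩, 0⟩ 0 0)))))) (.void 12 ⟨100000, 0, 0, 0, 0, 0, 0, 0, 0, ⟨0, 0⟩, 0⟩ 0 0)) (.void 67 ⟨100000, 0, 0, 0, 0, 0, 0, 0, 0, ⟨0, 0⟩, 0⟩ 0 0)) (.void 74 ⟨93705, 0, 0, 6295, 0, 0, 0, 0, 0, ⟨0, 0⟩, 0⟩ 0 0))) (.cut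 .v 16777216 (.cut .v 8388608 (.cut .v 4194304 (.cut .v 2097152 (.cut .d 672505 (.void 79 ⟨0, 0, 100000, 0, 0, 0, 0, 0, 0, ⟨0, 0⟩, 0⟩ 0 0) (.cut .v 1048576 (.cut .v 524288 (.cut .v 262144 (.cut .v 131072 (.pos 175 .pm ⟨0, 10953341, 0, 0, 0, 0, 0, 0, 0, ⟨0, 0⟩, 0⟩ 0 0) (.pos 176 .pm ⟨0, 41977447, 0, 0, 0, 0, 0, 0, 0, ⟨0, 0⟩, 0⟩ 0 0)) (.cut .d 1008758 (.pos 158 .pm ⟨0, 0, 0, 0, 0, 0, 0, 0, 0, ⟨0, 0⟩, 0⟩ 0 0) (.cut .d 1176884 (.pos 158 .pm ⟨0, 89672314, 0, 0, 0, 0, 0, 0, 0, ⟨0, 0⟩, 0⟩ 0 0) (.pos 158 .pm ⟨0, 119213182, 0, 0, 0, 0, 0, 0, 0, ⟨0, 0⟩, 0⟩ 0 0)))) (.cut .d 1008758 (.pos 146 .pm ⟨0, 0, 0, 0, 0, 0, 0, 0, 0, ⟨0, 0⟩, 0⟩ 0 0) (.cut .d 1176884 (.cut .s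 15654912 (.pos 146 .pm ⟨0, 0, 0, 0, 0, 0, 0, 0, 0, ⟨0, 0⟩, 0⟩ 0 0) (.cut .d 1092821 (.cut .v 786432 (.pos 161 .pm ⟨0, 115601171, 0, 0, 0, 0, 0, 0, 0, ⟨0, 0⟩, 0⟩ 0 0) (.cut .s 15716352 (.pos 162 .pm ⟨0, 0, 0, 0, 0, 0, 0, 0, 0, ⟨0, 0⟩, 0⟩ 0 0) (.pos 162 .pm ⟨0, 142132188, 0, 0, 0, 0, 0, 0, 0, ⟨0, 0⟩, 0⟩ 0 0))) (.cut .s 15716352 (.cut .v 786432 (.pos 161 .pm ⟨0, 133982545, 0, 0, 0, 0, 0, 0, 0, ⟨0, 0⟩, 0⟩ 0 0) (.cut .d 1134852 (.pos 162 .pm ⟨0, 139863377, 0, 0, 0, 0, 0, 0, 0, ⟨0, 0⟩, 0⟩ 0 0) (.pos 162 .pm ⟨0, 160726524, 0, 0, 0, 0, 0, 0, 0, ⟨0, 0⟩, 0⟩ 0 0))) (.cut .v 786432 (.pos 161 .pm ⟨0, 159855753, 0, 0, 0, 0, 0, 0, 0, ⟨0, 0⟩, 0⟩ 0 0) (.pos 162 .pm ⟨0,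 189536763, 0, 0, 0, 0, 0, 0, 0, ⟨0, 0⟩, 0⟩ 0 0))))) (.cut .s 15654912 (.cut .d 1260947 (.cut .s 15593472 (.pos 146 .pm ⟨0, 0, 0, 0, 0, 0, 0, 0, 0, ⟨0, 0⟩, 0⟩ 0 0) (.cut .d 1218915 (.pos 146 .pm ⟨0, 134401811, 0, 0, 0, 0, 0, 0, 0, ⟨0, 0⟩, 0⟩ 0 0) (.cut .s 15624192 (.pos 146 .pm ⟨0, 151450621, 0, 0, 0, 0, 0, 0, 0, ⟨0, 0⟩, 0⟩ 0 0) (.pos 146 .pm ⟨0, 175576755, 0, 0, 0, 0, 0, 0, 0, ⟨0, 0⟩, 0⟩ 0 0)))) (.cut .s 15593472 (.cut .d 1302979 (.pos 146 .pm ⟨0, 149398140, 0, 0, 0, 0, 0, 0, 0, ⟨0, 0⟩, 0⟩ 0 0) (.pos 146 .pm ⟨0, 173379617, 0, 0, 0, 0, 0, 0, 0, ⟨0, 0⟩, 0⟩ 0 0)) (.pos 146 .pm ⟨0, 199481975, 0, 0, 0, 0, 0, 0, 0, ⟨0, 0⟩, 0⟩ 0 0))) (.cut .v 786432 (.pos 161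 .pm ⟨0, 184674159, 0, 0, 0, 0, 0, 0, 0, ⟨0, 0⟩, 0⟩ 0 0) (.cut .s 15716352 (.pos 162 .pm ⟨0, 214797849, 0, 0, 0, 0, 0, 0, 0, ⟨0, 0⟩, 0⟩ 0 0) (.void 162 ⟨0, 0, 0, 100000, 0, 0, 0, 0, 0, ⟨0, 0⟩, 0⟩ 0 0))))))) (.cut .d 1008758 (.pos 108 .pm ⟨0, 0, 0, 0, 0, 0, 0, 0, 0, ⟨0, 0⟩, 0⟩ 0 0) (.cut .d 1176884 (.cut .s 15654912 (.pos 108 .pm ⟨0, 0, 0, 0, 0, 0, 0, 0, 0, ⟨0, 0⟩, 0⟩ 0 0) (.cut .d 1092821 (.pos 108 .pm ⟨0, 157355596, 0, 0, 0, 0, 0, 0, 0, ⟨0, 0⟩, 0⟩ 0 0) (.cut .s 15716352 (.pos 108 .pm ⟨0, 184978246, 0, 0, 0, 0, 0, 0, 0, ⟨0, 0⟩, 0⟩ 0 0) (.pos 108 .pm ⟨0, 237742037, 0, 0, 0, 0, 0, 0, 0, ⟨0, 0⟩, 0⟩ 0 0)))) (.cut .s 15654912 (.cut .v 1572864 (.cut .d 1260947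 (.cut .s 15593472 (.pos 149 .pm ⟨0, 91268516, 0, 0, 0, 0, 0, 0, 0, ⟨0, 0⟩, 0⟩ 0 0) (.cut .s 15624192 (.pos 149 .pm ⟨0, 174495113, 0, 0, 0, 0, 0, 0, 0, ⟨0, 0⟩, 0⟩ 0 0) (.pos 149 .pm ⟨0, 194716278, 0, 0, 0, 0, 0, 0, 0, ⟨0, 0⟩, 0⟩ 0 0))) (.cut .s 15593472 (.cut .d 1302979 (.pos 149 .pm ⟨0, 175724843, 0, 0, 0, 0, 0, 0, 0, ⟨0, 0⟩, 0⟩ 0 0) (.pos 149 .pm ⟨0, 200232474, 0, 0, 0, 0, 0, 0, 0, ⟨0, 0⟩, 0⟩ 0 0)) (.pos 149 .pm ⟨0, 237700928, 0, 0, 0, 0, 0, 0, 0, ⟨0, 0⟩, 0⟩ 0 0))) (.pos 150 .pm ⟨0, 250320842, 0, 0, 0, 0, 0, 0, 0, ⟨0, 0⟩, 0⟩ 0 0)) (.cut .d 1260947 (.pos 108 .pm ⟨0, 275550494, 0, 0, 0, 0, 0, 0, 0, ⟨0, 0⟩, 0⟩ 0 0) (.void 108 ⟨0, 0, 0, 100000, 0, 0, 0,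 0, 0, ⟨0, 0⟩, 0⟩ 0 0))))))) (.cut .d 672505 (.pos 80 .pm ⟨0, 0, 1168770262, 0, 0, 0, 0, 0, 0, ⟨0, 0⟩, 0⟩ 0 0) (.cut .d 1008758 (.pos 80 .pm ⟨0, 0, 0, 0, 0, 0, 0, 0, 0, ⟨0, 0⟩, 0⟩ 0 0) (.cut .s 15654912 (.pos 80 .pm ⟨0, 286622422, 0, 0, 0, 0, 0, 0, 0, ⟨0, 0⟩, 0⟩ 0 0) (.pos 80 .pm ⟨0, 408761569, 0, 0, 0, 0, 0, 0, 0, ⟨0, 0⟩, 0⟩ 0 0))))) (.cut .d 672505 (.pos 5 .pm ⟨0, 0, 317286186, 0, 0, 0, 0, 0, 0, ⟨0, 0⟩, 0⟩ 0 0) (.pos 5 .pm ⟨0, 450943712, 0, 0, 0, 0, 0, 0, 0, ⟨0, 0⟩, 0⟩ 0 0))) (.pos 3 .pm ⟨0, 124178076, 0, 0, 0, 0, 0, 0, 0, ⟨0, 0⟩, 0⟩ 0 0)) (.cut .v 268435456 (.cut .v 67108864 (.pos 10 .pp ⟨0, 0, 0, 0, 0, 0, 0, 0, 0, ⟨0, 0⟩, 0⟩ 0 0) (.cut .v 134217728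 (.pos 70 .pp ⟨13525809831, 11611597341, 0, 0, 0, 0, 0, 0, 0, ⟨0, 0⟩, 0⟩ 0 0) (.void 71 ⟨0, 0, 0, 100000, 0, 0, 0, 0, 0, ⟨0, 0⟩, 0⟩ 0 0))) (.void 74 ⟨0, 0, 0, 100000, 0, 0, 0, 0, 0, ⟨0, 0⟩, 0⟩ 0 0)))),
    by decide +kernel⟩

def covers28 : cell.Covers table row28.1 :=
  ⟨(.cut .d 0 (.cut .v 16777216 (.cut .d (-8388608) (.void 1 ⟨0, 0, 0, 0, 0, 100000, 0, 0, 0, ⟨0, 0⟩, 0⟩ 0 0) (.cut .v 8388608 (.pos 2 .mm ⟨0, 0, 167772160000, 0, 0, 0, 0, 0, 0, ⟨0, 0⟩, 0⟩ 0 0) (.cut .d (-4194304) (.void 3 ⟨100000, 0, 0, 0, 0, 0, 0, 0, 0, ⟨0, 0⟩, 0⟩ 0 0) (.cut .d (-2097152) (.void 3 ⟨100000, 0, 0, 0, 0, 0, 0, 0, 0, ⟨0, 0⟩, 0⟩ 0 0) (.cut .d (-1048576) (.void 3 ⟨100000, 0,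 0, 0, 0, 0, 0, 0, 0, ⟨0, 0⟩, 0⟩ 0 0) (.pos 3 .mm ⟨0, 0, 1045672315, 0, 0, 5738800919, 0, 0, 0, ⟨0, 0⟩, 0⟩ 0 0)))))) (.cut .d (-8388608) (.void 73 ⟨100000, 0, 0, 0, 0, 0, 0, 0, 0, ⟨0, 0⟩, 0⟩ 0 0) (.cut .v 268435456 (.cut .v 67108864 (.cut .v 33554432 (.cut .d (-4194304) (.void 11 ⟨100000, 0, 0, 0, 0, 0, 0, 0, 0, ⟨0, 0⟩, 0⟩ 0 0) (.cut .d (-2097152) (.void 11 ⟨100000, 0, 0, 0, 0, 0, 0, 0, 0, ⟨0, 0⟩, 0⟩ 0 0) (.cut .d (-1048576) (.void 11 ⟨100000, 0, 0, 0, 0, 0, 0, 0, 0, ⟨0, 0⟩, 0⟩ 0 0) (.pos 11 .mp ⟨6879670233, 0, 0, 0, 0, 0, 0, 0, 0, ⟨0, 0⟩, 0⟩ 0 0)))) (.pos 12 .mp ⟨167772160000, 0, 0, 0, 0, 0, 0, 0, 0, ⟨0, 0⟩, 0⟩ 0 0)) (.void 67 ⟨100000, 0, 0, 0, 0, 0,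 0, 0, 0, ⟨0, 0⟩, 0⟩ 0 0)) (.void 74 ⟨90743, 0, 0, 9257, 0, 0, 0, 0, 0, ⟨0, 0⟩, 0⟩ 0 0)))) (.cut .v 16777216 (.cut .v 8388608 (.cut .v 4194304 (.cut .v 2097152 (.cut .d 531367 (.void 79 ⟨0, 0, 100000, 0, 0, 0, 0, 0, 0, ⟨0, 0⟩, 0⟩ 0 0) (.cut .v 1048576 (.cut .v 524288 (.cut .v 262144 (.cut .v 131072 (.cut .v 65536 (.pos 183 .pm ⟨0, 4318123, 0, 0, 0, 0, 0, 0, 0, ⟨0, 0⟩, 0⟩ 0 0) (.pos 184 .pm ⟨0, 21914747, 0, 0, 0, 0, 0, 0, 0, ⟨0, 0⟩, 0⟩ 0 0)) (.pos 176 .pm ⟨0, 46465248, 0, 0, 0, 0, 0, 0, 0, ⟨0, 0⟩, 0⟩ 0 0)) (.cut .d 797050 (.pos 158 .pm ⟨0, 0, 0, 0, 0, 0, 0, 0, 0, ⟨0, 0⟩, 0⟩ 0 0) (.cut .s 15876096 (.pos 158 .pm ⟨0, 88464185, 0, 0, 0, 0, 0, 0, 0, ⟨0, 0⟩,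 0⟩ 0 0) (.cut .d 929892 (.pos 158 .pm ⟨0, 103061262, 0, 0, 0, 0, 0, 0, 0, ⟨0, 0⟩, 0⟩ 0 0) (.pos 158 .pm ⟨0, 139115070, 0, 0, 0, 0, 0, 0, 0, ⟨0, 0⟩, 0⟩ 0 0))))) (.cut .d 797050 (.pos 146 .pm ⟨0, 0, 0, 0, 0, 0, 0, 0, 0, ⟨0, 0⟩, 0⟩ 0 0) (.cut .d 929892 (.cut .s 15876096 (.pos 146 .pm ⟨0, 0, 0, 0, 0, 0, 0, 0, 0, ⟨0, 0⟩, 0⟩ 0 0) (.cut .v 786432 (.cut .d 863471 (.pos 161 .pm ⟨0, 107781321, 0, 0, 0, 0, 0, 0, 0, ⟨0, 0⟩, 0⟩ 0 0) (.cut .s 15925248 (.pos 161 .pm ⟨0, 122338246, 0, 0, 0, 0, 0, 0, 0, ⟨0, 0⟩, 0⟩ 0 0) (.pos 161 .pm ⟨0, 151685649, 0, 0, 0, 0, 0, 0, 0, ⟨0, 0⟩, 0⟩ 0 0))) (.cut .s 15925248 (.pos 162 .pm ⟨0, 137884257, 0, 0, 0, 0, 0, 0, 0, ⟨0, 0⟩, 0⟩ 0 0)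 (.pos 162 .pm ⟨0, 163888547, 0, 0, 0, 0, 0, 0, 0, ⟨0, 0⟩, 0⟩ 0 0)))) (.cut .s 15876096 (.cut .d 996313 (.cut .v 786432 (.cut .s 15826944 (.pos 161 .pm ⟨0, 0, 0, 0, 0, 0, 0, 0, 0, ⟨0, 0⟩, 0⟩ 0 0) (.pos 161 .pm ⟨0, 133397528, 0, 0, 0, 0, 0, 0, 0, ⟨0, 0⟩, 0⟩ 0 0)) (.pos 162 .pm ⟨0, 141935230, 0, 0, 0, 0, 0, 0, 0, ⟨0, 0⟩, 0⟩ 0 0)) (.cut .v 786432 (.cut .s 15826944 (.pos 161 .pm ⟨0, 142304748, 0, 0, 0, 0, 0, 0, 0, ⟨0, 0⟩, 0⟩ 0 0) (.pos 161 .pm ⟨0, 169689756, 0, 0, 0, 0, 0, 0, 0, ⟨0, 0⟩, 0⟩ 0 0)) (.cut .s 15826944 (.pos 162 .pm ⟨0, 158191312, 0, 0, 0, 0, 0, 0, 0, ⟨0, 0⟩, 0⟩ 0 0) (.pos 162 .pm ⟨0, 192720964, 0, 0, 0, 0, 0, 0, 0, ⟨0, 0⟩, 0⟩ 0 0)))) (.cut .v 786432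 (.pos 161 .pm ⟨0, 192480397, 0, 0, 0, 0, 0, 0, 0, ⟨0, 0⟩, 0⟩ 0 0) (.pos 162 .pm ⟨0, 231815106, 0, 0, 0, 0, 0, 0, 0, ⟨0, 0⟩, 0⟩ 0 0)))))) (.cut .d 797050 (.pos 108 .pm ⟨0, 0, 0, 0, 0, 0, 0, 0, 0, ⟨0, 0⟩, 0⟩ 0 0) (.cut .d 929892 (.pos 108 .pm ⟨0, 158185085, 0, 0, 0, 0, 0, 0, 0, ⟨0, 0⟩, 0⟩ 0 0) (.cut .s 15876096 (.pos 108 .pm ⟨0, 202197750, 0, 0, 0, 0, 0, 0, 0, ⟨0, 0⟩, 0⟩ 0 0) (.pos 108 .pm ⟨0, 294494858, 0, 0, 0, 0, 0, 0, 0, ⟨0, 0⟩, 0⟩ 0 0)))))) (.cut .d 531367 (.pos 80 .pm ⟨0, 0, 1717058689, 0, 0, 0, 0, 0, 0, ⟨0, 0⟩, 0⟩ 0 0) (.pos 80 .pm ⟨0, 273514622, 0, 0, 0, 0, 0, 0, 0, ⟨0, 0⟩, 0⟩ 0 0))) (.pos 5 .pm ⟨0, 146437671, 0, 0, 0, 0, 0, 0, 0, ⟨0, 0⟩, 0⟩ 0 0))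 (.pos 3 .pm ⟨0, 129962417, 0, 0, 0, 0, 0, 0, 0, ⟨0, 0⟩, 0⟩ 0 0)) (.cut .v 268435456 (.cut .v 67108864 (.pos 10 .pp ⟨0, 0, 0, 0, 0, 0, 0, 0, 0, ⟨0, 0⟩, 0⟩ 0 0) (.pos 67 .pp ⟨22656013520, 28480666341, 0, 0, 0, 0, 0, 0, 0, ⟨0, 0⟩, 0⟩ 0 0)) (.void 74 ⟨0, 0, 0, 100000, 0, 0, 0, 0, 0, ⟨0, 0⟩, 0⟩ 0 0)))),
    by decide +kernel⟩

def covers29 : cell.Covers table row29.1 :=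
  ⟨(.cut .d 0 (.cut .v 16777216 (.cut .d (-8388608) (.pos 1 .mm ⟨0, 0, 0, 0, 0, 167772160000, 0, 0, 0, ⟨0, 0⟩, 0⟩ 0 0) (.cut .v 8388608 (.pos 2 .mm ⟨0, 0, 167772160000, 0, 0, 0, 0, 0, 0, ⟨0, 0⟩, 0⟩ 0 0) (.cut .d (-4194304) (.void 3 ⟨100000, 0, 0, 0, 0, 0, 0, 0, 0, ⟨0, 0⟩, 0⟩ 0 0) (.cut .d (-2097152) (.void 3 ⟨100000, 0, 0, 0, 0, 0, 0, 0, 0, ⟨0, 0⟩, 0⟩ 0 0) (.cut .d (-1048576) (.void 3 ⟨100000, 0, 0, 0, 0, 0, 0, 0, 0, ⟨0, 0⟩, 0⟩ 0 0) (.pos 3 .mm ⟨0, 0, 1728214334, 0, 0, 6820252128, 0, 0, 0, ⟨0, 0⟩, 0⟩ 0 0)))))) (.cut .d (-8388608) (.void 73 ⟨100000, 0, 0, 0, 0, 0, 0, 0, 0, ⟨0, 0⟩, 0⟩ 0 0) (.cut .v 268435456 (.cut .v 67108864 (.cut .v 33554432 (.cut .d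 (-4194304) (.void 11 ⟨100000, 0, 0, 0, 0, 0, 0, 0, 0, ⟨0, 0⟩, 0⟩ 0 0) (.cut .d (-2097152) (.void 11 ⟨100000, 0, 0, 0, 0, 0, 0, 0, 0, ⟨0, 0⟩, 0⟩ 0 0) (.cut .v 25165824 (.pos 13 .mp ⟨12018693930, 0, 0, 0, 0, 0, 0, 0, 0, ⟨0, 0⟩, 0⟩ 0 0) (.pos 14 .mp ⟨17030631616, 0, 0, 0, 0, 0, 0, 0, 0, ⟨0, 0⟩, 0⟩ 0 0)))) (.pos 12 .mp ⟨167772160000, 0, 0, 0, 0, 0, 0, 0, 0, ⟨0, 0⟩, 0⟩ 0 0)) (.void 67 ⟨100000, 0, 0, 0, 0, 0, 0, 0, 0, ⟨0, 0⟩, 0⟩ 0 0)) (.void 74 ⟨90657, 0, 0, 9343, 0, 0, 0, 0, 0, ⟨0, 0⟩, 0⟩ 0 0)))) (.cut .v 16777216 (.cut .v 8388608 (.cut .v 4194304 (.cut .v 2097152 (.cut .d 421582 (.void 79 ⟨0, 0, 100000, 0, 0, 0, 0, 0, 0, ⟨0, 0⟩, 0⟩ 0 0) (.cut .v 1048576 (.cut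 .v 524288 (.cut .v 262144 (.cut .v 131072 (.cut .v 65536 (.pos 183 .pm ⟨0, 5333528, 0, 0, 0, 0, 0, 0, 0, ⟨0, 0⟩, 0⟩ 0 0) (.pos 184 .pm ⟨0, 24182921, 0, 0, 0, 0, 0, 0, 0, ⟨0, 0⟩, 0⟩ 0 0)) (.pos 176 .pm ⟨0, 49778966, 0, 0, 0, 0, 0, 0, 0, ⟨0, 0⟩, 0⟩ 0 0)) (.cut .d 632373 (.pos 158 .pm ⟨0, 0, 99377125, 0, 0, 0, 0, 0, 0, ⟨0, 0⟩, 0⟩ 0 0) (.cut .d 737769 (.cut .d 685071 (.pos 158 .pm ⟨0, 75191543, 0, 0, 0, 0, 0, 0, 0, ⟨0, 0⟩, 0⟩ 0 0) (.cut .s 16056320 (.pos 158 .pm ⟨0, 0, 0, 0, 0, 0, 0, 0, 0, ⟨0, 0⟩, 0⟩ 0 0) (.pos 158 .pm ⟨0, 104704060, 0, 0, 0, 0, 0, 0, 0, ⟨0, 0⟩, 0⟩ 0 0))) (.cut .s 16056320 (.cut .d 790467 (.pos 158 .pm ⟨0, 99893755, 0, 0, 0, 0, 0, 0, 0, ⟨0,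 0⟩, 0⟩ 0 0) (.pos 158 .pm ⟨0, 121830824, 0, 0, 0, 0, 0, 0, 0, ⟨0, 0⟩, 0⟩ 0 0)) (.pos 158 .pm ⟨0, 141279802, 0, 0, 0, 0, 0, 0, 0, ⟨0, 0⟩, 0⟩ 0 0))))) (.cut .d 632373 (.pos 146 .pm ⟨0, 0, 0, 0, 0, 0, 0, 0, 0, ⟨0, 0⟩, 0⟩ 0 0) (.cut .d 737769 (.cut .s 16056320 (.pos 146 .pm ⟨0, 0, 0, 0, 0, 0, 0, 0, 0, ⟨0, 0⟩, 0⟩ 0 0) (.cut .v 786432 (.cut .s 16097280 (.pos 161 .pm ⟨0, 104647014, 0, 0, 0, 0, 0, 0, 0, ⟨0, 0⟩, 0⟩ 0 0) (.pos 161 .pm ⟨0, 122682776, 0, 0, 0, 0, 0, 0, 0, ⟨0, 0⟩, 0⟩ 0 0)) (.pos 162 .pm ⟨0, 149221236, 0, 0, 0, 0, 0, 0, 0, ⟨0, 0⟩, 0⟩ 0 0))) (.cut .s 16056320 (.cut .v 786432 (.cut .d 790467 (.pos 161 .pm ⟨0, 114734111, 0, 0, 0, 0, 0, 0, 0, ⟨0, 0⟩, 0⟩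 0 0) (.pos 161 .pm ⟨0, 140470185, 0, 0, 0, 0, 0, 0, 0, ⟨0, 0⟩, 0⟩ 0 0)) (.pos 162 .pm ⟨0, 158906135, 0, 0, 0, 0, 0, 0, 0, ⟨0, 0⟩, 0⟩ 0 0)) (.pos 146 .pm ⟨0, 184018060, 0, 0, 0, 0, 0, 0, 0, ⟨0, 0⟩, 0⟩ 0 0))))) (.cut .d 632373 (.pos 108 .pm ⟨0, 0, 0, 0, 0, 0, 0, 0, 0, ⟨0, 0⟩, 0⟩ 0 0) (.pos 108 .pm ⟨0, 200485853, 0, 0, 0, 0, 0, 0, 0, ⟨0, 0⟩, 0⟩ 0 0)))) (.pos 80 .pm ⟨0, 99854843, 0, 0, 0, 0, 0, 0, 0, ⟨0, 0⟩, 0⟩ 0 0)) (.pos 5 .pm ⟨0, 141531107, 0, 0, 0, 0, 0, 0, 0, ⟨0, 0⟩, 0⟩ 0 0)) (.pos 3 .pm ⟨0, 99872282, 0, 0, 0, 0, 0, 0, 0, ⟨0, 0⟩, 0⟩ 0 0)) (.cut .v 268435456 (.cut .v 67108864 (.pos 10 .pp ⟨0, 0, 0, 0, 0, 0, 0, 0, 0, ⟨0, 0⟩, 0⟩ 0 0) (.pos 67 .pp ⟨17239586540,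 17261255138, 0, 0, 0, 0, 0, 0, 0, ⟨0, 0⟩, 0⟩ 0 0)) (.void 74 ⟨0, 0, 0, 100000, 0, 0, 0, 0, 0, ⟨0, 0⟩, 0⟩ 0 0)))),
    by decide +kernel⟩

def covers30 : cell.Covers table row30.1 :=
  ⟨(.cut .d 0 (.cut .v 16777216 (.cut .v 8388608 (.void 2 ⟨0, 0, 136585, 0, 0, 0, 0, 0, 0, ⟨0, 0⟩, 0⟩ 0 0) (.cut .d (-8388608) (.pos 3 .mm ⟨0, 0, 0, 0, 0, 167772160000, 0, 0, 0, ⟨0, 0⟩, 0⟩ 0 0) (.cut .d (-4194304) (.void 3 ⟨100000, 0, 0, 0, 0, 0, 0, 0, 0, ⟨0, 0⟩, 0⟩ 0 0) (.cut .d (-2097152) (.void 3 ⟨100000, 0, 0, 0, 0, 0, 0, 0, 0, ⟨0, 0⟩, 0⟩ 0 0) (.pos 3 .mm ⟨0, 0, 2694720296, 0, 0, 14469106516, 0, 0, 0, ⟨0, 0⟩, 0⟩ 0 0))))) (.cut .v 268435456 (.cut .v 67108864 (.cut .d (-8388608)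 (.void 10 ⟨100000, 0, 0, 0, 0, 0, 0, 0, 0, ⟨0, 0⟩, 0⟩ 0 0) (.cut .v 33554432 (.cut .d (-4194304) (.void 11 ⟨100000, 0, 0, 0, 0, 0, 0, 0, 0, ⟨0, 0⟩, 0⟩ 0 0) (.cut .d (-2097152) (.void 11 ⟨100000, 0, 0, 0, 0, 0, 0, 0, 0, ⟨0, 0⟩, 0⟩ 0 0) (.pos 11 .mp ⟨18804482567, 0, 0, 0, 0, 0, 0, 0, 0, ⟨0, 0⟩, 0⟩ 0 0))) (.void 12 ⟨100000, 0, 0, 0, 0, 0, 0, 0, 0, ⟨0, 0⟩, 0⟩ 0 0))) (.void 67 ⟨100000, 0, 0, 0, 0, 0, 0, 0, 0, ⟨0, 0⟩, 0⟩ 0 0)) (.void 74 ⟨93522, 0, 0, 6478, 0, 0, 0, 0, 0, ⟨0, 0⟩, 0⟩ 0 0))) (.cut .v 16777216 (.cut .v 8388608 (.cut .v 4194304 (.cut .v 2097152 (.cut .v 1048576 (.cut .v 524288 (.cut .v 262144 (.cut .v 131072 (.cut .v 65536 (.pos 183 .pm ⟨0, 0, 2045383,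 0, 0, 0, 0, 0, 0, ⟨0, 0⟩, 0⟩ 0 0) (.pos 184 .pm ⟨0, 465119, 0, 0, 0, 0, 0, 0, 0, ⟨0, 0⟩, 0⟩ 0 0)) (.pos 176 .pm ⟨0, 4109119, 0, 0, 0, 0, 0, 0, 0, ⟨0, 0⟩, 0⟩ 0 0)) (.pos 158 .pm ⟨0, 6488502, 0, 0, 0, 0, 0, 0, 0, ⟨0, 0⟩, 0⟩ 0 0)) (.pos 146 .pm ⟨0, 10947568, 0, 0, 0, 0, 0, 0, 0, ⟨0, 0⟩, 0⟩ 0 0)) (.pos 108 .pm ⟨0, 22826266, 0, 0, 0, 0, 0, 0, 0, ⟨0, 0⟩, 0⟩ 0 0)) (.pos 80 .pm ⟨0, 39390857, 0, 0, 0, 0, 0, 0, 0, ⟨0, 0⟩, 0⟩ 0 0)) (.pos 5 .pm ⟨0, 43748823, 0, 0, 0, 0, 0, 0, 0, ⟨0, 0⟩, 0⟩ 0 0)) (.pos 3 .pm ⟨0, 0, 62620107, 0, 0, 0, 0, 0, 0, ⟨0, 0⟩, 0⟩ 0 0)) (.cut .v 268435456 (.pos 66 .pp ⟨0, 0, 0, 0, 0, 0, 0, 0, 0, ⟨0, 0⟩, 0⟩ 0 0) (.void 74 ⟨0, 0, 0, 100000, 0,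 0, 0, 0, 0, ⟨0, 0⟩, 0⟩ 0 0)))),
    by decide +kernel⟩

def covers31 : cell.Covers table row31.1 :=
  ⟨(.cut .d 0 (.cut .v 16777216 (.cut .v 8388608 (.pos 2 .mm ⟨0, 0, 167772160000, 0, 0, 0, 0, 0, 0, ⟨0, 0⟩, 0⟩ 0 0) (.cut .d (-8388608) (.pos 3 .mm ⟨0, 0, 0, 0, 0, 167772160000, 0, 0, 0, ⟨0, 0⟩, 0⟩ 0 0) (.cut .d (-4194304) (.void 3 ⟨100000, 0, 0, 0, 0, 0, 0, 0, 0, ⟨0, 0⟩, 0⟩ 0 0) (.pos 3 .mm ⟨0, 0, 7887894091, 0, 0, 35854390040, 0, 0, 0, ⟨0, 0⟩, 0⟩ 0 0)))) (.cut .v 4294967296 (.cut .v 268435456 (.cut .v 67108864 (.cut .d (-8388608) (.void 10 ⟨100000, 0, 0, 0, 0, 0, 0, 0, 0, ⟨0, 0⟩, 0⟩ 0 0) (.cut .v 33554432 (.cut .d (-4194304) (.void 11 ⟨100000, 0, 0, 0,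 0, 0, 0, 0, 0, ⟨0, 0⟩, 0⟩ 0 0) (.pos 11 .mp ⟨0, 0, 0, 0, 0, 88264439496, 0, 0, 0, ⟨0, 0⟩, 0⟩ 0 0)) (.void 12 ⟨100000, 0, 0, 0, 0, 0, 0, 0, 0, ⟨0, 0⟩, 0⟩ 0 0))) (.void 67 ⟨100000, 0, 0, 0, 0, 0, 0, 0, 0, ⟨0, 0⟩, 0⟩ 0 0)) (.void 74 ⟨234171, 0, 0, 9575, 0, 43841, 0, 0, 0, ⟨0, 0⟩, 0⟩ 0 0)) (.void 189 ⟨93485, 0, 0, 6515, 0, 0, 0, 0, 0, ⟨0, 0⟩, 0⟩ 0 0))) (.cut .v 16777216 (.cut .v 8388608 (.cut .v 4194304 (.cut .v 2097152 (.cut .v 1048576 (.cut .v 524288 (.cut .v 262144 (.cut .v 131072 (.cut .v 65536 (.pos 183 .pm ⟨0, 0, 2958456, 0, 0, 0, 0, 0, 0, ⟨0, 0⟩, 0⟩ 0 0) (.pos 184 .pm ⟨0, 0, 2518883, 0, 0, 0, 0, 0, 0, ⟨0, 0⟩, 0⟩ 0 0)) (.pos 176 .pm ⟨0, 0, 1890060,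 0, 0, 0, 0, 0, 0, ⟨0, 0⟩, 0⟩ 0 0)) (.pos 158 .pm ⟨0, 0, 754565, 0, 0, 0, 0, 0, 0, ⟨0, 0⟩, 0⟩ 0 0)) (.pos 146 .pm ⟨0, 1027832, 0, 0, 0, 0, 0, 0, 0, ⟨0, 0⟩, 0⟩ 0 0)) (.pos 108 .pm ⟨0, 2638248, 0, 0, 0, 0, 0, 0, 0, ⟨0, 0⟩, 0⟩ 0 0)) (.pos 80 .pm ⟨0, 0, 1958435, 0, 0, 0, 0, 0, 0, ⟨0, 0⟩, 0⟩ 0 0)) (.pos 5 .pm ⟨0, 0, 50211333, 0, 0, 0, 0, 0, 0, ⟨0, 0⟩, 0⟩ 0 0)) (.pos 3 .pm ⟨0, 0, 258197090, 0, 0, 0, 0, 0, 0, ⟨0, 0⟩, 0⟩ 0 0)) (.cut .v 4294967296 (.cut .v 268435456 (.pos 66 .pp ⟨0, 0, 0, 0, 0, 0, 0, 0, 0, ⟨0, 0⟩, 0⟩ 0 0) (.void 74 ⟨0, 0, 0, 100000, 0, 0, 0, 0, 0, ⟨0, 0⟩, 0⟩ 0 0)) (.void 189 ⟨0, 0, 0, 100000, 0, 0, 0, 0, 0, ⟨0, 0⟩, 0⟩ 0 0)))),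
    by decide +kernel⟩

def covers32 : cell.Covers table row32.1 :=
  ⟨(.cut .d 0 (.cut .v 16777216 (.cut .d (-8388608) (.void 1 ⟨0, 0, 8042, 0, 0, 92199, 0, 0, 0, ⟨0, 0⟩, 0⟩ 0 0) (.cut .v 8388608 (.void 2 ⟨0, 0, 100000, 0, 0, 0, 0, 0, 0, ⟨0, 0⟩, 0⟩ 0 0) (.pos 3 .mm ⟨0, 0, 11692110851, 0, 0, 96974758243, 0, 0, 0, ⟨0, 0⟩, 0⟩ 0 0))) (.cut .v 4294967296 (.cut .v 268435456 (.cut .v 67108864 (.cut .d (-8388608) (.void 10 ⟨100000, 0, 0, 0, 0, 0, 0, 0, 0, ⟨0, 0⟩, 0⟩ 0 0) (.cut .d (-4194304) (.void 10 ⟨100000, 0, 0, 0, 0, 0, 0, 0, 0, ⟨0, 0⟩, 0⟩ 0 0) (.pos 10 .mp ⟨139900238748, 0, 0, 0, 0, 0, 0, 0, 0, ⟨0, 0⟩, 0⟩ 0 0))) (.void 67 ⟨100000, 0, 0, 0, 0, 0, 0, 0, 0,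 ⟨0, 0⟩, 0⟩ 0 0)) (.void 74 ⟨0, 0, 3564, 6667, 0, 89770, 0, 0, 0, ⟨0, 0⟩, 0⟩ 0 0)) (.void 189 ⟨93455, 0, 0, 6545, 0, 0, 0, 0, 0, ⟨0, 0⟩, 0⟩ 0 0))) (.cut .v 16777216 (.cut .v 8388608 (.cut .v 4194304 (.cut .v 2097152 (.cut .v 1048576 (.cut .v 524288 (.cut .v 262144 (.cut .v 131072 (.cut .v 65536 (.cut .v 32768 (.pos 190 .pm ⟨0, 0, 5273656, 0, 0, 0, 0, 0, 0, ⟨0, 0⟩, 0⟩ 0 0) (.pos 191 .pm ⟨0, 0, 9706815, 0, 0, 0, 0, 0, 0, ⟨0, 0⟩, 0⟩ 0 0)) (.pos 184 .pm ⟨0, 0, 16390626, 0, 0, 0, 0, 0, 0, ⟨0, 0⟩, 0⟩ 0 0)) (.pos 176 .pm ⟨0, 0, 21046680, 0, 0, 0, 0, 0, 0, ⟨0, 0⟩, 0⟩ 0 0)) (.pos 158 .pm ⟨0, 0, 29884058, 0, 0, 0, 0, 0, 0, ⟨0, 0⟩, 0⟩ 0 0)) (.pos 146 .pm ⟨0, 0, 57374158,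 0, 0, 0, 0, 0, 0, ⟨0, 0⟩, 0⟩ 0 0)) (.pos 108 .pm ⟨0, 0, 114367303, 0, 0, 0, 0, 0, 0, ⟨0, 0⟩, 0⟩ 0 0)) (.pos 80 .pm ⟨0, 0, 236405375, 0, 0, 0, 0, 0, 0, ⟨0, 0⟩, 0⟩ 0 0)) (.pos 5 .pm ⟨0, 0, 512688649, 0, 0, 0, 0, 0, 0, ⟨0, 0⟩, 0⟩ 0 0)) (.pos 3 .pm ⟨0, 0, 1194083707, 0, 0, 0, 0, 0, 0, ⟨0, 0⟩, 0⟩ 0 0)) (.cut .v 4294967296 (.cut .v 268435456 (.pos 66 .pp ⟨0, 0, 0, 0, 0, 0, 0, 0, 0, ⟨0, 0⟩, 0⟩ 0 0) (.void 74 ⟨0, 0, 0, 100000, 0, 0, 0, 0, 0, ⟨0, 0⟩, 0⟩ 0 0)) (.void 189 ⟨0, 0, 0, 100000, 0, 0, 0, 0, 0, ⟨0, 0⟩, 0⟩ 0 0)))),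
    by decide +kernel⟩

def covers33 : cell.Covers table row33.1 :=
  ⟨(.cut .d 0 (.cut .v 16777216 (.cut .v 8388608 (.pos 2 .mm ⟨0, 0, 167772160000, 0, 0, 0, 0, 0, 0, ⟨0, 0⟩, 0⟩ 0 0) (.cut .d (-8388608) (.void 3 ⟨100078, 0, 0, 0, 0, 0, 0, 0, 0, ⟨0, 0⟩, 0⟩ 0 0) (.cut .v 12582912 (.pos 6 .mm ⟨0, 0, 12723864206, 0, 0, 93099491475, 0, 0, 0, ⟨0, 0⟩, 0⟩ 0 0) (.pos 7 .mm ⟨0, 0, 0, 0, 0, 141213034690, 0, 0, 0, ⟨0, 0⟩, 0⟩ 0 0)))) (.cut .v 4294967296 (.cut .v 268435456 (.cut .v 67108864 (.cut .d (-8388608) (.void 10 ⟨100000, 0, 0, 0, 0, 0, 0, 0, 0, ⟨0, 0⟩, 0⟩ 0 0) (.cut .d (-4194304) (.void 10 ⟨100000, 0, 0, 0, 0, 0, 0, 0, 0, ⟨0, 0⟩, 0⟩ 0 0) (.cut .d (-2097152)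 (.void 10 ⟨100000, 0, 0, 0, 0, 0, 0, 0, 0, ⟨0, 0⟩, 0⟩ 0 0) (.pos 10 .mp ⟨94635235192, 0, 0, 0, 0, 0, 0, 0, 0, ⟨0, 0⟩, 0⟩ 0 0)))) (.void 67 ⟨100000, 0, 0, 0, 0, 0, 0, 0, 0, ⟨0, 0⟩, 0⟩ 0 0)) (.void 74 ⟨282593, 0, 0, 30801, 0, 346429, 0, 0, 0, ⟨0, 0⟩, 0⟩ 0 0)) (.void 189 ⟨93431, 0, 0, 6569, 0, 0, 0, 0, 0, ⟨0, 0⟩, 0⟩ 0 0))) (.cut .v 16777216 (.cut .v 8388608 (.cut .v 4194304 (.cut .v 2097152 (.cut .v 1048576 (.cut .v 524288 (.cut .v 262144 (.cut .v 131072 (.cut .v 65536 (.cut .v 32768 (.pos 190 .pm ⟨0, 0, 9802509, 0, 0, 0, 0, 0, 0, ⟨0, 0⟩, 0⟩ 0 0) (.pos 191 .pm ⟨0, 0, 13562379, 0, 0, 0, 0, 0, 0, ⟨0, 0⟩, 0⟩ 0 0)) (.pos 184 .pm ⟨0, 0, 23733379, 0, 0, 0, 0,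 0, 0, ⟨0, 0⟩, 0⟩ 0 0)) (.pos 176 .pm ⟨0, 0, 31619956, 0, 0, 0, 0, 0, 0, ⟨0, 0⟩, 0⟩ 0 0)) (.pos 158 .pm ⟨0, 0, 45651095, 0, 0, 0, 0, 0, 0, ⟨0, 0⟩, 0⟩ 0 0)) (.pos 146 .pm ⟨0, 0, 89023158, 0, 0, 0, 0, 0, 0, ⟨0, 0⟩, 0⟩ 0 0)) (.pos 108 .pm ⟨0, 0, 177780229, 0, 0, 0, 0, 0, 0, ⟨0, 0⟩, 0⟩ 0 0)) (.pos 80 .pm ⟨0, 0, 363346152, 0, 0, 0, 0, 0, 0, ⟨0, 0⟩, 0⟩ 0 0)) (.pos 5 .pm ⟨0, 0, 766685122, 0, 0, 0, 0, 0, 0, ⟨0, 0⟩, 0⟩ 0 0)) (.pos 3 .pm ⟨0, 0, 1702191557, 0, 0, 0, 0, 0, 0, ⟨0, 0⟩, 0⟩ 0 0)) (.cut .v 4294967296 (.cut .v 268435456 (.pos 66 .pp ⟨0, 0, 0, 0, 0, 0, 0, 0, 0, ⟨0, 0⟩, 0⟩ 0 0) (.void 74 ⟨0, 0, 0, 100000, 0, 0, 0, 0, 0, ⟨0, 0⟩, 0⟩ 0 0)) (.void 189 ⟨0, 0,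 0, 100000, 0, 0, 0, 0, 0, ⟨0, 0⟩, 0⟩ 0 0)))),
    by decide +kernel⟩

def covers34 : cell.Covers table row34.1 :=
  ⟨(.cut .d 0 (.cut .v 16777216 (.cut .d (-8388608) (.void 1 ⟨0, 0, 0, 0, 0, 101718, 0, 0, 0, ⟨0, 0⟩, 0⟩ 0 0) (.cut .v 8388608 (.void 2 ⟨0, 0, 96662, 0, 0, 3337, 0, 0, 0, ⟨0, 0⟩, 0⟩ 0 0) (.cut .v 12582912 (.pos 6 .mm ⟨0, 0, 18826213212, 0, 0, 117135883686, 0, 0, 0, ⟨0, 0⟩, 0⟩ 0 0) (.pos 7 .mm ⟨28070916596, 0, 0, 0, 0, 139701243404, 0, 0, 0, ⟨0, 0⟩, 0⟩ 0 0)))) (.cut .v 4294967296 (.cut .v 268435456 (.cut .v 67108864 (.cut .d (-8388608) (.void 10 ⟨100000, 0, 0, 0, 0, 0, 0, 0, 0, ⟨0, 0⟩, 0⟩ 0 0) (.cut .d (-4194304) (.void 10 ⟨100000, 0, 0, 0,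 0, 0, 0, 0, 0, ⟨0, 0⟩, 0⟩ 0 0) (.cut .d (-2097152) (.void 10 ⟨100000, 0, 0, 0, 0, 0, 0, 0, 0, ⟨0, 0⟩, 0⟩ 0 0) (.pos 10 .mp ⟨80124971700, 0, 0, 0, 0, 87647188300, 0, 0, 0, ⟨0, 0⟩, 0⟩ 0 0)))) (.void 67 ⟨100000, 0, 0, 0, 0, 0, 0, 0, 0, ⟨0, 0⟩, 0⟩ 0 0)) (.void 74 ⟨0, 0, 0, 6121, 0, 89969, 0, 0, 0, ⟨0, 0⟩, 0⟩ 0 0)) (.void 189 ⟨93412, 0, 0, 6588, 0, 0, 0, 0, 0, ⟨0, 0⟩, 0⟩ 0 0))) (.cut .v 16777216 (.cut .v 8388608 (.cut .v 4194304 (.cut .v 2097152 (.cut .v 1048576 (.cut .v 524288 (.cut .v 262144 (.cut .v 131072 (.cut .v 65536 (.cut .v 32768 (.cut .v 16384 (.pos 192 .pm ⟨0, 0, 10034824, 0, 0, 0, 0, 0, 0, ⟨0, 0⟩, 0⟩ 0 0) (.pos 193 .pm ⟨0, 0, 21500170, 0, 0, 0,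 0, 0, 0, ⟨0, 0⟩, 0⟩ 0 0)) (.pos 191 .pm ⟨0, 0, 32626519, 0, 0, 0, 0, 0, 0, ⟨0, 0⟩, 0⟩ 0 0)) (.pos 184 .pm ⟨0, 0, 49808632, 0, 0, 0, 0, 0, 0, ⟨0, 0⟩, 0⟩ 0 0)) (.pos 176 .pm ⟨0, 0, 88832729, 0, 0, 0, 0, 0, 0, ⟨0, 0⟩, 0⟩ 0 0)) (.pos 158 .pm ⟨0, 0, 174961423, 0, 0, 0, 0, 0, 0, ⟨0, 0⟩, 0⟩ 0 0)) (.pos 146 .pm ⟨0, 0, 337092633, 0, 0, 0, 0, 0, 0, ⟨0, 0⟩, 0⟩ 0 0)) (.pos 108 .pm ⟨0, 0, 648817384, 0, 0, 0, 0, 0, 0, ⟨0, 0⟩, 0⟩ 0 0)) (.pos 80 .pm ⟨0, 0, 1252530853, 0, 0, 0, 0, 0, 0, ⟨0, 0⟩, 0⟩ 0 0)) (.pos 5 .pm ⟨0, 0, 2420372128, 0, 0, 0, 0, 0, 0, ⟨0, 0⟩, 0⟩ 0 0)) (.pos 3 .pm ⟨0, 0, 4410595395, 0, 0, 0, 0, 0, 0, ⟨0, 0⟩, 0⟩ 0 0)) (.cut .v 4294967296 (.cut .v 268435456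 (.pos 66 .pp ⟨0, 0, 0, 0, 0, 0, 0, 0, 0, ⟨0, 0⟩, 0⟩ 0 0) (.void 74 ⟨0, 0, 0, 100000, 0, 0, 0, 0, 0, ⟨0, 0⟩, 0⟩ 0 0)) (.void 189 ⟨0, 0, 0, 100000, 0, 0, 0, 0, 0, ⟨0, 0⟩, 0⟩ 0 0)))),
    by decide +kernel⟩

def covers35 : cell.Covers table row35.1 :=
  ⟨(.cut .d 0 (.cut .v 16777216 (.cut .d (-8388608) (.cut .d (-12582912) (.void 1 ⟨0, 0, 0, 0, 0, 100000, 0, 0, 0, ⟨0, 0⟩, 0⟩ 0 0) (.void 1 ⟨0, 0, 0, 0, 0, 100000, 0, 0, 0, ⟨0, 0⟩, 0⟩ 0 0)) (.cut .d (-4194304) (.void 1 ⟨0, 0, 0, 0, 0, 100000, 0, 0, 0, ⟨0, 0⟩, 0⟩ 0 0) (.cut .v 8388608 (.pos 2 .mm ⟨0, 0, 167772160000, 0, 0, 0, 0, 0, 0, ⟨0, 0⟩, 0⟩ 0 0) (.pos 3 .mm ⟨0, 0, 19206042925, 0, 0, 119584655645, 0, 0,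 0, ⟨0, 0⟩, 0⟩ 0 0)))) (.cut .v 4294967296 (.cut .v 268435456 (.cut .v 67108864 (.cut .d (-8388608) (.void 10 ⟨100000, 0, 0, 0, 0, 0, 0, 0, 0, ⟨0, 0⟩, 0⟩ 0 0) (.cut .d (-4194304) (.void 10 ⟨100000, 0, 0, 0, 0, 0, 0, 0, 0, ⟨0, 0⟩, 0⟩ 0 0) (.cut .v 33554432 (.pos 11 .mp ⟨149845352617, 0, 0, 0, 0, 17926807383, 0, 0, 0, ⟨0, 0⟩, 0⟩ 0 0) (.void 12 ⟨100000, 0, 0, 0, 0, 0, 0, 0, 0, ⟨0, 0⟩, 0⟩ 0 0)))) (.void 67 ⟨100000, 0, 0, 0, 0, 0, 0, 0, 0, ⟨0, 0⟩, 0⟩ 0 0)) (.void 74 ⟨0, 0, 3677, 6667, 0, 89657, 0, 0, 0, ⟨0, 0⟩, 0⟩ 0 0)) (.void 189 ⟨93394, 0, 0, 6606, 0, 0, 0, 0, 0, ⟨0, 0⟩, 0⟩ 0 0))) (.cut .v 16777216 (.cut .v 8388608 (.cut .v 4194304 (.cut .v 2097152 (.cut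 .v 1048576 (.cut .v 524288 (.cut .v 262144 (.cut .v 131072 (.cut .v 65536 (.cut .v 32768 (.cut .v 16384 (.pos 192 .pm ⟨0, 0, 16882087, 0, 0, 0, 0, 0, 0, ⟨0, 0⟩, 0⟩ 0 0) (.pos 193 .pm ⟨0, 0, 35585170, 0, 0, 0, 0, 0, 0, ⟨0, 0⟩, 0⟩ 0 0)) (.pos 191 .pm ⟨0, 0, 56277147, 0, 0, 0, 0, 0, 0, ⟨0, 0⟩, 0⟩ 0 0)) (.pos 184 .pm ⟨0, 0, 83880378, 0, 0, 0, 0, 0, 0, ⟨0, 0⟩, 0⟩ 0 0)) (.pos 176 .pm ⟨0, 0, 138098706, 0, 0, 0, 0, 0, 0, ⟨0, 0⟩, 0⟩ 0 0)) (.pos 158 .pm ⟨0, 0, 245542058, 0, 0, 0, 0, 0, 0, ⟨0, 0⟩, 0⟩ 0 0)) (.pos 146 .pm ⟨0, 0, 443041558, 0, 0, 0, 0, 0, 0, ⟨0, 0⟩, 0⟩ 0 0)) (.pos 108 .pm ⟨0, 0, 799728143, 0, 0, 0, 0, 0, 0, ⟨0, 0⟩, 0⟩ 0 0)) (.pos 80 .pm ⟨0, 0, 1513064237,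 0, 0, 0, 0, 0, 0, ⟨0, 0⟩, 0⟩ 0 0)) (.pos 5 .pm ⟨0, 0, 3068064758, 0, 0, 0, 0, 0, 0, ⟨0, 0⟩, 0⟩ 0 0)) (.pos 3 .pm ⟨0, 0, 6312306106, 0, 0, 0, 0, 0, 0, ⟨0, 0⟩, 0⟩ 0 0)) (.cut .v 4294967296 (.cut .v 268435456 (.pos 66 .pp ⟨0, 0, 0, 0, 0, 0, 0, 0, 0, ⟨0, 0⟩, 0⟩ 0 0) (.void 74 ⟨0, 0, 0, 100000, 0, 0, 0, 0, 0, ⟨0, 0⟩, 0⟩ 0 0)) (.void 189 ⟨0, 0, 0, 100000, 0, 0, 0, 0, 0, ⟨0, 0⟩, 0⟩ 0 0)))),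
    by decide +kernel⟩

def covers36 : cell.Covers table row36.1 :=
  ⟨(.cut .d 0 (.cut .v 16777216 (.cut .d (-8388608) (.void 1 ⟨0, 0, 99990, 0, 0, 0, 0, 0, 0, ⟨0, 0⟩, 0⟩ 0 0) (.cut .v 8388608 (.void 2 ⟨0, 0, 100482, 0, 0, 0, 0, 0, 0, ⟨0, 0⟩, 0⟩ 0 0) (.cut .d (-4194304) (.void 3 ⟨100000, 0, 0, 0, 0, 0, 0, 0, 0, ⟨0, 0⟩, 0⟩ 0 0) (.pos 3 .mm ⟨23916787982, 0, 34952607655, 0, 0, 108902764363, 0, 0, 0, ⟨0, 0⟩, 0⟩ 0 0)))) (.cut .v 4294967296 (.cut .d (-8388608) (.void 73 ⟨100000, 0, 0, 0, 0, 0, 0, 0, 0, ⟨0, 0⟩, 0⟩ 0 0) (.cut .v 268435456 (.cut .v 67108864 (.cut .d (-4194304) (.void 10 ⟨100000, 0, 0, 0, 0, 0, 0, 0, 0, ⟨0, 0⟩, 0⟩ 0 0) (.cut .d (-2097152) (.void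 10 ⟨100000, 0, 0, 0, 0, 0, 0, 0, 0, ⟨0, 0⟩, 0⟩ 0 0) (.cut .d (-1048576) (.void 10 ⟨100000, 0, 0, 0, 0, 0, 0, 0, 0, ⟨0, 0⟩, 0⟩ 0 0) (.pos 10 .mp ⟨151319350381, 0, 0, 0, 0, 16452809619, 0, 0, 0, ⟨0, 0⟩, 0⟩ 0 0)))) (.void 67 ⟨100000, 0, 0, 0, 0, 0, 0, 0, 0, ⟨0, 0⟩, 0⟩ 0 0)) (.void 74 ⟨90391, 0, 0, 9609, 0, 0, 0, 0, 0, ⟨0, 0⟩, 0⟩ 0 0))) (.void 189 ⟨93382, 0, 0, 6618, 0, 0, 0, 0, 0, ⟨0, 0⟩, 0⟩ 0 0))) (.cut .v 16777216 (.cut .v 8388608 (.cut .v 4194304 (.cut .v 2097152 (.cut .v 1048576 (.cut .v 524288 (.cut .v 262144 (.cut .v 131072 (.cut .v 65536 (.cut .v 32768 (.cut .v 16384 (.cut .v 8192 (.pos 194 .pm ⟨0, 0, 15135848, 0, 0, 0, 0, 0, 0, ⟨0, 0⟩, 0⟩ 0 0) (.pos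 195 .pm ⟨0, 0, 33421263, 0, 0, 0, 0, 0, 0, ⟨0, 0⟩, 0⟩ 0 0)) (.pos 193 .pm ⟨0, 0, 56868721, 0, 0, 0, 0, 0, 0, ⟨0, 0⟩, 0⟩ 0 0)) (.pos 191 .pm ⟨0, 0, 91144648, 0, 0, 0, 0, 0, 0, ⟨0, 0⟩, 0⟩ 0 0)) (.pos 184 .pm ⟨0, 0, 146031120, 0, 0, 0, 0, 0, 0, ⟨0, 0⟩, 0⟩ 0 0)) (.pos 176 .pm ⟨0, 0, 252682935, 0, 0, 0, 0, 0, 0, ⟨0, 0⟩, 0⟩ 0 0)) (.pos 158 .pm ⟨0, 0, 473419961, 0, 0, 0, 0, 0, 0, ⟨0, 0⟩, 0⟩ 0 0)) (.pos 146 .pm ⟨0, 0, 892451731, 0, 0, 0, 0, 0, 0, ⟨0, 0⟩, 0⟩ 0 0)) (.pos 108 .pm ⟨0, 0, 1678206970, 0, 0, 0, 0, 0, 0, ⟨0, 0⟩, 0⟩ 0 0)) (.pos 80 .pm ⟨0, 0, 3123185528, 0, 0, 0, 0, 0, 0, ⟨0, 0⟩, 0⟩ 0 0)) (.pos 5 .pm ⟨0, 0, 6101396934, 0, 0, 0, 0, 0, 0, ⟨0, 0⟩, 0⟩ 0 0))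 (.pos 3 .pm ⟨0, 0, 12382202697, 0, 0, 0, 0, 0, 0, ⟨0, 0⟩, 0⟩ 0 0)) (.cut .v 4294967296 (.cut .v 268435456 (.pos 66 .pp ⟨29646280400, 33512757452, 0, 0, 0, 0, 0, 0, 0, ⟨0, 0⟩, 0⟩ 0 0) (.void 74 ⟨0, 0, 0, 100000, 0, 0, 0, 0, 0, ⟨0, 0⟩, 0⟩ 0 0)) (.void 189 ⟨0, 0, 0, 100000, 0, 0, 0, 0, 0, ⟨0, 0⟩, 0⟩ 0 0)))),
    by decide +kernel⟩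

def covers37 : cell.Covers table row37.1 :=
  ⟨(.cut .d 0 (.cut .v 16777216 (.cut .d (-8388608) (.void 1 ⟨0, 0, 0, 0, 0, 100000, 0, 0, 0, ⟨0, 0⟩, 0⟩ 0 0) (.cut .d (-4194304) (.void 1 ⟨0, 0, 11962, 0, 0, 88038, 0, 0, 0, ⟨0, 0⟩, 0⟩ 0 0) (.cut .v 8388608 (.void 2 ⟨0, 0, 100000, 0, 0, 0, 0, 0, 0, ⟨0, 0⟩, 0⟩ 0 0) (.pos 3 .mm ⟨71872868603, 0, 59031974243, 0, 0, 36867317154, 0, 0, 0, ⟨0, 0⟩, 0⟩ 0 0)))) (.cut .v 4294967296 (.cut .v 268435456 (.cut .v 67108864 (.cut .d (-8388608) (.void 10 ⟨100000, 0, 0, 0, 0, 0, 0, 0, 0, ⟨0, 0⟩, 0⟩ 0 0) (.cut .d (-4194304) (.void 10 ⟨100000, 0, 0, 0, 0, 0, 0, 0, 0, ⟨0, 0⟩, 0⟩ 0 0) (.cut .d (-2097152) (.void 10 ⟨100000, 0, 0,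 0, 0, 0, 0, 0, 0, ⟨0, 0⟩, 0⟩ 0 0) (.cut .v 33554432 (.pos 11 .mp ⟨127871519863, 0, 0, 0, 0, 39900640137, 0, 0, 0, ⟨0, 0⟩, 0⟩ 0 0) (.void 12 ⟨100000, 0, 0, 0, 0, 0, 0, 0, 0, ⟨0, 0⟩, 0⟩ 0 0))))) (.void 67 ⟨100000, 0, 0, 0, 0, 0, 0, 0, 0, ⟨0, 0⟩, 0⟩ 0 0)) (.void 74 ⟨93376, 0, 0, 6624, 0, 0, 0, 0, 0, ⟨0, 0⟩, 0⟩ 0 0)) (.void 189 ⟨93376, 0, 0, 6624, 0, 0, 0, 0, 0, ⟨0, 0⟩, 0⟩ 0 0))) (.cut .v 16777216 (.cut .v 8388608 (.cut .v 4194304 (.cut .v 2097152 (.cut .v 1048576 (.cut .v 524288 (.cut .v 262144 (.cut .v 131072 (.cut .v 65536 (.cut .v 32768 (.cut .v 16384 (.cut .v 8192 (.pos 194 .pm ⟨0, 0, 19038964, 0, 0, 0, 0, 0, 0, ⟨0, 0⟩, 0⟩ 0 0) (.pos 195 .pm ⟨0, 0, 43035066,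 0, 0, 0, 0, 0, 0, ⟨0, 0⟩, 0⟩ 0 0)) (.pos 193 .pm ⟨0, 0, 72895613, 0, 0, 0, 0, 0, 0, ⟨0, 0⟩, 0⟩ 0 0)) (.pos 191 .pm ⟨0, 0, 115255133, 0, 0, 0, 0, 0, 0, ⟨0, 0⟩, 0⟩ 0 0)) (.pos 184 .pm ⟨0, 0, 191638003, 0, 0, 0, 0, 0, 0, ⟨0, 0⟩, 0⟩ 0 0)) (.pos 176 .pm ⟨0, 0, 355173065, 0, 0, 0, 0, 0, 0, ⟨0, 0⟩, 0⟩ 0 0)) (.pos 158 .pm ⟨0, 0, 687575799, 0, 0, 0, 0, 0, 0, ⟨0, 0⟩, 0⟩ 0 0)) (.pos 146 .pm ⟨0, 0, 1335104709, 0, 0, 0, 0, 0, 0, ⟨0, 0⟩, 0⟩ 0 0)) (.pos 108 .pm ⟨0, 0, 2588714998, 0, 0, 0, 0, 0, 0, ⟨0, 0⟩, 0⟩ 0 0)) (.pos 80 .pm ⟨0, 0, 5158835497, 0, 0, 0, 0, 0, 0, ⟨0, 0⟩, 0⟩ 0 0)) (.pos 5 .pm ⟨0, 0, 10361035577, 0, 0, 0, 0, 0, 0, ⟨0, 0⟩, 0⟩ 0 0)) (.pos 3 .pm ⟨0, 0, 20903661959,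 0, 0, 0, 0, 0, 0, ⟨0, 0⟩, 0⟩ 0 0)) (.cut .v 4294967296 (.cut .v 268435456 (.cut .v 67108864 (.pos 10 .pp ⟨0, 0, 0, 0, 0, 0, 0, 0, 0, ⟨0, 0⟩, 0⟩ 0 0) (.pos 67 .pp ⟨148532790625, 0, 0, 19239369375, 0, 0, 0, 0, 0, ⟨0, 0⟩, 0⟩ 0 0)) (.void 74 ⟨0, 0, 0, 100000, 0, 0, 0, 0, 0, ⟨0, 0⟩, 0⟩ 0 0)) (.void 189 ⟨0, 0, 0, 100000, 0, 0, 0, 0, 0, ⟨0, 0⟩, 0⟩ 0 0)))),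
    by decide +kernel⟩

def covers38 : cell.Covers table row38.1 :=
  ⟨(.cut .d 0 (.cut .v 16777216 (.cut .d (-8388608) (.void 1 ⟨0, 0, 0, 0, 0, 100000, 0, 0, 0, ⟨0, 0⟩, 0⟩ 0 0) (.cut .v 8388608 (.void 2 ⟨0, 0, 99993, 0, 0, 0, 0, 0, 0, ⟨0, 0⟩, 0⟩ 0 0) (.cut .d (-4194304) (.void 3 ⟨100000, 0, 0, 0, 0, 0, 0, 0, 0, ⟨0, 0⟩, 0⟩ 0 0) (.cut .d (-2097152) (.void 3 ⟨100000, 0, 0, 0, 0, 0, 0, 0, 0, ⟨0, 0⟩, 0⟩ 0 0) (.pos 3 .mm ⟨73628200637, 0, 69597624149, 0, 0, 24546335214, 0, 0, 0, ⟨0, 0⟩, 0⟩ 0 0))))) (.cut .v 4294967296 (.cut .d (-8388608) (.void 73 ⟨100000, 0, 0, 0, 0, 0, 0, 0, 0, ⟨0, 0⟩, 0⟩ 0 0) (.cut .v 268435456 (.cut .v 67108864 (.cut .d (-4194304) (.void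 10 ⟨100000, 0, 0, 0, 0, 0, 0, 0, 0, ⟨0, 0⟩, 0⟩ 0 0) (.cut .d (-2097152) (.void 10 ⟨100000, 0, 0, 0, 0, 0, 0, 0, 0, ⟨0, 0⟩, 0⟩ 0 0) (.cut .v 33554432 (.cut .d (-1048576) (.void 11 ⟨100000, 0, 0, 0, 0, 0, 0, 0, 0, ⟨0, 0⟩, 0⟩ 0 0) (.cut .d (-524288) (.void 11 ⟨100000, 0, 0, 0, 0, 0, 0, 0, 0, ⟨0, 0⟩, 0⟩ 0 0) (.pos 11 .mp ⟨105317911253, 0, 0, 0, 0, 62454248747, 0, 0, 0, ⟨0, 0⟩, 0⟩ 0 0))) (.void 12 ⟨100000, 0, 0, 0, 0, 0, 0, 0, 0, ⟨0, 0⟩, 0⟩ 0 0)))) (.void 67 ⟨99906, 0, 0, 0, 0, 0, 0, 0, 0, ⟨0, 0⟩, 0⟩ 0 0)) (.void 74 ⟨90344, 0, 0, 9656, 0, 0, 0, 0, 0, ⟨0, 0⟩, 0⟩ 0 0))) (.void 189 ⟨100001, 0, 0, 0, 0, 0, 0, 0, 0, ⟨0, 0⟩, 0⟩ 0 0))) (.cut .v 16777216 (.cut .v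 8388608 (.cut .v 4194304 (.cut .v 2097152 (.cut .v 1048576 (.cut .v 524288 (.cut .v 262144 (.cut .v 131072 (.cut .v 65536 (.cut .v 32768 (.cut .v 16384 (.cut .v 8192 (.cut .v 4096 (.pos 196 .pm ⟨0, 0, 18047618, 0, 0, 0, 0, 0, 0, ⟨0, 0⟩, 0⟩ 0 0) (.pos 197 .pm ⟨0, 0, 43226619, 0, 0, 0, 0, 0, 0, ⟨0, 0⟩, 0⟩ 0 0)) (.pos 195 .pm ⟨0, 0, 77593232, 0, 0, 0, 0, 0, 0, ⟨0, 0⟩, 0⟩ 0 0)) (.pos 193 .pm ⟨0, 0, 133219941, 0, 0, 0, 0, 0, 0, ⟨0, 0⟩, 0⟩ 0 0)) (.pos 191 .pm ⟨0, 0, 221606884, 0, 0, 0, 0, 0, 0, ⟨0, 0⟩, 0⟩ 0 0)) (.pos 184 .pm ⟨0, 0, 371573788, 0, 0, 0, 0, 0, 0, ⟨0, 0⟩, 0⟩ 0 0)) (.pos 176 .pm ⟨0, 0, 683783914, 0, 0, 0, 0, 0, 0, ⟨0, 0⟩, 0⟩ 0 0)) (.pos 158 .pm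 ⟨0, 0, 1311901981, 0, 0, 0, 0, 0, 0, ⟨0, 0⟩, 0⟩ 0 0)) (.pos 146 .pm ⟨0, 0, 2472280813, 0, 0, 0, 0, 0, 0, ⟨0, 0⟩, 0⟩ 0 0)) (.pos 108 .pm ⟨0, 0, 4610946530, 0, 0, 0, 0, 0, 0, ⟨0, 0⟩, 0⟩ 0 0)) (.pos 80 .pm ⟨0, 0, 8423078974, 0, 0, 0, 0, 0, 0, ⟨0, 0⟩, 0⟩ 0 0)) (.pos 5 .pm ⟨0, 0, 14850260546, 0, 0, 0, 0, 0, 0, ⟨0, 0⟩, 0⟩ 0 0)) (.pos 3 .pm ⟨0, 0, 27712534146, 0, 0, 0, 0, 0, 0, ⟨0, 0⟩, 0⟩ 0 0)) (.cut .v 4294967296 (.cut .v 268435456 (.cut .v 67108864 (.pos 10 .pp ⟨0, 0, 0, 0, 0, 0, 0, 0, 0, ⟨0, 0⟩, 0⟩ 0 0) (.pos 67 .pp ⟨103557896870, 0, 0, 64214263130, 0, 0, 0, 0, 0, ⟨0, 0⟩, 0⟩ 0 0)) (.void 74 ⟨617253166, 0, 0, 382746834, 0, 0, 0, 0, 0, ⟨0, 0⟩, 0⟩ 0 0)) (.void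 189 ⟨617253166, 0, 0, 382746834, 0, 0, 0, 0, 0, ⟨0, 0⟩, 0⟩ 0 0)))),
    by decide +kernel⟩

def covers39 : cell.Covers table row39.1 :=
  ⟨(.cut .d 0 (.cut .v 16777216 (.cut .d (-8388608) (.void 1 ⟨0, 0, 0, 0, 0, 1000000000, 0, 0, 0, ⟨0, 0⟩, 0⟩ 0 0) (.cut .v 8388608 (.cut .s 16703488 (.void 2 ⟨0, 0, 100000, 0, 0, 0, 0, 0, 0, ⟨0, 0⟩, 0⟩ 0 0) (.void 2 ⟨0, 0, 100000, 0, 0, 0, 0, 0, 0, ⟨0, 0⟩, 0⟩ 0 0)) (.cut .d (-4194304) (.void 3 ⟨1000000000, 0, 0, 0, 0, 0, 0, 0, 0, ⟨0, 0⟩, 0⟩ 0 0) (.cut .d (-2097152) (.void 3 ⟨1000000000, 0, 0, 0, 0, 0, 0, 0, 0, ⟨0, 0⟩, 0⟩ 0 0) (.cut .d (-1048576) (.void 3 ⟨1000000000, 0, 0, 0, 0, 0, 0, 0, 0, ⟨0, 0⟩, 0⟩ 0 0) (.pos 3 .mm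 ⟨90745163617, 0, 77026996383, 0, 0, 0, 0, 0, 0, ⟨0, 0⟩, 0⟩ 0 0)))))) (.cut .v 4294967296 (.cut .d (-8388608) (.void 73 ⟨1000000000, 0, 0, 0, 0, 0, 0, 0, 0, ⟨0, 0⟩, 0⟩ 0 0) (.cut .v 268435456 (.cut .v 67108864 (.cut .d (-4194304) (.void 10 ⟨1000000000, 0, 0, 0, 0, 0, 0, 0, 0, ⟨0, 0⟩, 0⟩ 0 0) (.cut .d (-2097152) (.void 10 ⟨1000000000, 0, 0, 0, 0, 0, 0, 0, 0, ⟨0, 0⟩, 0⟩ 0 0) (.cut .v 33554432 (.cut .d (-1048576) (.void 11 ⟨1000000000, 0, 0, 0, 0, 0, 0, 0, 0, ⟨0, 0⟩, 0⟩ 0 0) (.cut .d (-524288) (.void 11 ⟨1000000000, 0, 0, 0, 0, 0, 0, 0, 0, ⟨0, 0⟩, 0⟩ 0 0) (.cut .d (-262144) (.void 11 ⟨1000000000, 0, 0, 0, 0, 0, 0, 0, 0, ⟨0, 0⟩, 0⟩ 0 0) (.cut .d (-131072)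 (.void 11 ⟨1000000000, 0, 0, 0, 0, 0, 0, 0, 0, ⟨0, 0⟩, 0⟩ 0 0) (.pos 11 .mp ⟨145157461025, 0, 0, 0, 0, 22614698975, 0, 0, 0, ⟨0, 0⟩, 0⟩ 0 0))))) (.void 12 ⟨865205890, 0, 0, 0, 0, 134794110, 0, 0, 0, ⟨0, 0⟩, 0⟩ 0 0)))) (.void 67 ⟨865205890, 0, 0, 0, 0, 134794110, 0, 0, 0, ⟨0, 0⟩, 0⟩ 0 0)) (.void 74 ⟨90347, 0, 0, 9653, 0, 0, 0, 0, 0, ⟨0, 0⟩, 0⟩ 0 0))) (.void 189 ⟨93248, 0, 0, 6752, 0, 0, 0, 0, 0, ⟨0, 0⟩, 0⟩ 0 0))) (.cut .v 16777216 (.cut .v 8388608 (.cut .v 4194304 (.cut .v 2097152 (.cut .v 1048576 (.cut .v 524288 (.cut .v 262144 (.cut .v 131072 (.cut .v 65536 (.cut .d 41162 (.pos 183 .pm ⟨0, 0, 167772160000, 0, 0, 0, 0, 0, 0, ⟨0, 0⟩, 0⟩ 0 0) (.cut .v 32768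 (.cut .v 16384 (.cut .v 8192 (.cut .v 4096 (.pos 196 .pm ⟨0, 0, 30431565, 0, 0, 0, 0, 0, 0, ⟨0, 0⟩, 0⟩ 0 0) (.pos 197 .pm ⟨0, 0, 79696677, 0, 0, 0, 0, 0, 0, ⟨0, 0⟩, 0⟩ 0 0)) (.pos 195 .pm ⟨0, 0, 137647734, 0, 0, 0, 0, 0, 0, ⟨0, 0⟩, 0⟩ 0 0)) (.pos 193 .pm ⟨0, 0, 231851571, 0, 0, 0, 0, 0, 0, ⟨0, 0⟩, 0⟩ 0 0)) (.pos 191 .pm ⟨0, 0, 375097630, 0, 0, 0, 0, 0, 0, ⟨0, 0⟩, 0⟩ 0 0))) (.pos 184 .pm ⟨0, 0, 974289685, 0, 0, 0, 0, 0, 0, ⟨0, 0⟩, 0⟩ 0 0)) (.pos 176 .pm ⟨0, 0, 1762263111, 0, 0, 0, 0, 0, 0, ⟨0, 0⟩, 0⟩ 0 0)) (.pos 158 .pm ⟨0, 0, 3150496121, 0, 0, 0, 0, 0, 0, ⟨0, 0⟩, 0⟩ 0 0)) (.pos 146 .pm ⟨0, 0, 5666246285, 0, 0, 0, 0, 0, 0, ⟨0, 0⟩, 0⟩ 0 0)) (.pos 108 .pm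 ⟨0, 0, 10937511347, 0, 0, 0, 0, 0, 0, ⟨0, 0⟩, 0⟩ 0 0)) (.pos 80 .pm ⟨0, 0, 21668825356, 0, 0, 0, 0, 0, 0, ⟨0, 0⟩, 0⟩ 0 0)) (.pos 5 .pm ⟨0, 0, 43539423833, 0, 0, 0, 0, 0, 0, ⟨0, 0⟩, 0⟩ 0 0)) (.pos 3 .pm ⟨0, 0, 55685865826, 0, 0, 0, 0, 0, 0, ⟨0, 0⟩, 0⟩ 0 0)) (.cut .v 4294967296 (.cut .v 268435456 (.cut .v 67108864 (.pos 10 .pp ⟨0, 0, 0, 0, 0, 0, 0, 0, 0, ⟨0, 0⟩, 0⟩ 0 0) (.cut .v 134217728 (.pos 70 .pp ⟨119689236360, 0, 0, 48082923640, 0, 0, 0, 0, 0, ⟨0, 0⟩, 0⟩ 0 0) (.void 71 ⟨0, 0, 0, 100000, 0, 0, 0, 0, 0, ⟨0, 0⟩, 0⟩ 0 0))) (.void 74 ⟨0, 0, 0, 100000, 0, 0, 0, 0, 0, ⟨0, 0⟩, 0⟩ 0 0)) (.void 189 ⟨0, 0, 0, 100000, 0, 0, 0, 0, 0, ⟨0, 0⟩, 0⟩ 0 0)))),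
    by decide +kernel⟩

def covers40 : cell.Covers table row40.1 :=
  ⟨(.cut .d 0 (.cut .v 16777216 (.cut .d (-8388608) (.void 1 ⟨0, 0, 100000, 0, 0, 0, 0, 0, 0, ⟨0, 0⟩, 0⟩ 0 0) (.cut .d (-4194304) (.void 1 ⟨0, 0, 133529, 0, 0, 0, 0, 0, 0, ⟨0, 0⟩, 0⟩ 0 0) (.cut .d (-2097152) (.void 1 ⟨0, 0, 0, 0, 0, 1000000000, 0, 0, 0, ⟨0, 0⟩, 0⟩ 0 0) (.cut .d (-1048576) (.void 1 ⟨0, 0, 0, 0, 0, 100000, 0, 0, 0, ⟨0, 0⟩, 0⟩ 0 0) (.cut .v 8388608 (.void 2 ⟨0, 0, 100000, 0, 0, 0, 0, 0, 0, ⟨0, 0⟩, 0⟩ 0 0) (.cut .d (-524288) (.void 3 ⟨1000000000, 0, 0, 0, 0, 0, 0, 0, 0, ⟨0, 0⟩, 0⟩ 0 0) (.cut .d (-262144) (.void 3 ⟨1000000000, 0, 0, 0, 0, 0, 0, 0, 0, ⟨0, 0⟩, 0⟩ 0 0) (.cut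 .v 12582912 (.pos 6 .mm ⟨76593235396, 0, 82530226439, 0, 0, 8648698165, 0, 0, 0, ⟨0, 0⟩, 0⟩ 0 0) (.pos 7 .mm ⟨151912277653, 0, 0, 0, 0, 15859882347, 0, 0, 0, ⟨0, 0⟩, 0⟩ 0 0))))))))) (.cut .v 4294967296 (.cut .d (-8388608) (.void 73 ⟨1000000000, 0, 0, 0, 0, 0, 0, 0, 0, ⟨0, 0⟩, 0⟩ 0 0) (.cut .v 268435456 (.cut .v 67108864 (.cut .d (-4194304) (.void 10 ⟨1000000000, 0, 0, 0, 0, 0, 0, 0, 0, ⟨0, 0⟩, 0⟩ 0 0) (.cut .d (-2097152) (.void 10 ⟨1000000000, 0, 0, 0, 0, 0, 0, 0, 0, ⟨0, 0⟩, 0⟩ 0 0) (.cut .d (-1048576) (.void 10 ⟨1000000000, 0, 0, 0, 0, 0, 0, 0, 0, ⟨0, 0⟩, 0⟩ 0 0) (.cut .v 33554432 (.cut .d (-524288) (.void 11 ⟨1000000000, 0, 0, 0, 0, 0, 0, 0, 0, ⟨0,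 0⟩, 0⟩ 0 0) (.cut .d (-262144) (.void 11 ⟨1000000000, 0, 0, 0, 0, 0, 0, 0, 0, ⟨0, 0⟩, 0⟩ 0 0) (.cut .d (-131072) (.void 11 ⟨1000000000, 0, 0, 0, 0, 0, 0, 0, 0, ⟨0, 0⟩, 0⟩ 0 0) (.cut .d (-65536) (.void 11 ⟨1000000000, 0, 0, 0, 0, 0, 0, 0, 0, ⟨0, 0⟩, 0⟩ 0 0) (.cut .d (-32768) (.void 11 ⟨913156660, 0, 0, 0, 0, 0, 0, 0, 0, ⟨0, 0⟩, 0⟩ 0 0) (.pos 11 .mp ⟨148398860449, 0, 0, 0, 0, 0, 0, 0, 0, ⟨0, 0⟩, 0⟩ 0 0)))))) (.void 12 ⟨884526136, 0, 0, 0, 0, 0, 0, 0, 0, ⟨0, 0⟩, 0⟩ 0 0))))) (.void 67 ⟨884526136, 0, 0, 0, 0, 0, 0, 0, 0, ⟨0, 0⟩, 0⟩ 0 0)) (.void 74 ⟨90348, 0, 0, 9652, 0, 0, 0, 0, 0, ⟨0, 0⟩, 0⟩ 0 0))) (.void 189 ⟨93367, 0, 0, 6651, 0, 0, 0, 0, 0, ⟨0, 0⟩, 0⟩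 0 0))) (.cut .v 16777216 (.cut .v 8388608 (.cut .v 4194304 (.cut .v 2097152 (.cut .v 1048576 (.cut .v 524288 (.cut .v 262144 (.cut .v 131072 (.cut .v 65536 (.cut .d 32898 (.void 183 ⟨0, 0, 100000, 0, 0, 0, 0, 0, 0, ⟨0, 0⟩, 0⟩ 0 0) (.cut .v 32768 (.cut .v 16384 (.cut .v 8192 (.cut .v 4096 (.cut .v 2048 (.pos 198 .pm ⟨0, 0, 26682943, 0, 0, 0, 0, 0, 0, ⟨0, 0⟩, 0⟩ 0 0) (.pos 199 .pm ⟨0, 0, 63995159, 0, 0, 0, 0, 0, 0, ⟨0, 0⟩, 0⟩ 0 0)) (.pos 197 .pm ⟨0, 0, 112144649, 0, 0, 0, 0, 0, 0, ⟨0, 0⟩, 0⟩ 0 0)) (.pos 195 .pm ⟨0, 0, 183594288, 0, 0, 0, 0, 0, 0, ⟨0, 0⟩, 0⟩ 0 0)) (.pos 193 .pm ⟨0, 0, 304029308, 0, 0, 0, 0, 0, 0, ⟨0, 0⟩, 0⟩ 0 0)) (.pos 191 .pm ⟨0, 0, 491506019,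 0, 0, 0, 0, 0, 0, ⟨0, 0⟩, 0⟩ 0 0))) (.pos 184 .pm ⟨0, 0, 1469671796, 0, 0, 0, 0, 0, 0, ⟨0, 0⟩, 0⟩ 0 0)) (.pos 176 .pm ⟨0, 0, 2601227736, 0, 0, 0, 0, 0, 0, ⟨0, 0⟩, 0⟩ 0 0)) (.pos 158 .pm ⟨0, 0, 4520000986, 0, 0, 0, 0, 0, 0, ⟨0, 0⟩, 0⟩ 0 0)) (.pos 146 .pm ⟨0, 0, 7692788774, 0, 0, 0, 0, 0, 0, ⟨0, 0⟩, 0⟩ 0 0)) (.pos 108 .pm ⟨0, 0, 13923715438, 0, 0, 0, 0, 0, 0, ⟨0, 0⟩, 0⟩ 0 0)) (.pos 80 .pm ⟨0, 0, 26089348908, 0, 0, 0, 0, 0, 0, ⟨0, 0⟩, 0⟩ 0 0)) (.pos 5 .pm ⟨0, 0, 47376338521, 0, 0, 0, 0, 0, 0, ⟨0, 0⟩, 0⟩ 0 0)) (.pos 3 .pm ⟨0, 0, 55677335865, 0, 0, 0, 0, 0, 0, ⟨0, 0⟩, 0⟩ 0 0)) (.cut .v 4294967296 (.cut .v 268435456 (.cut .v 67108864 (.pos 10 .pp ⟨0, 0, 0,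 0, 0, 0, 0, 0, 0, ⟨0, 0⟩, 0⟩ 0 0) (.cut .v 134217728 (.cut .v 100663296 (.pos 75 .pp ⟨167772160000, 0, 0, 0, 0, 0, 0, 0, 0, ⟨0, 0⟩, 0⟩ 0 0) (.void 76 ⟨87511, 0, 0, 12489, 0, 0, 0, 0, 0, ⟨0, 0⟩, 0⟩ 0 0)) (.void 71 ⟨0, 0, 0, 100000, 0, 0, 0, 0, 0, ⟨0, 0⟩, 0⟩ 0 0))) (.void 74 ⟨0, 0, 0, 100000, 0, 0, 0, 0, 0, ⟨0, 0⟩, 0⟩ 0 0)) (.void 189 ⟨0, 0, 0, 100000, 0, 0, 0, 0, 0, ⟨0, 0⟩, 0⟩ 0 0)))),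
    by decide +kernel⟩

def covers41 : cell.Covers table row41.1 :=
  ⟨(.cut .d 0 (.cut .v 16777216 (.cut .d (-8388608) (.void 1 ⟨0, 0, 99032, 0, 0, 0, 0, 0, 0, ⟨0, 0⟩, 0⟩ 0 0) (.cut .d (-4194304) (.void 1 ⟨0, 0, 100000, 0, 0, 0, 0, 0, 0, ⟨0, 0⟩, 0⟩ 0 0) (.cut .d (-2097152) (.void 1 ⟨0, 0, 100000, 0, 0, 0, 0, 0, 0, ⟨0, 0⟩, 0⟩ 0 0) (.cut .d (-1048576) (.void 1 ⟨0, 0, 100000, 0, 0, 0, 0, 0, 0, ⟨0, 0⟩, 0⟩ 0 0) (.cut .d (-524288) (.void 1 ⟨0, 0, 100000, 0, 0, 0, 0, 0, 0, ⟨0, 0⟩, 0⟩ 0 0) (.cut .d (-262144) (.void 1 ⟨0, 0, 100000, 0, 0, 0, 0, 0, 0, ⟨0, 0⟩, 0⟩ 0 0) (.cut .d (-131072) (.void 1 ⟨0, 0, 0, 0, 0, 100000, 0, 0, 0, ⟨0, 0⟩, 0⟩ 0 0) (.cut .d (-65536)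 (.void 1 ⟨0, 0, 100000, 0, 0, 0, 0, 0, 0, ⟨0, 0⟩, 0⟩ 0 0) (.cut .v 8388608 (.void 2 ⟨0, 0, 100000, 0, 0, 0, 0, 0, 0, ⟨0, 0⟩, 0⟩ 0 0) (.cut .d (-32768) (.void 3 ⟨708854223, 0, 291145777, 0, 0, 0, 0, 0, 0, ⟨0, 0⟩, 0⟩ 0 0) (.pos 3 .mm ⟨118926004153, 0, 48846155847, 0, 0, 0, 0, 0, 0, ⟨0, 0⟩, 0⟩ 0 0))))))))))) (.cut .v 4294967296 (.cut .d (-8388608) (.void 73 ⟨1000000000, 0, 0, 0, 0, 0, 0, 0, 0, ⟨0, 0⟩, 0⟩ 0 0) (.cut .v 268435456 (.cut .v 67108864 (.cut .d (-4194304) (.void 10 ⟨1000000000, 0, 0, 0, 0, 0, 0, 0, 0, ⟨0, 0⟩, 0⟩ 0 0) (.cut .d (-2097152) (.void 10 ⟨1000000000, 0, 0, 0, 0, 0, 0, 0, 0, ⟨0, 0⟩, 0⟩ 0 0) (.cut .d (-1048576) (.void 10 ⟨1000000000, 0,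 0, 0, 0, 0, 0, 0, 0, ⟨0, 0⟩, 0⟩ 0 0) (.cut .d (-524288) (.void 10 ⟨1000000000, 0, 0, 0, 0, 0, 0, 0, 0, ⟨0, 0⟩, 0⟩ 0 0) (.cut .v 33554432 (.cut .d (-262144) (.void 11 ⟨1000000000, 0, 0, 0, 0, 0, 0, 0, 0, ⟨0, 0⟩, 0⟩ 0 0) (.cut .d (-131072) (.void 11 ⟨1000000000, 0, 0, 0, 0, 0, 0, 0, 0, ⟨0, 0⟩, 0⟩ 0 0) (.cut .d (-65536) (.void 11 ⟨1000000000, 0, 0, 0, 0, 0, 0, 0, 0, ⟨0, 0⟩, 0⟩ 0 0) (.cut .d (-32768) (.void 11 ⟨1000000000, 0, 0, 0, 0, 0, 0, 0, 0, ⟨0, 0⟩, 0⟩ 0 0) (.pos 11 .mp ⟨166044352061, 0, 0, 0, 0, 0, 0, 0, 0, ⟨0, 0⟩, 0⟩ 0 0))))) (.void 12 ⟨989701462, 0, 0, 0, 0, 0, 0, 0, 0, ⟨0, 0⟩, 0⟩ 0 0)))))) (.void 67 ⟨989701462, 0, 0, 0, 0, 0, 0, 0, 0, ⟨0, 0⟩, 0⟩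 0 0)) (.void 74 ⟨989701462, 0, 0, 0, 0, 0, 0, 0, 0, ⟨0, 0⟩, 0⟩ 0 0))) (.void 189 ⟨989701462, 0, 0, 0, 0, 0, 0, 0, 0, ⟨0, 0⟩, 0⟩ 0 0))) (.cut .v 16777216 (.cut .v 8388608 (.cut .v 4194304 (.cut .v 2097152 (.cut .v 1048576 (.cut .v 524288 (.cut .v 262144 (.cut .v 131072 (.cut .v 65536 (.cut .v 32768 (.cut .v 16384 (.cut .v 8192 (.cut .v 4096 (.cut .v 2048 (.pos 198 .pm ⟨0, 0, 38730029, 0, 0, 0, 0, 0, 0, ⟨0, 0⟩, 0⟩ 0 0) (.pos 199 .pm ⟨0, 0, 81135719, 0, 0, 0, 0, 0, 0, ⟨0, 0⟩, 0⟩ 0 0)) (.pos 197 .pm ⟨0, 0, 146044937, 0, 0, 0, 0, 0, 0, ⟨0, 0⟩, 0⟩ 0 0)) (.pos 195 .pm ⟨0, 0, 276471605, 0, 0, 0, 0, 0, 0, ⟨0, 0⟩, 0⟩ 0 0)) (.pos 193 .pm ⟨0, 0, 511236065, 0, 0,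 0, 0, 0, 0, ⟨0, 0⟩, 0⟩ 0 0)) (.pos 191 .pm ⟨0, 0, 937827064, 0, 0, 0, 0, 0, 0, ⟨0, 0⟩, 0⟩ 0 0)) (.pos 184 .pm ⟨0, 0, 1702133717, 0, 0, 0, 0, 0, 0, ⟨0, 0⟩, 0⟩ 0 0)) (.pos 176 .pm ⟨0, 0, 3049908018, 0, 0, 0, 0, 0, 0, ⟨0, 0⟩, 0⟩ 0 0)) (.pos 158 .pm ⟨0, 0, 5388647719, 0, 0, 0, 0, 0, 0, ⟨0, 0⟩, 0⟩ 0 0)) (.pos 146 .pm ⟨0, 0, 9667326480, 0, 0, 0, 0, 0, 0, ⟨0, 0⟩, 0⟩ 0 0)) (.pos 108 .pm ⟨0, 0, 18611285688, 0, 0, 0, 0, 0, 0, ⟨0, 0⟩, 0⟩ 0 0)) (.pos 80 .pm ⟨0, 0, 36912211549, 0, 0, 0, 0, 0, 0, ⟨0, 0⟩, 0⟩ 0 0)) (.pos 5 .pm ⟨0, 0, 75109572097, 0, 0, 0, 0, 0, 0, ⟨0, 0⟩, 0⟩ 0 0)) (.pos 3 .pm ⟨0, 0, 86456015768, 0, 0, 0, 0, 0, 0, ⟨0, 0⟩, 0⟩ 0 0)) (.cut .v 4294967296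 (.cut .v 268435456 (.cut .v 67108864 (.pos 10 .pp ⟨0, 0, 0, 0, 0, 0, 0, 0, 0, ⟨0, 0⟩, 0⟩ 0 0) (.cut .v 134217728 (.cut .v 100663296 (.pos 75 .pp ⟨167772160000, 0, 0, 0, 0, 0, 0, 0, 0, ⟨0, 0⟩, 0⟩ 0 0) (.cut .d 24649 (.cut .d 12324 (.cut .v 117440512 (.pos 200 .pp ⟨167772160000, 0, 0, 0, 0, 0, 0, 0, 0, ⟨0, 0⟩, 0⟩ 0 0) (.cut .d 6162 (.void 201 ⟨87200, 0, 0, 12800, 0, 0, 0, 0, 0, ⟨0, 0⟩, 0⟩ 0 0) (.void 201 ⟨0, 0, 0, 100000, 0, 0, 0, 0, 0, ⟨0, 0⟩, 0⟩ 0 0))) (.void 76 ⟨0, 0, 0, 100000, 0, 0, 0, 0, 0, ⟨0, 0⟩, 0⟩ 0 0)) (.void 76 ⟨0, 0, 0, 100000, 0, 0, 0, 0, 0, ⟨0, 0⟩, 0⟩ 0 0))) (.void 71 ⟨0, 0, 0, 100000, 0, 0, 0, 0, 0, ⟨0, 0⟩, 0⟩ 0 0))) (.void 74 ⟨0, 0, 0,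 100000, 0, 0, 0, 0, 0, ⟨0, 0⟩, 0⟩ 0 0)) (.void 189 ⟨0, 0, 0, 104370, 0, 0, 0, 0, 0, ⟨0, 0⟩, 0⟩ 0 0)))),
    by decide +kernel⟩

def covers42 : cell.Covers table row42.1 :=
  ⟨(.cut .d 0 (.cut .v 16777216 (.cut .d (-8388608) (.void 1 ⟨0, 0, 100000, 0, 0, 0, 0, 0, 0, ⟨0, 0⟩, 0⟩ 0 0) (.cut .d (-4194304) (.void 1 ⟨0, 0, 4492, 0, 0, 95508, 0, 0, 0, ⟨0, 0⟩, 0⟩ 0 0) (.cut .d (-2097152) (.void 1 ⟨0, 0, 2982, 0, 0, 97018, 0, 0, 0, ⟨0, 0⟩, 0⟩ 0 0) (.cut .d (-1048576) (.void 1 ⟨0, 0, 2227, 0, 0, 97773, 0, 0, 0, ⟨0, 0⟩, 0⟩ 0 0) (.cut .d (-524288) (.void 1 ⟨0, 0, 1849, 0, 0, 98151, 0, 0, 0, ⟨0, 0⟩, 0⟩ 0 0) (.cut .d (-262144) (.void 1 ⟨0, 0, 0, 0, 0, 100000, 0, 0,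 0, ⟨0, 0⟩, 0⟩ 0 0) (.cut .d (-131072) (.void 1 ⟨0, 0, 1093, 0, 0, 98907, 0, 0, 0, ⟨0, 0⟩, 0⟩ 0 0) (.cut .d (-65536) (.void 1 ⟨0, 0, 1060, 0, 0, 98940, 0, 0, 0, ⟨0, 0⟩, 0⟩ 0 0) (.cut .v 8388608 (.void 2 ⟨0, 0, 100139, 0, 0, 0, 0, 0, 0, ⟨0, 0⟩, 0⟩ 0 0) (.cut .d (-32768) (.void 3 ⟨100000, 0, 0, 0, 0, 0, 0, 0, 0, ⟨0, 0⟩, 0⟩ 0 0) (.pos 3 .mm ⟨157572966645, 0, 10199193355, 0, 0, 0, 0, 0, 0, ⟨0, 0⟩, 0⟩ 0 0))))))))))) (.cut .v 4294967296 (.cut .d (-8388608) (.void 73 ⟨100000, 0, 0, 0, 0, 0, 0, 0, 0, ⟨0, 0⟩, 0⟩ 0 0) (.cut .v 268435456 (.cut .v 67108864 (.cut .d (-4194304) (.void 10 ⟨100000, 0, 0, 0, 0, 0, 0, 0, 0, ⟨0, 0⟩, 0⟩ 0 0) (.cut .d (-2097152) (.void 10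 ⟨100000, 0, 0, 0, 0, 0, 0, 0, 0, ⟨0, 0⟩, 0⟩ 0 0) (.cut .d (-1048576) (.void 10 ⟨100000, 0, 0, 0, 0, 0, 0, 0, 0, ⟨0, 0⟩, 0⟩ 0 0) (.cut .d (-524288) (.void 10 ⟨100000, 0, 0, 0, 0, 0, 0, 0, 0, ⟨0, 0⟩, 0⟩ 0 0) (.cut .d (-262144) (.void 10 ⟨100000, 0, 0, 0, 0, 0, 0, 0, 0, ⟨0, 0⟩, 0⟩ 0 0) (.cut .d (-131072) (.void 10 ⟨100000, 0, 0, 0, 0, 0, 0, 0, 0, ⟨0, 0⟩, 0⟩ 0 0) (.cut .d (-65536) (.void 10 ⟨100000, 0, 0, 0, 0, 0, 0, 0, 0, ⟨0, 0⟩, 0⟩ 0 0) (.cut .d (-32768) (.void 10 ⟨100000, 0, 0, 0, 0, 0, 0, 0, 0, ⟨0, 0⟩, 0⟩ 0 0) (.cut .d (-16384) (.void 10 ⟨100000, 0, 0, 0, 0, 0, 0, 0, 0, ⟨0, 0⟩, 0⟩ 0 0) (.pos 10 .mp ⟨167772160000, 0, 0, 0, 0, 0, 0, 0, 0, ⟨0, 0⟩, 0⟩ 0 0))))))))))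 (.void 67 ⟨100000, 0, 0, 0, 0, 0, 0, 0, 0, ⟨0, 0⟩, 0⟩ 0 0)) (.void 74 ⟨90336, 0, 0, 9664, 0, 0, 0, 0, 0, ⟨0, 0⟩, 0⟩ 0 0))) (.void 189 ⟨94109, 0, 0, 6755, 0, 0, 0, 0, 0, ⟨0, 0⟩, 0⟩ 0 0))) (.cut .v 16777216 (.cut .v 8388608 (.cut .v 4194304 (.cut .v 2097152 (.cut .v 1048576 (.cut .v 524288 (.cut .v 262144 (.cut .v 131072 (.cut .v 65536 (.cut .v 32768 (.cut .v 16384 (.cut .v 8192 (.cut .v 4096 (.cut .v 2048 (.pos 198 .pm ⟨0, 0, 43908102, 0, 0, 0, 0, 0, 0, ⟨0, 0⟩, 0⟩ 0 0) (.pos 199 .pm ⟨0, 0, 112070170, 0, 0, 0, 0, 0, 0, ⟨0, 0⟩, 0⟩ 0 0)) (.pos 197 .pm ⟨0, 0, 205388326, 0, 0, 0, 0, 0, 0, ⟨0, 0⟩, 0⟩ 0 0)) (.pos 195 .pm ⟨0, 0, 374025695, 0, 0, 0, 0, 0, 0, ⟨0,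 0⟩, 0⟩ 0 0)) (.pos 193 .pm ⟨0, 0, 673379021, 0, 0, 0, 0, 0, 0, ⟨0, 0⟩, 0⟩ 0 0)) (.pos 191 .pm ⟨0, 0, 1225308135, 0, 0, 0, 0, 0, 0, ⟨0, 0⟩, 0⟩ 0 0)) (.pos 184 .pm ⟨0, 0, 2372760593, 0, 0, 0, 0, 0, 0, ⟨0, 0⟩, 0⟩ 0 0)) (.pos 176 .pm ⟨0, 0, 4742976555, 0, 0, 0, 0, 0, 0, ⟨0, 0⟩, 0⟩ 0 0)) (.pos 158 .pm ⟨0, 0, 9483548267, 0, 0, 0, 0, 0, 0, ⟨0, 0⟩, 0⟩ 0 0)) (.pos 146 .pm ⟨0, 0, 18965250855, 0, 0, 0, 0, 0, 0, ⟨0, 0⟩, 0⟩ 0 0)) (.pos 108 .pm ⟨0, 0, 37930892675, 0, 0, 0, 0, 0, 0, ⟨0, 0⟩, 0⟩ 0 0)) (.pos 80 .pm ⟨0, 0, 75871122901, 0, 0, 0, 0, 0, 0, ⟨0, 0⟩, 0⟩ 0 0)) (.pos 5 .pm ⟨0, 0, 151787369692, 0, 0, 0, 0, 0, 0, ⟨0, 0⟩, 0⟩ 0 0)) (.pos 3 .pm ⟨0, 0, 167772160000,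 0, 0, 0, 0, 0, 0, ⟨0, 0⟩, 0⟩ 0 0)) (.cut .v 4294967296 (.cut .v 268435456 (.cut .v 67108864 (.pos 10 .pp ⟨0, 0, 0, 0, 0, 0, 0, 0, 0, ⟨0, 0⟩, 0⟩ 0 0) (.cut .v 134217728 (.pos 70 .pp ⟨74933482332, 0, 0, 92838677668, 0, 0, 0, 0, 0, ⟨0, 0⟩, 0⟩ 0 0) (.void 71 ⟨0, 0, 0, 100000, 0, 0, 0, 0, 0, ⟨0, 0⟩, 0⟩ 0 0))) (.void 74 ⟨0, 0, 0, 100000, 0, 0, 0, 0, 0, ⟨0, 0⟩, 0⟩ 0 0)) (.void 189 ⟨0, 0, 0, 100000, 0, 0, 0, 0, 0, ⟨0, 0⟩, 0⟩ 0 0)))),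
    by decide +kernel⟩

def covers43 : cell.Covers table row43.1 :=
  ⟨(.cut .d 0 (.cut .v 16777216 (.cut .d (-8388608) (.void 1 ⟨0, 0, 0, 0, 0, 100000, 0, 0, 0, ⟨0, 0⟩, 0⟩ 0 0) (.cut .d (-4194304) (.void 1 ⟨0, 0, 20329, 0, 0, 79671, 0, 0, 0, ⟨0, 0⟩, 0⟩ 0 0) (.cut .d (-2097152) (.void 1 ⟨0, 0, 0, 0, 0, 100000, 0, 0, 0, ⟨0, 0⟩, 0⟩ 0 0) (.cut .d (-1048576) (.void 1 ⟨0, 0, 0, 0, 0, 100000, 0, 0, 0, ⟨0, 0⟩, 0⟩ 0 0) (.cut .d (-524288) (.void 1 ⟨0, 0, 0, 0, 0, 100000, 0, 0, 0, ⟨0, 0⟩, 0⟩ 0 0) (.cut .d (-262144) (.void 1 ⟨0, 0, 985, 0, 0, 99015, 0, 0, 0, ⟨0, 0⟩, 0⟩ 0 0) (.cut .d (-131072) (.void 1 ⟨0, 0, 929, 0, 0, 99071, 0, 0, 0, ⟨0, 0⟩, 0⟩ 0 0) (.cut .d (-65536)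 (.void 1 ⟨0, 0, 0, 0, 0, 100000, 0, 0, 0, ⟨0, 0⟩, 0⟩ 0 0) (.cut .d (-32768) (.void 1 ⟨0, 0, 0, 0, 0, 100000, 0, 0, 0, ⟨0, 0⟩, 0⟩ 0 0) (.cut .v 8388608 (.void 2 ⟨0, 0, 99995, 0, 0, 0, 0, 0, 0, ⟨0, 0⟩, 0⟩ 0 0) (.cut .d (-16384) (.void 3 ⟨100000, 0, 0, 0, 0, 0, 0, 0, 0, ⟨0, 0⟩, 0⟩ 0 0) (.pos 3 .mm ⟨167772160000, 0, 0, 0, 0, 0, 0, 0, 0, ⟨0, 0⟩, 0⟩ 0 0)))))))))))) (.cut .d (-8388608) (.void 188 ⟨99888, 0, 1, 0, 0, 0, 0, 0, 0, ⟨0, 0⟩, 0⟩ 0 0) (.cut .v 4294967296 (.cut .v 268435456 (.cut .v 67108864 (.cut .d (-4194304) (.void 10 ⟨100000, 0, 0, 0, 0, 0, 0, 0, 0, ⟨0, 0⟩, 0⟩ 0 0) (.cut .d (-2097152) (.void 10 ⟨100000, 0, 0, 0, 0, 0, 0, 0, 0, ⟨0, 0⟩, 0⟩ 0 0) (.cut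 .d (-1048576) (.void 10 ⟨100000, 0, 0, 0, 0, 0, 0, 0, 0, ⟨0, 0⟩, 0⟩ 0 0) (.cut .d (-524288) (.void 10 ⟨100000, 0, 0, 0, 0, 0, 0, 0, 0, ⟨0, 0⟩, 0⟩ 0 0) (.cut .d (-262144) (.void 10 ⟨100000, 0, 0, 0, 0, 0, 0, 0, 0, ⟨0, 0⟩, 0⟩ 0 0) (.cut .d (-131072) (.void 10 ⟨100000, 0, 0, 0, 0, 0, 0, 0, 0, ⟨0, 0⟩, 0⟩ 0 0) (.cut .d (-65536) (.void 10 ⟨100000, 0, 0, 0, 0, 0, 0, 0, 0, ⟨0, 0⟩, 0⟩ 0 0) (.cut .d (-32768) (.void 10 ⟨100000, 0, 0, 0, 0, 0, 0, 0, 0, ⟨0, 0⟩, 0⟩ 0 0) (.cut .d (-16384) (.void 10 ⟨100000, 0, 0, 0, 0, 0, 0, 0, 0, ⟨0, 0⟩, 0⟩ 0 0) (.pos 10 .mp ⟨167772160000, 0, 0, 0, 0, 0, 0, 0, 0, ⟨0, 0⟩, 0⟩ 0 0)))))))))) (.void 67 ⟨99943, 0, 0, 57, 0, 0, 0, 0, 0, ⟨0,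 0⟩, 0⟩ 0 0)) (.void 74 ⟨90331, 0, 0, 9669, 0, 0, 0, 0, 0, ⟨0, 0⟩, 0⟩ 0 0)) (.void 189 ⟨90331, 0, 0, 9669, 0, 0, 0, 0, 0, ⟨0, 0⟩, 0⟩ 0 0)))) (.cut .v 16777216 (.cut .v 8388608 (.cut .v 4194304 (.cut .d 10254 (.pos 4 .pm ⟨0, 0, 167772160000, 0, 0, 0, 0, 0, 0, ⟨0, 0⟩, 0⟩ 0 0) (.cut .v 2097152 (.cut .v 1048576 (.cut .v 524288 (.cut .v 262144 (.cut .v 131072 (.pos 175 .pm ⟨0, 0, 50734378, 0, 0, 0, 0, 0, 0, ⟨0, 0⟩, 0⟩ 0 0) (.pos 176 .pm ⟨0, 0, 10568279072, 0, 0, 0, 0, 0, 0, ⟨0, 0⟩, 0⟩ 0 0)) (.pos 158 .pm ⟨0, 0, 21134155048, 0, 0, 0, 0, 0, 0, ⟨0, 0⟩, 0⟩ 0 0)) (.pos 146 .pm ⟨0, 0, 42266468607, 0, 0, 0, 0, 0, 0, ⟨0, 0⟩, 0⟩ 0 0)) (.pos 108 .pm ⟨0, 0, 84533342143,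 0, 0, 0, 0, 0, 0, ⟨0, 0⟩, 0⟩ 0 0)) (.pos 80 .pm ⟨0, 0, 167772160000, 0, 0, 0, 0, 0, 0, ⟨0, 0⟩, 0⟩ 0 0))) (.pos 5 .pm ⟨0, 0, 167772160000, 0, 0, 0, 0, 0, 0, ⟨0, 0⟩, 0⟩ 0 0)) (.pos 3 .pm ⟨0, 0, 167772160000, 0, 0, 0, 0, 0, 0, ⟨0, 0⟩, 0⟩ 0 0)) (.cut .v 4294967296 (.cut .v 268435456 (.pos 66 .pp ⟨125485394648, 0, 0, 42286765352, 0, 0, 0, 0, 0, ⟨0, 0⟩, 0⟩ 0 0) (.void 74 ⟨0, 0, 0, 100000, 0, 0, 0, 0, 0, ⟨0, 0⟩, 0⟩ 0 0)) (.void 189 ⟨0, 0, 0, 100000, 0, 0, 0, 0, 0, ⟨0, 0⟩, 0⟩ 0 0)))),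
    by decide +kernel⟩

def covers44 : cell.Covers table row44.1 :=
  ⟨(.cut .d 0 (.cut .v 16777216 (.cut .d (-8388608) (.void 1 ⟨0, 0, 100000, 0, 0, 0, 0, 0, 0, ⟨0, 0⟩, 0⟩ 0 0) (.cut .v 8388608 (.void 2 ⟨0, 0, 100000, 0, 0, 0, 0, 0, 0, ⟨0, 0⟩, 0⟩ 0 0) (.cut .d (-4194304) (.void 3 ⟨1000000000, 0, 0, 0, 0, 0, 0, 0, 0, ⟨0, 0⟩, 0⟩ 0 0) (.cut .d (-2097152) (.void 3 ⟨1000000000, 0, 0, 0, 0, 0, 0, 0, 0, ⟨0, 0⟩, 0⟩ 0 0) (.cut .d (-1048576) (.void 3 ⟨1000000000, 0, 0, 0, 0, 0, 0, 0, 0, ⟨0, 0⟩, 0⟩ 0 0) (.cut .d (-524288) (.void 3 ⟨1000000000, 0, 0, 0, 0, 0, 0, 0, 0, ⟨0, 0⟩, 0⟩ 0 0) (.cut .d (-262144) (.void 3 ⟨1000000000, 0, 0, 0, 0, 0, 0, 0, 0, ⟨0, 0⟩, 0⟩ 0 0)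 (.cut .d (-131072) (.void 3 ⟨1000000000, 0, 0, 0, 0, 0, 0, 0, 0, ⟨0, 0⟩, 0⟩ 0 0) (.cut .d (-65536) (.void 3 ⟨1000000000, 0, 0, 0, 0, 0, 0, 0, 0, ⟨0, 0⟩, 0⟩ 0 0) (.cut .d (-32768) (.void 3 ⟨1000000000, 0, 0, 0, 0, 0, 0, 0, 0, ⟨0, 0⟩, 0⟩ 0 0) (.cut .d (-16384) (.void 3 ⟨1000000000, 0, 0, 0, 0, 0, 0, 0, 0, ⟨0, 0⟩, 0⟩ 0 0) (.pos 3 .mm ⟨167772160000, 0, 0, 0, 0, 0, 0, 0, 0, ⟨0, 0⟩, 0⟩ 0 0)))))))))))) (.cut .v 4294967296 (.cut .d (-8388608) (.void 73 ⟨1000000000, 0, 0, 0, 0, 0, 0, 0, 0, ⟨0, 0⟩, 0⟩ 0 0) (.cut .v 268435456 (.cut .v 67108864 (.cut .d (-4194304) (.void 10 ⟨1000000000, 0, 0, 0, 0, 0, 0, 0, 0, ⟨0, 0⟩, 0⟩ 0 0) (.cut .d (-2097152) (.void 10 ⟨1000000000,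 0, 0, 0, 0, 0, 0, 0, 0, ⟨0, 0⟩, 0⟩ 0 0) (.cut .d (-1048576) (.void 10 ⟨1000000000, 0, 0, 0, 0, 0, 0, 0, 0, ⟨0, 0⟩, 0⟩ 0 0) (.cut .d (-524288) (.void 10 ⟨1000000000, 0, 0, 0, 0, 0, 0, 0, 0, ⟨0, 0⟩, 0⟩ 0 0) (.cut .d (-262144) (.void 10 ⟨1000000000, 0, 0, 0, 0, 0, 0, 0, 0, ⟨0, 0⟩, 0⟩ 0 0) (.cut .d (-131072) (.void 10 ⟨1000000000, 0, 0, 0, 0, 0, 0, 0, 0, ⟨0, 0⟩, 0⟩ 0 0) (.cut .d (-65536) (.void 10 ⟨1000000000, 0, 0, 0, 0, 0, 0, 0, 0, ⟨0, 0⟩, 0⟩ 0 0) (.cut .d (-32768) (.void 10 ⟨1000000000, 0, 0, 0, 0, 0, 0, 0, 0, ⟨0, 0⟩, 0⟩ 0 0) (.cut .d (-16384) (.void 10 ⟨1000000000, 0, 0, 0, 0, 0, 0, 0, 0, ⟨0, 0⟩, 0⟩ 0 0) (.cut .d (-8192) (.void 10 ⟨1000000000, 0, 0, 0,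 0, 0, 0, 0, 0, ⟨0, 0⟩, 0⟩ 0 0) (.pos 10 .mp ⟨167772160000, 0, 0, 0, 0, 0, 0, 0, 0, ⟨0, 0⟩, 0⟩ 0 0))))))))))) (.void 67 ⟨1000000000, 0, 0, 0, 0, 0, 0, 0, 0, ⟨0, 0⟩, 0⟩ 0 0)) (.void 74 ⟨1000000000, 0, 0, 0, 0, 0, 0, 0, 0, ⟨0, 0⟩, 0⟩ 0 0))) (.void 189 ⟨1000000000, 0, 0, 0, 0, 0, 0, 0, 0, ⟨0, 0⟩, 0⟩ 0 0))) (.cut .v 16777216 (.cut .v 8388608 (.cut .v 4194304 (.cut .v 2097152 (.cut .d 6150 (.void 79 ⟨0, 0, 100000, 0, 0, 0, 0, 0, 0, ⟨0, 0⟩, 0⟩ 0 0) (.pos 79 .pm ⟨0, 0, 2566940, 0, 0, 0, 0, 0, 0, ⟨0, 0⟩, 0⟩ 0 0)) (.pos 80 .pm ⟨0, 0, 167772160000, 0, 0, 0, 0, 0, 0, ⟨0, 0⟩, 0⟩ 0 0)) (.pos 5 .pm ⟨0, 0, 167772160000, 0, 0, 0, 0, 0, 0, ⟨0, 0⟩, 0⟩ 0 0)) (.pos 3 .pm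 ⟨0, 0, 167772160000, 0, 0, 0, 0, 0, 0, ⟨0, 0⟩, 0⟩ 0 0)) (.cut .v 4294967296 (.cut .v 268435456 (.cut .v 67108864 (.pos 10 .pp ⟨0, 0, 0, 0, 0, 0, 0, 0, 0, ⟨0, 0⟩, 0⟩ 0 0) (.cut .v 134217728 (.pos 70 .pp ⟨167772160000, 0, 0, 0, 0, 0, 0, 0, 0, ⟨0, 0⟩, 0⟩ 0 0) (.void 71 ⟨0, 0, 0, 100000, 0, 0, 0, 0, 0, ⟨0, 0⟩, 0⟩ 0 0))) (.void 74 ⟨0, 0, 0, 100000, 0, 0, 0, 0, 0, ⟨0, 0⟩, 0⟩ 0 0)) (.void 189 ⟨0, 0, 0, 100000, 0, 0, 0, 0, 0, ⟨0, 0⟩, 0⟩ 0 0)))),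
    by decide +kernel⟩

def covers45 : cell.Covers table row45.1 :=
  ⟨(.cut .d 0 (.cut .v 16777216 (.cut .d (-8388608) (.void 1 ⟨0, 0, 0, 0, 0, 100000, 0, 0, 0, ⟨0, 0⟩, 0⟩ 0 0) (.cut .d (-4194304) (.void 1 ⟨0, 0, 0, 0, 0, 100000, 0, 0, 0, ⟨0, 0⟩, 0⟩ 0 0) (.cut .d (-2097152) (.void 1 ⟨0, 0, 0, 0, 0, 100000, 0, 0, 0, ⟨0, 0⟩, 0⟩ 0 0) (.cut .d (-1048576) (.void 1 ⟨0, 0, 0, 0, 0, 100000, 0, 0, 0, ⟨0, 0⟩, 0⟩ 0 0) (.cut .d (-524288) (.void 1 ⟨0, 0, 0, 0, 0, 100000, 0, 0, 0, ⟨0, 0⟩, 0⟩ 0 0) (.cut .d (-262144) (.void 1 ⟨0, 0, 0, 0, 0, 100000, 0, 0, 0, ⟨0, 0⟩, 0⟩ 0 0) (.cut .d (-131072) (.void 1 ⟨0, 0, 0, 0, 0, 100000, 0, 0, 0, ⟨0, 0⟩, 0⟩ 0 0) (.cut .d (-65536)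 (.void 1 ⟨0, 0, 0, 0, 0, 100000, 0, 0, 0, ⟨0, 0⟩, 0⟩ 0 0) (.cut .d (-32768) (.void 1 ⟨0, 0, 0, 0, 0, 100000, 0, 0, 0, ⟨0, 0⟩, 0⟩ 0 0) (.cut .d (-16384) (.void 1 ⟨0, 0, 0, 0, 0, 100000, 0, 0, 0, ⟨0, 0⟩, 0⟩ 0 0) (.cut .d (-8192) (.void 1 ⟨0, 0, 0, 0, 0, 1000000000, 0, 0, 0, ⟨0, 0⟩, 0⟩ 0 0) (.cut .v 8388608 (.cut .s 16771072 (.cut .s 16770048 (.void 2 ⟨0, 0, 1000000000, 0, 0, 0, 0, 0, 0, ⟨0, 0⟩, 0⟩ 0 0) (.void 2 ⟨0, 0, 100000, 0, 0, 0, 0, 0, 0, ⟨0, 0⟩, 0⟩ 0 0)) (.void 2 ⟨0, 0, 100000, 0, 0, 0, 0, 0, 0, ⟨0, 0⟩, 0⟩ 0 0)) (.cut .d (-4096) (.void 3 ⟨1000000000, 0, 0, 0, 0, 0, 0, 0, 0, ⟨0, 0⟩, 0⟩ 0 0) (.pos 3 .mm ⟨167772160000, 0, 0, 0, 0, 0, 0, 0, 0, ⟨0, 0⟩,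 0⟩ 0 0)))))))))))))) (.cut .v 4294967296 (.cut .d (-8388608) (.void 73 ⟨1000000000, 0, 0, 0, 0, 0, 0, 0, 0, ⟨0, 0⟩, 0⟩ 0 0) (.cut .v 268435456 (.cut .v 67108864 (.cut .d (-4194304) (.void 10 ⟨1000000000, 0, 0, 0, 0, 0, 0, 0, 0, ⟨0, 0⟩, 0⟩ 0 0) (.cut .d (-2097152) (.void 10 ⟨1000000000, 0, 0, 0, 0, 0, 0, 0, 0, ⟨0, 0⟩, 0⟩ 0 0) (.cut .d (-1048576) (.void 10 ⟨1000000000, 0, 0, 0, 0, 0, 0, 0, 0, ⟨0, 0⟩, 0⟩ 0 0) (.cut .d (-524288) (.void 10 ⟨1000000000, 0, 0, 0, 0, 0, 0, 0, 0, ⟨0, 0⟩, 0⟩ 0 0) (.cut .d (-262144) (.void 10 ⟨1000000000, 0, 0, 0, 0, 0, 0, 0, 0, ⟨0, 0⟩, 0⟩ 0 0) (.cut .d (-131072) (.void 10 ⟨1000000000, 0, 0, 0, 0, 0, 0, 0, 0, ⟨0, 0⟩, 0⟩ 0 0) (.cut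 .d (-65536) (.void 10 ⟨1000000000, 0, 0, 0, 0, 0, 0, 0, 0, ⟨0, 0⟩, 0⟩ 0 0) (.cut .d (-32768) (.void 10 ⟨1000000000, 0, 0, 0, 0, 0, 0, 0, 0, ⟨0, 0⟩, 0⟩ 0 0) (.cut .d (-16384) (.void 10 ⟨1000000000, 0, 0, 0, 0, 0, 0, 0, 0, ⟨0, 0⟩, 0⟩ 0 0) (.cut .d (-8192) (.void 10 ⟨1000000000, 0, 0, 0, 0, 0, 0, 0, 0, ⟨0, 0⟩, 0⟩ 0 0) (.cut .d (-4096) (.void 10 ⟨1000000000, 0, 0, 0, 0, 0, 0, 0, 0, ⟨0, 0⟩, 0⟩ 0 0) (.pos 10 .mp ⟨167772160000, 0, 0, 0, 0, 0, 0, 0, 0, ⟨0, 0⟩, 0⟩ 0 0)))))))))))) (.void 67 ⟨1000000000, 0, 0, 0, 0, 0, 0, 0, 0, ⟨0, 0⟩, 0⟩ 0 0)) (.void 74 ⟨1000000000, 0, 0, 0, 0, 0, 0, 0, 0, ⟨0, 0⟩, 0⟩ 0 0))) (.void 189 ⟨1000000000, 0, 0, 0, 0, 0, 0, 0, 0, ⟨0, 0⟩,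 0⟩ 0 0))) (.cut .v 16777216 (.cut .v 8388608 (.cut .v 4194304 (.cut .v 2097152 (.cut .v 1048576 (.cut .v 524288 (.cut .v 262144 (.cut .d 4099 (.pos 157 .pm ⟨0, 0, 87543775045, 0, 0, 0, 0, 0, 0, ⟨0, 0⟩, 0⟩ 0 0) (.cut .v 131072 (.cut .v 65536 (.cut .v 32768 (.cut .v 16384 (.cut .s 16771072 (.cut .d 6149 (.pos 192 .pm ⟨0, 0, 285354791, 0, 0, 0, 0, 0, 0, ⟨0, 0⟩, 0⟩ 0 0) (.pos 192 .pm ⟨0, 0, 0, 2913392, 0, 0, 0, 0, 0, ⟨0, 0⟩, 0⟩ 0 0)) (.pos 192 .pm ⟨0, 0, 42338532, 0, 0, 0, 0, 0, 0, ⟨0, 0⟩, 0⟩ 0 0)) (.pos 193 .pm ⟨0, 0, 6613231927, 0, 0, 0, 0, 0, 0, ⟨0, 0⟩, 0⟩ 0 0)) (.pos 191 .pm ⟨0, 0, 13223899544, 0, 0, 0, 0, 0, 0, ⟨0, 0⟩, 0⟩ 0 0)) (.pos 184 .pm ⟨0, 0, 26445243596,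 0, 0, 0, 0, 0, 0, ⟨0, 0⟩, 0⟩ 0 0)) (.pos 176 .pm ⟨0, 0, 52887966979, 0, 0, 0, 0, 0, 0, ⟨0, 0⟩, 0⟩ 0 0))) (.pos 158 .pm ⟨0, 0, 150448130888, 0, 0, 0, 0, 0, 0, ⟨0, 0⟩, 0⟩ 0 0)) (.pos 146 .pm ⟨0, 0, 167772160000, 0, 0, 0, 0, 0, 0, ⟨0, 0⟩, 0⟩ 0 0)) (.pos 108 .pm ⟨0, 0, 167772160000, 0, 0, 0, 0, 0, 0, ⟨0, 0⟩, 0⟩ 0 0)) (.pos 80 .pm ⟨0, 0, 167772160000, 0, 0, 0, 0, 0, 0, ⟨0, 0⟩, 0⟩ 0 0)) (.pos 5 .pm ⟨0, 0, 167772160000, 0, 0, 0, 0, 0, 0, ⟨0, 0⟩, 0⟩ 0 0)) (.pos 3 .pm ⟨0, 0, 167772160000, 0, 0, 0, 0, 0, 0, ⟨0, 0⟩, 0⟩ 0 0)) (.cut .v 4294967296 (.cut .v 268435456 (.cut .v 67108864 (.pos 10 .pp ⟨0, 0, 0, 0, 0, 0, 0, 0, 0, ⟨0, 0⟩, 0⟩ 0 0) (.cut .d 4099 (.cut .v 134217728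 (.pos 70 .pp ⟨167772160000, 0, 0, 0, 0, 0, 0, 0, 0, ⟨0, 0⟩, 0⟩ 0 0) (.cut .s 16771072 (.void 71 ⟨0, 0, 0, 100000, 0, 0, 0, 0, 0, ⟨0, 0⟩, 0⟩ 0 0) (.void 71 ⟨0, 0, 0, 100000, 0, 0, 0, 0, 0, ⟨0, 0⟩, 0⟩ 0 0))) (.void 67 ⟨0, 0, 0, 100000, 0, 0, 0, 0, 0, ⟨0, 0⟩, 0⟩ 0 0))) (.void 74 ⟨0, 0, 0, 100000, 0, 0, 0, 0, 0, ⟨0, 0⟩, 0⟩ 0 0)) (.void 189 ⟨0, 0, 0, 100000, 0, 0, 0, 0, 0, ⟨0, 0⟩, 0⟩ 0 0)))),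
    by decide +kernel⟩

end Vale.Agent.P237.Petty.Cor.Grid.N13.Mid
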